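import Mathlib
import Crest.Prelude.Def_PolyominoGame
import Crest.Agent.Lib_S0047_Game

/-!
# S0047 helper: a kernel-evaluable checker for Maker strategy trees (relevance-zone format)

Cells of a window of width `W` are numbered `i = x + W * y`; `cellOf W i = (i % W, i / W)`.
A checker state is `(d, Mm, A)`: `d` = Maker claims left, `Mm` = bit mask of Maker's cells,
`A` = bit mask of cells that are certainly free (Maker may only claim cells of `A`).

A copy of Snaky is named by its anchor cell `a` (lower left corner of its bounding box) and its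
orientation `o < 8` (`offs o` lists the six cell offsets from the anchor).

Position trees:
* `win a o`                : Maker already owns the copy `(a, o)`.
* `ref j`                  : the position is covered by the `j`-th entry `(d', Mm', A')` of the
                             lemma list (`d' ≤ d`, `Mm' = Mm`, `A' ⊆ A`).
* `fin m a o`              : Maker claims `m` and then owns the copy `(a, o)`.
* `dbl m e1 a1 o1 e2 a2 o2`: Maker claims `m` and threatens both `e1` (copy `(a1, o1)`) and
                             `e2` (copy `(a2, o2)`).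
* `force m e a o t`        : Maker claims `m`, threatening to claim `e` and own the copy `(a, o)`;
                             Breaker must reply `e`; then continue with `t`.
* `move m r`               : Maker claims `m`; `r` is a reply list.
Reply lists:
* `reply c s more`         : if Breaker replies `c`, continue with `s`; other replies: `more`;
* `group S s more`         : if Breaker replies in the cell set (bit mask) `S`, continue with `s`,
                             in which Maker avoids all of `S`; other replies: `more`;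
* `dflt s`                 : any reply not listed before: continue with `s`, in which Maker may
                             only claim cells listed before (the relevance zone of `s`).
-/

set_option autoImplicit false

namespace Crest.Agent.LibS0047

open Crest.CombinatoricsR.PolyominoGame

/-- strategy trees and reply lists (one type, two sorts) -/
inductive Tree : Type where
  | win (a o : ℕ) : Tree
  | ref (j : ℕ) : Tree
  | fin (m a o : ℕ) : Tree
  | dbl (m e1 a1 o1 e2 a2 o2 : ℕ) : Tree
  | force (m e a o : ℕ) (t : Tree) : Tree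
  | move (m : ℕ) (r : Tree) : Tree
  | reply (c : ℕ) (s more : Tree) : Tree
  | group (S : ℕ) (s more : Tree) : Tree
  | dflt (s : Tree) : Tree

/-- the cell number `i` of the window of width `W` -/
def cellOf (W i : ℕ) : ℤ × ℤ := (((i % W : ℕ) : ℤ), ((i / W : ℕ) : ℤ))

theorem cellOf_injective (W : ℕ) : Function.Injective (cellOf W) := by
  intro i j h
  unfold cellOf at h
  simp only [Prod.mk.injEq, Nat.cast_inj] at h
  obtain ⟨h1, h2⟩ := h
  rw [← Nat.div_add_mod i W, ← Nat.div_add_mod j W, h1, h2]

/-! ### Copies of Snaky -/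

/-- the six cells of Snaky -/
def snakyL : List (ℕ × ℕ) := [(0, 0), (1, 0), (2, 0), (3, 0), (3, 1), (4, 1)]

/-- offsets of the six cells of the copy with orientation `o` from its anchor -/
def offs (o : ℕ) : List (ℕ × ℕ) :=
  match o with
  | 0 => [(0, 0), (1, 0), (2, 0), (3, 0), (3, 1), (4, 1)]
  | 1 => [(4, 0), (3, 0), (2, 0), (1, 0), (1, 1), (0, 1)]
  | 2 => [(0, 1), (1, 1), (2, 1), (3, 1), (3, 0), (4, 0)]
  | 3 => [(4, 1), (3, 1), (2, 1), (1, 1), (1, 0), (0, 0)]
  | 4 => [(0, 0), (0, 1), (0, 2), (0, 3), (1, 3), (1, 4)]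
  | 5 => [(1, 0), (1, 1), (1, 2), (1, 3), (0, 3), (0, 4)]
  | 6 => [(0, 4), (0, 3), (0, 2), (0, 1), (1, 1), (1, 0)]
  | 7 => [(1, 4), (1, 3), (1, 2), (1, 1), (0, 1), (0, 0)]
  | _ => []

/-- first sign of the orientation `o` -/
def sgn1 (o : ℕ) : ℤ := if o % 2 = 1 then -1 else 1

/-- second sign of the orientation `o` -/
def sgn2 (o : ℕ) : ℤ := if o / 2 % 2 = 1 then -1 else 1

/-- the translation of the orientation `o`, relative to the anchor -/
def tOff (o : ℕ) : ℤ × ℤ :=
  (if o % 2 = 1 then (if o < 4 then 4 else 1) else 0,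
   if o / 2 % 2 = 1 then (if o < 4 then 1 else 4) else 0)

/-- width of the bounding box of the orientation `o` -/
def wid (o : ℕ) : ℕ := cond (Nat.blt o 4) 5 2

theorem offs_core : ∀ o < 8, ∀ p ∈ snakyL, ∃ q ∈ offs o,
    (if o < 4 then ((tOff o).1 + sgn1 o * (p.1 : ℤ), (tOff o).2 + sgn2 o * (p.2 : ℤ))
      else ((tOff o).1 + sgn1 o * (p.2 : ℤ), (tOff o).2 + sgn2 o * (p.1 : ℤ))) =
      ((q.1 : ℤ), (q.2 : ℤ)) := by
  decide

theorem offs_lt_wid : ∀ o < 8, ∀ q ∈ offs o, q.1 < wid o := by
  decide

theorem mem_snaky_iff (p : ℤ × ℤ) :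
    p ∈ snaky ↔ ∃ q ∈ snakyL, p = ((q.1 : ℤ), (q.2 : ℤ)) := by
  simp [snaky, snakyL]

theorem copy_of_offs {o ax ay : ℕ} {X : Set (ℤ × ℤ)} (ho : o < 8)
    (h : ∀ q ∈ offs o, ((ax : ℤ) + (q.1 : ℤ), (ay : ℤ) + (q.2 : ℤ)) ∈ X) : ContainsCopy X := by
  refine ⟨((ax : ℤ) + (tOff o).1, (ay : ℤ) + (tOff o).2), sgn1 o, sgn2 o, ?_, ?_, ?_⟩
  · unfold sgn1; split_ifs <;> simp
  · unfold sgn2; split_ifs <;> simp
  · by_cases h4 : o < 4
    · left
      intro p hp
      obtain ⟨p', hp', rfl⟩ := (mem_snaky_iff p).1 hp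
      obtain ⟨q, hq, heq⟩ := offs_core o ho p' hp'
      rw [if_pos h4] at heq
      simp only [Prod.mk.injEq] at heq
      have e : (((ax : ℤ) + (tOff o).1 + sgn1 o * (p'.1 : ℤ)),
          ((ay : ℤ) + (tOff o).2 + sgn2 o * (p'.2 : ℤ))) =
          ((ax : ℤ) + (q.1 : ℤ), (ay : ℤ) + (q.2 : ℤ)) := by
        rw [← heq.1, ← heq.2]
        simp only [Prod.mk.injEq]
        constructor <;> ring
      rw [e]
      exact h q hq
    · right
      intro p hp
      obtain ⟨p', hp', rfl⟩ := (mem_snaky_iff p).1 hp
      obtain ⟨q, hq, heq⟩ := offs_core o ho p' hp'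
      rw [if_neg h4] at heq
      simp only [Prod.mk.injEq] at heq
      have e : (((ax : ℤ) + (tOff o).1 + sgn1 o * (p'.2 : ℤ)),
          ((ay : ℤ) + (tOff o).2 + sgn2 o * (p'.1 : ℤ))) =
          ((ax : ℤ) + (q.1 : ℤ), (ay : ℤ) + (q.2 : ℤ)) := by
        rw [← heq.1, ← heq.2]
        simp only [Prod.mk.injEq]
        constructor <;> ring
      rw [e]
      exact h q hq

/-- the bit mask of the copy with orientation `o` anchored at the cell number `0` -/
def shape (W o : ℕ) : ℕ := (offs o).foldl (fun acc q => acc ||| 2 ^ (q.1 + W * q.2)) 0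

theorem testBit_foldl_or (f : ℕ × ℕ → ℕ) (l : List (ℕ × ℕ)) (init i : ℕ) :
    Nat.testBit (l.foldl (fun acc q => acc ||| 2 ^ f q) init) i = true ↔
      (Nat.testBit init i = true ∨ ∃ q ∈ l, f q = i) := by
  induction l generalizing init with
  | nil => simp
  | cons x l ih =>
    rw [List.foldl_cons, ih, Nat.testBit_or, Nat.testBit_two_pow]
    simp only [Bool.or_eq_true, decide_eq_true_eq, List.mem_cons, exists_eq_or_imp]
    tauto

theorem testBit_shape {W o : ℕ} {q : ℕ × ℕ} (hq : q ∈ offs o) :
    Nat.testBit (shape W o) (q.1 + W * q.2) = true := by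
  unfold shape
  rw [testBit_foldl_or (fun q => q.1 + W * q.2)]
  exact Or.inr ⟨q, hq, rfl⟩

/-- `T` packs the eight shape masks, `5 * W` bits each. -/
def TableOK (W T : ℕ) : Prop :=
  ∀ o < 8, Nat.land (Nat.shiftRight T (Nat.mul o (Nat.mul 5 W))) (Nat.sub (Nat.pow 2 (Nat.mul 5 W)) 1)
    = shape W o

instance (W T : ℕ) : Decidable (TableOK W T) := by
  unfold TableOK
  infer_instance

/-- the table of shape masks -/
def mkTable (W : ℕ) : ℕ :=
  (List.range 8).foldl (fun acc o => acc ||| shape W o <<< (o * (5 * W))) 0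

/-! ### The checker -/

/-- bit test -/
def tb (A i : ℕ) : Bool := Nat.beq (Nat.land 1 (Nat.shiftRight A i)) 1

theorem tb_eq (A i : ℕ) : tb A i = Nat.testBit A i := by
  unfold tb Nat.testBit
  show Nat.beq (1 &&& (A >>> i)) 1 = _
  rw [Nat.one_and_eq_mod_two]
  rcases Nat.mod_two_eq_zero_or_one (A >>> i) with h | h <;> rw [h] <;> rfl

/-- the mask `Mm` contains the copy `(a, o)` -/
def winOK (W T Mm a o : ℕ) : Bool :=
  Nat.blt o 8 && (Nat.ble (Nat.add (Nat.mod a W) (wid o)) W &&
    Nat.beq
      (Nat.land Mm (Nat.shiftLeft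
        (Nat.land (Nat.shiftRight T (Nat.mul o (Nat.mul 5 W))) (Nat.sub (Nat.pow 2 (Nat.mul 5 W)) 1)) a))
      (Nat.shiftLeft
        (Nat.land (Nat.shiftRight T (Nat.mul o (Nat.mul 5 W))) (Nat.sub (Nat.pow 2 (Nat.mul 5 W)) 1)) a))

/-- the `j`-th lemma covers the state `(d, Mm, A)` -/
def refOK (L : List (ℕ × ℕ × ℕ)) (j d Mm A : ℕ) : Bool :=
  match L[j]? with
  | some (d', Mm', A') => Nat.ble d' d && (Nat.beq Mm' Mm && Nat.beq (Nat.land A' A) A')
  | none => false

/-- remove the cell `c` from the mask `A` -/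
def clr (A c : ℕ) : ℕ := cond (tb A c) (Nat.xor A (Nat.pow 2 c)) A

/-- the checker; the Boolean is the sort (`true`: position tree, `false`: reply list); the last
argument is the mask of the replies listed so far (reply lists only). -/
noncomputable def chk (W T : ℕ) (L : List (ℕ × ℕ × ℕ)) (t : Tree) :
    Bool → ℕ → ℕ → ℕ → ℕ → Bool :=
  Tree.rec (motive := fun _ => Bool → ℕ → ℕ → ℕ → ℕ → Bool)
    (fun a o mode _ Mm _ _ => cond mode (winOK W T Mm a o) false)
    (fun j mode d Mm A _ => cond mode (refOK L j d Mm A) false)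
    (fun m a o mode d Mm A _ => cond mode
      (Nat.ble 1 d && (tb A m && winOK W T (Nat.lor Mm (Nat.pow 2 m)) a o)) false)
    (fun m e1 a1 o1 e2 a2 o2 mode d Mm A _ => cond mode
      (Nat.ble 2 d && (tb A m && (tb A e1 && (tb A e2 && (!(Nat.beq m e1) && (!(Nat.beq m e2) &&
        (!(Nat.beq e1 e2) && (winOK W T (Nat.lor (Nat.lor Mm (Nat.pow 2 m)) (Nat.pow 2 e1)) a1 o1 &&
          winOK W T (Nat.lor (Nat.lor Mm (Nat.pow 2 m)) (Nat.pow 2 e2)) a2 o2)))))))) false)
    (fun m e a o _ ih mode d Mm A _ => cond mode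
      (Nat.ble 2 d && (tb A m && (tb A e && (!(Nat.beq m e) &&
        (winOK W T (Nat.lor (Nat.lor Mm (Nat.pow 2 m)) (Nat.pow 2 e)) a o &&
          ih true (Nat.sub d 1) (Nat.lor Mm (Nat.pow 2 m))
            (Nat.xor (Nat.xor A (Nat.pow 2 m)) (Nat.pow 2 e)) 0))))) false)
    (fun m _ ih mode d Mm A _ => cond mode
      (Nat.ble 1 d && (tb A m &&
        ih false (Nat.sub d 1) (Nat.lor Mm (Nat.pow 2 m)) (Nat.xor A (Nat.pow 2 m)) 0)) false)
    (fun c _ _ ihs ihm mode d Mm A E => cond mode false
      (ihs true d Mm (clr A c) 0 && ihm false d Mm A (Nat.lor E (Nat.pow 2 c))))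
    (fun S _ _ ihs ihm mode d Mm A E => cond mode false
      (ihs true d Mm (Nat.xor A (Nat.land A S)) 0 && ihm false d Mm A (Nat.lor E S)))
    (fun _ ih mode d Mm A E => cond mode false (ih true d Mm (Nat.land A E) 0))
    t

section equations

variable (W T : ℕ) (L : List (ℕ × ℕ × ℕ))

theorem chk_win (a o : ℕ) (mode : Bool) (d Mm A E : ℕ) :
    chk W T L (.win a o) mode d Mm A E = cond mode (winOK W T Mm a o) false := rfl

theorem chk_ref (j : ℕ) (mode : Bool) (d Mm A E : ℕ) :
    chk W T L (.ref j) mode d Mm A E = cond mode (refOK L j d Mm A) false := rfl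

theorem chk_fin (m a o : ℕ) (mode : Bool) (d Mm A E : ℕ) :
    chk W T L (.fin m a o) mode d Mm A E = cond mode
      (Nat.ble 1 d && (tb A m && winOK W T (Mm ||| 2 ^ m) a o)) false := rfl

theorem chk_dbl (m e1 a1 o1 e2 a2 o2 : ℕ) (mode : Bool) (d Mm A E : ℕ) :
    chk W T L (.dbl m e1 a1 o1 e2 a2 o2) mode d Mm A E = cond mode
      (Nat.ble 2 d && (tb A m && (tb A e1 && (tb A e2 && (!(Nat.beq m e1) && (!(Nat.beq m e2) &&
        (!(Nat.beq e1 e2) && (winOK W T (Mm ||| 2 ^ m ||| 2 ^ e1) a1 o1 &&
          winOK W T (Mm ||| 2 ^ m ||| 2 ^ e2) a2 o2)))))))) false := rfl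

theorem chk_force (m e a o : ℕ) (t : Tree) (mode : Bool) (d Mm A E : ℕ) :
    chk W T L (.force m e a o t) mode d Mm A E = cond mode
      (Nat.ble 2 d && (tb A m && (tb A e && (!(Nat.beq m e) &&
        (winOK W T (Mm ||| 2 ^ m ||| 2 ^ e) a o &&
          chk W T L t true (d - 1) (Mm ||| 2 ^ m) (A ^^^ 2 ^ m ^^^ 2 ^ e) 0))))) false := rfl

theorem chk_move (m : ℕ) (r : Tree) (mode : Bool) (d Mm A E : ℕ) :
    chk W T L (.move m r) mode d Mm A E = cond mode
      (Nat.ble 1 d && (tb A m && chk W T L r false (d - 1) (Mm ||| 2 ^ m) (A ^^^ 2 ^ m) 0))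
      false := rfl

theorem chk_reply (c : ℕ) (s more : Tree) (mode : Bool) (d Mm A E : ℕ) :
    chk W T L (.reply c s more) mode d Mm A E = cond mode false
      (chk W T L s true d Mm (clr A c) 0 && chk W T L more false d Mm A (E ||| 2 ^ c)) := rfl

theorem chk_group (S : ℕ) (s more : Tree) (mode : Bool) (d Mm A E : ℕ) :
    chk W T L (.group S s more) mode d Mm A E = cond mode false
      (chk W T L s true d Mm (A ^^^ (A &&& S)) 0 && chk W T L more false d Mm A (E ||| S)) := rfl

theorem chk_dflt (s : Tree) (mode : Bool) (d Mm A E : ℕ) :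
    chk W T L (.dflt s) mode d Mm A E = cond mode false (chk W T L s true d Mm (A &&& E) 0) := rfl

end equations

/-! ### Semantics of checker states -/

/-- the checker state `(Mm, A)` describes the position `(M, B)`: `Mm` is exactly Maker's cells,
the cells of `A` are free. -/
def Inv (W : ℕ) (M B : Finset (ℤ × ℤ)) (Mm A : ℕ) : Prop :=
  (∀ x, x ∈ M ↔ ∃ i, Nat.testBit Mm i = true ∧ x = cellOf W i) ∧
  (∀ i, Nat.testBit A i = true → cellOf W i ∉ M ∧ cellOf W i ∉ B)

/-- Maker wins within `d` claims from every position described by `(Mm, A)` -/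
def WinsMask (W d Mm A : ℕ) : Prop :=
  ∀ M B : Finset (ℤ × ℤ), Inv W M B Mm A → Wins d M B

/-- the claim for reply lists -/
def RepliesWin (W d Mm A E : ℕ) : Prop :=
  ∀ M B : Finset (ℤ × ℤ), Inv W M B Mm A → ∀ c, c ∉ M → c ∉ B →
    (∀ i, Nat.testBit E i = true → c ≠ cellOf W i) → Wins d M (insert c B)

theorem winsMask_mono {W d d' Mm A A' : ℕ} (hd : d' ≤ d) (hA : A' &&& A = A')
    (h : WinsMask W d' Mm A') : WinsMask W d Mm A := by
  intro M B hI
  refine wins_mono_le hd (h M B ⟨hI.1, fun i hi => hI.2 i ?_⟩)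
  have := Nat.testBit_and A' A i
  rw [hA, hi] at this
  simpa using this.symm

theorem winOK_sound {W T Mm a o : ℕ} {M : Finset (ℤ × ℤ)} (hT : TableOK W T)
    (hM : ∀ i, Nat.testBit Mm i = true → cellOf W i ∈ M) (h : winOK W T Mm a o = true) :
    ContainsCopy (↑M : Set (ℤ × ℤ)) := by
  unfold winOK at h
  simp only [Bool.and_eq_true, Nat.blt_eq, Nat.ble_eq, Nat.beq_eq] at h
  obtain ⟨ho, hw, hP⟩ := h
  rw [hT o ho] at hP
  have hw' : a % W + wid o ≤ W := hw
  have hP' : Mm &&& (shape W o <<< a) = shape W o <<< a := hP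
  refine copy_of_offs (ax := a % W) (ay := a / W) ho fun q hq => ?_
  have hbit : Nat.testBit (shape W o <<< a) (a + (q.1 + W * q.2)) = true := by
    rw [Nat.testBit_shiftLeft]
    simp [testBit_shape hq]
  have hbit' : Nat.testBit Mm (a + (q.1 + W * q.2)) = true := by
    have := Nat.testBit_and Mm (shape W o <<< a) (a + (q.1 + W * q.2))
    rw [hP', hbit] at this
    simpa using this.symm
  have hc := hM _ hbit'
  have hlt : a % W + q.1 < W := by
    have := offs_lt_wid o ho q hq
    omega
  have hW : 0 < W := by omega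
  have hcell : cellOf W (a + (q.1 + W * q.2)) =
      (((a % W : ℕ) : ℤ) + (q.1 : ℤ), ((a / W : ℕ) : ℤ) + (q.2 : ℤ)) := by
    unfold cellOf
    have e : a + (q.1 + W * q.2) = (a % W + q.1) + W * (a / W + q.2) := by
      have := Nat.div_add_mod a W
      calc a + (q.1 + W * q.2) = (W * (a / W) + a % W) + (q.1 + W * q.2) := by rw [this]
        _ = (a % W + q.1) + W * (a / W + q.2) := by ring
    rw [e, Nat.add_mul_mod_self_left, Nat.mod_eq_of_lt hlt, Nat.add_mul_div_left _ _ hW,
      Nat.div_eq_of_lt hlt, Nat.zero_add]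
    push_cast
    rfl
  rw [hcell] at hc
  exact Finset.mem_coe.2 hc

theorem testBit_clr (A c i : ℕ) :
    Nat.testBit (clr A c) i = true ↔ (Nat.testBit A i = true ∧ i ≠ c) := by
  unfold clr
  rw [tb_eq]
  cases h : Nat.testBit A c with
  | true =>
    show Nat.testBit (A ^^^ 2 ^ c) i = true ↔ _
    rw [Nat.testBit_xor, Nat.testBit_two_pow]
    by_cases hic : i = c
    · subst hic; simp [h]
    · have : ¬ c = i := fun h => hic h.symm
      simp [hic, this]
  | false =>
    show Nat.testBit A i = true ↔ _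
    constructor
    · intro hi
      refine ⟨hi, ?_⟩
      rintro rfl
      rw [h] at hi
      cases hi
    · exact fun hi => hi.1

/-- Maker claims the cell number `m ∈ A`: the new state. -/
theorem inv_claim {W : ℕ} {M B : Finset (ℤ × ℤ)} {Mm A m : ℕ} (hI : Inv W M B Mm A)
    (hm : Nat.testBit A m = true) :
    Inv W (insert (cellOf W m) M) B (Mm ||| 2 ^ m) (A ^^^ 2 ^ m) := by
  constructor
  · intro x
    rw [Finset.mem_insert, hI.1 x]
    constructor
    · rintro (rfl | ⟨i, hi, rfl⟩)
      · exact ⟨m, by simp [Nat.testBit_or], rfl⟩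
      · exact ⟨i, by simp [Nat.testBit_or, hi], rfl⟩
    · rintro ⟨i, hi, rfl⟩
      rw [Nat.testBit_or, Nat.testBit_two_pow, Bool.or_eq_true] at hi
      rcases hi with hi | hi
      · exact Or.inr ⟨i, hi, rfl⟩
      · left
        have : m = i := by simpa using hi
        rw [this]
  · intro i hi
    rw [Nat.testBit_xor, Nat.testBit_two_pow] at hi
    have hne : i ≠ m := by
      rintro rfl
      simp [hm] at hi
    have hne' : ¬ m = i := fun h => hne h.symm
    have hAi : Nat.testBit A i = true := by simpa [hne'] using hi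
    have := hI.2 i hAi
    refine ⟨?_, this.2⟩
    rw [Finset.mem_insert, not_or]
    exact ⟨fun h => hne (cellOf_injective W h), this.1⟩

theorem inv_mem_maker {W : ℕ} {M B : Finset (ℤ × ℤ)} {Mm A : ℕ} (hI : Inv W M B Mm A) :
    ∀ i, Nat.testBit Mm i = true → cellOf W i ∈ M :=
  fun i hi => (hI.1 _).2 ⟨i, hi, rfl⟩

/-- the cell `e ≠ m` is still free after Maker claimed `m` -/
theorem testBit_after {A m e : ℕ} (he : Nat.testBit A e = true) (hme : m ≠ e) :
    Nat.testBit (A ^^^ 2 ^ m) e = true := by
  rw [Nat.testBit_xor, Nat.testBit_two_pow]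
  simp [he, hme]

/-- Maker claims `m`, then `e` completing a copy, unless Breaker replied `e`. -/
theorem wins_threat {W T d Mm A m e a o : ℕ} {M B : Finset (ℤ × ℤ)} (hT : TableOK W T)
    (hI : Inv W (insert (cellOf W m) M) B (Mm ||| 2 ^ m) (A ^^^ 2 ^ m))
    (he : Nat.testBit (A ^^^ 2 ^ m) e = true)
    (hw : winOK W T (Mm ||| 2 ^ m ||| 2 ^ e) a o = true)
    {c : ℤ × ℤ} (hce : c ≠ cellOf W e) :
    Wins (d + 1) (insert (cellOf W m) M) (insert c B) := by
  have hI'' := inv_claim hI he
  refine Or.inr ⟨cellOf W e, (hI.2 e he).1, ?_, fun c' _ _ _ => ?_⟩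
  · rw [Finset.mem_insert, not_or]
    exact ⟨fun h => hce h.symm, (hI.2 e he).2⟩
  · exact wins_of_copy (winOK_sound hT (fun i hi => (hI''.1 _).2 ⟨i, hi, rfl⟩) hw)

/-- **Soundness of the checker.** -/
theorem chk_sound (W T : ℕ) (L : List (ℕ × ℕ × ℕ)) (hT : TableOK W T)
    (hL : ∀ l ∈ L, WinsMask W l.1 l.2.1 l.2.2) :
    ∀ (t : Tree) (mode : Bool) (d Mm A E : ℕ), chk W T L t mode d Mm A E = true →
      (mode = true → WinsMask W d Mm A) ∧ (mode = false → RepliesWin W d Mm A E) := by
  intro t
  induction t with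
  | win a o =>
    intro mode d Mm A E h
    rw [chk_win] at h
    cases mode with
    | false => cases h
    | true =>
      refine ⟨fun _ M B hI => ?_, fun h' => (by cases h')⟩
      exact wins_of_copy (winOK_sound hT (inv_mem_maker hI) h)
  | ref j =>
    intro mode d Mm A E h
    rw [chk_ref] at h
    cases mode with
    | false => cases h
    | true =>
      refine ⟨fun _ => ?_, fun h' => (by cases h')⟩
      simp only [cond_true, refOK] at h
      split at h
      · rename_i d' Mm' A' hj
        simp only [Bool.and_eq_true, Nat.ble_eq, Nat.beq_eq] at h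
        obtain ⟨h1, h2, h3⟩ := h
        have := hL _ (List.mem_of_getElem? hj)
        simp only at this
        rw [h2] at this
        exact winsMask_mono h1 h3 this
      · cases h
  | fin m a o =>
    intro mode d Mm A E h
    rw [chk_fin] at h
    cases mode with
    | false => cases h
    | true =>
      refine ⟨fun _ M B hI => ?_, fun h' => (by cases h')⟩
      simp only [cond_true, Bool.and_eq_true, Nat.ble_eq, tb_eq] at h
      obtain ⟨h1, h2, h3⟩ := h
      obtain ⟨d, rfl⟩ : ∃ d', d = d' + 1 := ⟨d - 1, by omega⟩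
      have hI' := inv_claim hI h2
      refine Or.inr ⟨cellOf W m, (hI.2 m h2).1, (hI.2 m h2).2, fun c _ _ _ => ?_⟩
      exact wins_of_copy (winOK_sound hT (inv_mem_maker hI') h3)
  | dbl m e1 a1 o1 e2 a2 o2 =>
    intro mode d Mm A E h
    rw [chk_dbl] at h
    cases mode with
    | false => cases h
    | true =>
      refine ⟨fun _ M B hI => ?_, fun h' => (by cases h')⟩
      simp only [cond_true, Bool.and_eq_true, Nat.ble_eq, tb_eq, Bool.not_eq_true'] at h
      obtain ⟨h1, h2, h3, h4, h5', h6', h7', h8, h9⟩ := h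
      have h5 : m ≠ e1 := Nat.ne_of_beq_eq_false h5'
      have h6 : m ≠ e2 := Nat.ne_of_beq_eq_false h6'
      have h7 : e1 ≠ e2 := Nat.ne_of_beq_eq_false h7'
      obtain ⟨d, rfl⟩ : ∃ d', d = d' + 2 := ⟨d - 2, by omega⟩
      have hI' := inv_claim hI h2
      refine Or.inr ⟨cellOf W m, (hI.2 m h2).1, (hI.2 m h2).2, fun c hc1 hc2 hc3 => ?_⟩
      by_cases hce : c = cellOf W e1
      · refine wins_threat hT hI' (testBit_after h4 h6) h9 ?_
        rw [hce]
        exact fun h => h7 (cellOf_injective W h)
      · exact wins_threat hT hI' (testBit_after h3 h5) h8 hce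
  | force m e a o t ih =>
    intro mode d Mm A E h
    rw [chk_force] at h
    cases mode with
    | false => cases h
    | true =>
      refine ⟨fun _ M B hI => ?_, fun h' => (by cases h')⟩
      simp only [cond_true, Bool.and_eq_true, Nat.ble_eq, tb_eq, Bool.not_eq_true'] at h
      obtain ⟨h1, h2, h3, h4', h5, h6⟩ := h
      have h4 : m ≠ e := Nat.ne_of_beq_eq_false h4'
      obtain ⟨d, rfl⟩ : ∃ d', d = d' + 2 := ⟨d - 2, by omega⟩
      have hI' := inv_claim hI h2
      have he := testBit_after h3 h4
      have hrec := (ih true (d + 2 - 1) (Mm ||| 2 ^ m) (A ^^^ 2 ^ m ^^^ 2 ^ e) 0 h6).1 rfl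
      have e1 : d + 2 - 1 = d + 1 := by omega
      rw [e1] at hrec
      refine Or.inr ⟨cellOf W m, (hI.2 m h2).1, (hI.2 m h2).2, fun c hc1 hc2 hc3 => ?_⟩
      by_cases hce : c = cellOf W e
      · -- Breaker blocks at `e`
        apply hrec
        refine ⟨hI'.1, fun i hi => ?_⟩
        rw [Nat.testBit_xor, Nat.testBit_two_pow] at hi
        have hne : i ≠ e := by
          rintro rfl
          simp [he] at hi
        have hne' : ¬ e = i := fun h => hne h.symm
        have hAi : Nat.testBit (A ^^^ 2 ^ m) i = true := by simpa [hne'] using hi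
        have := hI'.2 i hAi
        refine ⟨this.1, ?_⟩
        rw [Finset.mem_insert, not_or]
        refine ⟨?_, this.2⟩
        rw [hce]
        exact fun h => hne (cellOf_injective W h)
      · -- Maker completes the copy at `e`
        exact wins_threat hT hI' he h5 hce
  | move m r ih =>
    intro mode d Mm A E h
    rw [chk_move] at h
    cases mode with
    | false => cases h
    | true =>
      refine ⟨fun _ M B hI => ?_, fun h' => (by cases h')⟩
      simp only [cond_true, Bool.and_eq_true, Nat.ble_eq, tb_eq] at h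
      obtain ⟨h1, h2, h3⟩ := h
      obtain ⟨d, rfl⟩ : ∃ d', d = d' + 1 := ⟨d - 1, by omega⟩
      have hI' := inv_claim hI h2
      have hrec := (ih false (d + 1 - 1) (Mm ||| 2 ^ m) (A ^^^ 2 ^ m) 0 h3).2 rfl
      rw [Nat.add_sub_cancel] at hrec
      refine Or.inr ⟨cellOf W m, (hI.2 m h2).1, (hI.2 m h2).2, fun c hc1 hc2 hc3 => ?_⟩
      refine hrec _ _ hI' c ?_ hc2 ?_
      · rw [Finset.mem_insert, not_or]
        exact ⟨hc3, hc1⟩
      · intro i hi
        simp at hi
  | reply c s more ihs ihm =>
    intro mode d Mm A E h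
    rw [chk_reply] at h
    cases mode with
    | true => cases h
    | false =>
      refine ⟨fun h' => (by cases h'), fun _ M B hI x hx1 hx2 hx3 => ?_⟩
      simp only [cond_false, Bool.and_eq_true] at h
      obtain ⟨h1, h2⟩ := h
      by_cases hxc : x = cellOf W c
      · have hrec := (ihs true d Mm (clr A c) 0 h1).1 rfl
        apply hrec
        refine ⟨hI.1, fun i hi => ?_⟩
        rw [testBit_clr] at hi
        have := hI.2 i hi.1
        refine ⟨this.1, ?_⟩
        rw [Finset.mem_insert, not_or]
        refine ⟨?_, this.2⟩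
        rw [hxc]
        exact fun h => hi.2 (cellOf_injective W h)
      · have hrec := (ihm false d Mm A (E ||| 2 ^ c) h2).2 rfl
        refine hrec M B hI x hx1 hx2 fun i hi => ?_
        rw [Nat.testBit_or, Nat.testBit_two_pow, Bool.or_eq_true] at hi
        rcases hi with hi | hi
        · exact hx3 i hi
        · have : c = i := by simpa using hi
          rw [← this]
          exact hxc
  | group S s more ihs ihm =>
    intro mode d Mm A E h
    rw [chk_group] at h
    cases mode with
    | true => cases h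
    | false =>
      refine ⟨fun h' => (by cases h'), fun _ M B hI x hx1 hx2 hx3 => ?_⟩
      simp only [cond_false, Bool.and_eq_true] at h
      obtain ⟨h1, h2⟩ := h
      by_cases hxc : ∃ k, Nat.testBit S k = true ∧ x = cellOf W k
      · obtain ⟨k, hk, rfl⟩ := hxc
        have hrec := (ihs true d Mm (A ^^^ (A &&& S)) 0 h1).1 rfl
        apply hrec
        refine ⟨hI.1, fun i hi => ?_⟩
        rw [Nat.testBit_xor, Nat.testBit_and] at hi
        have hAi : Nat.testBit A i = true := by
          cases hA : Nat.testBit A i with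
          | true => rfl
          | false => rw [hA] at hi; simp at hi
        have hSi : Nat.testBit S i = false := by
          cases hS : Nat.testBit S i with
          | false => rfl
          | true => rw [hAi, hS] at hi; simp at hi
        have := hI.2 i hAi
        refine ⟨this.1, ?_⟩
        rw [Finset.mem_insert, not_or]
        refine ⟨?_, this.2⟩
        intro h
        have := cellOf_injective W h
        rw [this, hk] at hSi
        cases hSi
      · have hrec := (ihm false d Mm A (E ||| S) h2).2 rfl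
        refine hrec M B hI x hx1 hx2 fun i hi => ?_
        rw [Nat.testBit_or, Bool.or_eq_true] at hi
        rcases hi with hi | hi
        · exact hx3 i hi
        · exact fun h => hxc ⟨i, hi, h⟩
  | dflt s ih =>
    intro mode d Mm A E h
    rw [chk_dflt] at h
    cases mode with
    | true => cases h
    | false =>
      refine ⟨fun h' => (by cases h'), fun _ M B hI x hx1 hx2 hx3 => ?_⟩
      simp only [cond_false] at h
      have hrec := (ih true d Mm (A &&& E) 0 h).1 rfl
      apply hrec
      refine ⟨hI.1, fun i hi => ?_⟩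
      rw [Nat.testBit_and, Bool.and_eq_true] at hi
      have := hI.2 i hi.1
      refine ⟨this.1, ?_⟩
      rw [Finset.mem_insert, not_or]
      exact ⟨fun h => hx3 i hi.2 h.symm, this.2⟩

/-- A checked position tree proves its lemma (relative to the lemmas it cites). -/
theorem winsMask_of_chk {W T : ℕ} {L : List (ℕ × ℕ × ℕ)} {t : Tree} {d Mm A : ℕ}
    (hT : TableOK W T) (hL : ∀ l ∈ L, WinsMask W l.1 l.2.1 l.2.2)
    (h : chk W T L t true d Mm A 0 = true) : WinsMask W d Mm A :=
  (chk_sound W T L hT hL t true d Mm A 0 h).1 rfl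

/-- the empty lemma list -/
theorem lemmas_nil {W : ℕ} : ∀ l ∈ ([] : List (ℕ × ℕ × ℕ)), WinsMask W l.1 l.2.1 l.2.2 := by
  intro l hl
  cases hl

/-- adding a proved lemma to a lemma list -/
theorem lemmas_cons {W d Mm A : ℕ} {L : List (ℕ × ℕ × ℕ)} (h : WinsMask W d Mm A)
    (hL : ∀ l ∈ L, WinsMask W l.1 l.2.1 l.2.2) :
    ∀ l ∈ (d, Mm, A) :: L, WinsMask W l.1 l.2.1 l.2.2 := by
  intro l hl
  rcases List.mem_cons.1 hl with rfl | hl
  · exact h
  · exact hL l hl

/-- the shape table for windows of width 32 -/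
theorem tableOK_32 : TableOK 32 (mkTable 32) := by decide +kernel

/-- the shape table for windows of width 24 -/
theorem tableOK_24 : TableOK 24 (mkTable 24) := by decide +kernel

/-- the shape table for windows of width 16 -/
theorem tableOK_16 : TableOK 16 (mkTable 16) := by decide +kernel

/-- The empty board. -/
theorem wins_of_winsMask_zero {W d A : ℕ} (h : WinsMask W d 0 A) : Wins d ∅ ∅ := by
  apply h
  constructor
  · intro x
    simp
  · intro i _
    simp

/-- **From a checked certificate to the statement of S0047**: a checked tree for the empty board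
with `n + 1` claims gives Maker's policy. -/
theorem exists_policy_of_winsMask {W n A : ℕ} (h : WinsMask W (n + 1) 0 A) :
    ∃ σ : List (ℤ × ℤ) → ℤ × ℤ, ∀ b : ℕ → ℤ × ℤ,
      (∀ k : ℕ, k < n →
        (∀ j : ℕ, j ≤ k → b k ≠ makerClaim σ b j) ∧
        (∀ j : ℕ, j < k → b k ≠ b j)) →
      (∀ k : ℕ, k ≤ n →
        (∀ j : ℕ, j < k → makerClaim σ b k ≠ makerClaim σ b j) ∧
        (∀ j : ℕ, j < k → makerClaim σ b k ≠ b j)) ∧
      ContainsCopy {c | ∃ j : ℕ, j ≤ n ∧ c = makerClaim σ b j} :=
  exists_policy_of_wins n (wins_of_winsMask_zero h)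

end Crest.Agent.LibS0047
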