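import Mathlib

set_option autoImplicit false
open scoped ContDiff
open MeasureTheory Set Filter Topology

namespace Crest.Agent.Lib_S0170_Fabius

/-- The averaging operator `T f x = ∫_{2x-1}^{2x} f`. -/
noncomputable def T (f : ℝ → ℝ) (x : ℝ) : ℝ := ∫ u in (2 * x - 1)..(2 * x), f u

/-- The class of continuous steps from 0 (on `(-∞,0]`) to 1 (on `[1,∞)`) with values in `[0,1]`. -/
structure InA (f : ℝ → ℝ) : Prop where
  cont : Continuous f
  zero : ∀ x, x ≤ 0 → f x = 0
  one : ∀ x, 1 ≤ x → f x = 1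
  nonneg : ∀ x, 0 ≤ f x
  le_one : ∀ x, f x ≤ 1

theorem T_mono {f g : ℝ → ℝ} (hf : Continuous f) (hg : Continuous g) (h : ∀ x, f x ≤ g x)
    (x : ℝ) : T f x ≤ T g x := by
  unfold T
  apply intervalIntegral.integral_mono_on (by linarith) (hf.intervalIntegrable _ _)
    (hg.intervalIntegrable _ _)
  intro u _
  exact h u

theorem T_shift (f : ℝ → ℝ) (a x : ℝ) : T (fun u => f (u - a)) x = T f (x - a / 2) := by
  unfold T
  rw [intervalIntegral.integral_comp_sub_right (fun u => f u) a]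
  congr 1 <;> ring

theorem T_eq_sub {f : ℝ → ℝ} (hf : Continuous f) (x : ℝ) :
    T f x = (∫ u in (0:ℝ)..(2 * x), f u) - ∫ u in (0:ℝ)..(2 * x - 1), f u := by
  unfold T
  rw [intervalIntegral.integral_interval_sub_left (hf.intervalIntegrable _ _)
    (hf.intervalIntegrable _ _)]

theorem T_hasDerivAt {f : ℝ → ℝ} (hf : Continuous f) (x : ℝ) :
    HasDerivAt (T f) (2 * f (2 * x) - 2 * f (2 * x - 1)) x := by
  have hF : ∀ y : ℝ, HasDerivAt (fun y => ∫ u in (0:ℝ)..y, f u) (f y) y := fun y =>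
    intervalIntegral.integral_hasDerivAt_right (hf.intervalIntegrable _ _)
      (hf.stronglyMeasurableAtFilter _ _) hf.continuousAt
  have h1 : HasDerivAt (fun x : ℝ => ∫ u in (0:ℝ)..(2 * x), f u) (f (2 * x) * 2) x := by
    have := (hF (2 * x)).comp x ((hasDerivAt_id x).const_mul 2)
    simpa [Function.comp_def] using this
  have h2 : HasDerivAt (fun x : ℝ => ∫ u in (0:ℝ)..(2 * x - 1), f u) (f (2 * x - 1) * 2) x := by
    have := (hF (2 * x - 1)).comp x (((hasDerivAt_id x).const_mul 2).sub_const 1)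
    simpa [Function.comp_def] using this
  have h3 := h1.sub h2
  have e : T f = fun x : ℝ => (∫ u in (0:ℝ)..(2 * x), f u) - ∫ u in (0:ℝ)..(2 * x - 1), f u := by
    funext y; exact T_eq_sub hf y
  rw [e]
  have e2 : 2 * f (2 * x) - 2 * f (2 * x - 1) = f (2 * x) * 2 - f (2 * x - 1) * 2 := by ring
  rw [e2]
  exact h3

theorem T_inA {f : ℝ → ℝ} (hf : InA f) : InA (T f) := by
  refine ⟨?_, ?_, ?_, ?_, ?_⟩
  · exact continuous_iff_continuousAt.2 fun x => (T_hasDerivAt hf.cont x).continuousAt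
  · intro x hx
    unfold T
    have : ∀ u ∈ Set.uIcc (2 * x - 1) (2 * x), f u = (fun _ => (0:ℝ)) u := by
      intro u hu
      rw [Set.uIcc_of_le (by linarith)] at hu
      exact hf.zero u (by linarith [hu.2])
    rw [intervalIntegral.integral_congr this]
    simp
  · intro x hx
    unfold T
    have : ∀ u ∈ Set.uIcc (2 * x - 1) (2 * x), f u = (fun _ => (1:ℝ)) u := by
      intro u hu
      rw [Set.uIcc_of_le (by linarith)] at hu
      exact hf.one u (by linarith [hu.1])
    rw [intervalIntegral.integral_congr this]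
    simp
  · intro x
    unfold T
    exact intervalIntegral.integral_nonneg (by linarith) fun u _ => hf.nonneg u
  · intro x
    unfold T
    have h1 : (∫ u in (2 * x - 1)..(2 * x), f u) ≤ ∫ u in (2 * x - 1)..(2 * x), (1:ℝ) :=
      intervalIntegral.integral_mono_on (by linarith) (hf.cont.intervalIntegrable _ _)
        (continuous_const.intervalIntegrable _ _) fun u _ => hf.le_one u
    simpa using h1

theorem T_lipschitz {f : ℝ → ℝ} (hf : InA f) (x y : ℝ) : |T f x - T f y| ≤ 2 * |x - y| := by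
  have hd : ∀ z, HasDerivAt (T f) (2 * f (2 * z) - 2 * f (2 * z - 1)) z := T_hasDerivAt hf.cont
  have hb : ∀ z, ‖2 * f (2 * z) - 2 * f (2 * z - 1)‖ ≤ 2 := by
    intro z
    rw [Real.norm_eq_abs, abs_le]
    constructor <;> nlinarith [hf.nonneg (2 * z), hf.le_one (2 * z), hf.nonneg (2 * z - 1),
      hf.le_one (2 * z - 1)]
  have := Convex.norm_image_sub_le_of_norm_hasDerivWithin_le (f := T f) (s := Set.univ)
    (fun z _ => (hd z).hasDerivWithinAt) (fun z _ => hb z) convex_univ (Set.mem_univ y)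
    (Set.mem_univ x)
  simpa [Real.norm_eq_abs] using this

theorem iter_inA {f : ℝ → ℝ} (hf : InA f) (d : ℕ) : InA (T^[d] f) := by
  induction d with
  | zero => simpa using hf
  | succ d ih => rw [Function.iterate_succ_apply']; exact T_inA ih

theorem shift_le {f g : ℝ → ℝ} (hf : InA f) (hg : InA g) (x : ℝ) : g (x - 1) ≤ f x := by
  by_cases hx : 1 ≤ x
  · rw [hf.one x hx]; exact hg.le_one _
  · rw [hg.zero (x - 1) (by linarith)]; exact hf.nonneg x

theorem iter_shift_le {f g : ℝ → ℝ} (hf : InA f) (hg : InA g) (d : ℕ) (x : ℝ) :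
    (T^[d] g) (x - 1 / 2 ^ d) ≤ (T^[d] f) x := by
  induction d generalizing x with
  | zero => simpa using shift_le hf hg x
  | succ d ih =>
    rw [Function.iterate_succ_apply', Function.iterate_succ_apply']
    have h1 : T (T^[d] g) (x - 1 / 2 ^ (d + 1)) = T (fun u => (T^[d] g) (u - 1 / 2 ^ d)) x := by
      rw [T_shift]
      congr 1
      rw [pow_succ]; field_simp
    rw [h1]
    apply T_mono _ (iter_inA hf d).cont ih
    exact (iter_inA hg d).cont.comp (continuous_id.sub continuous_const)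

/-- The initial ramp. -/
noncomputable def ramp (x : ℝ) : ℝ := max 0 (min 1 (2 * x))

theorem ramp_inA : InA ramp := by
  refine ⟨by unfold ramp; fun_prop, ?_, ?_, ?_, ?_⟩
  · intro x hx; unfold ramp; rw [min_eq_right (by linarith), max_eq_left (by linarith)]
  · intro x hx; unfold ramp; rw [min_eq_left (by linarith)]; simp
  · intro x; exact le_max_left _ _
  · intro x; exact max_le (by norm_num) (min_le_left _ _)

theorem ramp_lipschitz (x y : ℝ) : |ramp x - ramp y| ≤ 2 * |x - y| := by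
  unfold ramp
  calc |max 0 (min 1 (2 * x)) - max 0 (min 1 (2 * y))|
      ≤ max |(0:ℝ) - 0| |min 1 (2 * x) - min 1 (2 * y)| := abs_max_sub_max_le_max _ _ _ _
    _ ≤ max |(0:ℝ) - 0| (max |(1:ℝ) - 1| |2 * x - 2 * y|) :=
        max_le_max le_rfl (abs_min_sub_min_le_max _ _ _ _)
    _ = 2 * |x - y| := by simp [← mul_sub, abs_mul]

/-- The iterates of `T` on the ramp. -/
noncomputable def Phi (d : ℕ) : ℝ → ℝ := T^[d] ramp

theorem Phi_zero : Phi 0 = ramp := rfl

theorem Phi_inA (d : ℕ) : InA (Phi d) := iter_inA ramp_inA d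

theorem Phi_succ (d : ℕ) : Phi (d + 1) = T (Phi d) := Function.iterate_succ_apply' _ _ _

theorem Phi_lipschitz (d : ℕ) (x y : ℝ) : |Phi d x - Phi d y| ≤ 2 * |x - y| := by
  cases d with
  | zero => exact ramp_lipschitz x y
  | succ d => rw [Phi_succ]; exact T_lipschitz (Phi_inA d) x y

theorem Phi_succ_sub (d : ℕ) (x : ℝ) : |Phi (d + 1) x - Phi d x| ≤ 2 / 2 ^ d := by
  have e : Phi (d + 1) = T^[d] (T ramp) := Function.iterate_succ_apply _ _ _
  have hTr : InA (T ramp) := T_inA ramp_inA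
  have hpos : (0:ℝ) < 1 / 2 ^ d := by positivity
  have h1 : Phi d (x - 1 / 2 ^ d) ≤ Phi (d + 1) x := by
    rw [e]; exact iter_shift_le hTr ramp_inA d x
  have h2 : Phi (d + 1) x ≤ Phi d (x + 1 / 2 ^ d) := by
    have := iter_shift_le ramp_inA hTr d (x + 1 / 2 ^ d)
    rw [e]
    have e' : x + 1 / 2 ^ d - 1 / 2 ^ d = x := by ring
    rw [e'] at this
    exact this
  have l1 := Phi_lipschitz d (x - 1 / 2 ^ d) x
  have l2 := Phi_lipschitz d (x + 1 / 2 ^ d) x
  have e1 : |x - 1 / 2 ^ d - x| = 1 / 2 ^ d := by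
    rw [show x - 1 / 2 ^ d - x = -(1 / 2 ^ d) by ring, abs_neg, abs_of_pos hpos]
  have e2 : |x + 1 / 2 ^ d - x| = 1 / 2 ^ d := by
    rw [show x + 1 / 2 ^ d - x = 1 / 2 ^ d by ring, abs_of_pos hpos]
  rw [e1] at l1
  rw [e2] at l2
  have l1' := abs_le.1 l1
  have l2' := abs_le.1 l2
  have e3 : (2:ℝ) / 2 ^ d = 2 * (1 / 2 ^ d) := by ring
  rw [e3, abs_le]
  constructor <;> linarith [l1'.1, l1'.2, l2'.1, l2'.2]

theorem Phi_dist (x : ℝ) (n : ℕ) : dist (Phi n x) (Phi (n + 1) x) ≤ 4 / 2 / 2 ^ n := by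
  rw [Real.dist_eq, abs_sub_comm]
  calc |Phi (n + 1) x - Phi n x| ≤ 2 / 2 ^ n := Phi_succ_sub n x
    _ = 4 / 2 / 2 ^ n := by norm_num

theorem Phi_cauchy (x : ℝ) : CauchySeq (fun d => Phi d x) :=
  cauchySeq_of_le_geometric_two (C := 4) (Phi_dist x)

/-- The Fabius step: the limit of the iterates. -/
noncomputable def psi (x : ℝ) : ℝ := limUnder atTop (fun d => Phi d x)

theorem Phi_tendsto (x : ℝ) : Tendsto (fun d => Phi d x) atTop (𝓝 (psi x)) :=
  tendsto_nhds_limUnder (cauchySeq_tendsto_of_complete (Phi_cauchy x))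

theorem abs_Phi_sub_psi_le (d : ℕ) (x : ℝ) : |Phi d x - psi x| ≤ 4 / 2 ^ d := by
  have := dist_le_of_le_geometric_two_of_tendsto (C := 4) (Phi_dist x) (Phi_tendsto x) d
  rwa [Real.dist_eq] at this

theorem psi_lipschitz (x y : ℝ) : |psi x - psi y| ≤ 2 * |x - y| := by
  have h : Tendsto (fun d => |Phi d x - Phi d y|) atTop (𝓝 |psi x - psi y|) :=
    ((Phi_tendsto x).sub (Phi_tendsto y)).abs
  exact le_of_tendsto h (Eventually.of_forall fun d => Phi_lipschitz d x y)

theorem psi_inA : InA psi := by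
  refine ⟨?_, ?_, ?_, ?_, ?_⟩
  · have : LipschitzWith 2 psi := by
      apply LipschitzWith.of_dist_le_mul
      intro x y
      simpa [Real.dist_eq] using psi_lipschitz x y
    exact this.continuous
  · intro x hx
    have h := Phi_tendsto x
    have h0 : (fun d => Phi d x) = fun _ => (0:ℝ) := by
      funext d; exact (Phi_inA d).zero x hx
    rw [h0] at h
    exact tendsto_nhds_unique h tendsto_const_nhds
  · intro x hx
    have h := Phi_tendsto x
    have h0 : (fun d => Phi d x) = fun _ => (1:ℝ) := by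
      funext d; exact (Phi_inA d).one x hx
    rw [h0] at h
    exact tendsto_nhds_unique h tendsto_const_nhds
  · intro x
    exact ge_of_tendsto (Phi_tendsto x) (Eventually.of_forall fun d => (Phi_inA d).nonneg x)
  · intro x
    exact le_of_tendsto (Phi_tendsto x) (Eventually.of_forall fun d => (Phi_inA d).le_one x)

theorem T_psi : T psi = psi := by
  funext x
  have h1 : Tendsto (fun d => Phi (d + 1) x) atTop (𝓝 (psi x)) :=
    (Phi_tendsto x).comp (tendsto_add_atTop_nat 1)
  have h2 : Tendsto (fun d => Phi (d + 1) x) atTop (𝓝 (T psi x)) := by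
    rw [tendsto_iff_dist_tendsto_zero]
    have hb : ∀ d, dist (Phi (d + 1) x) (T psi x) ≤ 4 / 2 ^ d := by
      intro d
      rw [Phi_succ, Real.dist_eq]
      unfold T
      rw [← intervalIntegral.integral_sub ((Phi_inA d).cont.intervalIntegrable _ _)
        (psi_inA.cont.intervalIntegrable _ _)]
      have := intervalIntegral.norm_integral_le_of_norm_le_const (a := 2 * x - 1) (b := 2 * x)
        (f := fun u => Phi d u - psi u) (C := 4 / 2 ^ d)
        (fun u _ => by rw [Real.norm_eq_abs]; exact abs_Phi_sub_psi_le d u)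
      rw [Real.norm_eq_abs] at this
      have e : |2 * x - (2 * x - 1)| = 1 := by norm_num
      rw [e, mul_one] at this
      exact this
    have hlim : Tendsto (fun d : ℕ => (4:ℝ) / 2 ^ d) atTop (𝓝 0) := by
      have := (tendsto_pow_atTop_nhds_zero_of_lt_one (r := (1/2:ℝ)) (by norm_num)
        (by norm_num)).const_mul 4
      simp only [mul_zero] at this
      refine this.congr fun d => ?_
      rw [one_div, inv_pow]; ring
    exact squeeze_zero (fun d => dist_nonneg) hb hlim
  exact tendsto_nhds_unique h2 h1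

theorem psi_hasDerivAt (x : ℝ) : HasDerivAt psi (2 * psi (2 * x) - 2 * psi (2 * x - 1)) x := by
  have := T_hasDerivAt psi_inA.cont x
  rwa [T_psi] at this

theorem deriv_psi (x : ℝ) : deriv psi x = 2 * psi (2 * x) - 2 * psi (2 * x - 1) :=
  (psi_hasDerivAt x).deriv

theorem deriv_psi_eq : deriv psi = fun x => 2 * psi (2 * x) - 2 * psi (2 * x - 1) :=
  funext deriv_psi

theorem psi_differentiable : Differentiable ℝ psi := fun x => (psi_hasDerivAt x).differentiableAt

theorem psi_contDiff_nat (n : ℕ) : ContDiff ℝ n psi := by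
  induction n with
  | zero => exact contDiff_zero.2 psi_inA.cont
  | succ n ih =>
    have : ((n + 1 : ℕ) : WithTop ℕ∞) = (n : WithTop ℕ∞) + 1 := by norm_cast
    rw [this, contDiff_succ_iff_deriv]
    refine ⟨psi_differentiable, by simp, ?_⟩
    rw [deriv_psi_eq]
    have h1 : ContDiff ℝ n (fun x : ℝ => psi (2 * x)) :=
      ih.comp (contDiff_const.mul contDiff_id)
    have h2 : ContDiff ℝ n (fun x : ℝ => psi (2 * x - 1)) :=
      ih.comp ((contDiff_const.mul contDiff_id).sub contDiff_const)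
    exact (contDiff_const.mul h1).sub (contDiff_const.mul h2)

theorem psi_contDiff : ContDiff ℝ ∞ psi := contDiff_infty.2 psi_contDiff_nat

theorem psi_of_nonpos {x : ℝ} (hx : x ≤ 0) : psi x = 0 := psi_inA.zero x hx

theorem psi_of_one_le {x : ℝ} (hx : 1 ≤ x) : psi x = 1 := psi_inA.one x hx

theorem psi_nonneg (x : ℝ) : 0 ≤ psi x := psi_inA.nonneg x

theorem psi_le_one (x : ℝ) : psi x ≤ 1 := psi_inA.le_one x

/-! ### The Thue–Morse sign and the derivatives of `psi` -/

/-- The Thue–Morse sign `(-1) ^ (binary digit sum of n)`. -/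
def tmSign (n : ℕ) : ℤ := (-1) ^ (Nat.digits 2 n).sum

theorem tmSign_zero : tmSign 0 = 1 := by simp [tmSign]

theorem tmSign_two_mul (k : ℕ) : tmSign (2 * k) = tmSign k := by
  rcases Nat.eq_zero_or_pos k with rfl | hk
  · simp
  · unfold tmSign
    rw [Nat.digits_def' (by norm_num) (by omega)]
    simp

theorem tmSign_two_mul_add_one (k : ℕ) : tmSign (2 * k + 1) = -tmSign k := by
  unfold tmSign
  rw [Nat.digits_def' (by norm_num) (by omega)]
  have h1 : (2 * k + 1) % 2 = 1 := by omega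
  have h2 : (2 * k + 1) / 2 = k := by omega
  rw [h1, h2, List.sum_cons, pow_add]
  simp

theorem tmSign_sq (k : ℕ) : tmSign k * tmSign k = 1 := by
  unfold tmSign
  rw [← pow_add, ← two_mul, pow_mul]
  simp

theorem tmSign_abs (k : ℕ) : |tmSign k| = 1 := by
  have h := tmSign_sq k
  have : |tmSign k| * |tmSign k| = 1 := by rw [← abs_mul, h]; simp
  have h0 : 0 ≤ |tmSign k| := abs_nonneg _
  nlinarith

theorem tmSign_cast_abs (k : ℕ) : |(tmSign k : ℝ)| = 1 := by
  rw [← Int.cast_abs, tmSign_abs]; simp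

theorem tmSign_add_pow (j : ℕ) : ∀ k : ℕ, k < 2 ^ j → tmSign (k + 2 ^ j) = -tmSign k := by
  induction j with
  | zero =>
    intro k hk
    have : k = 0 := by simpa using hk
    subst this
    have := tmSign_two_mul_add_one 0
    simpa using this
  | succ j ih =>
    intro k hk
    obtain ⟨k', rfl | rfl⟩ := Nat.even_or_odd' k
    · have hk' : k' < 2 ^ j := by rw [pow_succ] at hk; omega
      have e : 2 * k' + 2 ^ (j + 1) = 2 * (k' + 2 ^ j) := by rw [pow_succ]; ring
      rw [e, tmSign_two_mul, tmSign_two_mul, ih k' hk']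
    · have hk' : k' < 2 ^ j := by rw [pow_succ] at hk; omega
      have e : 2 * k' + 1 + 2 ^ (j + 1) = 2 * (k' + 2 ^ j) + 1 := by rw [pow_succ]; ring
      rw [e, tmSign_two_mul_add_one, tmSign_two_mul_add_one, ih k' hk']

theorem sum_range_two_mul (N : ℕ) (a : ℕ → ℝ) :
    ∑ k ∈ Finset.range (2 * N), a k = ∑ k ∈ Finset.range N, (a (2 * k) + a (2 * k + 1)) := by
  induction N with
  | zero => simp
  | succ N ih =>
    rw [show 2 * (N + 1) = 2 * N + 1 + 1 by ring, Finset.sum_range_succ, Finset.sum_range_succ, ih,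
      Finset.sum_range_succ]
    ring

theorem half_mul_succ (r : ℕ) : (r + 1) * (r + 1 + 1) / 2 = r * (r + 1) / 2 + (r + 1) := by
  have : (r + 1) * (r + 1 + 1) = r * (r + 1) + 2 * (r + 1) := by ring
  rw [this, Nat.add_mul_div_left _ _ (by norm_num : 0 < 2)]

/-- Every derivative of `psi` is an explicit signed sum of dilated translates of `psi`. -/
theorem iteratedDeriv_psi (r : ℕ) : iteratedDeriv r psi = fun x =>
    (2:ℝ) ^ (r * (r + 1) / 2) * ∑ k ∈ Finset.range (2 ^ r), (tmSign k : ℝ) * psi (2 ^ r * x - k) := by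
  induction r with
  | zero =>
    funext x
    simp [tmSign_zero]
  | succ r ih =>
    rw [iteratedDeriv_succ, ih]
    funext x
    have hd : HasDerivAt (fun x : ℝ => (2:ℝ) ^ (r * (r + 1) / 2) *
        ∑ k ∈ Finset.range (2 ^ r), (tmSign k : ℝ) * psi (2 ^ r * x - k))
        ((2:ℝ) ^ (r * (r + 1) / 2) * ∑ k ∈ Finset.range (2 ^ r), (tmSign k : ℝ) *
          ((2 * psi (2 * (2 ^ r * x - k)) - 2 * psi (2 * (2 ^ r * x - k) - 1)) * 2 ^ r)) x := by
      apply HasDerivAt.const_mul
      apply HasDerivAt.fun_sum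
      intro k _
      apply HasDerivAt.const_mul
      have h1 : HasDerivAt (fun x : ℝ => (2:ℝ) ^ r * x - k) (2 ^ r) x := by
        simpa using ((hasDerivAt_id x).const_mul ((2:ℝ) ^ r)).sub_const (k : ℝ)
      exact (psi_hasDerivAt _).comp x h1
    rw [hd.deriv, half_mul_succ]
    have hr : (2:ℕ) ^ (r + 1) = 2 * 2 ^ r := by rw [pow_succ]; ring
    rw [hr, sum_range_two_mul, Finset.mul_sum, Finset.mul_sum]
    apply Finset.sum_congr rfl
    intro k _
    rw [tmSign_two_mul, tmSign_two_mul_add_one]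
    push_cast
    have e1 : (2:ℝ) ^ (r + 1) * x - 2 * (k:ℝ) = 2 * (2 ^ r * x - k) := by rw [pow_succ]; ring
    have e2 : (2:ℝ) ^ (r + 1) * x - (2 * (k:ℝ) + 1) = 2 * (2 ^ r * x - k) - 1 := by
      rw [pow_succ]; ring
    rw [e1, e2, pow_add, pow_succ]
    ring

theorem abs_iteratedDeriv_psi_le (r : ℕ) (x : ℝ) :
    |iteratedDeriv r psi x| ≤ (2:ℝ) ^ (r * (r + 1) / 2 + r) := by
  rw [iteratedDeriv_psi, abs_mul, abs_of_pos (by positivity : (0:ℝ) < 2 ^ (r * (r + 1) / 2)), pow_add]
  apply mul_le_mul_of_nonneg_left _ (by positivity)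
  calc |∑ k ∈ Finset.range (2 ^ r), (tmSign k : ℝ) * psi (2 ^ r * x - k)|
      ≤ ∑ k ∈ Finset.range (2 ^ r), |(tmSign k : ℝ) * psi (2 ^ r * x - k)| :=
        Finset.abs_sum_le_sum_abs _ _
    _ ≤ ∑ _k ∈ Finset.range (2 ^ r), (1:ℝ) := by
        apply Finset.sum_le_sum
        intro k _
        rw [abs_mul, tmSign_cast_abs, one_mul, abs_of_nonneg (psi_nonneg _)]
        exact psi_le_one _
    _ = 2 ^ r := by simp

/-! ### Rational closed-form approximants -/

/-- The closed form of the `d`-th approximant (real variable). -/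
noncomputable def F (d : ℕ) (x : ℝ) : ℝ :=
  (2:ℝ) ^ (d * (d + 1) / 2) / (d.factorial : ℝ) *
    ∑ m ∈ Finset.range (2 ^ d), (tmSign m : ℝ) * (max (x - (m : ℝ) / 2 ^ d) 0) ^ d

/-- The closed form of the `d`-th approximant (rational variable, rational value). -/
def FQ (d : ℕ) (q : ℚ) : ℚ :=
  (2:ℚ) ^ (d * (d + 1) / 2) / (d.factorial : ℚ) *
    ∑ m ∈ Finset.range (2 ^ d), (tmSign m : ℚ) * (max (q - (m : ℚ) / 2 ^ d) 0) ^ d

theorem FQ_cast (d : ℕ) (q : ℚ) : ((FQ d q : ℚ) : ℝ) = F d (q : ℝ) := by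
  unfold FQ F
  push_cast
  rfl

/-- `y ↦ (max y 0) ^ (k + 1)` is differentiable for `k ≥ 1`. -/
theorem hasDerivAt_posPow (k : ℕ) (hk : 1 ≤ k) (y : ℝ) :
    HasDerivAt (fun y : ℝ => (max y 0) ^ (k + 1)) ((k + 1 : ℝ) * (max y 0) ^ k) y := by
  rcases lt_trichotomy y 0 with hy | hy | hy
  · have h0 : (fun y : ℝ => (max y 0) ^ (k + 1)) =ᶠ[𝓝 y] fun _ => (0:ℝ) := by
      filter_upwards [gt_mem_nhds hy] with z hz
      rw [max_eq_right hz.le]; simp
    have : HasDerivAt (fun _ : ℝ => (0:ℝ)) ((k + 1 : ℝ) * (max y 0) ^ k) y := by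
      rw [max_eq_right hy.le, zero_pow (by omega), mul_zero]
      exact hasDerivAt_const y 0
    exact this.congr_of_eventuallyEq h0
  · subst hy
    rw [max_self, zero_pow (by omega), mul_zero, hasDerivAt_iff_isLittleO_nhds_zero]
    simp only [zero_add, max_self, smul_zero, sub_zero]
    rw [zero_pow (by omega), ]
    simp only [sub_zero]
    have h1 : (fun h : ℝ => (max h 0) ^ (k + 1)) =O[𝓝 0] fun h : ℝ => h ^ (k + 1) := by
      apply Asymptotics.IsBigO.of_bound 1
      filter_upwards with h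
      rw [one_mul, norm_pow, norm_pow, Real.norm_eq_abs, Real.norm_eq_abs]
      apply pow_le_pow_left₀ (abs_nonneg _)
      rcases le_total h 0 with hh | hh
      · rw [max_eq_right hh]; simp
      · rw [max_eq_left hh]
    have h2 : (fun h : ℝ => h ^ (k + 1)) =o[𝓝 0] fun h : ℝ => h :=
      Asymptotics.isLittleO_pow_id (by omega)
    exact h1.trans_isLittleO h2
  · have h0 : (fun y : ℝ => (max y 0) ^ (k + 1)) =ᶠ[𝓝 y] fun z => z ^ (k + 1) := by
      filter_upwards [lt_mem_nhds hy] with z hz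
      rw [max_eq_left hz.le]
    have : HasDerivAt (fun z : ℝ => z ^ (k + 1)) ((k + 1 : ℝ) * (max y 0) ^ k) y := by
      rw [max_eq_left hy.le]
      have := hasDerivAt_pow (k + 1) y
      simpa using this
    exact this.congr_of_eventuallyEq h0

theorem integral_posPow (k : ℕ) (hk : 1 ≤ k) (a b c : ℝ) :
    ∫ u in a..b, (max (u - c) 0) ^ k =
      ((max (b - c) 0) ^ (k + 1) - (max (a - c) 0) ^ (k + 1)) / (k + 1) := by
  have hd : ∀ u ∈ Set.uIcc a b, HasDerivAt (fun u : ℝ => (max (u - c) 0) ^ (k + 1) / (k + 1))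
      ((max (u - c) 0) ^ k) u := by
    intro u _
    have h1 := (hasDerivAt_posPow k hk (u - c)).comp u ((hasDerivAt_id u).sub_const c)
    have h2 := h1.div_const (k + 1 : ℝ)
    have hk1 : (k + 1 : ℝ) ≠ 0 := by positivity
    have e : (k + 1 : ℝ) * (max (u - c) 0) ^ k * 1 / (k + 1) = (max (u - c) 0) ^ k := by
      field_simp
    rw [e] at h2
    exact h2
  have hc : Continuous fun u : ℝ => (max (u - c) 0) ^ k := by fun_prop
  rw [intervalIntegral.integral_eq_sub_of_hasDerivAt hd (hc.intervalIntegrable _ _)]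
  ring

theorem max_two_mul (y : ℝ) : max (2 * y) 0 = 2 * max y 0 := by
  rcases le_total y 0 with h | h
  · rw [max_eq_right h, max_eq_right (by linarith)]; simp
  · rw [max_eq_left h, max_eq_left (by linarith)]

theorem tmSign_one : tmSign 1 = -1 := by
  have := tmSign_two_mul_add_one 0
  simpa [tmSign_zero] using this

theorem F_one (x : ℝ) : F 1 x = 2 * (max x 0 - max (x - 1 / 2) 0) := by
  unfold F
  rw [show (2:ℕ) ^ 1 = 1 + 1 from rfl, Finset.sum_range_succ, Finset.sum_range_succ,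
    Finset.sum_range_zero]
  simp [tmSign_zero, tmSign_one]
  ring

theorem ramp_eq_F : ramp = F 1 := by
  funext x
  rw [F_one]
  unfold ramp
  rcases le_total x 0 with h | h
  · rw [max_eq_right h, max_eq_right (by linarith : x - 1 / 2 ≤ 0), min_eq_right (by linarith),
      max_eq_left (by linarith)]
    simp
  · rw [max_eq_left h]
    rcases le_total x (1 / 2) with h2 | h2
    · rw [max_eq_right (by linarith : x - 1 / 2 ≤ 0), min_eq_right (by linarith),
        max_eq_right (by linarith)]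
      ring
    · rw [max_eq_left (by linarith : (0:ℝ) ≤ x - 1 / 2), min_eq_left (by linarith),
        max_eq_right (by norm_num)]
      ring

theorem T_F (D : ℕ) (hD : 1 ≤ D) (x : ℝ) : T (F D) x = F (D + 1) x := by
  have hc : ∀ m : ℕ, Continuous fun u : ℝ =>
      (tmSign m : ℝ) * (max (u - (m : ℝ) / 2 ^ D) 0) ^ D := by
    intro m; fun_prop
  have e1 : ∀ u, F D u = (2:ℝ) ^ (D * (D + 1) / 2) / (D.factorial : ℝ) *
      ∑ m ∈ Finset.range (2 ^ D), (tmSign m : ℝ) * (max (u - (m : ℝ) / 2 ^ D) 0) ^ D :=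
    fun u => rfl
  unfold T
  simp only [e1]
  rw [intervalIntegral.integral_const_mul,
    intervalIntegral.integral_finsetSum (fun m _ => (hc m).intervalIntegrable _ _)]
  simp only [intervalIntegral.integral_const_mul, integral_posPow D hD]
  unfold F
  rw [half_mul_succ, show (2:ℕ) ^ (D + 1) = 2 ^ D + 2 ^ D by rw [pow_succ]; ring,
    Finset.sum_range_add, ← Finset.sum_add_distrib, Finset.mul_sum, Finset.mul_sum]
  apply Finset.sum_congr rfl
  intro m hm
  have hm' : m < 2 ^ D := Finset.mem_range.1 hm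
  have hs : tmSign (2 ^ D + m) = -tmSign m := by rw [add_comm]; exact tmSign_add_pow D m hm'
  have hpow : (0:ℝ) < 2 ^ D := by positivity
  have h1 : max (2 * x - (m : ℝ) / 2 ^ D) 0 = 2 * max (x - (m : ℝ) / 2 ^ (D + 1)) 0 := by
    rw [← max_two_mul]
    congr 1
    rw [pow_succ]; field_simp
  have h2 : max (2 * x - 1 - (m : ℝ) / 2 ^ D) 0 =
      2 * max (x - ((2 ^ D + m : ℕ) : ℝ) / 2 ^ (D + 1)) 0 := by
    rw [← max_two_mul]
    congr 1
    push_cast
    rw [pow_succ]; field_simp; ring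
  rw [h1, h2, hs, Nat.factorial_succ]
  push_cast
  have hf : (D.factorial : ℝ) ≠ 0 := by positivity
  have hD1 : (D + 1 : ℝ) ≠ 0 := by positivity
  rw [pow_add, mul_pow, mul_pow]
  field_simp
  ring

theorem Phi_eq_F (d : ℕ) : Phi d = F (d + 1) := by
  induction d with
  | zero => exact ramp_eq_F
  | succ d ih =>
    rw [Phi_succ, ih]
    funext x
    exact T_F (d + 1) (by omega) x

/-! ### Error bound for the approximants -/

theorem iter_shift_le' {f g : ℝ → ℝ} (hf : InA f) (hg : InA g) (a : ℝ)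
    (h : ∀ x, g (x - a) ≤ f x) (d : ℕ) (x : ℝ) :
    (T^[d] g) (x - a / 2 ^ d) ≤ (T^[d] f) x := by
  induction d generalizing x with
  | zero => simpa using h x
  | succ d ih =>
    rw [Function.iterate_succ_apply', Function.iterate_succ_apply']
    have h1 : T (T^[d] g) (x - a / 2 ^ (d + 1)) = T (fun u => (T^[d] g) (u - a / 2 ^ d)) x := by
      rw [T_shift]
      congr 1
      rw [pow_succ]; field_simp
    rw [h1]
    apply T_mono _ (iter_inA hf d).cont ih
    exact (iter_inA hg d).cont.comp (continuous_id.sub continuous_const)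

theorem psi_le_ramp (x : ℝ) : psi x ≤ ramp x := by
  unfold ramp
  rcases le_total x 0 with h | h
  · rw [psi_of_nonpos h]; exact le_max_left _ _
  · rcases le_total (1 / 2) x with h2 | h2
    · rw [min_eq_left (by linarith), max_eq_right (by norm_num)]; exact psi_le_one x
    · rw [min_eq_right (by linarith), max_eq_right (by linarith)]
      have := psi_lipschitz x 0
      rw [psi_of_nonpos le_rfl, sub_zero, sub_zero, abs_of_nonneg h] at this
      exact (le_abs_self _).trans this

theorem ramp_shift_le_psi (x : ℝ) : ramp (x - 1 / 2) ≤ psi x := by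
  unfold ramp
  rcases le_total x (1 / 2) with h | h
  · rw [min_eq_right (by linarith), max_eq_left (by linarith)]; exact psi_nonneg x
  · rcases le_total 1 x with h2 | h2
    · rw [psi_of_one_le h2]; exact max_le (by norm_num) (min_le_left _ _)
    · rw [min_eq_right (by linarith), max_eq_right (by linarith)]
      have := psi_lipschitz 1 x
      rw [psi_of_one_le le_rfl, abs_of_nonneg (by linarith : (0:ℝ) ≤ 1 - x)] at this
      have h3 := (le_abs_self (1 - psi x)).trans this
      linarith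

theorem iter_psi (d : ℕ) : T^[d] psi = psi := Function.iterate_fixed T_psi d

theorem psi_le_Phi (d : ℕ) (x : ℝ) : psi x ≤ Phi d x := by
  have := iter_shift_le' ramp_inA psi_inA 0 (fun y => by simpa using psi_le_ramp y) d x
  rw [iter_psi] at this
  have e : x - 0 / 2 ^ d = x := by simp
  rw [e] at this
  exact this

theorem Phi_shift_le_psi (d : ℕ) (x : ℝ) : Phi d (x - 1 / 2 / 2 ^ d) ≤ psi x := by
  have := iter_shift_le' psi_inA ramp_inA (1 / 2) ramp_shift_le_psi d x
  rwa [iter_psi] at this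

theorem abs_psi_sub_Phi_le (d : ℕ) (x : ℝ) : |psi x - Phi d x| ≤ 1 / 2 ^ d := by
  have h1 := psi_le_Phi d x
  have h2 := Phi_shift_le_psi d x
  have hpos : (0:ℝ) < 1 / 2 / 2 ^ d := by positivity
  have l := Phi_lipschitz d (x - 1 / 2 / 2 ^ d) x
  have e : |x - 1 / 2 / 2 ^ d - x| = 1 / 2 / 2 ^ d := by
    rw [show x - 1 / 2 / 2 ^ d - x = -(1 / 2 / 2 ^ d) by ring, abs_neg, abs_of_pos hpos]
  rw [e] at l
  have l' := abs_le.1 l
  have e2 : (1:ℝ) / 2 ^ d = 2 * (1 / 2 / 2 ^ d) := by ring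
  rw [e2, abs_le]
  constructor <;> linarith [l'.1, l'.2]

/-- The closed-form approximants converge to `psi` with an explicit rate. -/
theorem abs_psi_sub_F_le (d : ℕ) (hd : 1 ≤ d) (x : ℝ) : |psi x - F d x| ≤ 2 / 2 ^ d := by
  obtain ⟨d', rfl⟩ : ∃ d', d = d' + 1 := ⟨d - 1, by omega⟩
  rw [← Phi_eq_F]
  have := abs_psi_sub_Phi_le d' x
  have e : (2:ℝ) / 2 ^ (d' + 1) = 1 / 2 ^ d' := by rw [pow_succ]; field_simp
  rw [e]
  exact this

/-- Rational points: `FQ d q` is a rational number within `2 / 2 ^ d` of `psi q`. -/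
theorem abs_psi_sub_FQ_le (d : ℕ) (hd : 1 ≤ d) (q : ℚ) :
    |psi (q : ℝ) - ((FQ d q : ℚ) : ℝ)| ≤ 2 / 2 ^ d := by
  rw [FQ_cast]
  exact abs_psi_sub_F_le d hd q

end Crest.Agent.Lib_S0170_Fabius
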