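import Mathlib
import Crest.Prelude.Def_BoxFlow
import Crest.Agent.Lib_S0170_Fabius

/-!
Shared definitions for the proof of S0170 (moving disjoint rational boxes by the time-one flow of
an effective, smooth, compactly supported, divergence-free field).  Definitions only.

Idea: the field is a finite sum of "stages".  Stage number `r` (out of `K`) is active in the time
window `[1/4 + r/(2K), 1/4 + (r+1)/(2K)]` and equals `slot' K r t • W_r x`, where `W_r` is an
autonomous planar field with stream function `(cutoff) * g (x j)`; on the `core` box of the stage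
`W_r` is the shear/translation field `x ↦ g' (x j) • e_i`, and it vanishes outside `supp`.
-/

set_option autoImplicit false

namespace Crest.Agent.Lib_S0170_Defs

open Crest.AnalysisR.BoxFlow

/-- Space. -/
abbrev Sp : Type := Fin 3 → ℝ

/-- The smooth step: `0` on `(-∞, 0]`, `1` on `[1, ∞)`.  It is the Fabius step `psi` of
`Lib_S0170_Fabius` (smooth, `psi' x = 2 psi (2x) - 2 psi (2x - 1)`). -/
noncomputable def sg (u : ℝ) : ℝ := Lib_S0170_Fabius.psi u

/-- Its derivative (`HasDerivAt sg (sg' u) u` by `Lib_S0170_Fabius.psi_hasDerivAt`). -/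
noncomputable def sg' (u : ℝ) : ℝ := 2 * sg (2 * u) - 2 * sg (2 * u - 1)

/-- Plateau function: `1` on `[lo, hi]`, `0` outside `(lo - w, hi + w)`. -/
noncomputable def plat (lo hi w : ℚ) (x : ℝ) : ℝ :=
  sg ((x - lo) / w + 1) - sg ((x - hi) / w)

/-- The derivative of the plateau function. -/
noncomputable def plat' (lo hi w : ℚ) (x : ℝ) : ℝ :=
  (sg' ((x - lo) / w + 1) - sg' ((x - hi) / w)) / w

/-- A stage: moves points in direction `e_i` with speed `g' (x j) = q1 + q2 * (x j - c)` on the
box `core = ∏ [lo m, hi m]`; the field is cut off in the margin of width `w` around the core. -/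
structure Stage where
  i : Fin 3
  j : Fin 3
  q1 : ℚ
  q2 : ℚ
  c : ℚ
  lo : Fin 3 → ℚ
  hi : Fin 3 → ℚ
  w : ℚ

namespace Stage

/-- Well-formedness of a stage. -/
def Valid (s : Stage) : Prop := s.i ≠ s.j ∧ 0 < s.w ∧ ∀ m, s.lo m ≤ s.hi m

/-- Stream profile `g y = q1 (y - c) + (q2 / 2) (y - c)^2`. -/
noncomputable def g (s : Stage) (y : ℝ) : ℝ := s.q1 * (y - s.c) + s.q2 / 2 * (y - s.c) ^ 2

/-- Its derivative `g' y = q1 + q2 (y - c)`. -/
noncomputable def g' (s : Stage) (y : ℝ) : ℝ := s.q1 + s.q2 * (y - s.c)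

/-- Model velocity on the core: `g' (x j) • e_i`. -/
noncomputable def vel (s : Stage) (x : Sp) : Sp := fun m => if m = s.i then s.g' (x s.j) else 0

/-- Cutoff in the coordinates other than `i`, `j`. -/
noncomputable def third (s : Stage) (x : Sp) : ℝ :=
  ∏ m ∈ Finset.univ.filter (fun m : Fin 3 => m ≠ s.i ∧ m ≠ s.j), plat (s.lo m) (s.hi m) s.w (x m)

/-- The autonomous field of the stage: `∂_j (χ g) • e_i - ∂_i (χ g) • e_j`, where
`χ x = ∏ m, plat (lo m) (hi m) w (x m)` and `g = g (x j)`. -/
noncomputable def field (s : Stage) (x : Sp) : Sp := fun m =>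
  if m = s.i then
    plat (s.lo s.i) (s.hi s.i) s.w (x s.i) * s.third x *
      (plat' (s.lo s.j) (s.hi s.j) s.w (x s.j) * s.g (x s.j) +
        plat (s.lo s.j) (s.hi s.j) s.w (x s.j) * s.g' (x s.j))
  else if m = s.j then
    -(plat' (s.lo s.i) (s.hi s.i) s.w (x s.i) * s.third x *
      (plat (s.lo s.j) (s.hi s.j) s.w (x s.j) * s.g (x s.j)))
  else 0

/-- The core box, where the field equals `vel`. -/
def core (s : Stage) : Set Sp := {x | ∀ m, (s.lo m : ℝ) ≤ x m ∧ x m ≤ (s.hi m : ℝ)}

/-- The support box, outside of which the field vanishes. -/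
def supp (s : Stage) : Set Sp :=
  {x | ∀ m, (s.lo m : ℝ) - s.w ≤ x m ∧ x m ≤ (s.hi m : ℝ) + s.w}

/-- `F` behaves like the time-one map of the stage: points whose straight model trajectory stays
in the core are moved by `vel`; points outside the support box are fixed. -/
def Realizes (s : Stage) (F : Sp → Sp) : Prop :=
  (∀ x, (∀ τ ∈ Set.Icc (0 : ℝ) 1, x + τ • s.vel x ∈ s.core) → F x = x + s.vel x) ∧
    (∀ x, x ∉ s.supp → F x = x)

end Stage

/-- Time parameter of stage `r` out of `K`: `0` before its window, `1` after it. -/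
noncomputable def slot (K r : ℕ) (t : ℝ) : ℝ := sg (2 * (K : ℝ) * (t - 1 / 4) - r)

/-- The derivative of `slot K r`. -/
noncomputable def slot' (K r : ℕ) (t : ℝ) : ℝ := 2 * (K : ℝ) * sg' (2 * (K : ℝ) * (t - 1 / 4) - r)

/-- The time-dependent field of a list of stages. -/
noncomputable def fieldOf (L : List Stage) : Field := fun p =>
  ∑ r : Fin L.length, slot' L.length r p.1 • (L.get r).field p.2

/-- Apply a family of maps one after the other (`F 0` first). -/
def runMaps {K : ℕ} (F : Fin K → Sp → Sp) (x : Sp) : Sp :=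
  (List.ofFn F).foldl (fun y f => f y) x

end Crest.Agent.Lib_S0170_Defs
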