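import Mathlib
import Crest.Prelude.Def_BoxFlow
import Crest.Agent.Lib_S0170_Defs

/-!
Basic one-dimensional facts for S0170 (part [A], helper16): the step `sg`, the plateau `plat`,
the stage fields and the time slots of `Lib_S0170_Defs`.

ONLY the lemmas of the first section unfold `sg` / `sg'` (the Fabius step of `Lib_S0170_Fabius`);
everything else (and everybody downstream, except [E]) uses this API.
-/

set_option autoImplicit false

namespace Crest.Agent.Lib_S0170_Basic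

open Crest.AnalysisR.BoxFlow Crest.Agent.Lib_S0170_Defs
open scoped ContDiff

/-! ### The step API: the only lemmas depending on the definition of `sg`, `sg'` -/

theorem sg_contDiff : ContDiff ℝ ∞ sg := Lib_S0170_Fabius.psi_contDiff

theorem sg_zero {u : ℝ} (h : u ≤ 0) : sg u = 0 := Lib_S0170_Fabius.psi_of_nonpos h

theorem sg_one {u : ℝ} (h : 1 ≤ u) : sg u = 1 := Lib_S0170_Fabius.psi_of_one_le h

theorem sg_nonneg (u : ℝ) : 0 ≤ sg u := Lib_S0170_Fabius.psi_nonneg u

theorem sg_le_one (u : ℝ) : sg u ≤ 1 := Lib_S0170_Fabius.psi_le_one u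

theorem hasDerivAt_sg (u : ℝ) : HasDerivAt sg (sg' u) u := Lib_S0170_Fabius.psi_hasDerivAt u

/-- The Fabius functional equation (only [E] should need it). -/
theorem sg'_eq (u : ℝ) : sg' u = 2 * sg (2 * u) - 2 * sg (2 * u - 1) := rfl

theorem sg_eq_psi (u : ℝ) : sg u = Lib_S0170_Fabius.psi u := rfl

/-! ### Consequences (generic) -/

theorem sg_differentiable : Differentiable ℝ sg := fun u => (hasDerivAt_sg u).differentiableAt

theorem sg_continuous : Continuous sg := sg_differentiable.continuous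

theorem deriv_sg : deriv sg = sg' := funext fun u => (hasDerivAt_sg u).deriv

theorem sg'_contDiff : ContDiff ℝ ∞ sg' := by
  rw [← deriv_sg]
  exact sg_contDiff.iterate_deriv 1

theorem sg'_continuous : Continuous sg' := sg'_contDiff.continuous

theorem abs_sg_le_one (u : ℝ) : |sg u| ≤ 1 := by
  rw [abs_of_nonneg (sg_nonneg u)]; exact sg_le_one u

/-- `sg' u = 0` for `u ≤ 0` (closed half-line). -/
theorem sg'_zero {u : ℝ} (h : u ≤ 0) : sg' u = 0 := by
  have h1 : HasDerivWithinAt sg (sg' u) (Set.Iic u) u := (hasDerivAt_sg u).hasDerivWithinAt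
  have h2 : HasDerivWithinAt sg 0 (Set.Iic u) u := by
    have h3 : HasDerivWithinAt (fun _ : ℝ => (0 : ℝ)) 0 (Set.Iic u) u := hasDerivWithinAt_const u _ 0
    exact h3.congr (fun y hy => sg_zero (le_trans hy h)) (sg_zero h)
  exact (uniqueDiffWithinAt_Iic u).eq_deriv _ h1 h2

/-- `sg' u = 0` for `1 ≤ u` (closed half-line). -/
theorem sg'_one {u : ℝ} (h : 1 ≤ u) : sg' u = 0 := by
  have h1 : HasDerivWithinAt sg (sg' u) (Set.Ici u) u := (hasDerivAt_sg u).hasDerivWithinAt
  have h2 : HasDerivWithinAt sg 0 (Set.Ici u) u := by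
    have h3 : HasDerivWithinAt (fun _ : ℝ => (1 : ℝ)) 0 (Set.Ici u) u := hasDerivWithinAt_const u _ 1
    exact h3.congr (fun y hy => sg_one (le_trans h hy)) (sg_one h)
  exact (uniqueDiffWithinAt_Ici u).eq_deriv _ h1 h2

/-! ### Plateaus -/

theorem plat_eq_one {lo hi w : ℚ} (hw : 0 < w) {x : ℝ} (h1 : (lo : ℝ) ≤ x) (h2 : x ≤ (hi : ℝ)) :
    plat lo hi w x = 1 := by
  have hw' : (0 : ℝ) < w := by exact_mod_cast hw
  have e1 : sg ((x - lo) / w + 1) = 1 :=
    sg_one (by have := div_nonneg (sub_nonneg.2 h1) hw'.le; linarith)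
  have e2 : sg ((x - hi) / w) = 0 := sg_zero (div_nonpos_of_nonpos_of_nonneg (by linarith) hw'.le)
  simp [plat, e1, e2]

theorem plat_eq_zero_of_le {lo hi w : ℚ} (hw : 0 < w) (hlh : lo ≤ hi) {x : ℝ}
    (h : x ≤ (lo : ℝ) - w) : plat lo hi w x = 0 := by
  have hw' : (0 : ℝ) < w := by exact_mod_cast hw
  have hlh' : (lo : ℝ) ≤ hi := by exact_mod_cast hlh
  have e1 : sg ((x - lo) / w + 1) = 0 := by
    apply sg_zero
    have : (x - lo) / w ≤ -1 := by rw [div_le_iff₀ hw']; linarith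
    linarith
  have e2 : sg ((x - hi) / w) = 0 :=
    sg_zero (div_nonpos_of_nonpos_of_nonneg (by linarith) hw'.le)
  simp [plat, e1, e2]

theorem plat_eq_zero_of_ge {lo hi w : ℚ} (hw : 0 < w) (hlh : lo ≤ hi) {x : ℝ}
    (h : (hi : ℝ) + w ≤ x) : plat lo hi w x = 0 := by
  have hw' : (0 : ℝ) < w := by exact_mod_cast hw
  have hlh' : (lo : ℝ) ≤ hi := by exact_mod_cast hlh
  have e1 : sg ((x - lo) / w + 1) = 1 :=
    sg_one (by have := div_nonneg (show (0 : ℝ) ≤ x - lo by linarith) hw'.le; linarith)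
  have e2 : sg ((x - hi) / w) = 1 := by
    apply sg_one
    rw [le_div_iff₀ hw']; linarith
  simp [plat, e1, e2]

theorem abs_plat_le_one (lo hi w : ℚ) (x : ℝ) : |plat lo hi w x| ≤ 1 := by
  unfold plat
  rw [abs_le]
  constructor
  · linarith [sg_nonneg ((x - lo) / w + 1), sg_le_one ((x - hi) / w)]
  · linarith [sg_le_one ((x - lo) / w + 1), sg_nonneg ((x - hi) / w)]

theorem hasDerivAt_plat (lo hi w : ℚ) (x : ℝ) :
    HasDerivAt (plat lo hi w) (plat' lo hi w x) x := by
  have h1 : HasDerivAt (fun x : ℝ => (x - lo) / w + 1) (1 / (w : ℝ)) x :=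
    (((hasDerivAt_id x).sub_const (lo : ℝ)).div_const (w : ℝ)).add_const 1
  have h2 : HasDerivAt (fun x : ℝ => (x - hi) / w) (1 / (w : ℝ)) x :=
    ((hasDerivAt_id x).sub_const (hi : ℝ)).div_const (w : ℝ)
  have h3 := ((hasDerivAt_sg _).comp x h1).sub ((hasDerivAt_sg _).comp x h2)
  have e : plat' lo hi w x
      = sg' ((x - lo) / w + 1) * (1 / (w : ℝ)) - sg' ((x - hi) / w) * (1 / (w : ℝ)) := by
    unfold plat'; ring
  rw [e]
  exact h3

theorem deriv_plat (lo hi w : ℚ) : deriv (plat lo hi w) = plat' lo hi w :=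
  funext fun x => (hasDerivAt_plat lo hi w x).deriv

theorem plat'_eq_zero_of_mem {lo hi w : ℚ} (hw : 0 < w) {x : ℝ} (h1 : (lo : ℝ) ≤ x)
    (h2 : x ≤ (hi : ℝ)) : plat' lo hi w x = 0 := by
  have hw' : (0 : ℝ) < w := by exact_mod_cast hw
  have e1 : sg' ((x - lo) / w + 1) = 0 :=
    sg'_one (by have := div_nonneg (sub_nonneg.2 h1) hw'.le; linarith)
  have e2 : sg' ((x - hi) / w) = 0 :=
    sg'_zero (div_nonpos_of_nonpos_of_nonneg (by linarith) hw'.le)
  simp [plat', e1, e2]

theorem plat'_eq_zero_of_le {lo hi w : ℚ} (hw : 0 < w) (hlh : lo ≤ hi) {x : ℝ}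
    (h : x ≤ (lo : ℝ) - w) : plat' lo hi w x = 0 := by
  have hw' : (0 : ℝ) < w := by exact_mod_cast hw
  have hlh' : (lo : ℝ) ≤ hi := by exact_mod_cast hlh
  have e1 : sg' ((x - lo) / w + 1) = 0 := by
    apply sg'_zero
    have : (x - lo) / w ≤ -1 := by rw [div_le_iff₀ hw']; linarith
    linarith
  have e2 : sg' ((x - hi) / w) = 0 :=
    sg'_zero (div_nonpos_of_nonpos_of_nonneg (by linarith) hw'.le)
  simp [plat', e1, e2]

theorem plat'_eq_zero_of_ge {lo hi w : ℚ} (hw : 0 < w) (hlh : lo ≤ hi) {x : ℝ}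
    (h : (hi : ℝ) + w ≤ x) : plat' lo hi w x = 0 := by
  have hw' : (0 : ℝ) < w := by exact_mod_cast hw
  have hlh' : (lo : ℝ) ≤ hi := by exact_mod_cast hlh
  have e1 : sg' ((x - lo) / w + 1) = 0 :=
    sg'_one (by have := div_nonneg (show (0 : ℝ) ≤ x - lo by linarith) hw'.le; linarith)
  have e2 : sg' ((x - hi) / w) = 0 := by
    apply sg'_one
    rw [le_div_iff₀ hw']; linarith
  simp [plat', e1, e2]

theorem plat_contDiff (lo hi w : ℚ) : ContDiff ℝ ∞ (plat lo hi w) := by
  unfold plat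
  have h1 : ContDiff ℝ ∞ (fun x : ℝ => (x - lo) / w + 1) := by fun_prop
  have h2 : ContDiff ℝ ∞ (fun x : ℝ => (x - hi) / w) := by fun_prop
  exact (sg_contDiff.comp h1).sub (sg_contDiff.comp h2)

theorem plat'_contDiff (lo hi w : ℚ) : ContDiff ℝ ∞ (plat' lo hi w) := by
  unfold plat'
  have h1 : ContDiff ℝ ∞ (fun x : ℝ => (x - lo) / w + 1) := by fun_prop
  have h2 : ContDiff ℝ ∞ (fun x : ℝ => (x - hi) / w) := by fun_prop
  exact ((sg'_contDiff.comp h1).sub (sg'_contDiff.comp h2)).div_const _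

/-! ### Stream profile -/

theorem hasDerivAt_g (s : Stage) (y : ℝ) : HasDerivAt s.g (s.g' y) y := by
  have h1 : HasDerivAt (fun y : ℝ => y - (s.c : ℝ)) 1 y := (hasDerivAt_id y).sub_const _
  have h2 := (h1.const_mul (s.q1 : ℝ)).add ((h1.pow 2).const_mul ((s.q2 : ℝ) / 2))
  have e : s.g' y = (s.q1 : ℝ) * 1 + (s.q2 : ℝ) / 2 * (((2 : ℕ) : ℝ) * (y - (s.c : ℝ)) ^ (2 - 1) * 1) := by
    unfold Stage.g'; push_cast; ring
  rw [e]
  exact h2

theorem g_contDiff (s : Stage) : ContDiff ℝ ∞ s.g := by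
  unfold Stage.g; fun_prop

theorem g'_contDiff (s : Stage) : ContDiff ℝ ∞ s.g' := by
  unfold Stage.g'; fun_prop

theorem deriv_g (s : Stage) : deriv s.g = s.g' := funext fun y => (hasDerivAt_g s y).deriv

/-! ### The third-coordinate cutoff -/

private theorem fin3_aux : ∀ i j k m : Fin 3, i ≠ j → k ≠ i → k ≠ j → ((m ≠ i ∧ m ≠ j) ↔ m = k) := by
  decide

/-- If `k` is the coordinate different from `s.i` and `s.j`, the cutoff `third` is the plateau in
the coordinate `k`. -/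
theorem third_eq (s : Stage) (hij : s.i ≠ s.j) {k : Fin 3} (hki : k ≠ s.i) (hkj : k ≠ s.j) (x : Sp) :
    s.third x = plat (s.lo k) (s.hi k) s.w (x k) := by
  unfold Stage.third
  have h : Finset.univ.filter (fun m : Fin 3 => m ≠ s.i ∧ m ≠ s.j) = {k} := by
    ext m
    simp only [Finset.mem_filter, Finset.mem_univ, true_and, Finset.mem_singleton]
    exact fin3_aux s.i s.j k m hij hki hkj
  rw [h, Finset.prod_singleton]

/-- There is a third coordinate. -/
theorem exists_third (s : Stage) (hij : s.i ≠ s.j) : ∃ k : Fin 3, k ≠ s.i ∧ k ≠ s.j := by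
  have : ∀ i j : Fin 3, i ≠ j → ∃ k : Fin 3, k ≠ i ∧ k ≠ j := by decide
  exact this s.i s.j hij

theorem third_contDiff (s : Stage) : ContDiff ℝ ∞ s.third := by
  unfold Stage.third
  apply contDiff_prod
  intro m _
  exact (plat_contDiff _ _ _).comp (contDiff_apply ℝ ℝ m)

/-- `third` does not depend on the coordinates `s.i` and `s.j`. -/
theorem third_congr (s : Stage) {x y : Sp} (h : ∀ m, m ≠ s.i → m ≠ s.j → x m = y m) :
    s.third x = s.third y := by
  unfold Stage.third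
  apply Finset.prod_congr rfl
  intro m hm
  rw [Finset.mem_filter] at hm
  rw [h m hm.2.1 hm.2.2]

/-! ### Stage fields -/

theorem field_apply_i (s : Stage) (x : Sp) :
    s.field x s.i = plat (s.lo s.i) (s.hi s.i) s.w (x s.i) * s.third x *
      (plat' (s.lo s.j) (s.hi s.j) s.w (x s.j) * s.g (x s.j) +
        plat (s.lo s.j) (s.hi s.j) s.w (x s.j) * s.g' (x s.j)) := by
  simp [Stage.field]

theorem field_apply_j (s : Stage) (hij : s.i ≠ s.j) (x : Sp) :
    s.field x s.j = -(plat' (s.lo s.i) (s.hi s.i) s.w (x s.i) * s.third x *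
      (plat (s.lo s.j) (s.hi s.j) s.w (x s.j) * s.g (x s.j))) := by
  simp [Stage.field, hij.symm]

theorem field_apply_other (s : Stage) {m : Fin 3} (hi : m ≠ s.i) (hj : m ≠ s.j) (x : Sp) :
    s.field x m = 0 := by
  simp [Stage.field, hi, hj]

theorem field_contDiff (s : Stage) : ContDiff ℝ ∞ s.field := by
  rw [contDiff_pi]
  intro m
  have hP : ∀ (lo hi w : ℚ) (k : Fin 3), ContDiff ℝ ∞ (fun x : Sp => plat lo hi w (x k)) :=
    fun lo hi w k => (plat_contDiff lo hi w).comp (contDiff_apply ℝ ℝ k)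
  have hP' : ∀ (lo hi w : ℚ) (k : Fin 3), ContDiff ℝ ∞ (fun x : Sp => plat' lo hi w (x k)) :=
    fun lo hi w k => (plat'_contDiff lo hi w).comp (contDiff_apply ℝ ℝ k)
  have hg : ContDiff ℝ ∞ (fun x : Sp => s.g (x s.j)) := (g_contDiff s).comp (contDiff_apply ℝ ℝ s.j)
  have hg' : ContDiff ℝ ∞ (fun x : Sp => s.g' (x s.j)) :=
    (g'_contDiff s).comp (contDiff_apply ℝ ℝ s.j)
  have hT := third_contDiff s
  unfold Stage.field
  by_cases h1 : m = s.i
  · simp only [h1, if_true]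
    exact ((hP _ _ _ _).mul hT).mul (((hP' _ _ _ _).mul hg).add ((hP _ _ _ _).mul hg'))
  · by_cases h2 : m = s.j
    · have hji : ¬ s.j = s.i := h2 ▸ h1
      simp only [h2, if_neg hji, if_true]
      exact (((hP' _ _ _ _).mul hT).mul ((hP _ _ _ _).mul hg)).neg
    · simp only [h1, h2, if_false]
      exact contDiff_const

theorem field_continuous (s : Stage) : Continuous s.field := (field_contDiff s).continuous

/-- On the core the stage field is the model velocity. -/
theorem field_eq_vel (s : Stage) (hs : s.Valid) {x : Sp} (hx : x ∈ s.core) : s.field x = s.vel x := by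
  obtain ⟨hij, hw, _⟩ := hs
  have hp : ∀ m, plat (s.lo m) (s.hi m) s.w (x m) = 1 := fun m => plat_eq_one hw (hx m).1 (hx m).2
  have hp' : ∀ m, plat' (s.lo m) (s.hi m) s.w (x m) = 0 :=
    fun m => plat'_eq_zero_of_mem hw (hx m).1 (hx m).2
  have hT : s.third x = 1 := by
    unfold Stage.third
    exact Finset.prod_eq_one (fun m _ => hp m)
  funext m
  unfold Stage.field Stage.vel
  by_cases h1 : m = s.i
  · simp [h1, hp, hp', hT]
  · by_cases h2 : m = s.j
    · simp [h2, hp', hij.symm]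
    · simp [h1, h2]

/-- Outside the support box the stage field vanishes. -/
theorem field_eq_zero (s : Stage) (hs : s.Valid) {x : Sp} (hx : x ∉ s.supp) : s.field x = 0 := by
  obtain ⟨hij, hw, hlh⟩ := hs
  have hw' : (0 : ℝ) < s.w := by exact_mod_cast hw
  simp only [Stage.supp, Set.mem_ofPred_eq, not_forall, not_and_or, not_le] at hx
  obtain ⟨k, hk⟩ := hx
  have hp : plat (s.lo k) (s.hi k) s.w (x k) = 0 := by
    rcases hk with hk | hk
    · exact plat_eq_zero_of_le hw (hlh k) hk.le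
    · exact plat_eq_zero_of_ge hw (hlh k) hk.le
  have hp' : plat' (s.lo k) (s.hi k) s.w (x k) = 0 := by
    rcases hk with hk | hk
    · exact plat'_eq_zero_of_le hw (hlh k) hk.le
    · exact plat'_eq_zero_of_ge hw (hlh k) hk.le
  funext m
  unfold Stage.field
  by_cases hki : k = s.i
  · subst hki
    by_cases h1 : m = s.i
    · simp [h1, hp]
    · by_cases h2 : m = s.j
      · simp [h2, hij.symm, hp']
      · simp [h1, h2]
  · by_cases hkj : k = s.j
    · subst hkj
      by_cases h1 : m = s.i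
      · simp [h1, hp, hp']
      · by_cases h2 : m = s.j
        · simp [h2, hki, hp]
        · simp [h1, h2]
    · have hT : s.third x = 0 := by rw [third_eq s hij hki hkj x, hp]
      by_cases h1 : m = s.i
      · simp [h1, hT]
      · by_cases h2 : m = s.j
        · simp [h2, hij.symm, hT]
        · simp [h1, h2]

theorem isCompact_supp (s : Stage) : IsCompact s.supp := by
  have h : s.supp = Set.Icc (fun m => (s.lo m : ℝ) - s.w) (fun m => (s.hi m : ℝ) + s.w) := by
    ext x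
    simp only [Stage.supp, Set.mem_ofPred_eq, Set.mem_Icc, Pi.le_def]
    exact forall_and
  rw [h]
  exact isCompact_Icc

/-- The model velocity only reads the coordinate `s.j` and only writes the coordinate `s.i`. -/
theorem vel_apply_i (s : Stage) (x : Sp) : s.vel x s.i = s.g' (x s.j) := by simp [Stage.vel]

theorem vel_apply_ne (s : Stage) {m : Fin 3} (h : m ≠ s.i) (x : Sp) : s.vel x m = 0 := by
  simp [Stage.vel, h]

/-! ### Time slots -/

theorem hasDerivAt_slot (K r : ℕ) (t : ℝ) : HasDerivAt (slot K r) (slot' K r t) t := by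
  have h1 : HasDerivAt (fun t : ℝ => 2 * (K : ℝ) * (t - 1 / 4) - r) (2 * (K : ℝ)) t := by
    have := (((hasDerivAt_id t).sub_const (1 / 4 : ℝ)).const_mul (2 * (K : ℝ))).sub_const (r : ℝ)
    simpa using this
  have h2 := (hasDerivAt_sg _).comp t h1
  have e : slot' K r t = sg' (2 * (K : ℝ) * (t - 1 / 4) - r) * (2 * (K : ℝ)) := by
    unfold slot'; ring
  rw [e]
  exact h2

theorem deriv_slot (K r : ℕ) : deriv (slot K r) = slot' K r :=
  funext fun t => (hasDerivAt_slot K r t).deriv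

theorem slot_contDiff (K r : ℕ) : ContDiff ℝ ∞ (slot K r) := by
  unfold slot
  have h1 : ContDiff ℝ ∞ (fun t : ℝ => 2 * (K : ℝ) * (t - 1 / 4) - r) := by fun_prop
  exact sg_contDiff.comp h1

theorem slot'_contDiff (K r : ℕ) : ContDiff ℝ ∞ (slot' K r) := by
  unfold slot'
  have h1 : ContDiff ℝ ∞ (fun t : ℝ => 2 * (K : ℝ) * (t - 1 / 4) - r) := by fun_prop
  exact contDiff_const.mul (sg'_contDiff.comp h1)

theorem slot_nonneg (K r : ℕ) (t : ℝ) : 0 ≤ slot K r t := sg_nonneg _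

theorem slot_le_one (K r : ℕ) (t : ℝ) : slot K r t ≤ 1 := sg_le_one _

theorem slot_eq_zero {K r : ℕ} {t : ℝ} (h : 2 * (K : ℝ) * (t - 1 / 4) ≤ r) : slot K r t = 0 :=
  sg_zero (by linarith)

theorem slot_eq_one {K r : ℕ} {t : ℝ} (h : (r : ℝ) + 1 ≤ 2 * (K : ℝ) * (t - 1 / 4)) :
    slot K r t = 1 :=
  sg_one (by linarith)

theorem slot'_eq_zero_of_le {K r : ℕ} {t : ℝ} (h : 2 * (K : ℝ) * (t - 1 / 4) ≤ r) :
    slot' K r t = 0 := by
  unfold slot'; rw [sg'_zero (by linarith)]; ring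

theorem slot'_eq_zero_of_ge {K r : ℕ} {t : ℝ} (h : (r : ℝ) + 1 ≤ 2 * (K : ℝ) * (t - 1 / 4)) :
    slot' K r t = 0 := by
  unfold slot'; rw [sg'_one (by linarith)]; ring

/-- Window form: stage `r` of `K` has not started at times `t ≤ 1/4 + r/(2K)`. -/
theorem slot_eq_zero_of_le_start {K r : ℕ} (hK : 0 < K) {t : ℝ}
    (h : t ≤ 1 / 4 + (r : ℝ) / (2 * K)) : slot K r t = 0 := by
  have hK' : (0 : ℝ) < K := by exact_mod_cast hK
  apply slot_eq_zero
  have h2 : t - 1 / 4 ≤ (r : ℝ) / (2 * K) := by linarith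
  rw [le_div_iff₀ (by positivity)] at h2
  linarith

/-- Window form: stage `r` of `K` is finished at times `t ≥ 1/4 + (r+1)/(2K)`. -/
theorem slot_eq_one_of_end_le {K r : ℕ} (hK : 0 < K) {t : ℝ}
    (h : 1 / 4 + ((r : ℝ) + 1) / (2 * K) ≤ t) : slot K r t = 1 := by
  have hK' : (0 : ℝ) < K := by exact_mod_cast hK
  apply slot_eq_one
  have h2 : ((r : ℝ) + 1) / (2 * K) ≤ t - 1 / 4 := by linarith
  rw [div_le_iff₀ (by positivity)] at h2
  linarith

theorem slot'_eq_zero_of_le_start {K r : ℕ} (hK : 0 < K) {t : ℝ}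
    (h : t ≤ 1 / 4 + (r : ℝ) / (2 * K)) : slot' K r t = 0 := by
  have hK' : (0 : ℝ) < K := by exact_mod_cast hK
  apply slot'_eq_zero_of_le
  have h2 : t - 1 / 4 ≤ (r : ℝ) / (2 * K) := by linarith
  rw [le_div_iff₀ (by positivity)] at h2
  linarith

theorem slot'_eq_zero_of_end_le {K r : ℕ} (hK : 0 < K) {t : ℝ}
    (h : 1 / 4 + ((r : ℝ) + 1) / (2 * K) ≤ t) : slot' K r t = 0 := by
  have hK' : (0 : ℝ) < K := by exact_mod_cast hK
  apply slot'_eq_zero_of_ge
  have h2 : ((r : ℝ) + 1) / (2 * K) ≤ t - 1 / 4 := by linarith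
  rw [div_le_iff₀ (by positivity)] at h2
  linarith

/-- Outside the time interval `[1/4, 3/4]` every slot derivative vanishes. -/
theorem slot'_eq_zero_of_time {K r : ℕ} (hr : r < K) {t : ℝ}
    (ht : t ∉ Set.Icc (1 / 4 : ℝ) (3 / 4)) : slot' K r t = 0 := by
  have hK' : (0 : ℝ) ≤ K := Nat.cast_nonneg K
  have hr' : (r : ℝ) + 1 ≤ K := by exact_mod_cast hr
  have hr0 : (0 : ℝ) ≤ r := Nat.cast_nonneg r
  rw [Set.mem_Icc, not_and_or, not_le, not_le] at ht
  rcases ht with ht | ht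
  · apply slot'_eq_zero_of_le
    nlinarith
  · apply slot'_eq_zero_of_ge
    nlinarith

/-- Before `1/4` every slot is `0`, after `3/4` every slot is `1`. -/
theorem slot_eq_zero_of_le_quarter {K r : ℕ} {t : ℝ} (ht : t ≤ 1 / 4) : slot K r t = 0 := by
  have hK' : (0 : ℝ) ≤ K := Nat.cast_nonneg K
  have hr0 : (0 : ℝ) ≤ r := Nat.cast_nonneg r
  apply slot_eq_zero
  nlinarith

theorem slot_eq_one_of_three_quarters_le {K r : ℕ} (hr : r < K) {t : ℝ} (ht : 3 / 4 ≤ t) :
    slot K r t = 1 := by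
  have hK' : (0 : ℝ) ≤ K := Nat.cast_nonneg K
  have hr' : (r : ℝ) + 1 ≤ K := by exact_mod_cast hr
  apply slot_eq_one
  nlinarith

end Crest.Agent.Lib_S0170_Basic
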