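import Mathlib
import Crest.Prelude.Def_BoxFlow
import Crest.Agent.Lib_S0170_Defs
import Crest.Agent.Lib_S0170_Basic

/-!
Part [A] of S0170: the field of a list of stages is admissible (smooth, compactly supported,
supported in time in `[1/4, 3/4]`, divergence free).  Statements verbatim from `Lib_S0170_Plan`.
-/

set_option autoImplicit false

namespace Crest.Agent.Lib_S0170_A

open Crest.AnalysisR.BoxFlow Crest.Agent.Lib_S0170_Defs Crest.Agent.Lib_S0170_Basic
open scoped ContDiff

theorem contDiff_fieldOf (L : List Stage) (_hL : ∀ s ∈ L, s.Valid) : ContDiff ℝ ∞ (fieldOf L) := by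
  unfold fieldOf
  apply ContDiff.sum
  intro r _
  exact ((slot'_contDiff _ _).comp contDiff_fst).smul ((field_contDiff _).comp contDiff_snd)

theorem fieldOf_eq_zero_of_time (L : List Stage) (p : ℝ × Sp)
    (hp : p.1 ∉ Set.Icc (1 / 4 : ℝ) (3 / 4)) : fieldOf L p = 0 := by
  unfold fieldOf
  apply Finset.sum_eq_zero
  intro r _
  rw [slot'_eq_zero_of_time r.2 hp, zero_smul]

theorem hasCompactSupport_fieldOf (L : List Stage) (hL : ∀ s ∈ L, s.Valid) :
    HasCompactSupport (fieldOf L) := by
  apply HasCompactSupport.intro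
    (K := Set.Icc (1 / 4 : ℝ) (3 / 4) ×ˢ ⋃ r : Fin L.length, (L.get r).supp)
  · exact isCompact_Icc.prod (isCompact_iUnion fun r => isCompact_supp _)
  · intro p hp
    by_cases ht : p.1 ∈ Set.Icc (1 / 4 : ℝ) (3 / 4)
    · unfold fieldOf
      apply Finset.sum_eq_zero
      intro r _
      have h : p.2 ∉ (L.get r).supp := fun h => hp ⟨ht, Set.mem_iUnion.2 ⟨r, h⟩⟩
      rw [field_eq_zero _ (hL _ (List.get_mem L r)) h, smul_zero]
    · exact fieldOf_eq_zero_of_time L p ht

/-! ### Divergence -/

/-- The partial derivative `∂_m (s.field · m)` at `x` (closed form). -/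
noncomputable def divTerm (s : Stage) (x : Sp) (m : Fin 3) : ℝ :=
  if m = s.i then
    plat' (s.lo s.i) (s.hi s.i) s.w (x s.i) * s.third x *
      (plat' (s.lo s.j) (s.hi s.j) s.w (x s.j) * s.g (x s.j) +
        plat (s.lo s.j) (s.hi s.j) s.w (x s.j) * s.g' (x s.j))
  else if m = s.j then
    -(plat' (s.lo s.i) (s.hi s.i) s.w (x s.i) * s.third x *
      (plat' (s.lo s.j) (s.hi s.j) s.w (x s.j) * s.g (x s.j) +
        plat (s.lo s.j) (s.hi s.j) s.w (x s.j) * s.g' (x s.j)))
  else 0

theorem sum_divTerm (s : Stage) (hij : s.i ≠ s.j) (x : Sp) : ∑ m : Fin 3, divTerm s x m = 0 := by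
  unfold divTerm
  generalize plat' (s.lo s.i) (s.hi s.i) s.w (x s.i) * s.third x *
      (plat' (s.lo s.j) (s.hi s.j) s.w (x s.j) * s.g (x s.j) +
        plat (s.lo s.j) (s.hi s.j) s.w (x s.j) * s.g' (x s.j)) = A
  have h : ∀ m : Fin 3, (if m = s.i then A else if m = s.j then -A else 0)
      = (if m = s.i then A else 0) + (if m = s.j then -A else 0) := by
    intro m
    by_cases h1 : m = s.i
    · simp [h1, hij]
    · by_cases h2 : m = s.j
      · simp [h2, hij.symm]
      · simp [h1, h2]
  simp only [h, Finset.sum_add_distrib, Finset.sum_ite_eq', Finset.mem_univ, if_true]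
  ring

private theorem hasDerivAt_shift {f : ℝ → ℝ} {f' : ℝ} (a : ℝ) (h : HasDerivAt f f' a) :
    HasDerivAt (fun σ : ℝ => f (a + σ)) f' 0 := by
  apply HasDerivAt.comp_const_add
  simpa using h

theorem hasDerivAt_field_line (s : Stage) (hij : s.i ≠ s.j) (x : Sp) (m : Fin 3) :
    HasDerivAt (fun σ : ℝ => s.field (x + σ • (Pi.single m 1 : Sp)) m) (divTerm s x m) 0 := by
  unfold divTerm
  by_cases h1 : m = s.i
  · subst h1
    simp only [if_true]
    have hfun : (fun σ : ℝ => s.field (x + σ • (Pi.single s.i 1 : Sp)) s.i)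
        = fun σ : ℝ => plat (s.lo s.i) (s.hi s.i) s.w (x s.i + σ) * s.third x *
            (plat' (s.lo s.j) (s.hi s.j) s.w (x s.j) * s.g (x s.j) +
              plat (s.lo s.j) (s.hi s.j) s.w (x s.j) * s.g' (x s.j)) := by
      funext σ
      rw [field_apply_i]
      have e1 : (x + σ • (Pi.single s.i 1 : Sp)) s.i = x s.i + σ := by simp
      have e2 : (x + σ • (Pi.single s.i 1 : Sp)) s.j = x s.j := by simp [Pi.single_eq_of_ne hij.symm]
      have e3 : s.third (x + σ • (Pi.single s.i 1 : Sp)) = s.third x := by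
        apply third_congr
        intro k hk _
        simp [Pi.single_eq_of_ne hk]
      rw [e1, e2, e3]
    rw [hfun]
    exact ((hasDerivAt_shift (x s.i) (hasDerivAt_plat _ _ _ (x s.i))).mul_const _).mul_const _
  · by_cases h2 : m = s.j
    · subst h2
      simp only [if_neg h1, if_true]
      have hfun : (fun σ : ℝ => s.field (x + σ • (Pi.single s.j 1 : Sp)) s.j)
          = fun σ : ℝ => -(plat' (s.lo s.i) (s.hi s.i) s.w (x s.i) * s.third x *
              (plat (s.lo s.j) (s.hi s.j) s.w (x s.j + σ) * s.g (x s.j + σ))) := by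
        funext σ
        rw [field_apply_j s hij]
        have e1 : (x + σ • (Pi.single s.j 1 : Sp)) s.j = x s.j + σ := by simp
        have e2 : (x + σ • (Pi.single s.j 1 : Sp)) s.i = x s.i := by simp [Pi.single_eq_of_ne hij]
        have e3 : s.third (x + σ • (Pi.single s.j 1 : Sp)) = s.third x := by
          apply third_congr
          intro k _ hk
          simp [Pi.single_eq_of_ne hk]
        rw [e1, e2, e3]
      rw [hfun]
      have hP := hasDerivAt_shift (x s.j) (hasDerivAt_plat (s.lo s.j) (s.hi s.j) s.w (x s.j))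
      have hG := hasDerivAt_shift (x s.j) (hasDerivAt_g s (x s.j))
      have hPG := hP.mul hG
      simp only [add_zero] at hPG
      exact (hPG.const_mul _).neg
    · simp only [if_neg h1, if_neg h2]
      have hfun : (fun σ : ℝ => s.field (x + σ • (Pi.single m 1 : Sp)) m) = fun _ => (0 : ℝ) := by
        funext σ
        exact field_apply_other s h1 h2 _
      rw [hfun]
      exact hasDerivAt_const _ _

theorem spaceDiv_fieldOf (L : List Stage) (hL : ∀ s ∈ L, s.Valid) (p : ℝ × Sp) :
    spaceDiv (fieldOf L) p = 0 := by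
  have hdiff : DifferentiableAt ℝ (fieldOf L) p :=
    ((contDiff_fieldOf L hL).differentiable (by simp)) p
  have key : ∀ m : Fin 3, fderiv ℝ (fieldOf L) p (0, Pi.single m 1) m
      = ∑ r : Fin L.length, slot' L.length r p.1 * divTerm (L.get r) p.2 m := by
    intro m
    -- derivative along the line, computed in two ways
    have hline : HasDerivAt (fun σ : ℝ => p + σ • ((0 : ℝ), (Pi.single m 1 : Sp)))
        ((0 : ℝ), (Pi.single m 1 : Sp)) 0 := by
      have := ((hasDerivAt_id (0 : ℝ)).smul_const ((0 : ℝ), (Pi.single m 1 : Sp))).const_add p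
      simpa using this
    have h1 : HasDerivAt (fun σ : ℝ => fieldOf L (p + σ • ((0 : ℝ), (Pi.single m 1 : Sp))))
        (fderiv ℝ (fieldOf L) p (0, Pi.single m 1)) 0 := by
      have hp : HasFDerivAt (fieldOf L) (fderiv ℝ (fieldOf L) p)
          (p + (0 : ℝ) • ((0 : ℝ), (Pi.single m 1 : Sp))) := by
        simpa using hdiff.hasFDerivAt
      exact hp.comp_hasDerivAt (0 : ℝ) hline
    have h1m : HasDerivAt (fun σ : ℝ => fieldOf L (p + σ • ((0 : ℝ), (Pi.single m 1 : Sp))) m)
        (fderiv ℝ (fieldOf L) p (0, Pi.single m 1) m) 0 := (hasDerivAt_pi.1 h1) m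
    have hfun : (fun σ : ℝ => fieldOf L (p + σ • ((0 : ℝ), (Pi.single m 1 : Sp))) m)
        = fun σ : ℝ => ∑ r : Fin L.length,
            slot' L.length r p.1 * (L.get r).field (p.2 + σ • (Pi.single m 1 : Sp)) m := by
      funext σ
      simp [fieldOf, Finset.sum_apply]
    have h2 : HasDerivAt (fun σ : ℝ => ∑ r : Fin L.length,
            slot' L.length r p.1 * (L.get r).field (p.2 + σ • (Pi.single m 1 : Sp)) m)
        (∑ r : Fin L.length, slot' L.length r p.1 * divTerm (L.get r) p.2 m) 0 := by
      apply HasDerivAt.fun_sum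
      intro r _
      exact (hasDerivAt_field_line (L.get r) (hL _ (List.get_mem L r)).1 p.2 m).const_mul _
    rw [hfun] at h1m
    exact h1m.unique h2
  unfold spaceDiv
  simp only [key]
  rw [Finset.sum_comm]
  apply Finset.sum_eq_zero
  intro r _
  rw [← Finset.mul_sum, sum_divTerm _ (hL _ (List.get_mem L r)).1, mul_zero]

end Crest.Agent.Lib_S0170_A
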