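import Mathlib
import Crest.Prelude.Def_BoxFlow
import Crest.Agent.Lib_S0170_Defs
import Crest.Agent.Lib_S0170_Basic

/-!
S0170, part [A] (two of the four statements): the field of a list of stages is smooth and
divergence-free in the space variables.  Uses only the API of `Lib_S0170_Basic`
(never unfolds the step function `sg`).
-/

set_option autoImplicit false

namespace Crest.Agent.Lib_S0170_ADiv

open Crest.AnalysisR.BoxFlow Crest.Agent.Lib_S0170_Defs Crest.Agent.Lib_S0170_Basic
open scoped ContDiff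

/-! ### smoothness -/

theorem contDiff_fieldOf (L : List Stage) (hL : ∀ s ∈ L, s.Valid) : ContDiff ℝ ∞ (fieldOf L) := by
  unfold fieldOf
  exact ContDiff.sum fun r _ =>
    ((slot'_contDiff _ _).comp contDiff_fst).smul ((field_contDiff _).comp contDiff_snd)

/-! ### divergence -/

/-- The partial derivative in direction `e_m` of the `m`-th component of the stage field. -/
noncomputable def dcomp (s : Stage) (x : Sp) (m : Fin 3) : ℝ :=
  if m = s.i then
    plat' (s.lo s.i) (s.hi s.i) s.w (x s.i) * s.third x *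
      (plat' (s.lo s.j) (s.hi s.j) s.w (x s.j) * s.g (x s.j) +
        plat (s.lo s.j) (s.hi s.j) s.w (x s.j) * s.g' (x s.j))
  else if m = s.j then
    -(plat' (s.lo s.i) (s.hi s.i) s.w (x s.i) * s.third x *
      (plat' (s.lo s.j) (s.hi s.j) s.w (x s.j) * s.g (x s.j) +
        plat (s.lo s.j) (s.hi s.j) s.w (x s.j) * s.g' (x s.j)))
  else 0

theorem dcomp_sum (s : Stage) (hij : s.i ≠ s.j) (x : Sp) : ∑ m : Fin 3, dcomp s x m = 0 := by
  obtain ⟨A, hA⟩ : ∃ A : ℝ, A = plat' (s.lo s.i) (s.hi s.i) s.w (x s.i) * s.third x *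
      (plat' (s.lo s.j) (s.hi s.j) s.w (x s.j) * s.g (x s.j) +
        plat (s.lo s.j) (s.hi s.j) s.w (x s.j) * s.g' (x s.j)) := ⟨_, rfl⟩
  have h : ∀ m : Fin 3, dcomp s x m = (if m = s.i then A else 0) + (if m = s.j then -A else 0) := by
    intro m
    unfold dcomp
    rw [← hA]
    by_cases h1 : m = s.i
    · have h2 : m ≠ s.j := fun h2 => hij (h1.symm.trans h2)
      rw [if_pos h1, if_pos h1, if_neg h2, add_zero]
    · by_cases h2 : m = s.j
      · simp only [if_neg h1, if_pos h2, zero_add]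
      · simp only [if_neg h1, if_neg h2, add_zero]
  simp only [h, Finset.sum_add_distrib, Finset.sum_ite_eq', Finset.mem_univ, if_true]
  ring

theorem third_line (s : Stage) (x : Sp) (m : Fin 3) (hm : m = s.i ∨ m = s.j) (σ : ℝ) :
    s.third (x + σ • Pi.single m (1 : ℝ)) = s.third x := by
  unfold Stage.third
  refine Finset.prod_congr rfl fun k hk => ?_
  have hk' := (Finset.mem_filter.1 hk).2
  have hkm : k ≠ m := by
    rcases hm with h | h
    · rw [h]; exact hk'.1
    · rw [h]; exact hk'.2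
  simp [hkm]

theorem field_line_hasDerivAt (s : Stage) (hij : s.i ≠ s.j) (x : Sp) (m : Fin 3) :
    HasDerivAt (fun σ : ℝ => s.field (x + σ • Pi.single m (1 : ℝ)) m) (dcomp s x m) 0 := by
  by_cases h1 : m = s.i
  · have hfun : (fun σ : ℝ => s.field (x + σ • Pi.single m (1 : ℝ)) m) = fun σ : ℝ =>
        plat (s.lo s.i) (s.hi s.i) s.w (x s.i + σ) * s.third x *
          (plat' (s.lo s.j) (s.hi s.j) s.w (x s.j) * s.g (x s.j) +
            plat (s.lo s.j) (s.hi s.j) s.w (x s.j) * s.g' (x s.j)) := by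
      funext σ
      rw [h1]
      unfold Stage.field
      rw [if_pos rfl, third_line s x s.i (Or.inl rfl) σ]
      simp [Ne.symm hij]
    rw [hfun]
    have hd : dcomp s x m = plat' (s.lo s.i) (s.hi s.i) s.w (x s.i + 0) * s.third x *
          (plat' (s.lo s.j) (s.hi s.j) s.w (x s.j) * s.g (x s.j) +
            plat (s.lo s.j) (s.hi s.j) s.w (x s.j) * s.g' (x s.j)) := by
      unfold dcomp
      rw [if_pos h1, add_zero]
    rw [hd]
    exact (((hasDerivAt_plat (s.lo s.i) (s.hi s.i) s.w (x s.i + 0)).comp_const_add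
      (x s.i) 0).mul_const _).mul_const _
  · by_cases h2 : m = s.j
    · have hji : s.j ≠ s.i := Ne.symm hij
      have hfun : (fun σ : ℝ => s.field (x + σ • Pi.single m (1 : ℝ)) m) = fun σ : ℝ =>
          -(plat' (s.lo s.i) (s.hi s.i) s.w (x s.i) * s.third x *
            (plat (s.lo s.j) (s.hi s.j) s.w (x s.j + σ) * s.g (x s.j + σ))) := by
        funext σ
        rw [h2]
        unfold Stage.field
        rw [if_neg hji, if_pos rfl, third_line s x s.j (Or.inr rfl) σ]
        simp [hij]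
      rw [hfun]
      have hd : dcomp s x m = -(plat' (s.lo s.i) (s.hi s.i) s.w (x s.i) * s.third x *
            (plat' (s.lo s.j) (s.hi s.j) s.w (x s.j + 0) * s.g (x s.j + 0) +
              plat (s.lo s.j) (s.hi s.j) s.w (x s.j + 0) * s.g' (x s.j + 0))) := by
        unfold dcomp
        rw [if_neg h1, if_pos h2, add_zero]
      rw [hd]
      have hC : HasDerivAt (fun y : ℝ => plat (s.lo s.j) (s.hi s.j) s.w y * s.g y)
          (plat' (s.lo s.j) (s.hi s.j) s.w (x s.j + 0) * s.g (x s.j + 0) +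
            plat (s.lo s.j) (s.hi s.j) s.w (x s.j + 0) * s.g' (x s.j + 0)) (x s.j + 0) :=
        (hasDerivAt_plat _ _ _ _).mul (hasDerivAt_g s _)
      exact ((hC.comp_const_add (x s.j) 0).const_mul _).neg
    · have hfun : (fun σ : ℝ => s.field (x + σ • Pi.single m (1 : ℝ)) m) = fun _ => 0 := by
        funext σ
        unfold Stage.field
        rw [if_neg h1, if_neg h2]
      have hd : dcomp s x m = 0 := by
        unfold dcomp
        rw [if_neg h1, if_neg h2]
      rw [hfun, hd]
      exact hasDerivAt_const _ _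

theorem fieldOf_line_hasDerivAt (L : List Stage) (hL : ∀ s ∈ L, s.Valid) (p : ℝ × Sp)
    (m : Fin 3) :
    HasDerivAt (fun σ : ℝ => fieldOf L (p + σ • ((0 : ℝ), (Pi.single m (1 : ℝ) : Sp))) m)
      (∑ r : Fin L.length, slot' L.length r p.1 * dcomp (L.get r) p.2 m) 0 := by
  have key : (fun σ : ℝ => fieldOf L (p + σ • ((0 : ℝ), (Pi.single m (1 : ℝ) : Sp))) m)
      = fun σ : ℝ => ∑ r : Fin L.length,
          slot' L.length r p.1 * (L.get r).field (p.2 + σ • Pi.single m (1 : ℝ)) m := by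
    funext σ
    simp [fieldOf, Finset.sum_apply]
  rw [key]
  exact HasDerivAt.fun_sum fun r _ =>
    (field_line_hasDerivAt (L.get r) (hL _ (List.get_mem L r)).1 p.2 m).const_mul _

theorem spaceDiv_fieldOf (L : List Stage) (hL : ∀ s ∈ L, s.Valid) (p : ℝ × Sp) :
    spaceDiv (fieldOf L) p = 0 := by
  have hd : DifferentiableAt ℝ (fieldOf L) p :=
    ((contDiff_fieldOf L hL).differentiable (by simp)) p
  have hm : ∀ m : Fin 3, fderiv ℝ (fieldOf L) p ((0 : ℝ), (Pi.single m (1 : ℝ) : Sp)) m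
      = ∑ r : Fin L.length, slot' L.length r p.1 * dcomp (L.get r) p.2 m := by
    intro m
    have hline : HasDerivAt (fun σ : ℝ => p + σ • ((0 : ℝ), (Pi.single m (1 : ℝ) : Sp)))
        ((0 : ℝ), (Pi.single m (1 : ℝ) : Sp)) 0 := by
      simpa using ((hasDerivAt_id (0 : ℝ)).smul_const
        ((0 : ℝ), (Pi.single m (1 : ℝ) : Sp))).const_add p
    have h0 : p + (0 : ℝ) • ((0 : ℝ), (Pi.single m (1 : ℝ) : Sp)) = p := by simp
    have hF : HasFDerivAt (fieldOf L) (fderiv ℝ (fieldOf L) p)
        (p + (0 : ℝ) • ((0 : ℝ), (Pi.single m (1 : ℝ) : Sp))) := by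
      rw [h0]; exact hd.hasFDerivAt
    have h1 : HasDerivAt (fun σ : ℝ => fieldOf L (p + σ • ((0 : ℝ), (Pi.single m (1 : ℝ) : Sp))))
        (fderiv ℝ (fieldOf L) p ((0 : ℝ), (Pi.single m (1 : ℝ) : Sp))) 0 := by
      have h := hF.comp_hasDerivAt (0 : ℝ) hline
      exact h
    exact ((hasDerivAt_pi.1 h1) m).unique (fieldOf_line_hasDerivAt L hL p m)
  unfold spaceDiv
  simp only [hm]
  rw [Finset.sum_comm]
  refine Finset.sum_eq_zero fun r _ => ?_
  rw [← Finset.mul_sum, dcomp_sum _ (hL _ (List.get_mem L r)).1, mul_zero]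

end Crest.Agent.Lib_S0170_ADiv
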