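import Mathlib
import Crest.Prelude.Def_BoxFlow
import Crest.Agent.Lib_S0170_Defs
import Crest.Agent.Lib_S0170_Basic

/-!
Adapter for S0170 [E]: the field of a list of stages is the value of a "program", i.e. a finite
list of tensor terms whose one-dimensional factors are finite rational combinations of
`y ^ e * psi (α * y + β)` (helper22's shapes).
-/

set_option autoImplicit false

namespace Crest.Agent.Lib_S0170_Adapter

open Crest.AnalysisR.BoxFlow Crest.Agent.Lib_S0170_Defs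

/-! ### local copy of the program shapes (to be replaced by the import of `Lib_S0170_Eff`) -/

/-- 1-D program: atoms `(c, e, α, β)` standing for `c * y ^ e * psi (α * y + β)`. -/
abbrev Prog1 : Type := List (ℚ × ℕ × ℚ × ℚ)

/-- Value of a 1-D program. -/
noncomputable def ev1 (L : Prog1) (y : ℝ) : ℝ :=
  (L.map fun a => (a.1 : ℝ) * y ^ a.2.1 * Lib_S0170_Fabius.psi (a.2.2.1 * y + a.2.2.2)).sum

/-- Tensor programs: (component, time factor, `x 0`-, `x 1`-, `x 2`-factor). -/
abbrev Prog : Type := List (Fin 3 × Prog1 × Prog1 × Prog1 × Prog1)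

/-- Value of a tensor program. -/
noncomputable def evalField (P : Prog) : Field := fun p =>
  (P.map fun T => (Pi.single T.1
    (ev1 T.2.1 p.1 * ev1 T.2.2.1 (p.2 0) * ev1 T.2.2.2.1 (p.2 1) * ev1 T.2.2.2.2 (p.2 2)) :
      Fin 3 → ℝ)).sum

/-! ### basic facts about `ev1` and `evalField` -/

@[simp] theorem ev1_nil (y : ℝ) : ev1 [] y = 0 := by simp [ev1]

@[simp] theorem ev1_cons (a : ℚ × ℕ × ℚ × ℚ) (L : Prog1) (y : ℝ) :
    ev1 (a :: L) y
      = (a.1 : ℝ) * y ^ a.2.1 * Lib_S0170_Fabius.psi (a.2.2.1 * y + a.2.2.2) + ev1 L y := by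
  simp [ev1]

@[simp] theorem ev1_append (L M : Prog1) (y : ℝ) : ev1 (L ++ M) y = ev1 L y + ev1 M y := by
  simp [ev1]

@[simp] theorem evalField_nil : evalField [] = 0 := by
  funext p; simp [evalField]

theorem evalField_append (P Q : Prog) : evalField (P ++ Q) = evalField P + evalField Q := by
  funext p; simp [evalField]

theorem evalField_flatten (Ps : List Prog) (p : ℝ × (Fin 3 → ℝ)) :
    evalField Ps.flatten p = (Ps.map fun P => evalField P p).sum := by
  induction Ps with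
  | nil => simp
  | cons P Ps ih =>
    simp [List.flatten_cons, evalField_append, ih]

/-! ### polynomial multiples -/

/-- Multiply a 1-D program by the polynomial `∑ c * y ^ e` over the list `cs` of `(c, e)`. -/
def polyMul (cs : List (ℚ × ℕ)) (P : Prog1) : Prog1 :=
  cs.flatMap fun ce => P.map fun a => (ce.1 * a.1, ce.2 + a.2.1, a.2.2.1, a.2.2.2)

/-- Value of a coefficient list. -/
def polyEval (cs : List (ℚ × ℕ)) (y : ℝ) : ℝ := (cs.map fun ce => (ce.1 : ℝ) * y ^ ce.2).sum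

theorem ev1_map_mul (c : ℚ) (e : ℕ) (P : Prog1) (y : ℝ) :
    ev1 (P.map fun a => (c * a.1, e + a.2.1, a.2.2.1, a.2.2.2)) y = (c : ℝ) * y ^ e * ev1 P y := by
  induction P with
  | nil => simp
  | cons a P ih =>
    simp only [List.map_cons, ev1_cons, ih]
    push_cast
    ring

theorem ev1_polyMul (cs : List (ℚ × ℕ)) (P : Prog1) (y : ℝ) :
    ev1 (polyMul cs P) y = polyEval cs y * ev1 P y := by
  induction cs with
  | nil => simp [polyMul, polyEval]
  | cons ce cs ih =>
    have h : polyMul (ce :: cs) P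
        = (P.map fun a => (ce.1 * a.1, ce.2 + a.2.1, a.2.2.1, a.2.2.2)) ++ polyMul cs P := by
      simp [polyMul]
    rw [h, ev1_append, ih, ev1_map_mul]
    simp [polyEval]
    ring

/-! ### the building blocks as programs -/

/-- Program of the plateau `plat lo hi w`. -/
def platP (lo hi w : ℚ) : Prog1 := [(1, 0, 1 / w, 1 - lo / w), (-1, 0, 1 / w, -(hi / w))]

/-- Program of `plat' lo hi w`. -/
def plat'P (lo hi w : ℚ) : Prog1 :=
  [(2 / w, 0, 2 / w, 2 - 2 * lo / w), (-(2 / w), 0, 2 / w, 1 - 2 * lo / w),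
   (-(2 / w), 0, 2 / w, -(2 * hi / w)), (2 / w, 0, 2 / w, -(2 * hi / w) - 1)]

/-- Program of `slot' K r`. -/
def slot'P (K r : ℕ) : Prog1 :=
  [(4 * K, 0, 4 * K, -(K : ℚ) - 2 * r), (-(4 * K), 0, 4 * K, -(K : ℚ) - 2 * r - 1)]

/-- Coefficients of the stream profile `g`. -/
def gC (s : Stage) : List (ℚ × ℕ) :=
  [(-(s.q1 * s.c) + s.q2 / 2 * s.c ^ 2, 0), (s.q1 - s.q2 * s.c, 1), (s.q2 / 2, 2)]

/-- Coefficients of `g'`. -/
def g'C (s : Stage) : List (ℚ × ℕ) := [(s.q1 - s.q2 * s.c, 0), (s.q2, 1)]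

theorem ev1_platP (lo hi w : ℚ) (y : ℝ) : ev1 (platP lo hi w) y = plat lo hi w y := by
  simp only [platP, ev1_cons, ev1_nil, plat, sg]
  push_cast
  have e1 : (1 / (w : ℝ)) * y + (1 - (lo : ℝ) / w) = (y - lo) / w + 1 := by ring
  have e2 : (1 / (w : ℝ)) * y + -((hi : ℝ) / w) = (y - hi) / w := by ring
  rw [e1, e2]
  ring

theorem ev1_plat'P (lo hi w : ℚ) (y : ℝ) : ev1 (plat'P lo hi w) y = plat' lo hi w y := by
  simp only [plat'P, ev1_cons, ev1_nil, plat', sg', sg]
  push_cast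
  have e1 : (2 / (w : ℝ)) * y + (2 - 2 * (lo : ℝ) / w) = 2 * ((y - lo) / w + 1) := by ring
  have e2 : (2 / (w : ℝ)) * y + (1 - 2 * (lo : ℝ) / w) = 2 * ((y - lo) / w + 1) - 1 := by ring
  have e3 : (2 / (w : ℝ)) * y + -(2 * (hi : ℝ) / w) = 2 * ((y - hi) / w) := by ring
  have e4 : (2 / (w : ℝ)) * y + (-(2 * (hi : ℝ) / w) - 1) = 2 * ((y - hi) / w) - 1 := by ring
  rw [e1, e2, e3, e4]
  ring

theorem ev1_slot'P (K r : ℕ) (t : ℝ) : ev1 (slot'P K r) t = slot' K r t := by
  simp only [slot'P, ev1_cons, ev1_nil, slot', sg', sg]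
  push_cast
  have e1 : (4 * (K : ℝ)) * t + (-(K : ℝ) - 2 * r) = 2 * (2 * (K : ℝ) * (t - 1 / 4) - r) := by ring
  have e2 : (4 * (K : ℝ)) * t + (-(K : ℝ) - 2 * r - 1)
      = 2 * (2 * (K : ℝ) * (t - 1 / 4) - r) - 1 := by ring
  rw [e1, e2]
  ring

theorem polyEval_gC (s : Stage) (y : ℝ) : polyEval (gC s) y = s.g y := by
  simp only [polyEval, gC, Stage.g, List.map_cons, List.map_nil, List.sum_cons, List.sum_nil]
  push_cast
  ring

theorem polyEval_g'C (s : Stage) (y : ℝ) : polyEval (g'C s) y = s.g' y := by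
  simp only [polyEval, g'C, Stage.g', List.map_cons, List.map_nil, List.sum_cons, List.sum_nil]
  push_cast
  ring

/-! ### the program of a stage -/

/-- Factor in the coordinate `m` of the `e_i`-term of the stage field. -/
def facI (s : Stage) (m : Fin 3) : Prog1 :=
  if m = s.i then platP (s.lo s.i) (s.hi s.i) s.w
  else if m = s.j then
    polyMul (gC s) (plat'P (s.lo s.j) (s.hi s.j) s.w) ++
      polyMul (g'C s) (platP (s.lo s.j) (s.hi s.j) s.w)
  else platP (s.lo m) (s.hi m) s.w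

/-- Factor in the coordinate `m` of the `e_j`-term of the stage field. -/
def facJ (s : Stage) (m : Fin 3) : Prog1 :=
  if m = s.i then plat'P (s.lo s.i) (s.hi s.i) s.w
  else if m = s.j then polyMul (gC s) (platP (s.lo s.j) (s.hi s.j) s.w)
  else platP (s.lo m) (s.hi m) s.w

/-- The two tensor terms of stage number `r` out of `K`. -/
def stageProg (K r : ℕ) (s : Stage) : Prog :=
  [(s.i, slot'P K r, facI s 0, facI s 1, facI s 2),
   (s.j, polyMul [(-1, 0)] (slot'P K r), facJ s 0, facJ s 1, facJ s 2)]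

theorem ev1_facI (s : Stage) (m : Fin 3) (y : ℝ) :
    ev1 (facI s m) y =
      if m = s.i then plat (s.lo s.i) (s.hi s.i) s.w y
      else if m = s.j then
        plat' (s.lo s.j) (s.hi s.j) s.w y * s.g y + plat (s.lo s.j) (s.hi s.j) s.w y * s.g' y
      else plat (s.lo m) (s.hi m) s.w y := by
  unfold facI
  split_ifs
  · exact ev1_platP _ _ _ _
  · rw [ev1_append, ev1_polyMul, ev1_polyMul, ev1_platP, ev1_plat'P, polyEval_gC, polyEval_g'C]
    ring
  · exact ev1_platP _ _ _ _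

theorem ev1_facJ (s : Stage) (m : Fin 3) (y : ℝ) :
    ev1 (facJ s m) y =
      if m = s.i then plat' (s.lo s.i) (s.hi s.i) s.w y
      else if m = s.j then plat (s.lo s.j) (s.hi s.j) s.w y * s.g y
      else plat (s.lo m) (s.hi m) s.w y := by
  unfold facJ
  split_ifs
  · exact ev1_plat'P _ _ _ _
  · rw [ev1_polyMul, ev1_platP, polyEval_gC]
    ring
  · exact ev1_platP _ _ _ _

theorem evalField_stageProg (K r : ℕ) (s : Stage) (hs : s.i ≠ s.j) (p : ℝ × (Fin 3 → ℝ)) :
    evalField (stageProg K r s) p = slot' K r p.1 • s.field p.2 := by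
  obtain ⟨t, x⟩ := p
  have hneg : ev1 (polyMul [(-1, 0)] (slot'P K r)) t = -slot' K r t := by
    rw [ev1_polyMul, ev1_slot'P]; simp [polyEval]
  funext m
  simp only [evalField, stageProg, List.map_cons, List.map_nil, List.sum_cons, List.sum_nil,
    ev1_facI, ev1_facJ, ev1_slot'P, hneg, Pi.add_apply, Pi.smul_apply,
    smul_eq_mul, add_zero, Stage.field, Stage.third]
  obtain ⟨i, j, q1, q2, c, lo, hi, w⟩ := s
  simp only at hs ⊢
  fin_cases i <;> fin_cases j <;> first | exact absurd rfl hs | skip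
  all_goals
    fin_cases m <;>
      simp [Finset.prod_filter, Fin.prod_univ_three] <;> ring

/-! ### the program of a list of stages -/

/-- The program of the field of a list of stages. -/
def progOf (L : List Stage) : Prog :=
  (List.ofFn fun r : Fin L.length => stageProg L.length r (L.get r)).flatten

theorem fieldOf_eq_evalField (L : List Stage) (hL : ∀ s ∈ L, s.Valid) :
    fieldOf L = evalField (progOf L) := by
  funext p
  rw [progOf, evalField_flatten, List.map_ofFn, List.sum_ofFn]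
  unfold fieldOf
  refine Finset.sum_congr rfl fun r _ => ?_
  rw [Function.comp_apply, evalField_stageProg _ _ _ (hL _ (List.get_mem L r)).1]

/-! ### support radius -/

/-- Outside a big cube no point lies in the support box of a stage. -/
theorem exists_stage_radius (s : Stage) :
    ∃ R : ℕ, ∀ x : Sp, (∃ j, (R : ℝ) < |x j|) → x ∉ s.supp := by
  refine ⟨⌈∑ m : Fin 3, (|(s.lo m : ℝ)| + |(s.hi m : ℝ)|) + |(s.w : ℝ)|⌉₊, ?_⟩
  rintro x ⟨j, hj⟩ hx
  have h1 := hx j
  have h2 : |x j| ≤ |(s.lo j : ℝ)| + |(s.hi j : ℝ)| + |(s.w : ℝ)| := by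
    rw [abs_le]
    constructor
    · have := neg_abs_le (s.lo j : ℝ)
      have := abs_nonneg (s.hi j : ℝ)
      have := le_abs_self (s.w : ℝ)
      linarith [h1.1]
    · have := le_abs_self (s.hi j : ℝ)
      have := abs_nonneg (s.lo j : ℝ)
      have := le_abs_self (s.w : ℝ)
      linarith [h1.2]
  have h3 : |(s.lo j : ℝ)| + |(s.hi j : ℝ)| ≤ ∑ m : Fin 3, (|(s.lo m : ℝ)| + |(s.hi m : ℝ)|) :=
    Finset.single_le_sum (f := fun m : Fin 3 => |(s.lo m : ℝ)| + |(s.hi m : ℝ)|)
      (fun m _ => by positivity) (Finset.mem_univ j)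
  have h4 := Nat.le_ceil (∑ m : Fin 3, (|(s.lo m : ℝ)| + |(s.hi m : ℝ)|) + |(s.w : ℝ)|)
  linarith

theorem exists_list_radius (L : List Stage) :
    ∃ R : ℕ, ∀ s ∈ L, ∀ x : Sp, (∃ j, (R : ℝ) < |x j|) → x ∉ s.supp := by
  induction L with
  | nil => exact ⟨0, by simp⟩
  | cons s L ih =>
    obtain ⟨R, hR⟩ := ih
    obtain ⟨R', hR'⟩ := exists_stage_radius s
    refine ⟨max R R', ?_⟩
    intro s' hs' x hx
    obtain ⟨j, hj⟩ := hx
    have hj' : ((max R R' : ℕ) : ℝ) = max (R : ℝ) (R' : ℝ) := by push_cast; rfl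
    rw [hj'] at hj
    rcases List.mem_cons.1 hs' with rfl | h
    · exact hR' x ⟨j, lt_of_le_of_lt (le_max_right _ _) hj⟩
    · exact hR s' h x ⟨j, lt_of_le_of_lt (le_max_left _ _) hj⟩

theorem fieldOf_support (L : List Stage) (hL : ∀ s ∈ L, s.Valid) :
    ∃ R : ℕ, ∀ p : ℝ × Sp, ((R : ℝ) < |p.1| ∨ ∃ j, (R : ℝ) < |p.2 j|) → fieldOf L p = 0 := by
  obtain ⟨R, hR⟩ := exists_list_radius L
  refine ⟨R + 1, ?_⟩
  intro p hp
  unfold fieldOf
  refine Finset.sum_eq_zero fun r _ => ?_
  rcases hp with ht | ⟨j, hj⟩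
  · have hK : (r : ℝ) + 1 ≤ (L.length : ℝ) := by
      have := r.2
      exact_mod_cast this
    have hr0 : (0 : ℝ) ≤ (r : ℕ) := Nat.cast_nonneg _
    have h1 : (1 : ℝ) < |p.1| := by
      have : (0 : ℝ) ≤ (R : ℝ) := Nat.cast_nonneg _
      push_cast at ht
      linarith
    rcases lt_abs.1 h1 with h | h
    · rw [Lib_S0170_Basic.slot'_eq_zero_of_ge, zero_smul]
      nlinarith
    · rw [Lib_S0170_Basic.slot'_eq_zero_of_le, zero_smul]
      nlinarith
  · have hx : p.2 ∉ (L.get r).supp := by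
      refine hR _ (List.get_mem L r) p.2 ⟨j, ?_⟩
      push_cast at hj
      linarith
    rw [Lib_S0170_Basic.field_eq_zero _ (hL _ (List.get_mem L r)) hx, smul_zero]

end Crest.Agent.Lib_S0170_Adapter
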