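import Mathlib
import Crest.Prelude.Def_BoxFlow

/-! # Tensor calculus for S0170 (package C)

Fields of the form `p ↦ f(t) * g₀(x₀) * g₁(x₁) * g₂(x₂)` in a single component, their mixed
derivatives, divergence, smoothness and support; linearity of `mixedDeriv` and `spaceDiv` on
smooth fields; one-dimensional Leibniz formula for `y ^ a * φ (α * y + β)`. -/

set_option autoImplicit false
open scoped ContDiff
open Crest.AnalysisR.BoxFlow

namespace Crest.Agent.Lib_S0170_Tensor

/-- Scalar tensor product `f(t) * g₀(x₀) * g₁(x₁) * g₂(x₂)`. -/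
def stens (f : ℝ → ℝ) (g : Fin 3 → ℝ → ℝ) : ℝ × (Fin 3 → ℝ) → ℝ :=
  fun p => f p.1 * (g 0 (p.2 0) * g 1 (p.2 1) * g 2 (p.2 2))

/-- The field whose only nonzero component is `c`, equal to the scalar tensor product. -/
def tens (f : ℝ → ℝ) (g : Fin 3 → ℝ → ℝ) (c : Fin 3) : Field :=
  fun p => Pi.single c (stens f g p)

theorem tens_apply (f : ℝ → ℝ) (g : Fin 3 → ℝ → ℝ) (c : Fin 3) (p : ℝ × (Fin 3 → ℝ)) (j : Fin 3) :
    tens f g c p j = if j = c then stens f g p else 0 := by
  simp [tens, Pi.single_apply]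

theorem tens_eq_smul (f : ℝ → ℝ) (g : Fin 3 → ℝ → ℝ) (c : Fin 3) :
    tens f g c = fun p => stens f g p • (Pi.single c (1 : ℝ) : Fin 3 → ℝ) := by
  funext p j
  simp [tens, Pi.single_apply]

theorem contDiff_stens {f : ℝ → ℝ} {g : Fin 3 → ℝ → ℝ} (hf : ContDiff ℝ ∞ f)
    (hg : ∀ j, ContDiff ℝ ∞ (g j)) : ContDiff ℝ ∞ (stens f g) := by
  have h0 := hg 0
  have h1 := hg 1
  have h2 := hg 2
  unfold stens
  fun_prop

theorem contDiff_tens {f : ℝ → ℝ} {g : Fin 3 → ℝ → ℝ} (hf : ContDiff ℝ ∞ f)
    (hg : ∀ j, ContDiff ℝ ∞ (g j)) (c : Fin 3) : ContDiff ℝ ∞ (tens f g c) := by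
  rw [tens_eq_smul]
  exact (contDiff_stens hf hg).smul contDiff_const

theorem direction_zero : direction 0 = ((1 : ℝ), (0 : Fin 3 → ℝ)) := by
  simp [direction]

theorem direction_succ (j : Fin 3) : direction j.succ = ((0 : ℝ), (Pi.single j 1 : Fin 3 → ℝ)) := by
  simp [direction]

/-- derivative of a scalar tensor product in a coordinate direction -/
theorem fderiv_stens {f : ℝ → ℝ} {g : Fin 3 → ℝ → ℝ} (hf : ContDiff ℝ ∞ f)
    (hg : ∀ j, ContDiff ℝ ∞ (g j)) (p : ℝ × (Fin 3 → ℝ)) (d : Fin 4) :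
    fderiv ℝ (stens f g) p (direction d) =
      stens (if d = 0 then deriv f else f) (fun j => if d = j.succ then deriv (g j) else g j) p := by
  have hdiff : DifferentiableAt ℝ (stens f g) p :=
    ((contDiff_stens hf hg).differentiable (by simp)).differentiableAt
  rw [← hdiff.lineDeriv_eq_fderiv, lineDeriv]
  have hfd : ∀ x, HasDerivAt f (deriv f x) x := fun x =>
    ((hf.differentiable (by simp)) x).hasDerivAt
  have hgd : ∀ j x, HasDerivAt (g j) (deriv (g j) x) x := fun j x =>
    (((hg j).differentiable (by simp)) x).hasDerivAt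
  fin_cases d
  · -- time direction
    have h1 : (fun t : ℝ => stens f g (p + t • direction 0)) =
        fun t : ℝ => f (p.1 + t) * (g 0 (p.2 0) * g 1 (p.2 1) * g 2 (p.2 2)) := by
      funext t
      simp [stens, direction_zero]
    have h2 : HasDerivAt (fun t : ℝ => f (p.1 + t) * (g 0 (p.2 0) * g 1 (p.2 1) * g 2 (p.2 2)))
        (deriv f p.1 * (g 0 (p.2 0) * g 1 (p.2 1) * g 2 (p.2 2))) 0 := by
      have := (hfd (p.1 + 0)).comp_const_add p.1 0
      simpa using this.mul_const (g 0 (p.2 0) * g 1 (p.2 1) * g 2 (p.2 2))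
    show deriv (fun t : ℝ => stens f g (p + t • direction 0)) 0 = _
    rw [h1, h2.deriv]
    simp [stens]
  · have h1 : (fun t : ℝ => stens f g (p + t • direction (1 : Fin 4))) =
        fun t : ℝ => f p.1 * (g 0 (p.2 0 + t) * g 1 (p.2 1) * g 2 (p.2 2)) := by
      funext t
      have : (1 : Fin 4) = (0 : Fin 3).succ := rfl
      rw [this, direction_succ]
      simp [stens]
    have h2 : HasDerivAt (fun t : ℝ => f p.1 * (g 0 (p.2 0 + t) * g 1 (p.2 1) * g 2 (p.2 2)))
        (f p.1 * (deriv (g 0) (p.2 0) * g 1 (p.2 1) * g 2 (p.2 2))) 0 := by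
      have := (hgd 0 (p.2 0 + 0)).comp_const_add (p.2 0) 0
      simpa using (((this.mul_const (g 1 (p.2 1))).mul_const (g 2 (p.2 2))).const_mul (f p.1))
    show deriv (fun t : ℝ => stens f g (p + t • direction (1 : Fin 4))) 0 = _
    rw [h1, h2.deriv]
    simp [stens, Fin.ext_iff]
  · have h1 : (fun t : ℝ => stens f g (p + t • direction (2 : Fin 4))) =
        fun t : ℝ => f p.1 * (g 0 (p.2 0) * g 1 (p.2 1 + t) * g 2 (p.2 2)) := by
      funext t
      have : (2 : Fin 4) = (1 : Fin 3).succ := rfl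
      rw [this, direction_succ]
      simp [stens]
    have h2 : HasDerivAt (fun t : ℝ => f p.1 * (g 0 (p.2 0) * g 1 (p.2 1 + t) * g 2 (p.2 2)))
        (f p.1 * (g 0 (p.2 0) * deriv (g 1) (p.2 1) * g 2 (p.2 2))) 0 := by
      have := (hgd 1 (p.2 1 + 0)).comp_const_add (p.2 1) 0
      simpa using (((this.const_mul (g 0 (p.2 0))).mul_const (g 2 (p.2 2))).const_mul (f p.1))
    show deriv (fun t : ℝ => stens f g (p + t • direction (2 : Fin 4))) 0 = _
    rw [h1, h2.deriv]
    simp [stens, Fin.ext_iff]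
  · have h1 : (fun t : ℝ => stens f g (p + t • direction (3 : Fin 4))) =
        fun t : ℝ => f p.1 * (g 0 (p.2 0) * g 1 (p.2 1) * g 2 (p.2 2 + t)) := by
      funext t
      have : (3 : Fin 4) = (2 : Fin 3).succ := rfl
      rw [this, direction_succ]
      simp [stens]
    have h2 : HasDerivAt (fun t : ℝ => f p.1 * (g 0 (p.2 0) * g 1 (p.2 1) * g 2 (p.2 2 + t)))
        (f p.1 * (g 0 (p.2 0) * g 1 (p.2 1) * deriv (g 2) (p.2 2))) 0 := by
      have := (hgd 2 (p.2 2 + 0)).comp_const_add (p.2 2) 0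
      simpa using ((this.const_mul (g 0 (p.2 0) * g 1 (p.2 1))).const_mul (f p.1))
    show deriv (fun t : ℝ => stens f g (p + t • direction (3 : Fin 4))) 0 = _
    rw [h1, h2.deriv]
    simp [stens, Fin.ext_iff]

theorem fderiv_tens {f : ℝ → ℝ} {g : Fin 3 → ℝ → ℝ} (hf : ContDiff ℝ ∞ f)
    (hg : ∀ j, ContDiff ℝ ∞ (g j)) (c : Fin 3) (p : ℝ × (Fin 3 → ℝ)) (d : Fin 4) :
    fderiv ℝ (tens f g c) p (direction d) =
      tens (if d = 0 then deriv f else f) (fun j => if d = j.succ then deriv (g j) else g j) c p := by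
  have hdiff : DifferentiableAt ℝ (stens f g) p :=
    ((contDiff_stens hf hg).differentiable (by simp)).differentiableAt
  rw [tens_eq_smul, tens_eq_smul]
  rw [fderiv_smul_const hdiff]
  simp [fderiv_stens hf hg]

theorem contDiff_iteratedDeriv {f : ℝ → ℝ} (hf : ContDiff ℝ ∞ f) (n : ℕ) :
    ContDiff ℝ ∞ (iteratedDeriv n f) := by
  rw [iteratedDeriv_eq_iterate]
  exact hf.iterate_deriv n

/-- **Mixed derivatives of a tensor field**: differentiate each factor as often as its direction
occurs in the list. -/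
theorem mixedDeriv_tens {f : ℝ → ℝ} {g : Fin 3 → ℝ → ℝ} (hf : ContDiff ℝ ∞ f)
    (hg : ∀ j, ContDiff ℝ ∞ (g j)) (c : Fin 3) (ds : List (Fin 4)) :
    mixedDeriv ds (tens f g c) =
      tens (iteratedDeriv (ds.count 0) f) (fun j => iteratedDeriv (ds.count j.succ) (g j)) c := by
  induction ds with
  | nil => simp [mixedDeriv]
  | cons d ds ih =>
    funext p
    show fderiv ℝ (mixedDeriv ds (tens f g c)) p (direction d) = _
    rw [ih, fderiv_tens (contDiff_iteratedDeriv hf _) (fun j => contDiff_iteratedDeriv (hg j) _)]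
    congr 1
    · by_cases hd : d = 0
      · subst hd
        simp [iteratedDeriv_succ]
      · simp [hd]
    · funext j
      by_cases hd : d = j.succ
      · subst hd
        simp [iteratedDeriv_succ]
      · simp [hd]

theorem contDiff_mixedDeriv {U : Field} (hU : ContDiff ℝ ∞ U) (ds : List (Fin 4)) :
    ContDiff ℝ ∞ (mixedDeriv ds U) := by
  induction ds with
  | nil => simpa [mixedDeriv] using hU
  | cons d ds ih =>
    show ContDiff ℝ ∞ (fun p => fderiv ℝ (mixedDeriv ds U) p (direction d))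
    exact (ih.fderiv_right (m := ∞) (by simp)).clm_apply contDiff_const

theorem mixedDeriv_zero (ds : List (Fin 4)) : mixedDeriv ds (0 : Field) = 0 := by
  induction ds with
  | nil => rfl
  | cons d ds ih =>
    funext p
    show fderiv ℝ (mixedDeriv ds (0 : Field)) p (direction d) = 0
    rw [ih]
    simp

theorem mixedDeriv_add {U V : Field} (hU : ContDiff ℝ ∞ U) (hV : ContDiff ℝ ∞ V)
    (ds : List (Fin 4)) : mixedDeriv ds (U + V) = mixedDeriv ds U + mixedDeriv ds V := by
  induction ds with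
  | nil => rfl
  | cons d ds ih =>
    funext p
    show fderiv ℝ (mixedDeriv ds (U + V)) p (direction d) =
      fderiv ℝ (mixedDeriv ds U) p (direction d) + fderiv ℝ (mixedDeriv ds V) p (direction d)
    rw [ih]
    have h1 : DifferentiableAt ℝ (mixedDeriv ds U) p :=
      ((contDiff_mixedDeriv hU ds).differentiable (by simp)).differentiableAt
    have h2 : DifferentiableAt ℝ (mixedDeriv ds V) p :=
      ((contDiff_mixedDeriv hV ds).differentiable (by simp)).differentiableAt
    rw [fderiv_add h1 h2]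
    rfl

theorem mixedDeriv_smul {U : Field} (hU : ContDiff ℝ ∞ U) (a : ℝ)
    (ds : List (Fin 4)) : mixedDeriv ds (a • U) = a • mixedDeriv ds U := by
  induction ds with
  | nil => rfl
  | cons d ds ih =>
    funext p
    show fderiv ℝ (mixedDeriv ds (a • U)) p (direction d) =
      a • fderiv ℝ (mixedDeriv ds U) p (direction d)
    rw [ih]
    have h1 : DifferentiableAt ℝ (mixedDeriv ds U) p :=
      ((contDiff_mixedDeriv hU ds).differentiable (by simp)).differentiableAt
    rw [fderiv_const_smul h1]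
    rfl

theorem mixedDeriv_neg {U : Field} (hU : ContDiff ℝ ∞ U)
    (ds : List (Fin 4)) : mixedDeriv ds (-U) = -mixedDeriv ds U := by
  have := mixedDeriv_smul hU (-1) ds
  simpa using this

theorem mixedDeriv_sub {U V : Field} (hU : ContDiff ℝ ∞ U) (hV : ContDiff ℝ ∞ V)
    (ds : List (Fin 4)) : mixedDeriv ds (U - V) = mixedDeriv ds U - mixedDeriv ds V := by
  have hV' : ContDiff ℝ ∞ (-V) := hV.neg
  rw [sub_eq_add_neg, mixedDeriv_add hU hV', mixedDeriv_neg hV, sub_eq_add_neg]

theorem contDiff_finset_sum {ι : Type*} (s : Finset ι) (U : ι → Field)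
    (hU : ∀ i ∈ s, ContDiff ℝ ∞ (U i)) : ContDiff ℝ ∞ (∑ i ∈ s, U i) := by
  have : (∑ i ∈ s, U i) = fun p => ∑ i ∈ s, U i p := by
    funext p; simp [Finset.sum_apply]
  rw [this]
  exact ContDiff.sum hU

theorem mixedDeriv_finset_sum {ι : Type*} (s : Finset ι) (U : ι → Field)
    (hU : ∀ i ∈ s, ContDiff ℝ ∞ (U i)) (ds : List (Fin 4)) :
    mixedDeriv ds (∑ i ∈ s, U i) = ∑ i ∈ s, mixedDeriv ds (U i) := by
  classical
  induction s using Finset.induction_on with
  | empty => simpa using mixedDeriv_zero ds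
  | insert a s ha ih =>
    rw [Finset.sum_insert ha, Finset.sum_insert ha]
    rw [mixedDeriv_add (hU a (Finset.mem_insert_self a s))
      (contDiff_finset_sum s U (fun i hi => hU i (Finset.mem_insert_of_mem hi)))]
    rw [ih (fun i hi => hU i (Finset.mem_insert_of_mem hi))]

theorem contDiff_list_sum (l : List Field) (hl : ∀ U ∈ l, ContDiff ℝ ∞ U) :
    ContDiff ℝ ∞ l.sum := by
  induction l with
  | nil => exact contDiff_const
  | cons U l ih =>
    rw [List.sum_cons]
    exact (hl U (by simp)).add (ih (fun V hV => hl V (by simp [hV])))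

theorem mixedDeriv_list_sum (l : List Field) (hl : ∀ U ∈ l, ContDiff ℝ ∞ U) (ds : List (Fin 4)) :
    mixedDeriv ds l.sum = (l.map (mixedDeriv ds)).sum := by
  induction l with
  | nil => simpa using mixedDeriv_zero ds
  | cons U l ih =>
    rw [List.sum_cons, List.map_cons, List.sum_cons,
      mixedDeriv_add (hl U (by simp)) (contDiff_list_sum l (fun V hV => hl V (by simp [hV]))),
      ih (fun V hV => hl V (by simp [hV]))]

/-! ### Divergence -/

theorem spaceDiv_eq_direction (U : Field) (p : ℝ × (Fin 3 → ℝ)) :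
    spaceDiv U p = ∑ j : Fin 3, fderiv ℝ U p (direction j.succ) j := by
  simp [spaceDiv, direction_succ]

theorem spaceDiv_tens {f : ℝ → ℝ} {g : Fin 3 → ℝ → ℝ} (hf : ContDiff ℝ ∞ f)
    (hg : ∀ j, ContDiff ℝ ∞ (g j)) (c : Fin 3) (p : ℝ × (Fin 3 → ℝ)) :
    spaceDiv (tens f g c) p = stens f (Function.update g c (deriv (g c))) p := by
  rw [spaceDiv_eq_direction]
  simp only [fderiv_tens hf hg, tens_apply]
  rw [Finset.sum_ite_eq' Finset.univ c]
  simp only [Finset.mem_univ, if_true]
  have hfun : (fun j : Fin 3 => if c = j then deriv (g j) else g j) =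
      Function.update g c (deriv (g c)) := by
    funext j
    by_cases hj : j = c
    · subst hj; simp
    · have : c ≠ j := fun h => hj h.symm
      simp [Function.update_of_ne hj, this]
  simp [hfun]

theorem spaceDiv_zero (p : ℝ × (Fin 3 → ℝ)) : spaceDiv (0 : Field) p = 0 := by
  simp [spaceDiv]

theorem spaceDiv_add {U V : Field} {p : ℝ × (Fin 3 → ℝ)} (hU : DifferentiableAt ℝ U p)
    (hV : DifferentiableAt ℝ V p) : spaceDiv (U + V) p = spaceDiv U p + spaceDiv V p := by
  simp [spaceDiv, fderiv_add hU hV, Finset.sum_add_distrib]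

theorem spaceDiv_smul {U : Field} {p : ℝ × (Fin 3 → ℝ)} (hU : DifferentiableAt ℝ U p) (a : ℝ) :
    spaceDiv (a • U) p = a * spaceDiv U p := by
  simp [spaceDiv, fderiv_const_smul hU, Finset.mul_sum]

theorem spaceDiv_neg {U : Field} {p : ℝ × (Fin 3 → ℝ)} (hU : DifferentiableAt ℝ U p) :
    spaceDiv (-U) p = -spaceDiv U p := by
  have := spaceDiv_smul hU (-1)
  simpa using this

theorem spaceDiv_sub {U V : Field} {p : ℝ × (Fin 3 → ℝ)} (hU : DifferentiableAt ℝ U p)
    (hV : DifferentiableAt ℝ V p) : spaceDiv (U - V) p = spaceDiv U p - spaceDiv V p := by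
  have hV' : DifferentiableAt ℝ (-V) p := hV.neg
  rw [sub_eq_add_neg, spaceDiv_add hU hV', spaceDiv_neg hV, sub_eq_add_neg]

theorem spaceDiv_list_sum (l : List Field) (p : ℝ × (Fin 3 → ℝ))
    (hl : ∀ U ∈ l, DifferentiableAt ℝ U p) :
    spaceDiv l.sum p = (l.map (fun U => spaceDiv U p)).sum := by
  induction l with
  | nil => simpa using spaceDiv_zero p
  | cons U l ih =>
    have hsum : DifferentiableAt ℝ l.sum p := by
      clear ih
      induction l with
      | nil => exact differentiableAt_const _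
      | cons V l ih2 =>
        rw [List.sum_cons]
        exact (hl V (by simp)).add (ih2 (fun W hW => hl W (by
          rcases List.mem_cons.1 hW with h | h
          · simp [h]
          · simp [h])))
    rw [List.sum_cons, List.map_cons, List.sum_cons, spaceDiv_add (hl U (by simp)) hsum,
      ih (fun V hV => hl V (by simp [hV]))]

theorem spaceDiv_finset_sum {ι : Type*} (s : Finset ι) (U : ι → Field) (p : ℝ × (Fin 3 → ℝ))
    (hU : ∀ i ∈ s, DifferentiableAt ℝ (U i) p) :
    spaceDiv (∑ i ∈ s, U i) p = ∑ i ∈ s, spaceDiv (U i) p := by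
  classical
  induction s using Finset.induction_on with
  | empty => simpa using spaceDiv_zero p
  | insert a s ha ih =>
    have hsum : DifferentiableAt ℝ (∑ i ∈ s, U i) p := by
      have : (∑ i ∈ s, U i) = fun q => ∑ i ∈ s, U i q := by
        funext q; simp [Finset.sum_apply]
      rw [this]
      exact DifferentiableAt.fun_sum (fun i hi => hU i (Finset.mem_insert_of_mem hi))
    rw [Finset.sum_insert ha, Finset.sum_insert ha,
      spaceDiv_add (hU a (Finset.mem_insert_self a s)) hsum,
      ih (fun i hi => hU i (Finset.mem_insert_of_mem hi))]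

/-- **Stream-function fields are divergence free**: the field with `a`-component
`f ⊗ (∂_b G)` and `b`-component `-f ⊗ (∂_a G)` (where `G = g₀ ⊗ g₁ ⊗ g₂`), `a ≠ b`. -/
theorem spaceDiv_stream {f : ℝ → ℝ} {g : Fin 3 → ℝ → ℝ} (hf : ContDiff ℝ ∞ f)
    (hg : ∀ j, ContDiff ℝ ∞ (g j)) (a b : Fin 3) (hab : a ≠ b) (p : ℝ × (Fin 3 → ℝ)) :
    spaceDiv (tens f (Function.update g b (deriv (g b))) a -
      tens f (Function.update g a (deriv (g a))) b) p = 0 := by
  have hd : ∀ j, ContDiff ℝ ∞ (deriv (g j)) := fun j => by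
    have := contDiff_iteratedDeriv (hg j) 1
    simpa [iteratedDeriv_one] using this
  have hg1 : ∀ j, ContDiff ℝ ∞ (Function.update g b (deriv (g b)) j) := fun j => by
    by_cases h : j = b
    · subst h; simpa using hd j
    · simpa [Function.update_of_ne h] using hg j
  have hg2 : ∀ j, ContDiff ℝ ∞ (Function.update g a (deriv (g a)) j) := fun j => by
    by_cases h : j = a
    · subst h; simpa using hd j
    · simpa [Function.update_of_ne h] using hg j
  have hU1 : DifferentiableAt ℝ (tens f (Function.update g b (deriv (g b))) a) p :=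
    ((contDiff_tens hf hg1 a).differentiable (by simp)).differentiableAt
  have hU2 : DifferentiableAt ℝ (tens f (Function.update g a (deriv (g a))) b) p :=
    ((contDiff_tens hf hg2 b).differentiable (by simp)).differentiableAt
  rw [spaceDiv_sub hU1 hU2, spaceDiv_tens hf hg1, spaceDiv_tens hf hg2]
  have hba : b ≠ a := fun h => hab h.symm
  rw [Function.update_of_ne hab, Function.update_of_ne hba, Function.update_comm hab]
  exact sub_self _

/-! ### Supports -/

theorem stens_eq_zero_of_time {f : ℝ → ℝ} (g : Fin 3 → ℝ → ℝ) {p : ℝ × (Fin 3 → ℝ)}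
    (h : f p.1 = 0) : stens f g p = 0 := by
  simp [stens, h]

theorem tens_eq_zero_of_time {f : ℝ → ℝ} (g : Fin 3 → ℝ → ℝ) (c : Fin 3)
    {p : ℝ × (Fin 3 → ℝ)} (h : f p.1 = 0) : tens f g c p = 0 := by
  simp [tens, stens_eq_zero_of_time g h]

theorem tens_eq_zero_of_space (f : ℝ → ℝ) {g : Fin 3 → ℝ → ℝ} (c : Fin 3)
    {p : ℝ × (Fin 3 → ℝ)} (j : Fin 3) (h : g j (p.2 j) = 0) : tens f g c p = 0 := by
  have : stens f g p = 0 := by
    fin_cases j <;> simp_all [stens]
  simp [tens, this]

theorem hasCompactSupport_tens {f : ℝ → ℝ} {g : Fin 3 → ℝ → ℝ} (hf : HasCompactSupport f)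
    (hg : ∀ j, HasCompactSupport (g j)) (c : Fin 3) : HasCompactSupport (tens f g c) := by
  have hK : IsCompact ((tsupport f) ×ˢ (Set.univ.pi fun j : Fin 3 => tsupport (g j))) :=
    hf.prod (isCompact_univ_pi fun j => hg j)
  refine HasCompactSupport.intro hK ?_
  intro p hp
  rw [Set.mem_prod, not_and_or] at hp
  rcases hp with hp | hp
  · exact tens_eq_zero_of_time g c (image_eq_zero_of_notMem_tsupport hp)
  · simp only [Set.mem_pi, Set.mem_univ, true_implies, not_forall] at hp
    obtain ⟨j, hj⟩ := hp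
    exact tens_eq_zero_of_space f c j (image_eq_zero_of_notMem_tsupport hj)

theorem hasCompactSupport_list_sum (l : List Field) (hl : ∀ U ∈ l, HasCompactSupport U) :
    HasCompactSupport l.sum := by
  induction l with
  | nil => exact HasCompactSupport.zero
  | cons U l ih =>
    rw [List.sum_cons]
    exact (hl U (by simp)).add (ih (fun V hV => hl V (by simp [hV])))

theorem hasCompactSupport_finset_sum {ι : Type*} (s : Finset ι) (U : ι → Field)
    (hU : ∀ i ∈ s, HasCompactSupport (U i)) : HasCompactSupport (∑ i ∈ s, U i) := by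
  classical
  induction s using Finset.induction_on with
  | empty => simpa using (HasCompactSupport.zero : HasCompactSupport (0 : Field))
  | insert a s ha ih =>
    rw [Finset.sum_insert ha]
    exact (hU a (Finset.mem_insert_self a s)).add
      (ih (fun i hi => hU i (Finset.mem_insert_of_mem hi)))

/-! ### One-dimensional atoms -/

theorem iteratedDeriv_comp_affine {φ : ℝ → ℝ} (hφ : ContDiff ℝ ∞ φ) (m : ℕ) (α β : ℝ) :
    iteratedDeriv m (fun y => φ (α * y + β)) = fun y => α ^ m * iteratedDeriv m φ (α * y + β) := by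
  have h1 : ContDiff ℝ m (fun z => φ (z + β)) :=
    (hφ.comp (contDiff_id.add contDiff_const)).of_le (by exact_mod_cast le_top)
  have := iteratedDeriv_comp_const_mul h1 α
  rw [this]
  funext y
  rw [iteratedDeriv_comp_add_const]

theorem contDiff_comp_affine {φ : ℝ → ℝ} (hφ : ContDiff ℝ ∞ φ) (α β : ℝ) :
    ContDiff ℝ ∞ (fun y => φ (α * y + β)) :=
  hφ.comp ((contDiff_const.mul contDiff_id).add contDiff_const)

/-- Leibniz formula for the atoms `y ^ a * φ (α * y + β)`. -/
theorem iteratedDeriv_pow_mul_comp {φ : ℝ → ℝ} (hφ : ContDiff ℝ ∞ φ) (a m : ℕ) (α β y : ℝ) :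
    iteratedDeriv m (fun y => y ^ a * φ (α * y + β)) y =
      ∑ i ∈ Finset.range (m + 1), (m.choose i : ℝ) * ((a.descFactorial i : ℝ) * y ^ (a - i)) *
        (α ^ (m - i) * iteratedDeriv (m - i) φ (α * y + β)) := by
  have h1 : ContDiffAt ℝ m (fun y : ℝ => y ^ a) y :=
    (contDiff_id.pow a).contDiffAt
  have h2 : ContDiffAt ℝ m (fun y : ℝ => φ (α * y + β)) y :=
    ((contDiff_comp_affine hφ α β).of_le (by exact_mod_cast le_top)).contDiffAt
  have := iteratedDeriv_fun_mul h1 h2
  rw [this]
  refine Finset.sum_congr rfl (fun i _ => ?_)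
  rw [iteratedDeriv_comp_affine hφ, iteratedDeriv_pow]

theorem contDiff_pow_mul_comp {φ : ℝ → ℝ} (hφ : ContDiff ℝ ∞ φ) (a : ℕ) (α β : ℝ) :
    ContDiff ℝ ∞ (fun y => y ^ a * φ (α * y + β)) :=
  (contDiff_id.pow a).mul (contDiff_comp_affine hφ α β)

end Crest.Agent.Lib_S0170_Tensor
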