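import Mathlib
import Crest.Prelude.Def_BoxFlow
import Crest.Agent.Lib_S0170_Defs
import Crest.Agent.Lib_S0170_Tensor
import Crest.Agent.Lib_S0170_Adapter

/-!
S0170 [E], D1 (second seat / hedge): syntactic differentiation of programs, against the program
shapes of `Lib_S0170_Adapter` (`Prog1`, `ev1`, `Prog`, `evalField`).
-/

set_option autoImplicit false

namespace Crest.Agent.Lib_S0170_AdapterCalc

open Crest.AnalysisR.BoxFlow Crest.Agent.Lib_S0170_Defs Crest.Agent.Lib_S0170_Adapter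
open Crest.Agent.Lib_S0170_Tensor
open scoped ContDiff

/-- The derivative of the atom `c * y ^ e * psi (α * y + β)`, as a program. -/
def d1Atom (a : ℚ × ℕ × ℚ × ℚ) : Prog1 :=
  [(a.1 * a.2.1, a.2.1 - 1, a.2.2.1, a.2.2.2),
   (2 * a.1 * a.2.2.1, a.2.1, 2 * a.2.2.1, 2 * a.2.2.2),
   (-(2 * a.1 * a.2.2.1), a.2.1, 2 * a.2.2.1, 2 * a.2.2.2 - 1)]

/-- The derivative of a 1-D program. -/
def d1 (L : Prog1) : Prog1 := L.flatMap d1Atom

@[simp] theorem d1_nil : d1 [] = [] := rfl

@[simp] theorem d1_cons (a : ℚ × ℕ × ℚ × ℚ) (L : Prog1) : d1 (a :: L) = d1Atom a ++ d1 L := by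
  simp [d1]

theorem hasDerivAt_atom (a : ℚ × ℕ × ℚ × ℚ) (y : ℝ) :
    HasDerivAt (fun y : ℝ => (a.1 : ℝ) * y ^ a.2.1 * Lib_S0170_Fabius.psi (a.2.2.1 * y + a.2.2.2))
      (ev1 (d1Atom a) y) y := by
  obtain ⟨c, e, α, β⟩ := a
  have h1 : HasDerivAt (fun y : ℝ => (c : ℝ) * y ^ e) ((c : ℝ) * ((e : ℝ) * y ^ (e - 1))) y :=
    (hasDerivAt_pow e y).const_mul (c : ℝ)
  have h2 : HasDerivAt (fun y : ℝ => (α : ℝ) * y + β) (α : ℝ) y := by
    simpa using ((hasDerivAt_id y).const_mul (α : ℝ)).add_const (β : ℝ)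
  have h3 := (Lib_S0170_Fabius.psi_hasDerivAt ((α : ℝ) * y + β)).comp y h2
  have h4 : HasDerivAt (fun y : ℝ => (c : ℝ) * y ^ e * Lib_S0170_Fabius.psi ((α : ℝ) * y + β))
      ((c : ℝ) * ((e : ℝ) * y ^ (e - 1)) * Lib_S0170_Fabius.psi ((α : ℝ) * y + β) +
        (c : ℝ) * y ^ e * ((2 * Lib_S0170_Fabius.psi (2 * ((α : ℝ) * y + β)) -
          2 * Lib_S0170_Fabius.psi (2 * ((α : ℝ) * y + β) - 1)) * α)) y := h1.mul h3
  refine h4.congr_deriv ?_
  simp only [d1Atom, ev1_cons, ev1_nil]
  push_cast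
  have e1 : 2 * (α : ℝ) * y + 2 * (β : ℝ) = 2 * ((α : ℝ) * y + β) := by ring
  have e2 : 2 * (α : ℝ) * y + (2 * (β : ℝ) - 1) = 2 * ((α : ℝ) * y + β) - 1 := by ring
  rw [e1, e2]
  ring

theorem hasDerivAt_ev1 (L : Prog1) (y : ℝ) : HasDerivAt (ev1 L) (ev1 (d1 L) y) y := by
  induction L with
  | nil =>
    have : ev1 [] = fun _ => (0 : ℝ) := by funext y; simp
    rw [this]
    simpa using hasDerivAt_const y (0 : ℝ)
  | cons a L ih =>
    have : ev1 (a :: L) = fun y : ℝ =>
        (a.1 : ℝ) * y ^ a.2.1 * Lib_S0170_Fabius.psi (a.2.2.1 * y + a.2.2.2) + ev1 L y := by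
      funext y; simp
    rw [this, d1_cons, ev1_append]
    exact (hasDerivAt_atom a y).add ih

theorem deriv_ev1 (L : Prog1) : deriv (ev1 L) = ev1 (d1 L) :=
  funext fun y => (hasDerivAt_ev1 L y).deriv

theorem contDiff_ev1 (L : Prog1) : ContDiff ℝ ∞ (ev1 L) := by
  induction L with
  | nil =>
    have : ev1 [] = fun _ => (0 : ℝ) := by funext y; simp
    rw [this]
    exact contDiff_const
  | cons a L ih =>
    have : ev1 (a :: L) = fun y : ℝ =>
        (a.1 : ℝ) * y ^ a.2.1 * Lib_S0170_Fabius.psi (a.2.2.1 * y + a.2.2.2) + ev1 L y := by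
      funext y; simp
    rw [this]
    refine ContDiff.add ?_ ih
    refine ContDiff.mul (contDiff_const.mul (contDiff_id.pow _)) ?_
    exact Lib_S0170_Fabius.psi_contDiff.comp ((contDiff_const.mul contDiff_id).add contDiff_const)

/-! ### tensor terms -/

/-- The field of one tensor term. -/
noncomputable def termF (T : Fin 3 × Prog1 × Prog1 × Prog1 × Prog1) : Field :=
  tens (ev1 T.2.1) (fun j => ev1 (![T.2.2.1, T.2.2.2.1, T.2.2.2.2] j)) T.1

theorem evalField_cons (T : Fin 3 × Prog1 × Prog1 × Prog1 × Prog1) (P : Prog) :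
    evalField (T :: P) = termF T + evalField P := by
  funext p
  simp [evalField, termF, tens, stens, mul_assoc]

theorem contDiff_termF (T : Fin 3 × Prog1 × Prog1 × Prog1 × Prog1) : ContDiff ℝ ∞ (termF T) :=
  contDiff_tens (contDiff_ev1 _) (fun _ => contDiff_ev1 _) _

theorem contDiff_evalField (P : Prog) : ContDiff ℝ ∞ (evalField P) := by
  induction P with
  | nil => rw [evalField_nil]; exact contDiff_const
  | cons T P ih => rw [evalField_cons]; exact (contDiff_termF T).add ih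

/-- Differentiate a tensor term in the space-time direction `d`. -/
def dTerm (d : Fin 4) (T : Fin 3 × Prog1 × Prog1 × Prog1 × Prog1) :
    Fin 3 × Prog1 × Prog1 × Prog1 × Prog1 :=
  (T.1, if d = 0 then d1 T.2.1 else T.2.1, if d = 1 then d1 T.2.2.1 else T.2.2.1,
    if d = 2 then d1 T.2.2.2.1 else T.2.2.2.1, if d = 3 then d1 T.2.2.2.2 else T.2.2.2.2)

/-- Differentiate a program in the space-time direction `d`. -/
def dProg (d : Fin 4) (P : Prog) : Prog := P.map (dTerm d)

theorem fderiv_termF (T : Fin 3 × Prog1 × Prog1 × Prog1 × Prog1) (p : ℝ × (Fin 3 → ℝ))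
    (d : Fin 4) : fderiv ℝ (termF T) p (direction d) = termF (dTerm d T) p := by
  unfold termF
  rw [fderiv_tens (contDiff_ev1 _) (fun _ => contDiff_ev1 _)]
  congr 1
  · by_cases hd : d = 0
    · simp [hd, dTerm, deriv_ev1]
    · simp [hd, dTerm]
  · funext j
    fin_cases j <;> fin_cases d <;> simp [dTerm, deriv_ev1]

theorem fderiv_evalField (P : Prog) (d : Fin 4) (p : ℝ × (Fin 3 → ℝ)) :
    fderiv ℝ (evalField P) p (direction d) = evalField (dProg d P) p := by
  induction P with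
  | nil =>
    simp [dProg]
  | cons T P ih =>
    have h1 : DifferentiableAt ℝ (termF T) p :=
      ((contDiff_termF T).differentiable (by simp)).differentiableAt
    have h2 : DifferentiableAt ℝ (evalField P) p :=
      ((contDiff_evalField P).differentiable (by simp)).differentiableAt
    have h3 : dProg d (T :: P) = dTerm d T :: dProg d P := rfl
    rw [evalField_cons, fderiv_add h1 h2, h3, evalField_cons]
    simp [fderiv_termF, ih]

theorem mixedDeriv_evalField (ds : List (Fin 4)) (P : Prog) :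
    mixedDeriv ds (evalField P) = evalField (ds.foldr dProg P) := by
  induction ds with
  | nil => rfl
  | cons d ds ih =>
    funext p
    show fderiv ℝ (mixedDeriv ds (evalField P)) p (direction d) = _
    rw [ih, fderiv_evalField]
    rfl

end Crest.Agent.Lib_S0170_AdapterCalc
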