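import Mathlib

/-!
# Primitive recursive integer arithmetic (package B0 of the S0170 project)

Mathlib's `Primcodable ℤ` instance is `Primcodable.ofDenumerable ℤ` with `Denumerable.int`
(code of `z` = `Equiv.intEquivNat z`).  Mathlib has no computability lemmas for `ℤ`; this file
provides them: all basic operations on `ℤ` are `Primrec` (hence `Computable`).
-/

set_option autoImplicit false

namespace Crest.Agent.Lib_S0170_CompInt

open Encodable

variable {α σ : Type*} [Primcodable α] [Primcodable σ]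

theorem encode_toSum (z : ℤ) : encode (Equiv.intEquivNatSumNat z) = encode z := by
  cases z <;> rfl

theorem encode_ofSum (s : ℕ ⊕ ℕ) : encode (Equiv.intEquivNatSumNat.symm s) = encode s := by
  cases s <;> rfl

/-- `ℤ → ℕ ⊕ ℕ` (nonnegative `n ↦ inl n`, `-(n+1) ↦ inr n`) is primitive recursive. -/
theorem primrec_toSum : Primrec (Equiv.intEquivNatSumNat : ℤ → ℕ ⊕ ℕ) :=
  Primrec.encode_iff.1 (Primrec.encode.of_eq fun z => (encode_toSum z).symm)

theorem primrec_ofSum : Primrec (Equiv.intEquivNatSumNat.symm : ℕ ⊕ ℕ → ℤ) :=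
  Primrec.encode_iff.1 (Primrec.encode.of_eq fun z => (encode_ofSum z).symm)

theorem primrec_ofNat : Primrec (Int.ofNat : ℕ → ℤ) :=
  (primrec_ofSum.comp Primrec.sumInl).of_eq fun _ => rfl

theorem primrec_natCast : Primrec (fun n : ℕ => (n : ℤ)) := primrec_ofNat

theorem primrec_negSucc : Primrec (Int.negSucc : ℕ → ℤ) :=
  (primrec_ofSum.comp Primrec.sumInr).of_eq fun _ => rfl

/-- Case analysis on an integer is primitive recursive. -/
theorem int_casesOn {f : α → ℤ} {g : α → ℕ → σ} {h : α → ℕ → σ} (hf : Primrec f)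
    (hg : Primrec₂ g) (hh : Primrec₂ h) :
    Primrec (fun a => (Int.casesOn (f a) (g a) (h a) : σ)) :=
  (Primrec.sumCasesOn (primrec_toSum.comp hf) hg hh).of_eq fun a => by
    cases f a <;> rfl

theorem primrec_natAbs : Primrec Int.natAbs :=
  (int_casesOn (f := fun z : ℤ => z) (g := fun _ n => n) (h := fun _ n => n + 1) Primrec.id
    Primrec₂.right (Primrec.succ.comp₂ Primrec₂.right)).of_eq fun z => by cases z <;> rfl

theorem primrec_toNat : Primrec Int.toNat :=
  (int_casesOn (f := fun z : ℤ => z) (g := fun _ n => n) (h := fun _ _ => 0) Primrec.id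
    Primrec₂.right (Primrec₂.const 0)).of_eq fun z => by cases z <;> rfl

/-- `decide (0 ≤ z)` is primitive recursive. -/
theorem primrec_nonneg : PrimrecPred (fun z : ℤ => 0 ≤ z) := by
  refine primrecPred_iff_primrec_decide.2 ?_
  refine (int_casesOn (f := fun z : ℤ => z) (g := fun _ _ => true) (h := fun _ _ => false)
    Primrec.id (Primrec₂.const true) (Primrec₂.const false)).of_eq fun z => ?_
  cases z with
  | ofNat n => simp
  | negSucc n => simp [Int.negSucc_not_nonneg]

theorem primrec_negOfNat : Primrec Int.negOfNat :=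
  (Primrec.nat_casesOn (f := fun n : ℕ => n) (g := fun _ => (0 : ℤ))
    (h := fun _ m => Int.negSucc m) Primrec.id (Primrec.const 0)
    (primrec_negSucc.comp₂ Primrec₂.right)).of_eq fun n => by cases n <;> rfl

theorem primrec_neg : Primrec (Neg.neg : ℤ → ℤ) :=
  (int_casesOn (f := fun z : ℤ => z) (g := fun _ n => Int.negOfNat n)
    (h := fun _ n => Int.ofNat (n + 1)) Primrec.id (primrec_negOfNat.comp₂ Primrec₂.right)
    (primrec_ofNat.comp₂ (Primrec.succ.comp₂ Primrec₂.right))).of_eq fun z => by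
      cases z <;> rfl

theorem primrec_subNatNat : Primrec₂ Int.subNatNat := by
  have h : Primrec (fun p : ℕ × ℕ =>
      (Nat.casesOn (p.2 - p.1) (Int.ofNat (p.1 - p.2)) (fun k => Int.negSucc k) : ℤ)) :=
    Primrec.nat_casesOn (f := fun p : ℕ × ℕ => p.2 - p.1)
      (g := fun p : ℕ × ℕ => Int.ofNat (p.1 - p.2)) (h := fun _ k => Int.negSucc k)
      (Primrec.nat_sub.comp Primrec.snd Primrec.fst)
      (primrec_ofNat.comp (Primrec.nat_sub.comp Primrec.fst Primrec.snd))
      (primrec_negSucc.comp₂ Primrec₂.right)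
  refine h.of_eq fun p => ?_
  rcases p with ⟨m, n⟩
  simp only [Int.subNatNat]
  cases n - m <;> rfl

theorem primrec_add : Primrec₂ ((· + ·) : ℤ → ℤ → ℤ) := by
  have h1 : Primrec₂ (fun (p : ℤ × ℤ) (m : ℕ) =>
      (Int.casesOn p.2 (fun n => Int.ofNat (m + n)) (fun n => Int.subNatNat m (n + 1)) : ℤ)) :=
    int_casesOn (f := fun q : (ℤ × ℤ) × ℕ => q.1.2) (g := fun q n => Int.ofNat (q.2 + n))
      (h := fun q n => Int.subNatNat q.2 (n + 1)) (Primrec.snd.comp Primrec.fst)
      (primrec_ofNat.comp₂ (Primrec.nat_add.comp₂ (Primrec.snd.comp₂ Primrec₂.left) Primrec₂.right))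
      (primrec_subNatNat.comp₂ (Primrec.snd.comp₂ Primrec₂.left)
        (Primrec.succ.comp₂ Primrec₂.right))
  have h2 : Primrec₂ (fun (p : ℤ × ℤ) (m : ℕ) =>
      (Int.casesOn p.2 (fun n => Int.subNatNat n (m + 1)) (fun n => Int.negSucc (m + n + 1)) : ℤ)) :=
    int_casesOn (f := fun q : (ℤ × ℤ) × ℕ => q.1.2) (g := fun q n => Int.subNatNat n (q.2 + 1))
      (h := fun q n => Int.negSucc (q.2 + n + 1)) (Primrec.snd.comp Primrec.fst)
      (primrec_subNatNat.comp₂ Primrec₂.right
        (Primrec.succ.comp₂ (Primrec.snd.comp₂ Primrec₂.left)))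
      (primrec_negSucc.comp₂ (Primrec.succ.comp₂
        (Primrec.nat_add.comp₂ (Primrec.snd.comp₂ Primrec₂.left) Primrec₂.right)))
  refine (int_casesOn (f := fun p : ℤ × ℤ => p.1) Primrec.fst h1 h2).of_eq fun p => ?_
  rcases p with ⟨a, b⟩
  cases a <;> cases b <;> rfl

theorem primrec_sub : Primrec₂ ((· - ·) : ℤ → ℤ → ℤ) :=
  (primrec_add.comp₂ Primrec₂.left (primrec_neg.comp₂ Primrec₂.right)).of_eq fun a b => by
    simp [sub_eq_add_neg]

theorem primrec_mul : Primrec₂ ((· * ·) : ℤ → ℤ → ℤ) := by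
  have h1 : Primrec₂ (fun (p : ℤ × ℤ) (m : ℕ) =>
      (Int.casesOn p.2 (fun n => Int.ofNat (m * n)) (fun n => Int.negOfNat (m * (n + 1))) : ℤ)) :=
    int_casesOn (f := fun q : (ℤ × ℤ) × ℕ => q.1.2) (g := fun q n => Int.ofNat (q.2 * n))
      (h := fun q n => Int.negOfNat (q.2 * (n + 1))) (Primrec.snd.comp Primrec.fst)
      (primrec_ofNat.comp₂ (Primrec.nat_mul.comp₂ (Primrec.snd.comp₂ Primrec₂.left) Primrec₂.right))
      (primrec_negOfNat.comp₂ (Primrec.nat_mul.comp₂ (Primrec.snd.comp₂ Primrec₂.left)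
        (Primrec.succ.comp₂ Primrec₂.right)))
  have h2 : Primrec₂ (fun (p : ℤ × ℤ) (m : ℕ) =>
      (Int.casesOn p.2 (fun n => Int.negOfNat ((m + 1) * n))
        (fun n => Int.ofNat ((m + 1) * (n + 1))) : ℤ)) :=
    int_casesOn (f := fun q : (ℤ × ℤ) × ℕ => q.1.2) (g := fun q n => Int.negOfNat ((q.2 + 1) * n))
      (h := fun q n => Int.ofNat ((q.2 + 1) * (n + 1))) (Primrec.snd.comp Primrec.fst)
      (primrec_negOfNat.comp₂ (Primrec.nat_mul.comp₂
        (Primrec.succ.comp₂ (Primrec.snd.comp₂ Primrec₂.left)) Primrec₂.right))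
      (primrec_ofNat.comp₂ (Primrec.nat_mul.comp₂
        (Primrec.succ.comp₂ (Primrec.snd.comp₂ Primrec₂.left))
        (Primrec.succ.comp₂ Primrec₂.right)))
  refine (int_casesOn (f := fun p : ℤ × ℤ => p.1) Primrec.fst h1 h2).of_eq fun p => ?_
  rcases p with ⟨a, b⟩
  cases a <;> cases b <;> rfl

theorem primrec_le : PrimrecRel ((· ≤ ·) : ℤ → ℤ → Prop) := by
  have h : PrimrecPred (fun p : ℤ × ℤ => 0 ≤ p.2 - p.1) :=
    primrec_nonneg.comp (primrec_sub.comp Primrec.snd Primrec.fst)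
  exact h.of_eq fun p => by simp

theorem primrec_lt : PrimrecRel ((· < ·) : ℤ → ℤ → Prop) := by
  have h : PrimrecPred (fun p : ℤ × ℤ => ¬ p.2 ≤ p.1) :=
    (primrec_le.comp Primrec.snd Primrec.fst).not
  exact h.of_eq fun p => by simp

theorem primrec_max : Primrec₂ (max : ℤ → ℤ → ℤ) :=
  (Primrec.ite (primrec_le.comp Primrec.fst Primrec.snd) Primrec.snd Primrec.fst).of_eq
    fun p => by simp only [max_def]

theorem primrec_min : Primrec₂ (min : ℤ → ℤ → ℤ) :=
  (Primrec.ite (primrec_le.comp Primrec.fst Primrec.snd) Primrec.fst Primrec.snd).of_eq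
    fun p => by simp only [min_def]

theorem primrec_abs : Primrec (fun z : ℤ => |z|) :=
  (primrec_ofNat.comp primrec_natAbs).of_eq fun z => by simp

theorem primrec_sign : Primrec Int.sign :=
  (int_casesOn (f := fun z : ℤ => z)
    (g := fun _ n => (Nat.casesOn n (0 : ℤ) (fun _ => (1 : ℤ)) : ℤ)) (h := fun _ _ => (-1 : ℤ))
    Primrec.id
    (Primrec.nat_casesOn (f := fun q : ℤ × ℕ => q.2) (g := fun _ => (0 : ℤ))
      (h := fun _ _ => (1 : ℤ)) Primrec.snd (Primrec.const 0) (Primrec₂.const 1))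
    (Primrec₂.const (-1))).of_eq fun z => by
      rcases z with (_ | n) | n <;> rfl

/-- `z ^ n` is primitive recursive. -/
theorem primrec_pow : Primrec₂ (fun (z : ℤ) (n : ℕ) => z ^ n) := by
  have h : Primrec (fun p : ℤ × ℕ =>
      (Nat.rec (1 : ℤ) (fun _ ih => ih * p.1) p.2 : ℤ)) :=
    Primrec.nat_rec' (f := fun p : ℤ × ℕ => p.2) (g := fun _ => (1 : ℤ))
      (h := fun p q => q.2 * p.1) Primrec.snd (Primrec.const 1)
      (primrec_mul.comp₂ (Primrec.snd.comp₂ Primrec₂.right) (Primrec.fst.comp₂ Primrec₂.left))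
  have key : ∀ (z : ℤ) (n : ℕ), (Nat.rec (1 : ℤ) (fun _ ih => ih * z) n : ℤ) = z ^ n := by
    intro z n
    induction n with
    | zero => simp
    | succ n ih => rw [pow_succ, ← ih]
  exact h.of_eq fun p => key p.1 p.2

/-- Auxiliary function for `Int.ediv` of a negative integer by a natural number. -/
def edivNegAux (m n : ℕ) : ℤ := Nat.casesOn n (0 : ℤ) (fun k => Int.negSucc (m / (k + 1)))

theorem primrec_edivNegAux : Primrec₂ edivNegAux := by
  have h : Primrec (fun p : ℕ × ℕ =>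
      (Nat.casesOn p.2 (0 : ℤ) (fun k => Int.negSucc (p.1 / (k + 1))) : ℤ)) :=
    Primrec.nat_casesOn (f := fun q : ℕ × ℕ => q.2) (g := fun _ => (0 : ℤ))
      (h := fun q k => Int.negSucc (q.1 / (k + 1))) Primrec.snd (Primrec.const 0)
      (primrec_negSucc.comp₂ (Primrec.nat_div.comp₂ (Primrec.fst.comp₂ Primrec₂.left)
        (Primrec.succ.comp₂ Primrec₂.right)))
  exact h.of_eq fun p => rfl

/-- Euclidean division of an integer by a natural number. -/
theorem primrec_ediv_nat : Primrec₂ (fun (z : ℤ) (n : ℕ) => z / (n : ℤ)) := by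
  have h : Primrec (fun p : ℤ × ℕ =>
      (Int.casesOn p.1 (fun m => Int.ofNat (m / p.2)) (fun m => edivNegAux m p.2) : ℤ)) :=
    int_casesOn (f := fun p : ℤ × ℕ => p.1) (g := fun p m => Int.ofNat (m / p.2))
      (h := fun p m => edivNegAux m p.2) Primrec.fst
      (primrec_ofNat.comp₂ (Primrec.nat_div.comp₂ Primrec₂.right (Primrec.snd.comp₂ Primrec₂.left)))
      (primrec_edivNegAux.comp₂ Primrec₂.right (Primrec.snd.comp₂ Primrec₂.left))
  refine h.of_eq fun p => ?_
  rcases p with ⟨z, n⟩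
  cases z <;> cases n <;> rfl

/-- Remainder of the Euclidean division of an integer by a natural number. -/
theorem primrec_emod_nat : Primrec₂ (fun (z : ℤ) (n : ℕ) => z % (n : ℤ)) :=
  (primrec_sub.comp₂ Primrec₂.left
    (primrec_mul.comp₂ (primrec_natCast.comp₂ Primrec₂.right) primrec_ediv_nat)).of_eq
    fun z n => by
      have := Int.emod_add_mul_ediv z (n : ℤ)
      linarith

end Crest.Agent.Lib_S0170_CompInt
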