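import Mathlib

/-!
# Primitive recursiveness of rational arithmetic for Mathlib's encoding of `ℚ`

`Primcodable ℚ` is `Primcodable.ofDenumerable ℚ`, where `Denumerable ℚ` enumerates the codes
`Nat.pair (encode num) den` of reduced fractions in increasing order.  We show that numerator,
denominator and the field operations are primitive recursive (hence computable) for this
encoding.  Internally a rational is represented by a triple `(p, n, d)` of naturals standing
for `(p - n) / d`.
-/

set_option autoImplicit false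

namespace Crest.Agent.Lib_S0170_CompQ

open Encodable Denumerable

/-- Codes of rationals for the *plain* `Encodable ℚ` instance. -/
def enc0 (q : ℚ) : ℕ := Nat.pair (encode q.num) q.den

theorem enc0_eq (q : ℚ) : enc0 q = @Encodable.encode ℚ Rat.instEncodable q := rfl

theorem enc0_injective : Function.Injective enc0 := by
  intro a b h
  exact (@Encodable.encode_injective ℚ Rat.instEncodable) h

/-- The set of valid codes. -/
def V : Set ℕ := Set.range enc0

theorem int_encode_add_one_div_two (z : ℤ) : (encode z + 1) / 2 = z.natAbs := by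
  cases z with
  | ofNat n =>
    show (2 * n + 1) / 2 = n
    omega
  | negSucc n =>
    show (2 * n + 1 + 1) / 2 = n + 1
    omega

theorem mem_V_iff (m : ℕ) :
    m ∈ V ↔ 0 < (Nat.unpair m).2 ∧ Nat.Coprime (((Nat.unpair m).1 + 1) / 2) (Nat.unpair m).2 := by
  constructor
  · rintro ⟨q, rfl⟩
    simp only [enc0, Nat.unpair_pair]
    rw [int_encode_add_one_div_two]
    exact ⟨q.den_pos, q.reduced⟩
  · rintro ⟨hd, hc⟩
    set x := (Nat.unpair m).1
    set d := (Nat.unpair m).2
    have hz : (encode (Denumerable.ofNat ℤ x) + 1) / 2 = (x + 1) / 2 := by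
      rw [Denumerable.encode_ofNat]
    rw [int_encode_add_one_div_two] at hz
    refine ⟨⟨Denumerable.ofNat ℤ x, d, hd.ne', by rw [hz]; exact hc⟩, ?_⟩
    simp only [enc0]
    rw [Denumerable.encode_ofNat, Nat.pair_unpair]

instance : DecidablePred (· ∈ V) := fun m => decidable_of_iff _ (mem_V_iff m).symm

theorem coprime_iff_forall_lt (a d : ℕ) (hd : 0 < d) :
    Nat.Coprime a d ↔ ∀ k < d + 1, (a % k = 0 ∧ d % k = 0) → k = 1 := by
  constructor
  · intro h k _ hk
    have h1 : k ∣ a := Nat.dvd_of_mod_eq_zero hk.1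
    have h2 : k ∣ d := Nat.dvd_of_mod_eq_zero hk.2
    exact Nat.eq_one_of_dvd_one (h ▸ Nat.dvd_gcd h1 h2)
  · intro h
    have h1 := Nat.gcd_dvd_left a d
    have h2 := Nat.gcd_dvd_right a d
    have hle : Nat.gcd a d ≤ d := Nat.le_of_dvd hd h2
    exact h _ (Nat.lt_succ_of_le hle) ⟨Nat.mod_eq_zero_of_dvd h1, Nat.mod_eq_zero_of_dvd h2⟩

theorem primrecPred_mem_V : PrimrecPred (· ∈ V) := by
  -- relation R k (a,d) := (a % k = 0 ∧ d % k = 0) → k = 1
  have hR : PrimrecRel fun (k : ℕ) (p : ℕ × ℕ) => (p.1 % k = 0 ∧ p.2 % k = 0) → k = 1 := by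
    have h1 : PrimrecRel fun (k : ℕ) (p : ℕ × ℕ) => p.1 % k = 0 :=
      Primrec.eq.comp (Primrec.nat_mod.comp (Primrec.fst.comp Primrec.snd) Primrec.fst)
        (Primrec.const 0)
    have h2 : PrimrecRel fun (k : ℕ) (p : ℕ × ℕ) => p.2 % k = 0 :=
      Primrec.eq.comp (Primrec.nat_mod.comp (Primrec.snd.comp Primrec.snd) Primrec.fst)
        (Primrec.const 0)
    have h3 : PrimrecRel fun (k : ℕ) (_ : ℕ × ℕ) => k = 1 :=
      Primrec.eq.comp Primrec.fst (Primrec.const 1)
    have h4 : PrimrecRel fun (k : ℕ) (p : ℕ × ℕ) => ¬ (p.1 % k = 0 ∧ p.2 % k = 0) ∨ k = 1 :=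
      PrimrecPred.or (PrimrecPred.not (PrimrecPred.and h1 h2)) h3
    refine h4.of_eq ?_
    intro k p
    tauto
  have h5 := hR.forall_mem_list
  have ha : Primrec fun m : ℕ => ((Nat.unpair m).1 + 1) / 2 :=
    Primrec.nat_div.comp (Primrec.succ.comp (Primrec.fst.comp Primrec.unpair)) (Primrec.const 2)
  have hd : Primrec fun m : ℕ => (Nat.unpair m).2 := Primrec.snd.comp Primrec.unpair
  have h6 : PrimrecPred fun m : ℕ => ∀ k ∈ List.range ((Nat.unpair m).2 + 1),
      ((((Nat.unpair m).1 + 1) / 2) % k = 0 ∧ (Nat.unpair m).2 % k = 0) → k = 1 :=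
    h5.comp (Primrec.list_range.comp (Primrec.succ.comp hd)) (Primrec.pair ha hd)
  have h7 : PrimrecPred fun m : ℕ =>
      0 < (Nat.unpair m).2 ∧ ∀ k ∈ List.range ((Nat.unpair m).2 + 1),
        ((((Nat.unpair m).1 + 1) / 2) % k = 0 ∧ (Nat.unpair m).2 % k = 0) → k = 1 :=
    PrimrecPred.and (Primrec.nat_lt.comp (Primrec.const 0) hd) h6
  refine h7.of_eq ?_
  intro m
  rw [mem_V_iff]
  constructor
  · rintro ⟨hd, h⟩
    refine ⟨hd, (coprime_iff_forall_lt _ _ hd).2 ?_⟩
    intro k hk
    exact h k (List.mem_range.2 hk)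
  · rintro ⟨hd, h⟩
    refine ⟨hd, ?_⟩
    intro k hk
    exact (coprime_iff_forall_lt _ _ hd).1 h k (List.mem_range.1 hk)

/-! ### The increasing enumeration of valid codes -/

/-- The plain code of the `n`-th rational (for the `Denumerable ℚ` enumeration). -/
def cEnum (n : ℕ) : ℕ := enc0 (Denumerable.ofNat ℚ n)

private abbrev S0 : Set ℕ := Set.range (@Encodable.encode ℚ Rat.instEncodable)

private theorem cEnum_eq (n : ℕ) :
    cEnum n = ((@Nat.Subtype.ofNat S0 (Encodable.decidableRangeEncode ℚ)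
      (Infinite.of_injective _ (Equiv.ofInjective _ encode_injective).injective) n : S0) : ℕ) := by
  let _ : DecidablePred (· ∈ S0) := Encodable.decidableRangeEncode ℚ
  let _ : Infinite S0 := Infinite.of_injective _ (Equiv.ofInjective _ encode_injective).injective
  have h := @Denumerable.ofEquiv_ofNat S0 ℚ (Nat.Subtype.denumerable S0) (equivRangeEncode ℚ) n
  have h2 : @Denumerable.ofNat ℚ Rat.instDenumerable n =
      (equivRangeEncode ℚ).symm (@Denumerable.ofNat S0 (Nat.Subtype.denumerable S0) n) := by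
    convert h using 2
  have h3 : @Denumerable.ofNat S0 (Nat.Subtype.denumerable S0) n = Nat.Subtype.ofNat S0 n := rfl
  show @Encodable.encode ℚ Rat.instEncodable (Denumerable.ofNat ℚ n) = _
  rw [h2, h3]
  have := (equivRangeEncode ℚ).apply_symm_apply (Nat.Subtype.ofNat S0 n)
  exact congrArg Subtype.val this

theorem cEnum_strictMono : StrictMono cEnum := by
  let _ : DecidablePred (· ∈ S0) := Encodable.decidableRangeEncode ℚ
  let _ : Infinite S0 := Infinite.of_injective _ (Equiv.ofInjective _ encode_injective).injective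
  refine strictMono_nat_of_lt_succ (fun n => ?_)
  rw [cEnum_eq, cEnum_eq]
  exact Nat.Subtype.lt_succ_self (Nat.Subtype.ofNat S0 n)

theorem range_cEnum : Set.range cEnum = V := by
  let _ : DecidablePred (· ∈ S0) := Encodable.decidableRangeEncode ℚ
  let _ : Infinite S0 := Infinite.of_injective _ (Equiv.ofInjective _ encode_injective).injective
  have h : cEnum = ((↑) ∘ Nat.Subtype.ofNat S0 : ℕ → ℕ) := funext cEnum_eq
  rw [h, Nat.Subtype.coe_comp_ofNat_range]
  rfl

theorem cEnum_mem (n : ℕ) : cEnum n ∈ V := ⟨_, rfl⟩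

/-- Number of valid codes below `m`. -/
def cnt (m : ℕ) : ℕ := ((List.range m).filter (· ∈ V)).length

theorem cnt_le (m : ℕ) : cnt m ≤ m := by
  unfold cnt
  calc ((List.range m).filter (· ∈ V)).length ≤ (List.range m).length := List.length_filter_le _ _
    _ = m := List.length_range

theorem cnt_eq_card (m : ℕ) : cnt m = ((Finset.range m).filter (· ∈ V)).card := by
  unfold cnt
  rw [← List.toFinset_card_of_nodup (List.Nodup.filter _ List.nodup_range)]
  congr 1
  ext y
  simp

theorem cnt_cEnum (n : ℕ) : cnt (cEnum n) = n := by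
  rw [cnt_eq_card]
  have h : (Finset.range (cEnum n)).filter (· ∈ V) = (Finset.range n).image cEnum := by
    ext y
    simp only [Finset.mem_filter, Finset.mem_range, Finset.mem_image]
    constructor
    · rintro ⟨hy, hyV⟩
      rw [← range_cEnum] at hyV
      obtain ⟨i, rfl⟩ := hyV
      exact ⟨i, cEnum_strictMono.lt_iff_lt.1 hy, rfl⟩
    · rintro ⟨i, hi, rfl⟩
      exact ⟨cEnum_strictMono hi, cEnum_mem i⟩
  rw [h, Finset.card_image_of_injective _ cEnum_strictMono.injective, Finset.card_range]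

theorem cEnum_eq_iff (n m : ℕ) : cEnum n = m ↔ m ∈ V ∧ cnt m = n := by
  constructor
  · rintro rfl
    exact ⟨cEnum_mem n, cnt_cEnum n⟩
  · rintro ⟨hm, hc⟩
    rw [← range_cEnum] at hm
    obtain ⟨j, rfl⟩ := hm
    rw [cnt_cEnum] at hc
    rw [hc]

theorem cEnum_le (n : ℕ) : cEnum n ≤ Nat.pair (2 * n) 1 := by
  -- `v j = pair (2j) 1` is a strictly increasing sequence of valid codes
  have hv : ∀ j : ℕ, Nat.pair (2 * j) 1 ∈ V := fun j => ⟨(j : ℚ), by
    simp only [enc0, Rat.num_natCast, Rat.den_natCast]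
    rfl⟩
  have hvm : StrictMono fun j : ℕ => Nat.pair (2 * j) 1 := fun a b hab =>
    Nat.pair_lt_pair_left 1 (by omega)
  choose j hj using fun i : ℕ => (range_cEnum ▸ hv i : Nat.pair (2 * i) 1 ∈ Set.range cEnum)
  have hjm : StrictMono j := by
    intro a b hab
    have := hvm hab
    simp only [← hj] at this
    exact cEnum_strictMono.lt_iff_lt.1 this
  calc cEnum n ≤ cEnum (j n) := cEnum_strictMono.monotone (hjm.id_le n)
    _ = Nat.pair (2 * n) 1 := hj n

theorem primrec_cnt : Primrec cnt := by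
  unfold cnt
  exact Primrec.list_length.comp ((Primrec.listFilter primrecPred_mem_V).comp Primrec.list_range)

theorem primrec_cEnum : Primrec cEnum := by
  refine Primrec.of_graph ⟨fun n => Nat.pair (2 * n) 1, ?_, fun n => ?_⟩ ?_
  · exact Primrec₂.natPair.comp (Primrec.nat_double) (Primrec.const 1)
  · simpa using cEnum_le n
  · have h : PrimrecRel fun (n m : ℕ) => m ∈ V ∧ cnt m = n :=
      PrimrecPred.and (primrecPred_mem_V.comp Primrec.snd)
        (Primrec.eq.comp (primrec_cnt.comp Primrec.snd) Primrec.fst)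
    exact h.of_eq fun n m => (cEnum_eq_iff n m).symm

/-- The code of a rational for `Primcodable ℚ` (the `Denumerable` enumeration). -/
def encQ (q : ℚ) : ℕ := @Encodable.encode ℚ Primcodable.toEncodable q

/-- The code of a rational (for `Primcodable ℚ`) is the rank of its plain code. -/
theorem encQ_eq (q : ℚ) : encQ q = cnt (enc0 q) := by
  have h : cEnum (encQ q) = enc0 q := by
    unfold cEnum encQ
    rw [Denumerable.ofNat_encode]
  rw [← h, cnt_cEnum]

theorem encQ_le (q : ℚ) : encQ q ≤ enc0 q := by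
  rw [encQ_eq]; exact cnt_le _

theorem ofNat_encQ (q : ℚ) : Denumerable.ofNat ℚ (encQ q) = q := by
  unfold encQ
  rw [Denumerable.ofNat_encode]

/-! ### Numerator and denominator -/

theorem primrec_num : Primrec (fun q : ℚ => q.num) := by
  refine Primrec.ofNat_iff.2 (Primrec.encode_iff.1 ?_)
  have h : Primrec fun n : ℕ => (Nat.unpair (cEnum n)).1 :=
    Primrec.fst.comp (Primrec.unpair.comp primrec_cEnum)
  refine h.of_eq fun n => ?_
  simp [cEnum, enc0]

theorem primrec_den : Primrec (fun q : ℚ => q.den) := by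
  refine Primrec.ofNat_iff.2 ?_
  have h : Primrec fun n : ℕ => (Nat.unpair (cEnum n)).2 :=
    Primrec.snd.comp (Primrec.unpair.comp primrec_cEnum)
  refine h.of_eq fun n => ?_
  simp [cEnum, enc0]

/-! ### Integers: sign-split representation -/

/-- The code of an integer for `Primcodable ℤ`. -/
def encZ (z : ℤ) : ℕ := @Encodable.encode ℤ Primcodable.toEncodable z

theorem encZ_ofNat (n : ℕ) : encZ (Int.ofNat n) = 2 * n := rfl
theorem encZ_negSucc (n : ℕ) : encZ (Int.negSucc n) = 2 * n + 1 := rfl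

theorem encZ_ofNat' (n : ℕ) : encZ (Denumerable.ofNat ℤ n) = n := by
  unfold encZ
  rw [Denumerable.encode_ofNat]

theorem toNat_eq_encZ (z : ℤ) : z.toNat = if encZ z % 2 = 0 then encZ z / 2 else 0 := by
  cases z with
  | ofNat n => rw [encZ_ofNat]; simp
  | negSucc n => rw [encZ_negSucc]; simp

theorem neg_toNat_eq_encZ (z : ℤ) : (-z).toNat = if encZ z % 2 = 0 then 0 else (encZ z + 1) / 2 := by
  cases z with
  | ofNat n =>
    rw [encZ_ofNat]
    simp
  | negSucc n =>
    rw [encZ_negSucc]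
    have : (2 * n + 1) % 2 ≠ 0 := by omega
    rw [if_neg this]
    show (-(Int.negSucc n)).toNat = _
    rw [Int.neg_negSucc]
    have : (2 * n + 1 + 1) / 2 = n + 1 := by omega
    rw [this]
    rfl

theorem primrec_int_toNat : Primrec Int.toNat := by
  refine Primrec.ofNat_iff.2 ?_
  have h : Primrec fun n : ℕ => if n % 2 = 0 then n / 2 else 0 :=
    Primrec.ite (Primrec.eq.comp (Primrec.nat_mod.comp Primrec.id (Primrec.const 2)) (Primrec.const 0))
      (Primrec.nat_div.comp Primrec.id (Primrec.const 2)) (Primrec.const 0)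
  refine h.of_eq fun n => ?_
  rw [toNat_eq_encZ, encZ_ofNat']

theorem primrec_int_neg_toNat : Primrec (fun z : ℤ => (-z).toNat) := by
  refine Primrec.ofNat_iff.2 ?_
  have h : Primrec fun n : ℕ => if n % 2 = 0 then 0 else (n + 1) / 2 :=
    Primrec.ite (Primrec.eq.comp (Primrec.nat_mod.comp Primrec.id (Primrec.const 2)) (Primrec.const 0))
      (Primrec.const 0) (Primrec.nat_div.comp Primrec.succ (Primrec.const 2))
  refine h.of_eq fun n => ?_
  rw [neg_toNat_eq_encZ, encZ_ofNat']

theorem encZ_le (z : ℤ) : encZ z ≤ 2 * z.natAbs := by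
  cases z with
  | ofNat n => rw [encZ_ofNat]; simp
  | negSucc n => rw [encZ_negSucc]; simp [Int.natAbs_negSucc]

/-- Integer from a difference of naturals is primitive recursive. -/
theorem primrec_int_sub : Primrec (fun p : ℕ × ℕ => ((p.1 : ℤ) - p.2)) := by
  refine Primrec.encode_iff.1 ?_
  have h : Primrec fun p : ℕ × ℕ => if p.2 ≤ p.1 then 2 * (p.1 - p.2) else 2 * (p.2 - p.1 - 1) + 1 :=
    Primrec.ite (Primrec.nat_le.comp Primrec.snd Primrec.fst)
      (Primrec.nat_double.comp (Primrec.nat_sub.comp Primrec.fst Primrec.snd))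
      (Primrec.nat_double_succ.comp (Primrec.nat_sub.comp
        (Primrec.nat_sub.comp Primrec.snd Primrec.fst) (Primrec.const 1)))
  refine h.of_eq fun p => ?_
  obtain ⟨a, b⟩ := p
  show _ = encZ ((a : ℤ) - b)
  by_cases hab : b ≤ a
  · rw [if_pos hab]
    have : ((a : ℤ) - b) = Int.ofNat (a - b) := by
      simp [Int.ofNat_eq_natCast, Nat.cast_sub hab]
    rw [this, encZ_ofNat]
  · rw [if_neg hab]
    have : ((a : ℤ) - b) = Int.negSucc (b - a - 1) := by
      rw [Int.negSucc_eq]
      push_cast [Nat.cast_sub (by omega : 1 ≤ b - a), Nat.cast_sub (by omega : a ≤ b)]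
      ring
    rw [this, encZ_negSucc]

/-! ### Triples `(p, n, d)` representing `(p - n) / d` -/

/-- Value of a triple. -/
def ev (t : ℕ × ℕ × ℕ) : ℚ := ((t.1 : ℚ) - t.2.1) / t.2.2

/-- A canonical triple for a rational. -/
def rep (q : ℚ) : ℕ × ℕ × ℕ := (q.num.toNat, (-q.num).toNat, q.den)

theorem rep_den_pos (q : ℚ) : 0 < (rep q).2.2 := q.den_pos

theorem rep_den_ne (q : ℚ) : (rep q).2.2 ≠ 0 := q.den_pos.ne'

theorem ev_rep (q : ℚ) : ev (rep q) = q := by
  unfold ev rep
  have h : ((q.num.toNat : ℚ) - ((-q.num).toNat : ℚ)) = (q.num : ℚ) := by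
    have h1 : ((q.num.toNat : ℤ) - ((-q.num).toNat : ℤ)) = q.num := by omega
    have h2 := congrArg (Int.cast : ℤ → ℚ) h1
    push_cast at h2
    exact h2
  simp only [h]
  exact Rat.num_div_den q

theorem primrec_rep : Primrec rep :=
  Primrec.pair (primrec_int_toNat.comp primrec_num)
    (Primrec.pair (primrec_int_neg_toNat.comp primrec_num) primrec_den)

theorem pair_mono {a a' b b' : ℕ} (ha : a ≤ a') (hb : b ≤ b') : Nat.pair a b ≤ Nat.pair a' b' := by
  have h1 : Nat.pair a b ≤ Nat.pair a' b := by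
    rcases ha.lt_or_eq with h | h
    · exact (Nat.pair_lt_pair_left b h).le
    · rw [h]
  have h2 : Nat.pair a' b ≤ Nat.pair a' b' := by
    rcases hb.lt_or_eq with h | h
    · exact (Nat.pair_lt_pair_right a' h).le
    · rw [h]
  exact h1.trans h2

theorem enc0_ev_le (t : ℕ × ℕ × ℕ) : enc0 (ev t) ≤ Nat.pair (2 * (t.1 + t.2.1)) (t.2.2 + 1) := by
  obtain ⟨p, n, d⟩ := t
  simp only [ev, enc0]
  rcases Nat.eq_zero_or_pos d with hd | hd
  · subst hd
    simp only [Nat.cast_zero, div_zero, Rat.num_zero, Rat.den_zero]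
    exact pair_mono (by show encZ 0 ≤ _; exact (encZ_le 0).trans (by simp)) (by omega)
  · have hq : ((p : ℚ) - n) / d = Rat.divInt ((p : ℤ) - n) (d : ℤ) := by
      rw [Rat.divInt_eq_div]; push_cast; rfl
    rw [hq]
    have hdz : (d : ℤ) ≠ 0 := by exact_mod_cast hd.ne'
    have h1 : (Rat.divInt ((p : ℤ) - n) (d : ℤ)).num ∣ ((p : ℤ) - n) := Rat.num_dvd _ hdz
    have h2 : ((Rat.divInt ((p : ℤ) - n) (d : ℤ)).den : ℤ) ∣ (d : ℤ) := Rat.den_dvd _ _
    have h2' : (Rat.divInt ((p : ℤ) - n) (d : ℤ)).den ≤ d :=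
      Nat.le_of_dvd hd (Int.natCast_dvd_natCast.1 h2)
    have h1' : (Rat.divInt ((p : ℤ) - n) (d : ℤ)).num.natAbs ≤ p + n := by
      by_cases h0 : ((p : ℤ) - n) = 0
      · rw [h0, Rat.zero_divInt]; simp
      · have := Int.natAbs_le_of_dvd_ne_zero h1 h0
        omega
    refine pair_mono ?_ (by omega)
    exact (encZ_le _).trans (by omega)

theorem ev_eq_ev_iff (t r : ℕ × ℕ × ℕ) (hr : r.2.2 ≠ 0) :
    ev t = ev r ↔ (t.2.2 = 0 ∧ r.1 = r.2.1) ∨
      (t.2.2 ≠ 0 ∧ t.1 * r.2.2 + r.2.1 * t.2.2 = r.1 * t.2.2 + t.2.1 * r.2.2) := by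
  obtain ⟨p, n, d⟩ := t
  obtain ⟨p', n', d'⟩ := r
  simp only [ev] at *
  have hd' : (d' : ℚ) ≠ 0 := by exact_mod_cast hr
  rcases Nat.eq_zero_or_pos d with hd | hd
  · subst hd
    simp only [Nat.cast_zero, div_zero, true_and, ne_eq, not_true_eq_false, false_and, or_false]
    rw [eq_comm, div_eq_zero_iff]
    simp only [hd', or_false, sub_eq_zero]
    exact Nat.cast_inj
  · have hd0 : (d : ℚ) ≠ 0 := by exact_mod_cast hd.ne'
    simp only [hd.ne', false_and, ne_eq, not_false_eq_true, true_and, false_or]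
    rw [div_eq_div_iff hd0 hd']
    constructor
    · intro h
      have h' : ((p * d' + n' * d : ℕ) : ℚ) = ((p' * d + n * d' : ℕ) : ℚ) := by
        push_cast; linarith
      exact Nat.cast_inj.1 h'
    · intro h
      have h' : ((p * d' + n' * d : ℕ) : ℚ) = ((p' * d + n * d' : ℕ) : ℚ) := by rw [h]
      push_cast at h'
      linarith

theorem primrec_ev : Primrec ev := by
  refine Primrec.encode_iff.1 ?_
  show Primrec fun t => encQ (ev t)
  refine Primrec.of_graph ⟨fun t => Nat.pair (2 * (t.1 + t.2.1)) (t.2.2 + 1), ?_, fun t => ?_⟩ ?_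
  · exact Primrec₂.natPair.comp
      (Primrec.nat_double.comp (Primrec.nat_add.comp Primrec.fst (Primrec.fst.comp Primrec.snd)))
      (Primrec.succ.comp (Primrec.snd.comp Primrec.snd))
  · simpa using (encQ_le (ev t)).trans (enc0_ev_le t)
  · -- graph
    have hr : Primrec fun k : ℕ => rep (Denumerable.ofNat ℚ k) := primrec_rep.comp (Primrec.ofNat ℚ)
    -- components of `(t, k)`
    have P : Primrec fun x : (ℕ × ℕ × ℕ) × ℕ => x.1.1 := Primrec.fst.comp Primrec.fst
    have N : Primrec fun x : (ℕ × ℕ × ℕ) × ℕ => x.1.2.1 := Primrec.fst.comp (Primrec.snd.comp Primrec.fst)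
    have D : Primrec fun x : (ℕ × ℕ × ℕ) × ℕ => x.1.2.2 := Primrec.snd.comp (Primrec.snd.comp Primrec.fst)
    have R : Primrec fun x : (ℕ × ℕ × ℕ) × ℕ => rep (Denumerable.ofNat ℚ x.2) := hr.comp Primrec.snd
    have P' : Primrec fun x : (ℕ × ℕ × ℕ) × ℕ => (rep (Denumerable.ofNat ℚ x.2)).1 := Primrec.fst.comp R
    have N' : Primrec fun x : (ℕ × ℕ × ℕ) × ℕ => (rep (Denumerable.ofNat ℚ x.2)).2.1 :=
      Primrec.fst.comp (Primrec.snd.comp R)
    have D' : Primrec fun x : (ℕ × ℕ × ℕ) × ℕ => (rep (Denumerable.ofNat ℚ x.2)).2.2 :=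
      Primrec.snd.comp (Primrec.snd.comp R)
    have h : PrimrecPred fun x : (ℕ × ℕ × ℕ) × ℕ =>
        (x.1.2.2 = 0 ∧ (rep (Denumerable.ofNat ℚ x.2)).1 = (rep (Denumerable.ofNat ℚ x.2)).2.1) ∨
        (x.1.2.2 ≠ 0 ∧ x.1.1 * (rep (Denumerable.ofNat ℚ x.2)).2.2 +
            (rep (Denumerable.ofNat ℚ x.2)).2.1 * x.1.2.2 =
          (rep (Denumerable.ofNat ℚ x.2)).1 * x.1.2.2 + x.1.2.1 * (rep (Denumerable.ofNat ℚ x.2)).2.2) := by
      refine PrimrecPred.or (PrimrecPred.and (Primrec.eq.comp D (Primrec.const 0)) (Primrec.eq.comp P' N'))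
        (PrimrecPred.and (PrimrecPred.not (Primrec.eq.comp D (Primrec.const 0))) ?_)
      exact Primrec.eq.comp
        (Primrec.nat_add.comp (Primrec.nat_mul.comp P D') (Primrec.nat_mul.comp N' D))
        (Primrec.nat_add.comp (Primrec.nat_mul.comp P' D) (Primrec.nat_mul.comp N D'))
    refine h.of_eq fun x => ?_
    obtain ⟨t, k⟩ := x
    show _ ↔ encQ (ev t) = k
    rw [← ev_eq_ev_iff t (rep (Denumerable.ofNat ℚ k)) (rep_den_ne _), ev_rep]
    constructor
    · intro h
      rw [h]
      show @Encodable.encode ℚ Primcodable.toEncodable (Denumerable.ofNat ℚ k) = k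
      rw [Denumerable.encode_ofNat]
    · intro h
      rw [← h, ofNat_encQ]

/-! ### The three interface statements (B1) -/

/-- `(z, d) ↦ z / d` is primitive recursive for Mathlib's `Primcodable ℚ`. -/
theorem primrec_mk : Primrec (fun p : ℤ × ℕ => (p.1 : ℚ) / p.2) := by
  have h : Primrec fun p : ℤ × ℕ => ev (p.1.toNat, (-p.1).toNat, p.2) :=
    primrec_ev.comp (Primrec.pair (primrec_int_toNat.comp Primrec.fst)
      (Primrec.pair (primrec_int_neg_toNat.comp Primrec.fst) Primrec.snd))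
  refine h.of_eq fun p => ?_
  obtain ⟨z, d⟩ := p
  simp only [ev]
  have h1 : ((z.toNat : ℤ) - ((-z).toNat : ℤ)) = z := by omega
  have h2 := congrArg (Int.cast : ℤ → ℚ) h1
  push_cast at h2
  rw [h2]

theorem computable_num : Computable Rat.num := primrec_num.to_comp

theorem computable_den : Computable Rat.den := primrec_den.to_comp

theorem computable_mk : Computable (fun p : ℤ × ℕ => (p.1 : ℚ) / p.2) := primrec_mk.to_comp

/-- Curried form of `primrec_mk`. -/
theorem primrec_mk₂ : Primrec₂ (fun (z : ℤ) (d : ℕ) => (z : ℚ) / d) := primrec_mk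

/-- Composition form: if `f` and `g` are primitive recursive then so is `a ↦ f a / g a`. -/
theorem primrec_mk_comp {α : Type*} [Primcodable α] {f : α → ℤ} {g : α → ℕ}
    (hf : Primrec f) (hg : Primrec g) : Primrec (fun a => (f a : ℚ) / (g a : ℚ)) :=
  primrec_mk.comp (Primrec.pair hf hg)

end Crest.Agent.Lib_S0170_CompQ
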