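import Mathlib
import Crest.Agent.Lib_S0170_CompQ
import Crest.Agent.Lib_S0170_CompInt
import Crest.Agent.Lib_S0170_Fabius

/-!
# The rational approximants `FQ d q` of the Fabius step are primitive recursive (package B4)

`FQ d q = 2 ^ (d (d+1) / 2) / d! * ∑ m < 2 ^ d, tmSign m * (max (q - m / 2 ^ d) 0) ^ d`.
We write `FQ d q = numFQ d q.num q.den / denFQ d q.den` with an integer numerator and a natural
denominator that are primitive recursive in `(d, q.num, q.den)`, and conclude with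
`Lib_S0170_CompQ.primrec_mk`.
-/

set_option autoImplicit false

namespace Crest.Agent.Lib_S0170_CompFQ

open Crest.Agent.Lib_S0170_Fabius Crest.Agent.Lib_S0170_CompInt Crest.Agent.Lib_S0170_CompQ

variable {α : Type*} [Primcodable α]

/-! ### Natural number helpers -/

theorem primrec_nat_pow : Primrec₂ (fun a b : ℕ => a ^ b) :=
  Primrec₂.unpaired'.1 Nat.Primrec.pow

theorem primrec_factorial : Primrec Nat.factorial := by
  have h : Primrec (fun n : ℕ => (Nat.rec (1 : ℕ) (fun k ih => (k + 1) * ih) n : ℕ)) :=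
    Primrec.nat_rec' (f := fun n : ℕ => n) (g := fun _ => (1 : ℕ))
      (h := fun _ q => (q.1 + 1) * q.2) Primrec.id (Primrec.const 1)
      (Primrec.nat_mul.comp₂ (Primrec.succ.comp₂ (Primrec.fst.comp₂ Primrec₂.right))
        (Primrec.snd.comp₂ Primrec₂.right))
  refine h.of_eq fun n => ?_
  induction n with
  | zero => rfl
  | succ n ih => rw [Nat.factorial_succ, ← ih]

/-! ### Range sums of integers -/

theorem primrec_int_sum {f : α → ℕ → ℤ} (hf : Primrec₂ f) :
    Primrec₂ (fun a n => ∑ m ∈ Finset.range n, f a m) := by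
  have h : Primrec₂ fun a (n : ℕ) =>
      (Nat.rec (motive := fun _ => ℤ) 0 (fun m IH => IH + f a m) n : ℤ) :=
    Primrec.nat_rec (f := fun _ => (0 : ℤ)) (g := fun a p => p.2 + f a p.1) (Primrec.const 0)
      (primrec_add.comp₂ (Primrec.snd.comp₂ Primrec₂.right)
        (hf.comp₂ Primrec₂.left (Primrec.fst.comp₂ Primrec₂.right)))
  refine h.of_eq fun a n => ?_
  induction n with
  | zero => simp
  | succ n ih => rw [Finset.sum_range_succ, ← ih]

/-! ### The Thue–Morse sign -/

theorem primrec_tmSign : Primrec tmSign := by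
  have hlen : Primrec fun p : Unit × List ℤ => p.2.length := Primrec.list_length.comp Primrec.snd
  have hhalf : Primrec fun p : Unit × List ℤ => p.2.length / 2 :=
    Primrec.nat_div.comp hlen (Primrec.const 2)
  have hget : Primrec fun p : Unit × List ℤ => p.2.getD (p.2.length / 2) 0 :=
    (Primrec.list_getD (0 : ℤ)).comp Primrec.snd hhalf
  have hg : Primrec₂ (fun (_ : Unit) (l : List ℤ) =>
      some (if l.length = 0 then (1 : ℤ) else
        if l.length % 2 = 0 then l.getD (l.length / 2) 0 else -l.getD (l.length / 2) 0)) := by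
    refine Primrec.option_some.comp ?_
    refine Primrec.ite (Primrec.eq.comp hlen (Primrec.const 0)) (Primrec.const 1) ?_
    exact Primrec.ite (Primrec.eq.comp (Primrec.nat_mod.comp hlen (Primrec.const 2)) (Primrec.const 0))
      hget (primrec_neg.comp hget)
  have key : Primrec₂ (fun (_ : Unit) (n : ℕ) => tmSign n) := by
    refine Primrec.nat_strong_rec (fun (_ : Unit) (n : ℕ) => tmSign n) hg ?_
    intro _ n
    simp only [List.length_map, List.length_range, Option.some.injEq]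
    by_cases h0 : n = 0
    · subst h0
      simp [tmSign_zero]
    · rw [if_neg h0]
      have hlt : n / 2 < n := Nat.div_lt_self (Nat.pos_of_ne_zero h0) (by norm_num)
      have hget : ((List.range n).map tmSign).getD (n / 2) 0 = tmSign (n / 2) := by
        rw [List.getD_eq_getElem?_getD, List.getElem?_map, List.getElem?_range hlt]
        rfl
      rw [hget]
      by_cases h2 : n % 2 = 0
      · rw [if_pos h2]
        have : n = 2 * (n / 2) := by omega
        conv_rhs => rw [this]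
        rw [tmSign_two_mul]
      · rw [if_neg h2]
        have : n = 2 * (n / 2) + 1 := by omega
        conv_rhs => rw [this]
        rw [tmSign_two_mul_add_one]
  exact key.comp (Primrec.const ()) Primrec.id

/-! ### Numerator and denominator of `FQ` -/

/-- Integer numerator of `FQ d (a / b)`. -/
def numFQ (d : ℕ) (a : ℤ) (b : ℕ) : ℤ :=
  2 ^ (d * (d + 1) / 2) *
    ∑ m ∈ Finset.range (2 ^ d), tmSign m * (max (a * 2 ^ d - (m : ℤ) * (b : ℤ)) 0) ^ d

/-- Natural denominator of `FQ d (a / b)`. -/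
def denFQ (d : ℕ) (b : ℕ) : ℕ := d.factorial * (b * 2 ^ d) ^ d

theorem max_div_eq (a : ℤ) (b : ℕ) (hb : 0 < b) (d m : ℕ) :
    max ((a : ℚ) / b - (m : ℚ) / 2 ^ d) 0 =
      ((max (a * 2 ^ d - (m : ℤ) * (b : ℤ)) 0 : ℤ) : ℚ) / ((b * 2 ^ d : ℕ) : ℚ) := by
  have hb' : (0 : ℚ) < b := by exact_mod_cast hb
  have h2 : (0 : ℚ) < 2 ^ d := by positivity
  have hc : (0 : ℚ) < ((b * 2 ^ d : ℕ) : ℚ) := by push_cast; positivity
  have h1 : (a : ℚ) / b - (m : ℚ) / 2 ^ d =
      ((a * 2 ^ d - (m : ℤ) * (b : ℤ) : ℤ) : ℚ) / ((b * 2 ^ d : ℕ) : ℚ) := by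
    push_cast
    field_simp
  rw [h1]
  rcases le_total (a * 2 ^ d - (m : ℤ) * (b : ℤ)) 0 with h | h
  · rw [max_eq_right h, max_eq_right]
    · simp
    · apply div_nonpos_of_nonpos_of_nonneg
      · exact_mod_cast h
      · exact hc.le
  · rw [max_eq_left h, max_eq_left]
    apply div_nonneg
    · exact_mod_cast h
    · exact hc.le

theorem FQ_eq (d : ℕ) (q : ℚ) :
    FQ d q = (numFQ d q.num q.den : ℚ) / (denFQ d q.den : ℚ) := by
  have hb : 0 < q.den := q.den_pos
  have hq : q = (q.num : ℚ) / (q.den : ℚ) := (Rat.num_div_den q).symm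
  have hc : ((q.den * 2 ^ d : ℕ) : ℚ) ≠ 0 := by
    have : (0 : ℚ) < ((q.den * 2 ^ d : ℕ) : ℚ) := by
      have hb' : (0 : ℚ) < q.den := by exact_mod_cast hb
      push_cast; positivity
    exact this.ne'
  have hf : ((d.factorial : ℕ) : ℚ) ≠ 0 := by exact_mod_cast (Nat.factorial_pos d).ne'
  unfold FQ numFQ denFQ
  have hterm : ∀ m : ℕ, (tmSign m : ℚ) * (max (q - (m : ℚ) / 2 ^ d) 0) ^ d =
      ((tmSign m * (max (q.num * 2 ^ d - (m : ℤ) * (q.den : ℤ)) 0) ^ d : ℤ) : ℚ) /
        ((q.den * 2 ^ d : ℕ) : ℚ) ^ d := by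
    intro m
    conv_lhs => rw [hq]
    rw [max_div_eq q.num q.den hb d m, div_pow]
    push_cast
    ring
  rw [Finset.sum_congr rfl fun m _ => hterm m, ← Finset.sum_div]
  push_cast
  field_simp
  refine Finset.sum_congr rfl fun m _ => ?_
  rw [mul_comm (m : ℚ) (q.den : ℚ)]

/-! ### Primitive recursiveness -/

theorem primrec_numFQ : Primrec (fun x : ℕ × ℤ × ℕ => numFQ x.1 x.2.1 x.2.2) := by
  have D : Primrec fun x : ℕ × ℤ × ℕ => x.1 := Primrec.fst
  have A : Primrec fun x : ℕ × ℤ × ℕ => x.2.1 := Primrec.fst.comp Primrec.snd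
  have B : Primrec fun x : ℕ × ℤ × ℕ => x.2.2 := Primrec.snd.comp Primrec.snd
  have two : Primrec fun x : ℕ × ℤ × ℕ => (2 : ℤ) ^ x.1 :=
    primrec_pow.comp (Primrec.const 2) D
  have hterm : Primrec₂ fun (x : ℕ × ℤ × ℕ) (m : ℕ) =>
      tmSign m * (max (x.2.1 * 2 ^ x.1 - (m : ℤ) * (x.2.2 : ℤ)) 0) ^ x.1 := by
    have D' : Primrec fun y : (ℕ × ℤ × ℕ) × ℕ => y.1.1 := D.comp Primrec.fst
    have h1 : Primrec fun y : (ℕ × ℤ × ℕ) × ℕ => y.1.2.1 * 2 ^ y.1.1 :=
      primrec_mul.comp (A.comp Primrec.fst) (two.comp Primrec.fst)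
    have h2 : Primrec fun y : (ℕ × ℤ × ℕ) × ℕ => (y.2 : ℤ) * (y.1.2.2 : ℤ) :=
      primrec_mul.comp (primrec_natCast.comp Primrec.snd)
        (primrec_natCast.comp (B.comp Primrec.fst))
    have h3 : Primrec fun y : (ℕ × ℤ × ℕ) × ℕ =>
        max (y.1.2.1 * 2 ^ y.1.1 - (y.2 : ℤ) * (y.1.2.2 : ℤ)) 0 :=
      primrec_max.comp (primrec_sub.comp h1 h2) (Primrec.const 0)
    exact primrec_mul.comp (primrec_tmSign.comp Primrec.snd) (primrec_pow.comp h3 D')
  have hsum : Primrec fun x : ℕ × ℤ × ℕ => ∑ m ∈ Finset.range (2 ^ x.1),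
      tmSign m * (max (x.2.1 * 2 ^ x.1 - (m : ℤ) * (x.2.2 : ℤ)) 0) ^ x.1 :=
    (primrec_int_sum hterm).comp Primrec.id (primrec_nat_pow.comp (Primrec.const 2) D)
  have hexp : Primrec fun x : ℕ × ℤ × ℕ => x.1 * (x.1 + 1) / 2 :=
    Primrec.nat_div.comp (Primrec.nat_mul.comp D (Primrec.succ.comp D)) (Primrec.const 2)
  exact primrec_mul.comp (primrec_pow.comp (Primrec.const 2) hexp) hsum

theorem primrec_denFQ : Primrec₂ denFQ := by
  have h : Primrec fun p : ℕ × ℕ => p.1.factorial * (p.2 * 2 ^ p.1) ^ p.1 :=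
    Primrec.nat_mul.comp (primrec_factorial.comp Primrec.fst)
      (primrec_nat_pow.comp (Primrec.nat_mul.comp Primrec.snd
        (primrec_nat_pow.comp (Primrec.const 2) Primrec.fst)) Primrec.fst)
  exact h

/-- **B4**: the rational approximants of the Fabius step are primitive recursive. -/
theorem primrec_FQ : Primrec₂ FQ := by
  have hn : Primrec fun p : ℕ × ℚ => numFQ p.1 p.2.num p.2.den :=
    primrec_numFQ.comp (Primrec.pair Primrec.fst
      (Primrec.pair (primrec_num.comp Primrec.snd) (primrec_den.comp Primrec.snd)))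
  have hd : Primrec fun p : ℕ × ℚ => denFQ p.1 p.2.den :=
    primrec_denFQ.comp Primrec.fst (primrec_den.comp Primrec.snd)
  exact (primrec_mk_comp hn hd).of_eq fun p => (FQ_eq p.1 p.2).symm

theorem primrec_FQ' : Primrec (fun p : ℕ × ℚ => FQ p.1 p.2) := primrec_FQ

theorem computable_FQ : Computable (fun p : ℕ × ℚ => FQ p.1 p.2) := primrec_FQ.to_comp

/-- Composition form. -/
theorem primrec_FQ_comp {f : α → ℕ} {g : α → ℚ} (hf : Primrec f) (hg : Primrec g) :
    Primrec (fun a => FQ (f a) (g a)) :=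
  primrec_FQ.comp hf hg

end Crest.Agent.Lib_S0170_CompFQ
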