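import Mathlib

/-!
# Computable list / iteration plumbing (S0170, part [E], package `E-list`)

Mathlib proves the list combinators (`foldl`, `foldr`, `map`, `flatMap`, ...) only for
`Primrec` step functions.  The arithmetic on `ℚ` used in part [E] is only known to be
`Computable` (Mathlib's `Primcodable ℚ` comes from `Denumerable`, whose encoding is not
known to be primitive recursive in the usual arithmetic), so here are the same combinators
with `Computable` step functions.  Everything is generic over `Primcodable` types and
imports only Mathlib.
-/

namespace Crest.Agent.Lib_S0170_CompList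

open Computable

variable {α β γ σ : Type*} [Primcodable α] [Primcodable β] [Primcodable γ] [Primcodable σ]

omit [Primcodable β] [Primcodable σ] in
/-- Auxiliary: the recursion on a prefix length computing a left fold. -/
theorem rec_eq_foldl_take (l : List β) (s₀ : σ) (k : σ → β → σ) (n : ℕ) :
    Nat.rec (motive := fun _ => σ) s₀
      (fun y IH => Option.casesOn (motive := fun _ => σ) (l[y]?) IH (fun b => k IH b)) n
      = (l.take n).foldl k s₀ := by
  induction n with
  | zero => simp
  | succ n ih =>
    rw [List.take_add_one, List.foldl_append, ← ih]
    rcases h : l[n]? with _ | b <;> simp [h]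

/-- `List.foldl` with a `Computable` step. -/
theorem list_foldl {f : α → List β} {g : α → σ} {h : α → σ × β → σ}
    (hf : Computable f) (hg : Computable g) (hh : Computable₂ h) :
    Computable fun a => (f a).foldl (fun s b => h a (s, b)) (g a) := by
  have step : Computable₂ fun (a : α) (p : ℕ × σ) =>
      Option.casesOn (motive := fun _ => σ) ((f a)[p.1]?) p.2 (fun b => h a (p.2, b)) := by
    refine Computable₂.mk ?_
    refine option_casesOn (list_getElem?.comp (hf.comp fst) (fst.comp snd)) (snd.comp snd) ?_
    exact (hh.comp (fst.comp fst) ((snd.comp (snd.comp fst)).pair snd)).to₂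
  refine (nat_rec (list_length.comp hf) hg step).of_eq fun a => ?_
  have := rec_eq_foldl_take (f a) (g a) (fun s b => h a (s, b)) (f a).length
  simpa using this

/-- `List.foldr` with a `Computable` step. -/
theorem list_foldr {f : α → List β} {g : α → σ} {h : α → β × σ → σ}
    (hf : Computable f) (hg : Computable g) (hh : Computable₂ h) :
    Computable fun a => (f a).foldr (fun b s => h a (b, s)) (g a) := by
  have h' : Computable₂ fun (a : α) (p : σ × β) => h a (p.2, p.1) :=
    (hh.comp fst ((snd.comp snd).pair (fst.comp snd))).to₂
  refine (list_foldl (list_reverse.comp hf) hg h').of_eq fun a => ?_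
  simp [List.foldl_reverse]

/-- `List.map` with a `Computable` map. -/
theorem list_map {f : α → List β} {g : α → β → σ} (hf : Computable f) (hg : Computable₂ g) :
    Computable fun a => (f a).map (g a) := by
  have h' : Computable₂ fun (a : α) (p : β × List σ) => g a p.1 :: p.2 :=
    (list_cons.comp (hg.comp fst (fst.comp snd)) (snd.comp snd)).to₂
  refine (list_foldr hf (const ([] : List σ)) h').of_eq fun a => ?_
  induction f a with
  | nil => rfl
  | cons b l ih => simp [ih]

/-- `List.flatMap` with a `Computable` map. -/
theorem list_flatMap {f : α → List β} {g : α → β → List σ} (hf : Computable f)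
    (hg : Computable₂ g) : Computable fun a => (f a).flatMap (g a) := by
  have h' : Computable₂ fun (a : α) (p : β × List σ) => g a p.1 ++ p.2 :=
    (list_append.comp (hg.comp fst (fst.comp snd)) (snd.comp snd)).to₂
  refine (list_foldr hf (const ([] : List σ)) h').of_eq fun a => ?_
  induction f a with
  | nil => rfl
  | cons b l ih => simp [ih]

/-- `List.flatten` is computable. -/
theorem list_flatten : Computable (List.flatten : List (List σ) → List σ) :=
  Primrec.list_flatten.to_comp

/-- `List.range` is computable. -/
theorem list_range : Computable List.range :=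
  Primrec.list_range.to_comp

/-- Iteration with a `Computable` step. -/
theorem nat_iterate {f : α → ℕ} {g : α → σ} {h : α → σ → σ}
    (hf : Computable f) (hg : Computable g) (hh : Computable₂ h) :
    Computable fun a => (h a)^[f a] (g a) := by
  have h' : Computable₂ fun (a : α) (p : ℕ × σ) => h a p.2 :=
    (hh.comp fst (snd.comp snd)).to₂
  refine (nat_rec hf hg h').of_eq fun a => ?_
  induction f a with
  | zero => rfl
  | succ n ih => rw [Function.iterate_succ_apply', ← ih]

/-- Fold over `List.range` with a `Computable` step (index first, accumulator second). -/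
theorem range_fold {f : α → ℕ} {g : α → σ} {h : α → ℕ × σ → σ}
    (hf : Computable f) (hg : Computable g) (hh : Computable₂ h) :
    Computable fun a => (List.range (f a)).foldl (fun s i => h a (i, s)) (g a) := by
  refine (nat_rec hf hg hh).of_eq fun a => ?_
  induction f a with
  | zero => rfl
  | succ n ih => rw [List.range_succ, List.foldl_append, ← ih]; rfl

/-- A function into `Fin n → σ` is computable as soon as all its components are. -/
theorem fin_lam {n : ℕ} {f : α → Fin n → σ} (hf : ∀ i, Computable fun a => f a i) :
    Computable f :=
  (Primrec.vector_get'.to_comp.comp (vector_ofFn hf)).of_eq fun a => by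
    funext i; simp

/-- Application of a computable `Fin n → σ`-valued function at a computable index. -/
theorem fin_apply {n : ℕ} {f : α → Fin n → σ} {i : α → Fin n}
    (hf : Computable f) (hi : Computable i) : Computable fun a => f a (i a) :=
  Computable.fin_app.comp hf hi

/-- Application at a fixed index. -/
theorem fin_apply_const {n : ℕ} {f : α → Fin n → σ} (hf : Computable f) (i : Fin n) :
    Computable fun a => f a i :=
  fin_apply hf (const i)

/-- `Fin n → σ` computability is componentwise. -/
theorem fin_lam_iff {n : ℕ} {f : α → Fin n → σ} :
    Computable f ↔ ∀ i, Computable fun a => f a i :=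
  ⟨fun h i => fin_apply_const h i, fin_lam⟩

/-- Right fold of a list with a computable binary operation. -/
theorem list_foldr_op {op : σ → σ → σ} (hop : Computable₂ op) (z : σ) :
    Computable fun l : List σ => l.foldr op z :=
  (list_foldr (f := fun l : List σ => l) (g := fun _ => z) (h := fun _ p => op p.1 p.2)
    Computable.id (const z) ((hop.comp (fst.comp snd) (snd.comp snd)).to₂)).of_eq fun _ => rfl

/-- `List.sum` for a computable addition. -/
theorem list_sum [Add σ] [Zero σ] (hadd : Computable₂ ((· + ·) : σ → σ → σ)) :
    Computable (List.sum : List σ → σ) :=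
  (list_foldr_op hadd 0).of_eq fun l => by
    induction l with
    | nil => rfl
    | cons b l ih => simp [List.sum_cons, ← ih]

/-- `List.prod` for a computable multiplication. -/
theorem list_prod [Mul σ] [One σ] (hmul : Computable₂ ((· * ·) : σ → σ → σ)) :
    Computable (List.prod : List σ → σ) :=
  (list_foldr_op hmul 1).of_eq fun l => by
    induction l with
    | nil => rfl
    | cons b l ih => simp [List.prod_cons, ← ih]

/-- Sum over `Finset.range` of a computable family, for a computable addition. -/
theorem finset_sum_range [AddCommMonoid σ] (hadd : Computable₂ ((· + ·) : σ → σ → σ))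
    {f : α → ℕ} {g : α → ℕ → σ} (hf : Computable f) (hg : Computable₂ g) :
    Computable fun a => ∑ i ∈ Finset.range (f a), g a i := by
  have h' : Computable₂ fun (a : α) (p : ℕ × σ) => p.2 + g a p.1 :=
    (hadd.comp (snd.comp snd) (hg.comp fst (fst.comp snd))).to₂
  refine (nat_rec hf (const (0 : σ)) h').of_eq fun a => ?_
  induction f a with
  | zero => simp
  | succ n ih => rw [Finset.sum_range_succ, ← ih]

/-- Product over `Finset.range` of a computable family, for a computable multiplication. -/
theorem finset_prod_range [CommMonoid σ] (hmul : Computable₂ ((· * ·) : σ → σ → σ))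
    {f : α → ℕ} {g : α → ℕ → σ} (hf : Computable f) (hg : Computable₂ g) :
    Computable fun a => ∏ i ∈ Finset.range (f a), g a i := by
  have h' : Computable₂ fun (a : α) (p : ℕ × σ) => p.2 * g a p.1 :=
    (hmul.comp (snd.comp snd) (hg.comp fst (fst.comp snd))).to₂
  refine (nat_rec hf (const (1 : σ)) h').of_eq fun a => ?_
  induction f a with
  | zero => simp
  | succ n ih => rw [Finset.prod_range_succ, ← ih]

/-- Sum over a fixed finset of computable functions. -/
theorem finset_sum_fixed {ι : Type*} [AddCommMonoid σ]
    (hadd : Computable₂ ((· + ·) : σ → σ → σ)) (s : Finset ι) {g : ι → α → σ}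
    (hg : ∀ i ∈ s, Computable (g i)) : Computable fun a => ∑ i ∈ s, g i a := by
  classical
  induction s using Finset.induction_on with
  | empty => simpa using const (0 : σ)
  | insert i s hi ih =>
    have h1 := hg i (Finset.mem_insert_self i s)
    have h2 := ih fun j hj => hg j (Finset.mem_insert_of_mem hj)
    refine (hadd.comp h1 h2).of_eq fun a => ?_
    simp [Finset.sum_insert hi]

/-- Product over a fixed finset of computable functions. -/
theorem finset_prod_fixed {ι : Type*} [CommMonoid σ]
    (hmul : Computable₂ ((· * ·) : σ → σ → σ)) (s : Finset ι) {g : ι → α → σ}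
    (hg : ∀ i ∈ s, Computable (g i)) : Computable fun a => ∏ i ∈ s, g i a := by
  classical
  induction s using Finset.induction_on with
  | empty => simpa using const (1 : σ)
  | insert i s hi ih =>
    have h1 := hg i (Finset.mem_insert_self i s)
    have h2 := ih fun j hj => hg j (Finset.mem_insert_of_mem hj)
    refine (hmul.comp h1 h2).of_eq fun a => ?_
    simp [Finset.prod_insert hi]

/-- Sum over `Fin n` (fixed `n`) of computable functions. -/
theorem fin_sum [AddCommMonoid σ] (hadd : Computable₂ ((· + ·) : σ → σ → σ)) {n : ℕ}
    {g : Fin n → α → σ} (hg : ∀ i, Computable (g i)) : Computable fun a => ∑ i, g i a :=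
  finset_sum_fixed hadd Finset.univ fun i _ => hg i

/-- Product over `Fin n` (fixed `n`) of computable functions. -/
theorem fin_prod [CommMonoid σ] (hmul : Computable₂ ((· * ·) : σ → σ → σ)) {n : ℕ}
    {g : Fin n → α → σ} (hg : ∀ i, Computable (g i)) : Computable fun a => ∏ i, g i a :=
  finset_prod_fixed hmul Finset.univ fun i _ => hg i

/-- `if … then … else …` with a computable (decidable) condition. -/
theorem ite' {c : α → Prop} [DecidablePred c] {f g : α → σ}
    (hc : Computable fun a => decide (c a)) (hf : Computable f) (hg : Computable g) :
    Computable fun a => if c a then f a else g a :=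
  (Computable.cond hc hf hg).of_eq fun a => by
    by_cases h : c a <;> simp [h]

/-- Computable power `x ^ n` from a computable multiplication. -/
theorem pow_of_mul [Monoid σ] (hmul : Computable₂ ((· * ·) : σ → σ → σ))
    {f : α → σ} {e : α → ℕ} (hf : Computable f) (he : Computable e) :
    Computable fun a => f a ^ e a := by
  have h' : Computable₂ fun (a : α) (p : ℕ × σ) => p.2 * f a :=
    (hmul.comp (snd.comp snd) (hf.comp fst)).to₂
  refine (nat_rec he (const (1 : σ)) h').of_eq fun a => ?_
  induction e a with
  | zero => simp
  | succ n ih => rw [pow_succ, ← ih]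

/-- Computable scalar multiple `n • x` from a computable addition. -/
theorem nsmul_of_add [AddMonoid σ] (hadd : Computable₂ ((· + ·) : σ → σ → σ))
    {f : α → σ} {e : α → ℕ} (hf : Computable f) (he : Computable e) :
    Computable fun a => e a • f a := by
  have h' : Computable₂ fun (a : α) (p : ℕ × σ) => p.2 + f a :=
    (hadd.comp (snd.comp snd) (hf.comp fst)).to₂
  refine (nat_rec he (const (0 : σ)) h').of_eq fun a => ?_
  induction e a with
  | zero => simp
  | succ n ih => rw [succ_nsmul, ← ih]

/-- `List.replicate` is computable. -/
theorem list_replicate {f : α → ℕ} {g : α → σ} (hf : Computable f) (hg : Computable g) :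
    Computable fun a => List.replicate (f a) (g a) := by
  have h' : Computable₂ fun (a : α) (p : ℕ × List σ) => g a :: p.2 :=
    (list_cons.comp (hg.comp fst) (snd.comp snd)).to₂
  refine (nat_rec hf (const ([] : List σ)) h').of_eq fun a => ?_
  induction f a with
  | zero => rfl
  | succ n ih => rw [List.replicate_succ, ← ih]

/-- `List.getD` is computable. -/
theorem list_getD {f : α → List σ} {i : α → ℕ} {d : α → σ}
    (hf : Computable f) (hi : Computable i) (hd : Computable d) :
    Computable fun a => (f a).getD (i a) (d a) :=
  (option_getD (list_getElem?.comp hf hi) hd).of_eq fun a => by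
    simp [List.getD_eq_getElem?_getD]

/-- Case analysis on a list with computable branches. -/
theorem list_casesOn {f : α → List β} {g : α → σ} {h : α → β × List β → σ}
    (hf : Computable f) (hg : Computable g) (hh : Computable₂ h) :
    Computable fun a => List.casesOn (motive := fun _ => σ) (f a) (g a) (fun b l => h a (b, l)) := by
  have hhead : Computable fun a => (f a).head? := Primrec.list_head?.to_comp.comp hf
  have htail : Computable fun a => (f a).tail := Primrec.list_tail.to_comp.comp hf
  have h' : Computable₂ fun (a : α) (b : β) => h a (b, (f a).tail) :=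
    (hh.comp fst (snd.pair (htail.comp fst))).to₂
  refine (option_casesOn hhead hg h').of_eq fun a => ?_
  cases f a <;> rfl

/-- Structural recursion on a list with a computable step (head, tail, IH). -/
theorem list_rec {f : α → List β} {g : α → σ} {h : α → β × List β × σ → σ}
    (hf : Computable f) (hg : Computable g) (hh : Computable₂ h) :
    Computable fun a => List.recOn (motive := fun _ => σ) (f a) (g a)
      (fun b l IH => h a (b, l, IH)) := by
  -- fold from the right, carrying the tail along
  let H (a : α) (p : β × List β × σ) : List β × σ := (p.1 :: p.2.1, h a p)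
  have hH : Computable₂ H := by
    have h1 : Computable fun q : α × β × List β × σ => q.2.1 :: q.2.2.1 :=
      list_cons.comp (fst.comp snd) (fst.comp (snd.comp snd))
    have h2 : Computable fun q : α × β × List β × σ => h q.1 q.2 := hh
    exact (h1.pair h2).to₂
  have hF : Computable fun a => (f a).foldr (fun b s => H a (b, s)) ([], g a) :=
    list_foldr hf ((const ([] : List β)).pair hg) hH
  refine (snd.comp hF).of_eq fun a => ?_
  suffices (f a).foldr (fun b s => H a (b, s)) ([], g a) =
      (f a, List.recOn (motive := fun _ => σ) (f a) (g a)
        (fun b l IH => h a (b, l, IH))) by rw [this]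
  induction f a with
  | nil => rfl
  | cons b l ih => simp [ih, H]

end Crest.Agent.Lib_S0170_CompList
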