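import Mathlib
import Crest.Agent.Lib_S0170_CompInt
import Crest.Agent.Lib_S0170_CompQ

/-!
# Primitive recursive rational arithmetic (package B2 of the S0170 project)

Mathlib's `Primcodable ℚ` is `Primcodable.ofDenumerable ℚ` for the `Denumerable ℚ` instance obtained
from `Denumerable.ofEncodableOfInfinite`.  Package B1 (`Lib_S0170_CompQ`) proves that numerator,
denominator and the division of an integer by a natural number are primitive recursive.
Here all field operations, the order, casts, powers and range sums are derived from that.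
-/

set_option autoImplicit false

namespace Crest.Agent.Lib_S0170_CompQOps

open Crest.Agent.Lib_S0170_CompInt Crest.Agent.Lib_S0170_CompQ

variable {α : Type*} [Primcodable α]

theorem primrec_nat_pow : Primrec₂ ((· ^ ·) : ℕ → ℕ → ℕ) :=
  Primrec₂.unpaired'.1 Nat.Primrec.pow

section formulas

theorem add_formula (a b : ℚ) :
    a + b = ((a.num * b.den + b.num * a.den : ℤ) : ℚ) / ((a.den * b.den : ℕ) : ℚ) := by
  have ha : (a.den : ℚ) ≠ 0 := Nat.cast_ne_zero.2 a.den_ne_zero
  have hb : (b.den : ℚ) ≠ 0 := Nat.cast_ne_zero.2 b.den_ne_zero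
  conv_lhs => rw [← Rat.num_div_den a, ← Rat.num_div_den b]
  push_cast
  field_simp

theorem mul_formula (a b : ℚ) :
    a * b = ((a.num * b.num : ℤ) : ℚ) / ((a.den * b.den : ℕ) : ℚ) := by
  have ha : (a.den : ℚ) ≠ 0 := Nat.cast_ne_zero.2 a.den_ne_zero
  have hb : (b.den : ℚ) ≠ 0 := Nat.cast_ne_zero.2 b.den_ne_zero
  conv_lhs => rw [← Rat.num_div_den a, ← Rat.num_div_den b]
  push_cast
  field_simp

theorem neg_formula (a : ℚ) : -a = ((-a.num : ℤ) : ℚ) / ((a.den : ℕ) : ℚ) := by
  conv_lhs => rw [← Rat.num_div_den a]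
  push_cast
  ring

theorem inv_formula (a : ℚ) :
    a⁻¹ = ((a.num.sign * (a.den : ℤ) : ℤ) : ℚ) / ((a.num.natAbs : ℕ) : ℚ) := by
  have ha : (a.den : ℚ) ≠ 0 := Nat.cast_ne_zero.2 a.den_ne_zero
  conv_lhs => rw [← Rat.num_div_den a]
  rcases lt_trichotomy a.num 0 with h | h | h
  · have h1 : a.num.sign = -1 := Int.sign_eq_neg_one_of_neg h
    have h2 : ((a.num.natAbs : ℕ) : ℚ) = -(a.num : ℚ) := by
      rw [Nat.cast_natAbs, Int.cast_abs, abs_of_neg (by exact_mod_cast h)]
    have h3 : (a.num : ℚ) ≠ 0 := by exact_mod_cast h.ne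
    rw [h1, h2]
    push_cast
    field_simp
  · simp [h]
  · have h1 : a.num.sign = 1 := Int.sign_eq_one_of_pos h
    have h2 : ((a.num.natAbs : ℕ) : ℚ) = (a.num : ℚ) := by
      rw [Nat.cast_natAbs, Int.cast_abs, abs_of_pos (by exact_mod_cast h)]
    have h3 : (a.num : ℚ) ≠ 0 := by exact_mod_cast h.ne'
    rw [h1, h2]
    push_cast
    field_simp

theorem pow_formula (a : ℚ) (n : ℕ) :
    a ^ n = ((a.num ^ n : ℤ) : ℚ) / ((a.den ^ n : ℕ) : ℚ) := by
  conv_lhs => rw [← Rat.num_div_den a]
  push_cast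
  rw [div_pow]

theorem abs_le_natAbs_num (a : ℚ) : |a| ≤ (a.num.natAbs : ℚ) := by
  have hd : (1 : ℚ) ≤ (a.den : ℚ) := by exact_mod_cast a.den_pos
  have h1 : |a| = |(a.num : ℚ)| / (a.den : ℚ) := by
    conv_lhs => rw [← Rat.num_div_den a]
    rw [abs_div, abs_of_pos (by positivity : (0 : ℚ) < (a.den : ℚ))]
  have h2 : |(a.num : ℚ)| = (a.num.natAbs : ℚ) := by
    rw [Nat.cast_natAbs, Int.cast_abs]
  rw [h1, h2]
  exact div_le_self (by positivity) hd

end formulas

section ops

theorem comp_num {f : α → ℚ} (hf : Primrec f) : Primrec (fun a => (f a).num) :=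
  primrec_num.comp hf

theorem comp_den {f : α → ℚ} (hf : Primrec f) : Primrec (fun a => (f a).den) :=
  primrec_den.comp hf

theorem comp_mk {f : α → ℤ} {g : α → ℕ} (hf : Primrec f) (hg : Primrec g) :
    Primrec (fun a => ((f a : ℤ) : ℚ) / ((g a : ℕ) : ℚ)) :=
  (Primrec.comp (f := fun p : ℤ × ℕ => (p.1 : ℚ) / (p.2 : ℚ)) (g := fun a => (f a, g a))
    primrec_mk (hf.pair hg)).of_eq fun _ => rfl

theorem rat_intCast : Primrec (fun z : ℤ => (z : ℚ)) :=
  (comp_mk Primrec.id (Primrec.const 1)).of_eq fun z => by simp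

theorem rat_natCast : Primrec (fun n : ℕ => (n : ℚ)) :=
  (rat_intCast.comp primrec_natCast).of_eq fun n => by simp

theorem rat_add : Primrec₂ ((· + ·) : ℚ → ℚ → ℚ) := by
  have hn : Primrec (fun p : ℚ × ℚ => p.1.num * (p.2.den : ℤ) + p.2.num * (p.1.den : ℤ)) :=
    primrec_add.comp
      (primrec_mul.comp (comp_num Primrec.fst) (primrec_natCast.comp (comp_den Primrec.snd)))
      (primrec_mul.comp (comp_num Primrec.snd) (primrec_natCast.comp (comp_den Primrec.fst)))
  have hd : Primrec (fun p : ℚ × ℚ => p.1.den * p.2.den) :=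
    Primrec.nat_mul.comp (comp_den Primrec.fst) (comp_den Primrec.snd)
  exact (comp_mk hn hd).of_eq fun p => (add_formula p.1 p.2).symm

theorem rat_mul : Primrec₂ ((· * ·) : ℚ → ℚ → ℚ) := by
  have hn : Primrec (fun p : ℚ × ℚ => p.1.num * p.2.num) :=
    primrec_mul.comp (comp_num Primrec.fst) (comp_num Primrec.snd)
  have hd : Primrec (fun p : ℚ × ℚ => p.1.den * p.2.den) :=
    Primrec.nat_mul.comp (comp_den Primrec.fst) (comp_den Primrec.snd)
  exact (comp_mk hn hd).of_eq fun p => (mul_formula p.1 p.2).symm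

theorem rat_neg : Primrec (Neg.neg : ℚ → ℚ) := by
  have hn : Primrec (fun q : ℚ => -q.num) := primrec_neg.comp primrec_num
  exact (comp_mk hn primrec_den).of_eq fun q => (neg_formula q).symm

theorem rat_sub : Primrec₂ ((· - ·) : ℚ → ℚ → ℚ) :=
  (rat_add.comp Primrec.fst (rat_neg.comp Primrec.snd)).of_eq fun p => by
    simp [sub_eq_add_neg]

theorem rat_inv : Primrec (Inv.inv : ℚ → ℚ) := by
  have hn : Primrec (fun q : ℚ => q.num.sign * (q.den : ℤ)) :=
    primrec_mul.comp (primrec_sign.comp primrec_num) (primrec_natCast.comp primrec_den)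
  have hd : Primrec (fun q : ℚ => q.num.natAbs) := primrec_natAbs.comp primrec_num
  exact (comp_mk hn hd).of_eq fun q => (inv_formula q).symm

theorem rat_div : Primrec₂ ((· / ·) : ℚ → ℚ → ℚ) :=
  (rat_mul.comp Primrec.fst (rat_inv.comp Primrec.snd)).of_eq fun p => by
    simp [div_eq_mul_inv]

theorem rat_pow : Primrec₂ (fun (q : ℚ) (n : ℕ) => q ^ n) := by
  have hn : Primrec (fun p : ℚ × ℕ => p.1.num ^ p.2) :=
    primrec_pow.comp (comp_num Primrec.fst) Primrec.snd
  have hd : Primrec (fun p : ℚ × ℕ => p.1.den ^ p.2) :=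
    primrec_nat_pow.comp (comp_den Primrec.fst) Primrec.snd
  exact (comp_mk hn hd).of_eq fun p => (pow_formula p.1 p.2).symm

/-- Deciding `a ≤ b` is primitive recursive. -/
theorem rat_le_decide : Primrec (fun p : ℚ × ℚ => decide (p.1 ≤ p.2)) := by
  have h1 : Primrec (fun p : ℤ × ℤ => decide (p.1 ≤ p.2)) :=
    primrecRel_iff_primrec_decide.1 primrec_le
  have h3 : Primrec (fun p : ℚ × ℚ =>
      (p.1.num * (p.2.den : ℤ), p.2.num * (p.1.den : ℤ))) :=
    (primrec_mul.comp (comp_num Primrec.fst) (primrec_natCast.comp (comp_den Primrec.snd))).pair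
      (primrec_mul.comp (comp_num Primrec.snd) (primrec_natCast.comp (comp_den Primrec.fst)))
  have h2 : Primrec (fun p : ℚ × ℚ =>
      decide (p.1.num * (p.2.den : ℤ) ≤ p.2.num * (p.1.den : ℤ))) :=
    Primrec.comp (f := fun p : ℤ × ℤ => decide (p.1 ≤ p.2))
      (g := fun p : ℚ × ℚ => (p.1.num * (p.2.den : ℤ), p.2.num * (p.1.den : ℤ))) h1 h3
  exact h2.of_eq fun p => decide_eq_decide.2 (Rat.le_iff p.1 p.2).symm

theorem rat_le : PrimrecRel ((· ≤ ·) : ℚ → ℚ → Prop) :=
  primrecRel_iff_primrec_decide.2 rat_le_decide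

theorem rat_lt : PrimrecRel ((· < ·) : ℚ → ℚ → Prop) := by
  have h : PrimrecPred (fun p : ℚ × ℚ => ¬ p.2 ≤ p.1) := (rat_le.comp Primrec.snd Primrec.fst).not
  exact h.of_eq fun p => by simp

/-- Deciding `a < b` is primitive recursive. -/
theorem rat_lt_decide : Primrec (fun p : ℚ × ℚ => decide (p.1 < p.2)) :=
  primrecRel_iff_primrec_decide.1 rat_lt

theorem rat_max : Primrec₂ (Max.max : ℚ → ℚ → ℚ) :=
  (Primrec.ite (rat_le.comp Primrec.fst Primrec.snd) Primrec.snd Primrec.fst).of_eq fun p => by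
    simp only [max_def]

theorem rat_min : Primrec₂ (Min.min : ℚ → ℚ → ℚ) :=
  (Primrec.ite (rat_le.comp Primrec.fst Primrec.snd) Primrec.fst Primrec.snd).of_eq fun p => by
    simp only [min_def]

theorem rat_abs : Primrec (fun q : ℚ => |q|) :=
  (rat_max.comp Primrec.id rat_neg).of_eq fun q => by simp [abs_eq_max_neg]

/-- A primitive recursive natural upper bound for `|q|` (see `abs_le_natAbs_num`). -/
theorem rat_ub : Primrec (fun q : ℚ => q.num.natAbs) := primrec_natAbs.comp primrec_num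

theorem rat_floor : Primrec (fun q : ℚ => ⌊q⌋) :=
  (primrec_ediv_nat.comp primrec_num primrec_den).of_eq fun q => by
    rw [Rat.floor_def']

/-- Sums over `Finset.range` with a parameter are primitive recursive. -/
theorem rat_sum_range {f : α → ℕ → ℚ} (hf : Primrec₂ f) :
    Primrec₂ (fun (a : α) (n : ℕ) => ∑ i ∈ Finset.range n, f a i) := by
  have h : Primrec (fun p : α × ℕ =>
      (Nat.rec (0 : ℚ) (fun i ih => ih + f p.1 i) p.2 : ℚ)) :=
    Primrec.nat_rec' (f := fun p : α × ℕ => p.2) (g := fun _ => (0 : ℚ))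
      (h := fun p q => q.2 + f p.1 q.1) Primrec.snd (Primrec.const 0)
      (rat_add.comp₂ (Primrec.snd.comp₂ Primrec₂.right)
        (hf.comp₂ (Primrec.fst.comp₂ Primrec₂.left) (Primrec.fst.comp₂ Primrec₂.right)))
  have key : ∀ (a : α) (n : ℕ),
      (Nat.rec (0 : ℚ) (fun i ih => ih + f a i) n : ℚ) = ∑ i ∈ Finset.range n, f a i := by
    intro a n
    induction n with
    | zero => simp
    | succ n ih => rw [Finset.sum_range_succ, ← ih]
  exact h.of_eq fun p => key p.1 p.2

/-- Products over `Finset.range` with a parameter are primitive recursive. -/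
theorem rat_prod_range {f : α → ℕ → ℚ} (hf : Primrec₂ f) :
    Primrec₂ (fun (a : α) (n : ℕ) => ∏ i ∈ Finset.range n, f a i) := by
  have h : Primrec (fun p : α × ℕ =>
      (Nat.rec (1 : ℚ) (fun i ih => ih * f p.1 i) p.2 : ℚ)) :=
    Primrec.nat_rec' (f := fun p : α × ℕ => p.2) (g := fun _ => (1 : ℚ))
      (h := fun p q => q.2 * f p.1 q.1) Primrec.snd (Primrec.const 1)
      (rat_mul.comp₂ (Primrec.snd.comp₂ Primrec₂.right)
        (hf.comp₂ (Primrec.fst.comp₂ Primrec₂.left) (Primrec.fst.comp₂ Primrec₂.right)))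
  have key : ∀ (a : α) (n : ℕ),
      (Nat.rec (1 : ℚ) (fun i ih => ih * f a i) n : ℚ) = ∏ i ∈ Finset.range n, f a i := by
    intro a n
    induction n with
    | zero => simp
    | succ n ih => rw [Finset.prod_range_succ, ← ih]
  exact h.of_eq fun p => key p.1 p.2

/-- Sums of lists of rationals are primitive recursive. -/
theorem rat_list_sum : Primrec (List.sum : List ℚ → ℚ) := by
  have h : Primrec (fun l : List ℚ => l.foldr (fun b s => b + s) 0) :=
    Primrec.list_foldr (f := fun l : List ℚ => l) (g := fun _ => (0 : ℚ))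
      (h := fun _ p => p.1 + p.2) Primrec.id (Primrec.const 0)
      (rat_add.comp₂ (Primrec.fst.comp₂ Primrec₂.right) (Primrec.snd.comp₂ Primrec₂.right))
  exact h.of_eq fun l => by
    induction l with
    | nil => rfl
    | cons a l ih => simp [List.foldr_cons, ih]

/-- Products of lists of rationals are primitive recursive. -/
theorem rat_list_prod : Primrec (List.prod : List ℚ → ℚ) := by
  have h : Primrec (fun l : List ℚ => l.foldr (fun b s => b * s) 1) :=
    Primrec.list_foldr (f := fun l : List ℚ => l) (g := fun _ => (1 : ℚ))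
      (h := fun _ p => p.1 * p.2) Primrec.id (Primrec.const 1)
      (rat_mul.comp₂ (Primrec.fst.comp₂ Primrec₂.right) (Primrec.snd.comp₂ Primrec₂.right))
  exact h.of_eq fun l => by
    induction l with
    | nil => rfl
    | cons a l ih => simp [List.foldr_cons, ih]

end ops

end Crest.Agent.Lib_S0170_CompQOps
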