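import Mathlib
import Crest.Prelude.Def_BoxFlow
import Crest.Agent.Lib_S0170_Defs

/-!
S0170, part [E], ADAPTER: the field `fieldOf L` of a list of stages is the evaluation of an explicit
"program" (a finite list of tensor terms whose 1-D factors are finite rational combinations of
atoms `c * y ^ e * psi (α * y + β)`), and it vanishes outside an explicit cube.
-/

set_option autoImplicit false

namespace Crest.Agent.Lib_S0170_EAdapt

open Crest.AnalysisR.BoxFlow Crest.Agent.Lib_S0170_Defs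
open Crest.Agent.Lib_S0170_Fabius (psi)

/-! ### LOCAL COPY of the program definitions of `Lib_S0170_Eff` (to be replaced by the import) -/

abbrev Prog1 := List (ℚ × ℕ × ℚ × ℚ)

noncomputable def ev1 (L : Prog1) (y : ℝ) : ℝ :=
  (L.map fun a => (a.1 : ℝ) * y ^ a.2.1 * psi (a.2.2.1 * y + a.2.2.2)).sum

abbrev Prog := List (Fin 3 × Prog1 × Prog1 × Prog1 × Prog1)

noncomputable def evalField (P : Prog) : Field := fun p =>
  (P.map fun T => (Pi.single T.1
    (ev1 T.2.1 p.1 * ev1 T.2.2.1 (p.2 0) * ev1 T.2.2.2.1 (p.2 1) * ev1 T.2.2.2.2 (p.2 2)) :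
      Fin 3 → ℝ)).sum

/-! ### API of the program definitions used below (the only place where they are unfolded) -/

theorem ev1_nil (y : ℝ) : ev1 [] y = 0 := by simp [ev1]

theorem ev1_cons (a : ℚ × ℕ × ℚ × ℚ) (L : Prog1) (y : ℝ) :
    ev1 (a :: L) y = (a.1 : ℝ) * y ^ a.2.1 * psi (a.2.2.1 * y + a.2.2.2) + ev1 L y := by
  simp [ev1]

theorem ev1_append (L M : Prog1) (y : ℝ) : ev1 (L ++ M) y = ev1 L y + ev1 M y := by
  simp [ev1]

theorem evalField_nil : evalField [] = 0 := by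
  funext p; simp [evalField]

theorem evalField_cons (T : Fin 3 × Prog1 × Prog1 × Prog1 × Prog1) (P : Prog) (p : ℝ × Sp) :
    evalField (T :: P) p = Pi.single T.1
      (ev1 T.2.1 p.1 * ev1 T.2.2.1 (p.2 0) * ev1 T.2.2.2.1 (p.2 1) * ev1 T.2.2.2.2 (p.2 2)) +
        evalField P p := by
  simp [evalField]

theorem evalField_append (P Q : Prog) (p : ℝ × Sp) :
    evalField (P ++ Q) p = evalField P p + evalField Q p := by
  simp [evalField]

/-! ### 1-D program combinators -/

/-- The program of `y ↦ sg (α * y + β)`. -/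
def atomP (α β : ℚ) : Prog1 := [(1, 0, α, β)]

/-- Multiply a program by a rational constant. -/
def smulP (a : ℚ) (L : Prog1) : Prog1 := L.map fun t => (a * t.1, t.2.1, t.2.2.1, t.2.2.2)

/-- Multiply a program by `y ^ k`. -/
def mulXP (k : ℕ) (L : Prog1) : Prog1 := L.map fun t => (t.1, t.2.1 + k, t.2.2.1, t.2.2.2)

theorem ev1_atomP (α β : ℚ) (y : ℝ) : ev1 (atomP α β) y = sg (α * y + β) := by
  simp [atomP, ev1_cons, ev1_nil, sg]

theorem ev1_smulP (a : ℚ) (L : Prog1) (y : ℝ) : ev1 (smulP a L) y = a * ev1 L y := by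
  induction L with
  | nil => simp [smulP, ev1_nil]
  | cons t L ih =>
    have : smulP a (t :: L) = (a * t.1, t.2.1, t.2.2.1, t.2.2.2) :: smulP a L := rfl
    rw [this, ev1_cons, ev1_cons, ih]
    push_cast
    ring

theorem ev1_mulXP (k : ℕ) (L : Prog1) (y : ℝ) : ev1 (mulXP k L) y = y ^ k * ev1 L y := by
  induction L with
  | nil => simp [mulXP, ev1_nil]
  | cons t L ih =>
    have : mulXP k (t :: L) = (t.1, t.2.1 + k, t.2.2.1, t.2.2.2) :: mulXP k L := rfl
    rw [this, ev1_cons, ev1_cons, ih]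
    simp only [pow_add]
    ring

/-! ### the 1-D factors of a stage -/

/-- Program of `slot' K r`. -/
def timeP (K r : ℕ) : Prog1 :=
  smulP (4 * K) (atomP (4 * K) (-(K : ℚ) - 2 * r)) ++
    smulP (-(4 * K)) (atomP (4 * K) (-(K : ℚ) - 2 * r - 1))

theorem ev1_timeP (K r : ℕ) (t : ℝ) : ev1 (timeP K r) t = slot' K r t := by
  simp only [timeP, ev1_append, ev1_smulP, ev1_atomP, slot', sg']
  push_cast
  have h1 : (4 : ℝ) * K * t + (-(K : ℝ) - 2 * r) = 2 * (2 * (K : ℝ) * (t - 1 / 4) - r) := by ring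
  have h2 : (4 : ℝ) * K * t + (-(K : ℝ) - 2 * r - 1) = 2 * (2 * (K : ℝ) * (t - 1 / 4) - r) - 1 := by
    ring
  rw [h1, h2]
  ring

/-- Program of `plat lo hi w`. -/
def platP (lo hi w : ℚ) : Prog1 :=
  atomP (1 / w) (1 - lo / w) ++ smulP (-1) (atomP (1 / w) (-(hi / w)))

theorem ev1_platP (lo hi w : ℚ) (x : ℝ) : ev1 (platP lo hi w) x = plat lo hi w x := by
  simp only [platP, ev1_append, ev1_smulP, ev1_atomP, plat]
  push_cast
  have h1 : 1 / (w : ℝ) * x + (1 - (lo : ℝ) / w) = (x - lo) / w + 1 := by ring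
  have h2 : 1 / (w : ℝ) * x + -((hi : ℝ) / w) = (x - hi) / w := by ring
  rw [h1, h2]
  ring

/-- Program of `plat' lo hi w`. -/
def plat'P (lo hi w : ℚ) : Prog1 :=
  smulP (2 / w) (atomP (2 / w) (2 - 2 * lo / w)) ++
    (smulP (-(2 / w)) (atomP (2 / w) (1 - 2 * lo / w)) ++
      (smulP (-(2 / w)) (atomP (2 / w) (-(2 * hi / w))) ++
        smulP (2 / w) (atomP (2 / w) (-(2 * hi / w) - 1))))

theorem ev1_plat'P (lo hi w : ℚ) (x : ℝ) : ev1 (plat'P lo hi w) x = plat' lo hi w x := by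
  simp only [plat'P, ev1_append, ev1_smulP, ev1_atomP, plat', sg']
  push_cast
  have h1 : 2 / (w : ℝ) * x + (2 - 2 * (lo : ℝ) / w) = 2 * ((x - lo) / w + 1) := by ring
  have h2 : 2 / (w : ℝ) * x + (1 - 2 * (lo : ℝ) / w) = 2 * ((x - lo) / w + 1) - 1 := by ring
  have h3 : 2 / (w : ℝ) * x + -(2 * (hi : ℝ) / w) = 2 * ((x - hi) / w) := by ring
  have h4 : 2 / (w : ℝ) * x + (-(2 * (hi : ℝ) / w) - 1) = 2 * ((x - hi) / w) - 1 := by ring
  rw [h1, h2, h3, h4]
  ring

/-- Multiply a program by the stream profile `g` of a stage. -/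
def mulG (s : Stage) (L : Prog1) : Prog1 :=
  smulP (s.q2 / 2) (mulXP 2 L) ++
    (smulP (s.q1 - s.q2 * s.c) (mulXP 1 L) ++ smulP (s.q2 * s.c ^ 2 / 2 - s.q1 * s.c) L)

theorem ev1_mulG (s : Stage) (L : Prog1) (y : ℝ) : ev1 (mulG s L) y = s.g y * ev1 L y := by
  simp only [mulG, ev1_append, ev1_smulP, ev1_mulXP, Stage.g]
  push_cast
  ring

/-- Multiply a program by the derivative `g'` of the stream profile of a stage. -/
def mulG' (s : Stage) (L : Prog1) : Prog1 :=
  smulP s.q2 (mulXP 1 L) ++ smulP (s.q1 - s.q2 * s.c) L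

theorem ev1_mulG' (s : Stage) (L : Prog1) (y : ℝ) : ev1 (mulG' s L) y = s.g' y * ev1 L y := by
  simp only [mulG', ev1_append, ev1_smulP, ev1_mulXP, Stage.g']
  push_cast
  ring

/-! ### the program of a stage -/

/-- Space factors of the `e_i`-component of the stage field. -/
def facI (s : Stage) (m : Fin 3) : Prog1 :=
  if m = s.i then platP (s.lo m) (s.hi m) s.w
  else if m = s.j then
    mulG s (plat'P (s.lo m) (s.hi m) s.w) ++ mulG' s (platP (s.lo m) (s.hi m) s.w)
  else platP (s.lo m) (s.hi m) s.w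

/-- Space factors of the `e_j`-component of the stage field. -/
def facJ (s : Stage) (m : Fin 3) : Prog1 :=
  if m = s.i then plat'P (s.lo m) (s.hi m) s.w
  else if m = s.j then mulG s (platP (s.lo m) (s.hi m) s.w)
  else platP (s.lo m) (s.hi m) s.w

/-- The two tensor terms of stage number `r` out of `K`. -/
def stageProg (K r : ℕ) (s : Stage) : Prog :=
  [(s.i, timeP K r, facI s 0, facI s 1, facI s 2),
   (s.j, smulP (-1) (timeP K r), facJ s 0, facJ s 1, facJ s 2)]

/-- The program of a list of stages. -/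
def progOf (L : List Stage) : Prog :=
  (List.finRange L.length).flatMap fun r => stageProg L.length r.1 (L.get r)

theorem prod_split (i j : Fin 3) (hij : i ≠ j) (φ : Fin 3 → ℝ) :
    φ 0 * φ 1 * φ 2 =
      φ i * φ j * ∏ m ∈ Finset.univ.filter (fun m : Fin 3 => m ≠ i ∧ m ≠ j), φ m := by
  fin_cases i <;> fin_cases j <;> first | exact absurd rfl hij | skip
  all_goals
    simp only [Fin.zero_eta, Fin.mk_one, Fin.reduceFinMk]
  · have : Finset.univ.filter (fun m : Fin 3 => m ≠ 0 ∧ m ≠ 1) = {2} := by decide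
    rw [this, Finset.prod_singleton]
  · have : Finset.univ.filter (fun m : Fin 3 => m ≠ 0 ∧ m ≠ 2) = {1} := by decide
    rw [this, Finset.prod_singleton]; ring
  · have : Finset.univ.filter (fun m : Fin 3 => m ≠ 1 ∧ m ≠ 0) = {2} := by decide
    rw [this, Finset.prod_singleton]; ring
  · have : Finset.univ.filter (fun m : Fin 3 => m ≠ 1 ∧ m ≠ 2) = {0} := by decide
    rw [this, Finset.prod_singleton]; ring
  · have : Finset.univ.filter (fun m : Fin 3 => m ≠ 2 ∧ m ≠ 0) = {1} := by decide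
    rw [this, Finset.prod_singleton]; ring
  · have : Finset.univ.filter (fun m : Fin 3 => m ≠ 2 ∧ m ≠ 1) = {0} := by decide
    rw [this, Finset.prod_singleton]; ring

theorem third_eq (s : Stage) (f : Fin 3 → Prog1)
    (hf : ∀ m, m ≠ s.i → m ≠ s.j → f m = platP (s.lo m) (s.hi m) s.w) (x : Sp) :
    ∏ m ∈ Finset.univ.filter (fun m : Fin 3 => m ≠ s.i ∧ m ≠ s.j), ev1 (f m) (x m) = s.third x := by
  unfold Stage.third
  refine Finset.prod_congr rfl fun m hm => ?_
  rw [Finset.mem_filter] at hm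
  rw [hf m hm.2.1 hm.2.2, ev1_platP]

theorem evalField_stageProg (K r : ℕ) (s : Stage) (hij : s.i ≠ s.j) (p : ℝ × Sp) :
    evalField (stageProg K r s) p = slot' K r p.1 • s.field p.2 := by
  have hI := prod_split s.i s.j hij (fun m => ev1 (facI s m) (p.2 m))
  have hJ := prod_split s.i s.j hij (fun m => ev1 (facJ s m) (p.2 m))
  rw [third_eq s (facI s) (fun m h1 h2 => by simp [facI, h1, h2])] at hI
  rw [third_eq s (facJ s) (fun m h1 h2 => by simp [facJ, h1, h2])] at hJ
  have hIi : ev1 (facI s s.i) (p.2 s.i) = plat (s.lo s.i) (s.hi s.i) s.w (p.2 s.i) := by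
    simp [facI, ev1_platP]
  have hIj : ev1 (facI s s.j) (p.2 s.j) =
      plat' (s.lo s.j) (s.hi s.j) s.w (p.2 s.j) * s.g (p.2 s.j) +
        plat (s.lo s.j) (s.hi s.j) s.w (p.2 s.j) * s.g' (p.2 s.j) := by
    simp only [facI, if_neg (Ne.symm hij), if_true, ev1_append, ev1_mulG, ev1_mulG', ev1_platP,
      ev1_plat'P]
    ring
  have hJi : ev1 (facJ s s.i) (p.2 s.i) = plat' (s.lo s.i) (s.hi s.i) s.w (p.2 s.i) := by
    simp [facJ, ev1_plat'P]
  have hJj : ev1 (facJ s s.j) (p.2 s.j) =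
      plat (s.lo s.j) (s.hi s.j) s.w (p.2 s.j) * s.g (p.2 s.j) := by
    simp only [facJ, if_neg (Ne.symm hij), if_true, ev1_mulG, ev1_platP]
    ring
  simp only [hIi, hIj] at hI
  simp only [hJi, hJj] at hJ
  have eI : ev1 (timeP K r) p.1 * ev1 (facI s 0) (p.2 0) * ev1 (facI s 1) (p.2 1) *
      ev1 (facI s 2) (p.2 2) = slot' K r p.1 *
        (plat (s.lo s.i) (s.hi s.i) s.w (p.2 s.i) *
          (plat' (s.lo s.j) (s.hi s.j) s.w (p.2 s.j) * s.g (p.2 s.j) +
            plat (s.lo s.j) (s.hi s.j) s.w (p.2 s.j) * s.g' (p.2 s.j)) * s.third p.2) := by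
    rw [ev1_timeP, mul_assoc, mul_assoc, ← mul_assoc (ev1 (facI s 0) (p.2 0)), hI]
  have eJ : ev1 (smulP (-1) (timeP K r)) p.1 * ev1 (facJ s 0) (p.2 0) * ev1 (facJ s 1) (p.2 1) *
      ev1 (facJ s 2) (p.2 2) = -(slot' K r p.1 *
        (plat' (s.lo s.i) (s.hi s.i) s.w (p.2 s.i) *
          (plat (s.lo s.j) (s.hi s.j) s.w (p.2 s.j) * s.g (p.2 s.j)) * s.third p.2)) := by
    rw [ev1_smulP, ev1_timeP, mul_assoc, mul_assoc, ← mul_assoc (ev1 (facJ s 0) (p.2 0)), hJ]
    ring
  simp only [stageProg, evalField_cons, evalField_nil, Pi.zero_apply, add_zero]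
  rw [eI, eJ]
  funext m
  simp only [Pi.add_apply, Pi.smul_apply, smul_eq_mul, Stage.field, Pi.single_apply]
  by_cases h1 : m = s.i
  · subst h1
    simp only [if_true, if_neg hij]
    ring
  · by_cases h2 : m = s.j
    · subst h2
      simp only [if_neg h1, if_true]
      push_cast
      ring
    · simp [h1, h2]

theorem evalField_flatMap {α : Type*} (l : List α) (f : α → Prog) (p : ℝ × Sp) :
    evalField (l.flatMap f) p = (l.map fun a => evalField (f a) p).sum := by
  induction l with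
  | nil => simp [evalField_nil]
  | cons a l ih => simp [List.flatMap_cons, evalField_append, ih]

/-- **Adapter**: the field of a valid list of stages is the evaluation of its program. -/
theorem fieldOf_eq_evalField (L : List Stage) (hL : ∀ s ∈ L, s.Valid) :
    fieldOf L = evalField (progOf L) := by
  funext p
  rw [progOf, evalField_flatMap, fieldOf, Fin.sum_univ_def]
  congr 1
  refine List.map_congr_left fun r _ => ?_
  rw [evalField_stageProg _ _ _ (hL _ (List.get_mem L r)).1]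

/-! ### support of `fieldOf L` -/

theorem sg_of_nonpos {u : ℝ} (h : u ≤ 0) : sg u = 0 := Lib_S0170_Fabius.psi_of_nonpos h

theorem sg_of_one_le {u : ℝ} (h : 1 ≤ u) : sg u = 1 := Lib_S0170_Fabius.psi_of_one_le h

theorem sg'_of_nonpos {u : ℝ} (h : u ≤ 0) : sg' u = 0 := by
  unfold sg'
  rw [sg_of_nonpos (by linarith), sg_of_nonpos (by linarith)]
  ring

theorem sg'_of_one_le {u : ℝ} (h : 1 ≤ u) : sg' u = 0 := by
  unfold sg'
  rw [sg_of_one_le (by linarith), sg_of_one_le (by linarith)]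
  ring

theorem plat_eq_zero {lo hi w : ℚ} (hw : 0 < w) (hlh : lo ≤ hi) {x : ℝ}
    (hx : x ≤ lo - w ∨ hi + w ≤ x) : plat lo hi w x = 0 := by
  have hw' : (0 : ℝ) < w := by exact_mod_cast hw
  have hlh' : (lo : ℝ) ≤ hi := by exact_mod_cast hlh
  unfold plat
  rcases hx with hx | hx
  · have h1 : (x - lo) / w + 1 ≤ 0 := by
      have : (x - lo) / w ≤ -1 := by rw [div_le_iff₀ hw']; linarith
      linarith
    have h2 : (x - hi) / w ≤ 0 := div_nonpos_of_nonpos_of_nonneg (by linarith) hw'.le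
    rw [sg_of_nonpos h1, sg_of_nonpos h2]; ring
  · have h1 : 1 ≤ (x - lo) / w + 1 := by
      have : 0 ≤ (x - lo) / w := div_nonneg (by linarith) hw'.le
      linarith
    have h2 : 1 ≤ (x - hi) / w := by rw [le_div_iff₀ hw']; linarith
    rw [sg_of_one_le h1, sg_of_one_le h2]; ring

theorem plat'_eq_zero {lo hi w : ℚ} (hw : 0 < w) (hlh : lo ≤ hi) {x : ℝ}
    (hx : x ≤ lo - w ∨ hi + w ≤ x) : plat' lo hi w x = 0 := by
  have hw' : (0 : ℝ) < w := by exact_mod_cast hw
  have hlh' : (lo : ℝ) ≤ hi := by exact_mod_cast hlh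
  unfold plat'
  rcases hx with hx | hx
  · have h1 : (x - lo) / w + 1 ≤ 0 := by
      have : (x - lo) / w ≤ -1 := by rw [div_le_iff₀ hw']; linarith
      linarith
    have h2 : (x - hi) / w ≤ 0 := div_nonpos_of_nonpos_of_nonneg (by linarith) hw'.le
    rw [sg'_of_nonpos h1, sg'_of_nonpos h2]; ring
  · have h1 : 1 ≤ (x - lo) / w + 1 := by
      have : 0 ≤ (x - lo) / w := div_nonneg (by linarith) hw'.le
      linarith
    have h2 : 1 ≤ (x - hi) / w := by rw [le_div_iff₀ hw']; linarith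
    rw [sg'_of_one_le h1, sg'_of_one_le h2]; ring

/-- The field of a valid stage vanishes as soon as one coordinate leaves the support box. -/
theorem field_eq_zero (s : Stage) (hs : s.Valid) (x : Sp) (m : Fin 3)
    (hx : x m ≤ s.lo m - s.w ∨ s.hi m + s.w ≤ x m) : s.field x = 0 := by
  obtain ⟨hij, hw, hlh⟩ := hs
  have hp := plat_eq_zero hw (hlh m) hx
  have hp' := plat'_eq_zero hw (hlh m) hx
  funext m'
  unfold Stage.field
  by_cases hmi : m = s.i
  · subst hmi
    simp [hp, hp']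
  · by_cases hmj : m = s.j
    · subst hmj
      simp [hp, hp']
    · have h3 : s.third x = 0 := by
        unfold Stage.third
        exact Finset.prod_eq_zero (i := m) (by simp [hmi, hmj]) hp
      simp [h3]

theorem slot'_eq_zero (K r : ℕ) (hr : r < K) (t : ℝ) (ht : t ≤ 1 / 4 ∨ 3 / 4 ≤ t) :
    slot' K r t = 0 := by
  unfold slot'
  have hK : (0 : ℝ) ≤ K := Nat.cast_nonneg K
  have hr0 : (0 : ℝ) ≤ r := Nat.cast_nonneg r
  have hrK : (r : ℝ) + 1 ≤ K := by exact_mod_cast hr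
  rcases ht with ht | ht
  · rw [sg'_of_nonpos, mul_zero]
    have : 2 * (K : ℝ) * (t - 1 / 4) ≤ 0 :=
      mul_nonpos_of_nonneg_of_nonpos (by positivity) (by linarith)
    linarith
  · rw [sg'_of_one_le, mul_zero]
    have : 2 * (K : ℝ) * (1 / 2) ≤ 2 * (K : ℝ) * (t - 1 / 4) :=
      mul_le_mul_of_nonneg_left (by linarith) (by positivity)
    linarith

theorem exists_radius (L : List Stage) :
    ∃ R : ℕ, ∀ s ∈ L, ∀ m, |(s.lo m : ℝ)| + |(s.hi m : ℝ)| + (s.w : ℝ) ≤ R := by
  induction L with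
  | nil => exact ⟨0, by simp⟩
  | cons s L ih =>
    obtain ⟨R, hR⟩ := ih
    refine ⟨R + ⌈∑ m, (|(s.lo m : ℝ)| + |(s.hi m : ℝ)| + |(s.w : ℝ)|)⌉₊, ?_⟩
    intro s' hs' m
    rw [List.mem_cons] at hs'
    push_cast
    rcases hs' with rfl | hs'
    · have h1 : |(s'.lo m : ℝ)| + |(s'.hi m : ℝ)| + |(s'.w : ℝ)| ≤
          ∑ m, (|(s'.lo m : ℝ)| + |(s'.hi m : ℝ)| + |(s'.w : ℝ)|) :=
        Finset.single_le_sum (f := fun m => |(s'.lo m : ℝ)| + |(s'.hi m : ℝ)| + |(s'.w : ℝ)|)
          (fun _ _ => by positivity) (Finset.mem_univ m)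
      have h2 := Nat.le_ceil (∑ m, (|(s'.lo m : ℝ)| + |(s'.hi m : ℝ)| + |(s'.w : ℝ)|))
      have h3 := le_abs_self (s'.w : ℝ)
      have h4 : (0 : ℝ) ≤ R := Nat.cast_nonneg R
      linarith
    · have h1 := hR s' hs' m
      have h2 : (0 : ℝ) ≤ ⌈∑ m, (|(s.lo m : ℝ)| + |(s.hi m : ℝ)| + |(s.w : ℝ)|)⌉₊ :=
        Nat.cast_nonneg _
      linarith

/-- `fieldOf L` vanishes outside an integer cube. -/
theorem fieldOf_support_radius (L : List Stage) (hL : ∀ s ∈ L, s.Valid) :
    ∃ R : ℕ, ∀ p : ℝ × Sp, ((R : ℝ) < |p.1| ∨ ∃ j, (R : ℝ) < |p.2 j|) → fieldOf L p = 0 := by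
  obtain ⟨R, hR⟩ := exists_radius L
  refine ⟨R + 1, fun p hp => ?_⟩
  have hR0 : (0 : ℝ) ≤ R := Nat.cast_nonneg R
  unfold fieldOf
  refine Finset.sum_eq_zero fun r _ => ?_
  push_cast at hp
  rcases hp with hp | ⟨j, hp⟩
  · rw [slot'_eq_zero _ _ r.2, zero_smul]
    rcases le_or_gt 0 p.1 with h0 | h0
    · rw [abs_of_nonneg h0] at hp
      right; linarith
    · left; linarith
  · have hs := hR _ (List.get_mem L r) j
    rw [field_eq_zero _ (hL _ (List.get_mem L r)) p.2 j, smul_zero]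
    rcases le_or_gt 0 (p.2 j) with h0 | h0
    · rw [abs_of_nonneg h0] at hp
      right
      have := le_abs_self ((L.get r).hi j : ℝ)
      have := abs_nonneg ((L.get r).lo j : ℝ)
      linarith
    · rw [abs_of_neg h0] at hp
      left
      have := neg_abs_le ((L.get r).lo j : ℝ)
      have := abs_nonneg ((L.get r).hi j : ℝ)
      linarith

end Crest.Agent.Lib_S0170_EAdapt
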