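import Mathlib
import Crest.Prelude.Def_BoxFlow

/-! # S0170 [E] D2: rational evaluation of program fields and its error

Generic in the step function `s : ℝ → ℝ` (bounded by 1) and its rational approximant `F : ℚ → ℚ`.
A 1-D program is a list of atoms `(c, e, α, β)` standing for `y ↦ c * y ^ e * s (α * y + β)`;
a term is a component index together with four 1-D programs (time, x₀, x₁, x₂). -/

set_option autoImplicit false
open Crest.AnalysisR.BoxFlow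

namespace Crest.Agent.Lib_S0170_ED2

/-- Atom `(c, e, α, β)`: `y ↦ c * y ^ e * s (α * y + β)`. -/
abbrev Atom : Type := ℚ × ℕ × ℚ × ℚ

/-- Tensor term: component, time factor, three space factors. -/
abbrev Term : Type := Fin 3 × List Atom × List Atom × List Atom × List Atom

/-- Real evaluation of a 1-D program. -/
def ev1R (s : ℝ → ℝ) (L : List Atom) (y : ℝ) : ℝ :=
  (L.map fun a => (a.1 : ℝ) * y ^ a.2.1 * s ((a.2.2.1 : ℝ) * y + (a.2.2.2 : ℝ))).sum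

/-- Rational evaluation of a 1-D program, with `F` in place of the step function. -/
def ev1Q (F : ℚ → ℚ) (L : List Atom) (y : ℚ) : ℚ :=
  (L.map fun a => a.1 * y ^ a.2.1 * F (a.2.2.1 * y + a.2.2.2)).sum

/-- Size of a 1-D program at `y`. -/
def size1 (L : List Atom) (y : ℚ) : ℚ := (L.map fun a => |a.1| * |y| ^ a.2.1).sum

theorem size1_nil (y : ℚ) : size1 [] y = 0 := rfl

theorem size1_cons (a : Atom) (L : List Atom) (y : ℚ) :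
    size1 (a :: L) y = |a.1| * |y| ^ a.2.1 + size1 L y := by
  simp [size1]

theorem ev1R_cons (s : ℝ → ℝ) (a : Atom) (L : List Atom) (y : ℝ) :
    ev1R s (a :: L) y =
      (a.1 : ℝ) * y ^ a.2.1 * s ((a.2.2.1 : ℝ) * y + (a.2.2.2 : ℝ)) + ev1R s L y := by
  simp [ev1R]

theorem ev1Q_cons (F : ℚ → ℚ) (a : Atom) (L : List Atom) (y : ℚ) :
    ev1Q F (a :: L) y = a.1 * y ^ a.2.1 * F (a.2.2.1 * y + a.2.2.2) + ev1Q F L y := by
  simp [ev1Q]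

theorem size1_nonneg (L : List Atom) (y : ℚ) : 0 ≤ size1 L y := by
  induction L with
  | nil => simp [size1]
  | cons a L ih => rw [size1_cons]; positivity

theorem abs_ev1R_le (s : ℝ → ℝ) (hs : ∀ u, |s u| ≤ 1) (L : List Atom) (y : ℚ) :
    |ev1R s L (y : ℝ)| ≤ (size1 L y : ℝ) := by
  induction L with
  | nil => simp [ev1R, size1]
  | cons a L ih =>
    rw [ev1R_cons, size1_cons]
    push_cast
    refine (abs_add_le _ _).trans (add_le_add ?_ ih)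
    rw [abs_mul, abs_mul, abs_pow]
    calc |(a.1 : ℝ)| * |(y : ℝ)| ^ a.2.1 * |s ((a.2.2.1 : ℝ) * y + (a.2.2.2 : ℝ))|
        ≤ |(a.1 : ℝ)| * |(y : ℝ)| ^ a.2.1 * 1 :=
          mul_le_mul_of_nonneg_left (hs _) (by positivity)
      _ = |(a.1 : ℝ)| * |(y : ℝ)| ^ a.2.1 := mul_one _

theorem abs_ev1R_sub_ev1Q_le (s : ℝ → ℝ) (F : ℚ → ℚ) (ε : ℚ)
    (hF : ∀ r : ℚ, |s (r : ℝ) - (F r : ℝ)| ≤ ε) (L : List Atom) (y : ℚ) :
    |ev1R s L (y : ℝ) - ((ev1Q F L y : ℚ) : ℝ)| ≤ (ε : ℝ) * (size1 L y : ℝ) := by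
  induction L with
  | nil => simp [ev1R, ev1Q, size1]
  | cons a L ih =>
    rw [ev1R_cons, ev1Q_cons, size1_cons]
    push_cast
    have e : (a.1 : ℝ) * (y : ℝ) ^ a.2.1 * s ((a.2.2.1 : ℝ) * y + (a.2.2.2 : ℝ)) + ev1R s L y -
        ((a.1 : ℝ) * (y : ℝ) ^ a.2.1 * (F (a.2.2.1 * y + a.2.2.2) : ℝ) + (ev1Q F L y : ℝ)) =
        (a.1 : ℝ) * (y : ℝ) ^ a.2.1 * (s ((a.2.2.1 : ℝ) * y + (a.2.2.2 : ℝ)) -
          (F (a.2.2.1 * y + a.2.2.2) : ℝ)) + (ev1R s L y - (ev1Q F L y : ℝ)) := by ring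
    rw [e, mul_add]
    refine (abs_add_le _ _).trans (add_le_add ?_ ih)
    have h := hF (a.2.2.1 * y + a.2.2.2)
    push_cast at h
    rw [abs_mul, abs_mul, abs_pow]
    calc |(a.1 : ℝ)| * |(y : ℝ)| ^ a.2.1 * |s ((a.2.2.1 : ℝ) * y + (a.2.2.2 : ℝ)) -
          (F (a.2.2.1 * y + a.2.2.2) : ℝ)|
        ≤ |(a.1 : ℝ)| * |(y : ℝ)| ^ a.2.1 * ε := mul_le_mul_of_nonneg_left h (by positivity)
      _ = (ε : ℝ) * (|(a.1 : ℝ)| * |(y : ℝ)| ^ a.2.1) := by ring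

theorem abs_ev1Q_le (s : ℝ → ℝ) (hs : ∀ u, |s u| ≤ 1) (F : ℚ → ℚ) (ε : ℚ) (h1 : ε ≤ 1)
    (hF : ∀ r : ℚ, |s (r : ℝ) - (F r : ℝ)| ≤ ε) (L : List Atom) (y : ℚ) :
    |((ev1Q F L y : ℚ) : ℝ)| ≤ 2 * (size1 L y : ℝ) := by
  have hA := abs_ev1R_le s hs L y
  have hD := abs_ev1R_sub_ev1Q_le s F ε hF L y
  have hS : (0:ℝ) ≤ (size1 L y : ℝ) := by exact_mod_cast size1_nonneg L y
  have hε : (ε : ℝ) ≤ 1 := by exact_mod_cast h1
  have hD' : |ev1R s L (y : ℝ) - ((ev1Q F L y : ℚ) : ℝ)| ≤ (size1 L y : ℝ) :=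
    hD.trans (by nlinarith)
  have : |((ev1Q F L y : ℚ) : ℝ)| ≤ |ev1R s L (y : ℝ)| + |ev1R s L (y : ℝ) - ((ev1Q F L y : ℚ) : ℝ)| := by
    have := abs_sub_abs_le_abs_sub ((ev1Q F L y : ℚ) : ℝ) (ev1R s L (y : ℝ))
    rw [abs_sub_comm ((ev1Q F L y : ℚ) : ℝ)] at this
    linarith
  linarith

/-- Telescoping bound for a product of four factors. -/
theorem prod4_sub_le {A₁ A₂ A₃ A₄ B₁ B₂ B₃ B₄ S₁ S₂ S₃ S₄ ε : ℝ}
    (hA₂ : |A₂| ≤ S₂) (hA₃ : |A₃| ≤ S₃) (hA₄ : |A₄| ≤ S₄)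
    (hB₁ : |B₁| ≤ 2 * S₁) (hB₂ : |B₂| ≤ 2 * S₂) (hB₃ : |B₃| ≤ 2 * S₃)
    (hD₁ : |A₁ - B₁| ≤ ε * S₁) (hD₂ : |A₂ - B₂| ≤ ε * S₂) (hD₃ : |A₃ - B₃| ≤ ε * S₃)
    (hD₄ : |A₄ - B₄| ≤ ε * S₄) :
    |A₁ * A₂ * A₃ * A₄ - B₁ * B₂ * B₃ * B₄| ≤ 15 * ε * (S₁ * S₂ * S₃ * S₄) := by
  have e : A₁ * A₂ * A₃ * A₄ - B₁ * B₂ * B₃ * B₄ =
      (A₁ - B₁) * A₂ * A₃ * A₄ + B₁ * (A₂ - B₂) * A₃ * A₄ + B₁ * B₂ * (A₃ - B₃) * A₄ +
        B₁ * B₂ * B₃ * (A₄ - B₄) := by ring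
  have m4 : ∀ {x₁ x₂ x₃ x₄ b₁ b₂ b₃ b₄ : ℝ}, |x₁| ≤ b₁ → |x₂| ≤ b₂ → |x₃| ≤ b₃ → |x₄| ≤ b₄ →
      |x₁ * x₂ * x₃ * x₄| ≤ b₁ * b₂ * b₃ * b₄ := by
    intro x₁ x₂ x₃ x₄ b₁ b₂ b₃ b₄ h₁ h₂ h₃ h₄
    rw [abs_mul, abs_mul, abs_mul]
    have p₁ : 0 ≤ b₁ := (abs_nonneg _).trans h₁
    have p₂ : 0 ≤ b₂ := (abs_nonneg _).trans h₂
    have p₃ : 0 ≤ b₃ := (abs_nonneg _).trans h₃
    exact mul_le_mul (mul_le_mul (mul_le_mul h₁ h₂ (abs_nonneg _) p₁) h₃ (abs_nonneg _)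
      (mul_nonneg p₁ p₂)) h₄ (abs_nonneg _) (mul_nonneg (mul_nonneg p₁ p₂) p₃)
  have t₁ := m4 hD₁ hA₂ hA₃ hA₄
  have t₂ := m4 hB₁ hD₂ hA₃ hA₄
  have t₃ := m4 hB₁ hB₂ hD₃ hA₄
  have t₄ := m4 hB₁ hB₂ hB₃ hD₄
  rw [e]
  have tri : |(A₁ - B₁) * A₂ * A₃ * A₄ + B₁ * (A₂ - B₂) * A₃ * A₄ + B₁ * B₂ * (A₃ - B₃) * A₄ +
        B₁ * B₂ * B₃ * (A₄ - B₄)| ≤ |(A₁ - B₁) * A₂ * A₃ * A₄| + |B₁ * (A₂ - B₂) * A₃ * A₄| +
        |B₁ * B₂ * (A₃ - B₃) * A₄| + |B₁ * B₂ * B₃ * (A₄ - B₄)| := by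
    refine (abs_add_le _ _).trans (add_le_add ((abs_add_le _ _).trans
      (add_le_add (abs_add_le _ _) le_rfl)) le_rfl)
  refine tri.trans ?_
  have : ε * S₁ * S₂ * S₃ * S₄ + 2 * S₁ * (ε * S₂) * S₃ * S₄ + 2 * S₁ * (2 * S₂) * (ε * S₃) * S₄ +
      2 * S₁ * (2 * S₂) * (2 * S₃) * (ε * S₄) = 15 * ε * (S₁ * S₂ * S₃ * S₄) := by ring
  linarith

/-- Real value of a tensor term. -/
def termR (s : ℝ → ℝ) (T : Term) (p : ℝ × (Fin 3 → ℝ)) : ℝ :=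
  ev1R s T.2.1 p.1 * ev1R s T.2.2.1 (p.2 0) * ev1R s T.2.2.2.1 (p.2 1) * ev1R s T.2.2.2.2 (p.2 2)

/-- Rational value of a tensor term. -/
def termQ (F : ℚ → ℚ) (T : Term) (t : ℚ) (q : Fin 3 → ℚ) : ℚ :=
  ev1Q F T.2.1 t * ev1Q F T.2.2.1 (q 0) * ev1Q F T.2.2.2.1 (q 1) * ev1Q F T.2.2.2.2 (q 2)

/-- Size of a tensor term. -/
def sizeT (T : Term) (t : ℚ) (q : Fin 3 → ℚ) : ℚ :=
  size1 T.2.1 t * size1 T.2.2.1 (q 0) * size1 T.2.2.2.1 (q 1) * size1 T.2.2.2.2 (q 2)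

theorem sizeT_nonneg (T : Term) (t : ℚ) (q : Fin 3 → ℚ) : 0 ≤ sizeT T t q := by
  unfold sizeT
  have := size1_nonneg T.2.1 t
  have := size1_nonneg T.2.2.1 (q 0)
  have := size1_nonneg T.2.2.2.1 (q 1)
  have := size1_nonneg T.2.2.2.2 (q 2)
  positivity

theorem abs_termR_sub_termQ_le (s : ℝ → ℝ) (hs : ∀ u, |s u| ≤ 1) (F : ℚ → ℚ) (ε : ℚ)
    (_h0 : 0 ≤ ε) (h1 : ε ≤ 1) (hF : ∀ r : ℚ, |s (r : ℝ) - (F r : ℝ)| ≤ ε) (T : Term) (t : ℚ)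
    (q : Fin 3 → ℚ) :
    |termR s T ((t : ℝ), ratPoint q) - ((termQ F T t q : ℚ) : ℝ)| ≤ 15 * (ε : ℝ) * (sizeT T t q : ℝ) := by
  unfold termR termQ sizeT
  push_cast
  exact prod4_sub_le
    (abs_ev1R_le s hs _ _) (abs_ev1R_le s hs _ _) (abs_ev1R_le s hs _ _)
    (abs_ev1Q_le s hs F ε h1 hF _ _) (abs_ev1Q_le s hs F ε h1 hF _ _)
    (abs_ev1Q_le s hs F ε h1 hF _ _)
    (abs_ev1R_sub_ev1Q_le s F ε hF _ _) (abs_ev1R_sub_ev1Q_le s F ε hF _ _)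
    (abs_ev1R_sub_ev1Q_le s F ε hF _ _) (abs_ev1R_sub_ev1Q_le s F ε hF _ _)

/-- Real evaluation of a program (list of terms) as a field. -/
def evalR (s : ℝ → ℝ) (P : List Term) : Field :=
  fun p => (P.map fun T => (Pi.single T.1 (termR s T p) : Fin 3 → ℝ)).sum

/-- Rational evaluation of a program at a rational space-time point. -/
def evalQ (F : ℚ → ℚ) (P : List Term) (t : ℚ) (q : Fin 3 → ℚ) : Fin 3 → ℚ :=
  (P.map fun T => (Pi.single T.1 (termQ F T t q) : Fin 3 → ℚ)).sum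

/-- Size of a program at a rational space-time point. -/
def sizeP (P : List Term) (t : ℚ) (q : Fin 3 → ℚ) : ℚ := (P.map fun T => sizeT T t q).sum

theorem sizeP_nonneg (P : List Term) (t : ℚ) (q : Fin 3 → ℚ) : 0 ≤ sizeP P t q := by
  induction P with
  | nil => simp [sizeP]
  | cons T P ih =>
    have : sizeP (T :: P) t q = sizeT T t q + sizeP P t q := by simp [sizeP]
    rw [this]
    have := sizeT_nonneg T t q
    linarith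

/-- D2: the rational evaluation approximates the real one with error `15 ε sizeP`. -/
theorem abs_evalR_sub_evalQ_le (s : ℝ → ℝ) (hs : ∀ u, |s u| ≤ 1) (F : ℚ → ℚ) (ε : ℚ)
    (h0 : 0 ≤ ε) (h1 : ε ≤ 1) (hF : ∀ r : ℚ, |s (r : ℝ) - (F r : ℝ)| ≤ ε) (P : List Term) (t : ℚ)
    (q : Fin 3 → ℚ) (j : Fin 3) :
    |evalR s P ((t : ℝ), ratPoint q) j - ((evalQ F P t q j : ℚ) : ℝ)| ≤
      15 * (ε : ℝ) * (sizeP P t q : ℝ) := by
  induction P with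
  | nil => simp [evalR, evalQ, sizeP]
  | cons T P ih =>
    have eR : evalR s (T :: P) ((t : ℝ), ratPoint q) j =
        (if j = T.1 then termR s T ((t : ℝ), ratPoint q) else 0) +
          evalR s P ((t : ℝ), ratPoint q) j := by
      simp [evalR, Pi.single_apply]
    have eQ : evalQ F (T :: P) t q j = (if j = T.1 then termQ F T t q else 0) + evalQ F P t q j := by
      simp [evalQ, Pi.single_apply]
    have eS : sizeP (T :: P) t q = sizeT T t q + sizeP P t q := by simp [sizeP]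
    rw [eR, eQ, eS]
    push_cast
    have hT := abs_termR_sub_termQ_le s hs F ε h0 h1 hF T t q
    have hε : (0:ℝ) ≤ (ε : ℝ) := by exact_mod_cast h0
    have hST : (0:ℝ) ≤ (sizeT T t q : ℝ) := by exact_mod_cast sizeT_nonneg T t q
    have key : |(if j = T.1 then termR s T ((t : ℝ), ratPoint q) else 0) -
        (((if j = T.1 then termQ F T t q else 0 : ℚ)) : ℝ)| ≤ 15 * (ε : ℝ) * (sizeT T t q : ℝ) := by
      by_cases hj : j = T.1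
      · simp only [hj, if_true]; exact hT
      · simp only [hj, if_false]; simp; positivity
    have e : (if j = T.1 then termR s T ((t : ℝ), ratPoint q) else 0) +
        evalR s P ((t : ℝ), ratPoint q) j -
        ((((if j = T.1 then termQ F T t q else 0 : ℚ)) : ℝ) + (evalQ F P t q j : ℝ)) =
        ((if j = T.1 then termR s T ((t : ℝ), ratPoint q) else 0) -
          (((if j = T.1 then termQ F T t q else 0 : ℚ)) : ℝ)) +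
        (evalR s P ((t : ℝ), ratPoint q) j - (evalQ F P t q j : ℝ)) := by ring
    rw [e, mul_add]
    exact (abs_add_le _ _).trans (add_le_add key ih)

end Crest.Agent.Lib_S0170_ED2
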