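import Mathlib
import Crest.Prelude.Def_BoxFlow
import Crest.Agent.Lib_S0170_Defs

/-!
S0170, part [E] (effectivity): SHARED DEFINITIONS (definitions only, sorry-free).

A 1-D "program" is a list of atoms `(c, e, α, β)` meaning `y ↦ c * y ^ e * psi (α * y + β)`
(`psi` = Fabius step = `sg`).  A field program is a list of tensor terms
`(component, time factor, x0-factor, x1-factor, x2-factor)`.  Differentiation is syntactic
(`d1`, `dProg`), evaluation at rational points uses a rational approximation `F` of `psi`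
(`ev1Q`, `evalQ`), and `size1`/`sizeP`, `bnd1`/`bndP` are the obvious rational majorants.

The shapes of `Prog1`, `ev1`, `Prog`, `evalField` are EXACTLY those of helper22's post #203 and of
the local copy in `Lib_S0170_EAdapt` (helper26).
-/

set_option autoImplicit false

namespace Crest.Agent.Lib_S0170_EDefs

open Crest.AnalysisR.BoxFlow Crest.Agent.Lib_S0170_Defs
open Crest.Agent.Lib_S0170_Fabius (psi FQ)

/-! ### programs and their real semantics -/

/-- 1-D program: list of atoms `(c, e, α, β)` meaning `y ↦ c * y ^ e * psi (α * y + β)`. -/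
abbrev Prog1 := List (ℚ × ℕ × ℚ × ℚ)

noncomputable def ev1 (L : Prog1) (y : ℝ) : ℝ :=
  (L.map fun a => (a.1 : ℝ) * y ^ a.2.1 * psi (a.2.2.1 * y + a.2.2.2)).sum

/-- Field program: list of tensor terms (component, time factor, x0-, x1-, x2-factor). -/
abbrev Prog := List (Fin 3 × Prog1 × Prog1 × Prog1 × Prog1)

noncomputable def evalField (P : Prog) : Field := fun p =>
  (P.map fun T => (Pi.single T.1
    (ev1 T.2.1 p.1 * ev1 T.2.2.1 (p.2 0) * ev1 T.2.2.2.1 (p.2 1) * ev1 T.2.2.2.2 (p.2 2)) :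
      Fin 3 → ℝ)).sum

/-! ### syntactic differentiation -/

/-- Derivative of one atom, by `psi' u = 2 psi (2u) - 2 psi (2u - 1)`:
`(c y^e psi(αy+β))' = c e y^(e-1) psi(αy+β) + 2cα y^e psi(2αy+2β) - 2cα y^e psi(2αy+2β-1)`. -/
def dAtom (a : ℚ × ℕ × ℚ × ℚ) : Prog1 :=
  [(a.1 * a.2.1, a.2.1 - 1, a.2.2.1, a.2.2.2),
   (2 * a.1 * a.2.2.1, a.2.1, 2 * a.2.2.1, 2 * a.2.2.2),
   (-(2 * a.1 * a.2.2.1), a.2.1, 2 * a.2.2.1, 2 * a.2.2.2 - 1)]

/-- Syntactic derivative of a 1-D program: `HasDerivAt (ev1 L) (ev1 (d1 L) y) y`. -/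
def d1 (L : Prog1) : Prog1 := L.flatMap dAtom

/-- Differentiate slot `d` (0 = time, `j + 1` = space coordinate `j`) of a tensor term. -/
def dTerm (d : Fin 4) (T : Fin 3 × Prog1 × Prog1 × Prog1 × Prog1) :
    Fin 3 × Prog1 × Prog1 × Prog1 × Prog1 :=
  if d = 0 then (T.1, d1 T.2.1, T.2.2.1, T.2.2.2.1, T.2.2.2.2)
  else if d = 1 then (T.1, T.2.1, d1 T.2.2.1, T.2.2.2.1, T.2.2.2.2)
  else if d = 2 then (T.1, T.2.1, T.2.2.1, d1 T.2.2.2.1, T.2.2.2.2)
  else (T.1, T.2.1, T.2.2.1, T.2.2.2.1, d1 T.2.2.2.2)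

/-- `fderiv ℝ (evalField P) p (direction d) = evalField (dProg d P) p`. -/
def dProg (d : Fin 4) (P : Prog) : Prog := P.map (dTerm d)

/-! ### rational evaluation -/

/-- Rational evaluation of a 1-D program, with `F` in place of `psi`. -/
def ev1Q (F : ℚ → ℚ) (L : Prog1) (y : ℚ) : ℚ :=
  (L.map fun a => a.1 * y ^ a.2.1 * F (a.2.2.1 * y + a.2.2.2)).sum

/-- Majorant: `|ev1 L y| ≤ size1 L y` (since `|psi| ≤ 1`). -/
def size1 (L : Prog1) (y : ℚ) : ℚ := (L.map fun a => |a.1| * |y| ^ a.2.1).sum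

/-- Rational evaluation of a field program at the rational point `(t, q)`. -/
def evalQ (F : ℚ → ℚ) (P : Prog) (t : ℚ) (q : Fin 3 → ℚ) : Fin 3 → ℚ := fun j =>
  (P.map fun T => if T.1 = j then
    ev1Q F T.2.1 t * ev1Q F T.2.2.1 (q 0) * ev1Q F T.2.2.2.1 (q 1) * ev1Q F T.2.2.2.2 (q 2)
    else 0).sum

def sizeP (P : Prog) (t : ℚ) (q : Fin 3 → ℚ) : ℚ :=
  (P.map fun T => size1 T.2.1 t * size1 T.2.2.1 (q 0) * size1 T.2.2.2.1 (q 1) *
    size1 T.2.2.2.2 (q 2)).sum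

/-! ### global bounds on the cube `|t| ≤ R`, `|x j| ≤ R` -/

def bnd1 (R : ℕ) (L : Prog1) : ℚ := (L.map fun a => |a.1| * (R : ℚ) ^ a.2.1).sum

def bndP (R : ℕ) (P : Prog) : ℚ :=
  (P.map fun T => bnd1 R T.2.1 * bnd1 R T.2.2.1 * bnd1 R T.2.2.2.1 * bnd1 R T.2.2.2.2).sum

/-! ### the witnesses of `Effective (evalField P)` -/

/-- Precision index: with `d = prec P t q n` one has `15 * (2 / 2 ^ d) * sizeP P t q ≤ 1 / (n + 1)`
(because `d < 2 ^ d` and `|r| ≤ r.num.natAbs`). -/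
def prec (P : Prog) (t : ℚ) (q : Fin 3 → ℚ) (n : ℕ) : ℕ :=
  30 * (n + 1) * ((sizeP P t q).num.natAbs + 1) + 1

/-- The approximant: differentiate syntactically, then evaluate with `FQ d`. -/
def E (P : Prog) (x : List (Fin 4) × (ℚ × (Fin 3 → ℚ)) × ℕ) : Fin 3 → ℚ :=
  evalQ (FQ (prec (x.1.foldr dProg P) x.2.1.1 x.2.1.2 x.2.2)) (x.1.foldr dProg P) x.2.1.1 x.2.1.2

/-- The global bound of the mixed derivative `ds`. -/
def bound (R : ℕ) (P : Prog) (ds : List (Fin 4)) : ℕ := (bndP R (ds.foldr dProg P)).num.natAbs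

end Crest.Agent.Lib_S0170_EDefs
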