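import Mathlib
import Crest.Prelude.Def_BoxFlow
import Crest.Agent.Lib_S0170_CompInt
import Crest.Agent.Lib_S0170_CompQ
import Crest.Agent.Lib_S0170_CompQOps
import Crest.Agent.Lib_S0170_CompFQ
import Crest.Agent.Lib_S0170_EDefs

/-!
# S0170, part [E], package D3: primitive recursiveness of the syntactic pipeline

Generic (definition-independent) part: everything is stated for arbitrary functions
`dProg`, `sizeP`, `evalQ`, `bndP` on an arbitrary `Primcodable` type of programs, so that it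
applies verbatim to the concrete definitions of `Lib_S0170_Eff`.
-/

set_option autoImplicit false

namespace Crest.Agent.Lib_S0170_ED3

open Primrec

variable {Pg : Type*} [Primcodable Pg]

/-- `q ↦ |num q|` as a natural number is primitive recursive. -/
theorem primrec_num_natAbs : Primrec (fun q : ℚ => q.num.natAbs) :=
  Crest.Agent.Lib_S0170_CompInt.primrec_natAbs.comp Crest.Agent.Lib_S0170_CompQ.primrec_num

/-- `|q| ≤ |num q|`. -/
theorem abs_le_num_natAbs (q : ℚ) : |q| ≤ (q.num.natAbs : ℚ) := by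
  have hd : (1 : ℚ) ≤ q.den := by exact_mod_cast q.den_pos
  have hq : |q| = |(q.num : ℚ)| / q.den := by
    conv_lhs => rw [← Rat.num_div_den q]
    rw [abs_div, abs_of_pos (by positivity : (0 : ℚ) < q.den)]
  rw [hq, div_le_iff₀ (by positivity)]
  have h1 : |(q.num : ℚ)| = (q.num.natAbs : ℚ) := by
    rw [← Int.cast_abs, Int.abs_eq_natAbs]; simp
  rw [h1]
  have h0 : (0 : ℚ) ≤ (q.num.natAbs : ℚ) := by positivity
  nlinarith

/-- Real version of `abs_le_num_natAbs`. -/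
theorem abs_cast_le_num_natAbs (q : ℚ) : |(q : ℝ)| ≤ (q.num.natAbs : ℝ) := by
  have := abs_le_num_natAbs q
  have h2 : ((|q| : ℚ) : ℝ) ≤ ((q.num.natAbs : ℚ) : ℝ) := by exact_mod_cast this
  simpa using h2

/-- The precision chosen for the rational evaluation. -/
def prec (n : ℕ) (S : ℚ) : ℕ := 30 * (n + 1) * (S.num.natAbs + 1) + 1

theorem one_le_prec (n : ℕ) (S : ℚ) : 1 ≤ prec n S := by unfold prec; omega

/-- The arithmetic of the choice of the precision `d = prec n S`: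
`15 * (2 / 2 ^ d) * S ≤ 1 / (n + 1)`. -/
theorem prec_spec (n : ℕ) (S : ℚ) :
    15 * (2 / (2 : ℝ) ^ prec n S) * (S : ℝ) ≤ 1 / ((n : ℝ) + 1) := by
  set A : ℕ := S.num.natAbs with hA
  have hS : (S : ℝ) ≤ (A : ℝ) := le_trans (le_abs_self _) (abs_cast_le_num_natAbs S)
  have hpow : ((prec n S : ℕ) : ℝ) ≤ (2 : ℝ) ^ prec n S := by
    have := Nat.lt_two_pow_self (n := prec n S)
    exact_mod_cast this.le
  have hprec : ((prec n S : ℕ) : ℝ) = 30 * ((n : ℝ) + 1) * ((A : ℝ) + 1) + 1 := by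
    unfold prec; push_cast; ring
  have h2pos : (0 : ℝ) < (2 : ℝ) ^ prec n S := by positivity
  have hn : (0 : ℝ) < (n : ℝ) + 1 := by positivity
  have hA0 : (0 : ℝ) ≤ (A : ℝ) := by positivity
  rw [show 15 * (2 / (2 : ℝ) ^ prec n S) * (S : ℝ) = 30 * (S : ℝ) / (2 : ℝ) ^ prec n S by ring]
  rw [div_le_div_iff₀ h2pos hn]
  have h3 : 30 * ((n : ℝ) + 1) * ((A : ℝ) + 1) + 1 ≤ (2 : ℝ) ^ prec n S := hprec ▸ hpow
  nlinarith

/-- Rational version of `prec_spec`. -/
theorem prec_spec_rat (n : ℕ) (S : ℚ) :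
    15 * (2 / (2 : ℚ) ^ prec n S) * S ≤ 1 / ((n : ℚ) + 1) := by
  have := prec_spec n S
  have h : ((15 * (2 / (2 : ℚ) ^ prec n S) * S : ℚ) : ℝ) ≤ ((1 / ((n : ℚ) + 1) : ℚ) : ℝ) := by
    push_cast; exact this
  exact_mod_cast h

theorem primrec_prec : Primrec₂ prec := by
  unfold prec
  have h1 : Primrec fun p : ℕ × ℚ => 30 * (p.1 + 1) :=
    Primrec.nat_mul.comp (Primrec.const 30) (Primrec.succ.comp Primrec.fst)
  have h2 : Primrec fun p : ℕ × ℚ => p.2.num.natAbs + 1 :=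
    Primrec.succ.comp (primrec_num_natAbs.comp Primrec.snd)
  exact Primrec.succ.comp (Primrec.nat_mul.comp h1 h2)

/-- Iterated syntactic differentiation is primitive recursive, as soon as each single
differentiation `dProg d` is. -/
theorem primrec_foldr_dProg {dProg : Fin 4 → Pg → Pg} (hd : ∀ d, Primrec (dProg d)) (P : Pg) :
    Primrec (fun ds : List (Fin 4) => ds.foldr dProg P) := by
  have hd2 : Primrec₂ dProg := Primrec.fin_curry₁.2 hd
  have hh : Primrec₂ fun (_ : List (Fin 4)) (p : Fin 4 × Pg) => dProg p.1 p.2 :=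
    hd2.comp (Primrec.fst.comp Primrec.snd) (Primrec.snd.comp Primrec.snd)
  exact (Primrec.list_foldr (f := fun ds : List (Fin 4) => ds) (g := fun _ => P)
    Primrec.id (Primrec.const P) hh).of_eq fun ds => rfl

/-- `Primrec₂ dProg` from the four directions. -/
theorem primrec₂_dProg {dProg : Fin 4 → Pg → Pg} (hd : ∀ d, Primrec (dProg d)) :
    Primrec₂ dProg := Primrec.fin_curry₁.2 hd

/-- The approximating function `E` of `Effective`, generic form. -/
def EOf (dProg : Fin 4 → Pg → Pg) (sizeP : Pg → ℚ → (Fin 3 → ℚ) → ℚ)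
    (evalQ : ℕ → Pg → ℚ → (Fin 3 → ℚ) → (Fin 3 → ℚ)) (P : Pg)
    (x : List (Fin 4) × (ℚ × (Fin 3 → ℚ)) × ℕ) : Fin 3 → ℚ :=
  evalQ (prec x.2.2 (sizeP (x.1.foldr dProg P) x.2.1.1 x.2.1.2)) (x.1.foldr dProg P)
    x.2.1.1 x.2.1.2

/-- The bound function of `Effective`, generic form. -/
def boundOf (dProg : Fin 4 → Pg → Pg) (bndP : Pg → ℚ) (P : Pg) (ds : List (Fin 4)) : ℕ :=
  (bndP (ds.foldr dProg P)).num.natAbs

theorem primrec_EOf {dProg : Fin 4 → Pg → Pg} {sizeP : Pg → ℚ → (Fin 3 → ℚ) → ℚ}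
    {evalQ : ℕ → Pg → ℚ → (Fin 3 → ℚ) → (Fin 3 → ℚ)}
    (hd : ∀ d, Primrec (dProg d))
    (hsize : Primrec fun x : Pg × ℚ × (Fin 3 → ℚ) => sizeP x.1 x.2.1 x.2.2)
    (heval : Primrec fun x : ℕ × Pg × ℚ × (Fin 3 → ℚ) => evalQ x.1 x.2.1 x.2.2.1 x.2.2.2)
    (P : Pg) : Primrec (EOf dProg sizeP evalQ P) := by
  unfold EOf
  have hP' : Primrec fun x : List (Fin 4) × (ℚ × (Fin 3 → ℚ)) × ℕ => x.1.foldr dProg P :=
    (primrec_foldr_dProg hd P).comp Primrec.fst
  have ht : Primrec fun x : List (Fin 4) × (ℚ × (Fin 3 → ℚ)) × ℕ => x.2.1.1 :=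
    Primrec.fst.comp (Primrec.fst.comp Primrec.snd)
  have hq : Primrec fun x : List (Fin 4) × (ℚ × (Fin 3 → ℚ)) × ℕ => x.2.1.2 :=
    Primrec.snd.comp (Primrec.fst.comp Primrec.snd)
  have hn : Primrec fun x : List (Fin 4) × (ℚ × (Fin 3 → ℚ)) × ℕ => x.2.2 :=
    Primrec.snd.comp Primrec.snd
  have hS : Primrec fun x : List (Fin 4) × (ℚ × (Fin 3 → ℚ)) × ℕ =>
      sizeP (x.1.foldr dProg P) x.2.1.1 x.2.1.2 :=
    hsize.comp (hP'.pair (ht.pair hq))
  have hprec : Primrec fun x : List (Fin 4) × (ℚ × (Fin 3 → ℚ)) × ℕ =>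
      prec x.2.2 (sizeP (x.1.foldr dProg P) x.2.1.1 x.2.1.2) :=
    primrec_prec.comp hn hS
  exact heval.comp (hprec.pair (hP'.pair (ht.pair hq)))

theorem computable_EOf {dProg : Fin 4 → Pg → Pg} {sizeP : Pg → ℚ → (Fin 3 → ℚ) → ℚ}
    {evalQ : ℕ → Pg → ℚ → (Fin 3 → ℚ) → (Fin 3 → ℚ)}
    (hd : ∀ d, Primrec (dProg d))
    (hsize : Primrec fun x : Pg × ℚ × (Fin 3 → ℚ) => sizeP x.1 x.2.1 x.2.2)
    (heval : Primrec fun x : ℕ × Pg × ℚ × (Fin 3 → ℚ) => evalQ x.1 x.2.1 x.2.2.1 x.2.2.2)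
    (P : Pg) : Computable (EOf dProg sizeP evalQ P) :=
  (primrec_EOf hd hsize heval P).to_comp

theorem primrec_boundOf {dProg : Fin 4 → Pg → Pg} {bndP : Pg → ℚ}
    (hd : ∀ d, Primrec (dProg d)) (hb : Primrec bndP) (P : Pg) :
    Primrec (boundOf dProg bndP P) := by
  unfold boundOf
  exact primrec_num_natAbs.comp (hb.comp (primrec_foldr_dProg hd P))

theorem computable_boundOf {dProg : Fin 4 → Pg → Pg} {bndP : Pg → ℚ}
    (hd : ∀ d, Primrec (dProg d)) (hb : Primrec bndP) (P : Pg) :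
    Computable (boundOf dProg bndP P) :=
  (primrec_boundOf hd hb P).to_comp

omit [Primcodable Pg] in
/-- The approximation property of `EOf`, from the error estimate of D2
(`|exact - evalQ d| ≤ 15 * (2 / 2 ^ d) * sizeP` for `1 ≤ d`). -/
theorem abs_sub_EOf_le {dProg : Fin 4 → Pg → Pg} {sizeP : Pg → ℚ → (Fin 3 → ℚ) → ℚ}
    {evalQ : ℕ → Pg → ℚ → (Fin 3 → ℚ) → (Fin 3 → ℚ)} (P : Pg)
    (exact : Pg → ℚ → (Fin 3 → ℚ) → Fin 3 → ℝ)
    (herr : ∀ (d : ℕ), 1 ≤ d → ∀ (P' : Pg) (t : ℚ) (q : Fin 3 → ℚ) (j : Fin 3),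
      |exact P' t q j - (evalQ d P' t q j : ℝ)| ≤ 15 * (2 / (2 : ℝ) ^ d) * (sizeP P' t q : ℝ))
    (ds : List (Fin 4)) (t : ℚ) (q : Fin 3 → ℚ) (n : ℕ) (j : Fin 3) :
    |exact (ds.foldr dProg P) t q j - (EOf dProg sizeP evalQ P (ds, (t, q), n) j : ℝ)|
      ≤ 1 / ((n : ℝ) + 1) := by
  unfold EOf
  exact le_trans (herr _ (one_le_prec _ _) _ _ _ _) (prec_spec _ _)

open Crest.AnalysisR.BoxFlow in
/-- FINAL GENERIC ASSEMBLY of `Effective` for a syntactic class of fields `ev : Pg → Field`: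
* (D1) `hmixed`: mixed derivatives are evaluations of the derived programs;
* (D3) `hd`, `hsize`, `heval`, `hb`: primitive recursiveness of the syntactic pipeline;
* (D2) `herr`: error of the rational evaluator at precision `d ≥ 1`;
* (D4) `hbound`: global bound of the derived programs. -/
theorem effective_of_pipeline (ev : Pg → Field) (dProg : Fin 4 → Pg → Pg)
    (sizeP : Pg → ℚ → (Fin 3 → ℚ) → ℚ) (evalQ : ℕ → Pg → ℚ → (Fin 3 → ℚ) → (Fin 3 → ℚ))
    (bndP : Pg → ℚ) (P : Pg)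
    (hmixed : ∀ ds : List (Fin 4), mixedDeriv ds (ev P) = ev (ds.foldr dProg P))
    (hd : ∀ d, Primrec (dProg d))
    (hsize : Primrec fun x : Pg × ℚ × (Fin 3 → ℚ) => sizeP x.1 x.2.1 x.2.2)
    (heval : Primrec fun x : ℕ × Pg × ℚ × (Fin 3 → ℚ) => evalQ x.1 x.2.1 x.2.2.1 x.2.2.2)
    (hb : Primrec bndP)
    (herr : ∀ (d : ℕ), 1 ≤ d → ∀ (P' : Pg) (t : ℚ) (q : Fin 3 → ℚ) (j : Fin 3),
      |ev P' ((t : ℝ), ratPoint q) j - (evalQ d P' t q j : ℝ)|
        ≤ 15 * (2 / (2 : ℝ) ^ d) * (sizeP P' t q : ℝ))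
    (hbound : ∀ (ds : List (Fin 4)) (p : ℝ × (Fin 3 → ℝ)) (j : Fin 3),
      |ev (ds.foldr dProg P) p j| ≤ (bndP (ds.foldr dProg P) : ℝ)) :
    Effective (ev P) := by
  refine ⟨EOf dProg sizeP evalQ P, boundOf dProg bndP P, computable_EOf hd hsize heval P,
    computable_boundOf hd hb P, ?_, ?_⟩
  · intro ds t q n j
    rw [hmixed ds]
    exact abs_sub_EOf_le P (fun P' t q j => ev P' ((t : ℝ), ratPoint q) j) herr ds t q n j
  · intro ds p j
    rw [hmixed ds]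
    refine le_trans (hbound ds p j) ?_
    unfold boundOf
    exact le_trans (le_abs_self _) (abs_cast_le_num_natAbs _)

/-! ## The binding statements of `Lib_S0170_EPlan` (D3) for the definitions of
`Lib_S0170_EDefs` -/

section Binding

open Crest.Agent.Lib_S0170_CompQOps Crest.Agent.Lib_S0170_CompFQ
open Crest.Agent.Lib_S0170_EDefs (Prog1 Prog dAtom d1 dTerm dProg ev1Q size1 evalQ sizeP bnd1
  bndP E bound)
open Crest.Agent.Lib_S0170_Fabius (FQ)

variable {α : Type*} [Primcodable α]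

/-- A function into `Fin n → σ` is primitive recursive as soon as its components are. -/
theorem primrec_fin_lam {σ : Type*} [Primcodable σ] {n : ℕ} {f : α → Fin n → σ}
    (hf : ∀ i, Primrec fun a => f a i) : Primrec f :=
  Primrec.fin_curry.2 ((Primrec.fin_curry₁.2 hf).comp Primrec.snd Primrec.fst)

/-- Evaluation of a primitive recursive `Fin n → σ`-valued function at a fixed index. -/
theorem primrec_fin_app {σ : Type*} [Primcodable σ] {n : ℕ} {f : α → Fin n → σ}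
    (hf : Primrec f) (i : Fin n) : Primrec fun a => f a i :=
  Primrec.fin_app.comp hf (Primrec.const i)

/-! ### syntactic differentiation -/

theorem primrec_dAtom : Primrec dAtom := by
  unfold dAtom
  have hc : Primrec fun a : ℚ × ℕ × ℚ × ℚ => a.1 := Primrec.fst
  have he : Primrec fun a : ℚ × ℕ × ℚ × ℚ => a.2.1 := Primrec.fst.comp Primrec.snd
  have hal : Primrec fun a : ℚ × ℕ × ℚ × ℚ => a.2.2.1 :=
    Primrec.fst.comp (Primrec.snd.comp Primrec.snd)
  have hbe : Primrec fun a : ℚ × ℕ × ℚ × ℚ => a.2.2.2 :=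
    Primrec.snd.comp (Primrec.snd.comp Primrec.snd)
  have h2 : Primrec fun _ : ℚ × ℕ × ℚ × ℚ => (2 : ℚ) := Primrec.const 2
  have h2ca : Primrec fun a : ℚ × ℕ × ℚ × ℚ => 2 * a.1 * a.2.2.1 :=
    rat_mul.comp (rat_mul.comp h2 hc) hal
  have h2al : Primrec fun a : ℚ × ℕ × ℚ × ℚ => 2 * a.2.2.1 := rat_mul.comp h2 hal
  have h2be : Primrec fun a : ℚ × ℕ × ℚ × ℚ => 2 * a.2.2.2 := rat_mul.comp h2 hbe
  have a1 : Primrec fun a : ℚ × ℕ × ℚ × ℚ =>
      ((a.1 * (a.2.1 : ℚ), a.2.1 - 1, a.2.2.1, a.2.2.2) : ℚ × ℕ × ℚ × ℚ) :=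
    (rat_mul.comp hc (rat_natCast.comp he)).pair
      ((Primrec.nat_sub.comp he (Primrec.const 1)).pair (hal.pair hbe))
  have a2 : Primrec fun a : ℚ × ℕ × ℚ × ℚ =>
      ((2 * a.1 * a.2.2.1, a.2.1, 2 * a.2.2.1, 2 * a.2.2.2) : ℚ × ℕ × ℚ × ℚ) :=
    h2ca.pair (he.pair (h2al.pair h2be))
  have a3 : Primrec fun a : ℚ × ℕ × ℚ × ℚ =>
      ((-(2 * a.1 * a.2.2.1), a.2.1, 2 * a.2.2.1, 2 * a.2.2.2 - 1) : ℚ × ℕ × ℚ × ℚ) :=
    (rat_neg.comp h2ca).pair (he.pair (h2al.pair (rat_sub.comp h2be (Primrec.const 1))))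
  exact Primrec.list_cons.comp a1 (Primrec.list_cons.comp a2
    (Primrec.list_cons.comp a3 (Primrec.const [])))

theorem primrec_d1 : Primrec d1 :=
  Primrec.list_flatMap Primrec.id (primrec_dAtom.comp Primrec.snd).to₂

theorem primrec_dTerm (d : Fin 4) : Primrec (dTerm d) := by
  have hj : Primrec fun T : Fin 3 × Prog1 × Prog1 × Prog1 × Prog1 => T.1 := Primrec.fst
  have h0 : Primrec fun T : Fin 3 × Prog1 × Prog1 × Prog1 × Prog1 => T.2.1 :=
    Primrec.fst.comp Primrec.snd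
  have h1 : Primrec fun T : Fin 3 × Prog1 × Prog1 × Prog1 × Prog1 => T.2.2.1 :=
    Primrec.fst.comp (Primrec.snd.comp Primrec.snd)
  have h2 : Primrec fun T : Fin 3 × Prog1 × Prog1 × Prog1 × Prog1 => T.2.2.2.1 :=
    Primrec.fst.comp (Primrec.snd.comp (Primrec.snd.comp Primrec.snd))
  have h3 : Primrec fun T : Fin 3 × Prog1 × Prog1 × Prog1 × Prog1 => T.2.2.2.2 :=
    Primrec.snd.comp (Primrec.snd.comp (Primrec.snd.comp Primrec.snd))
  unfold dTerm
  by_cases hd0 : d = 0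
  · simp only [if_pos hd0]
    exact hj.pair ((primrec_d1.comp h0).pair (h1.pair (h2.pair h3)))
  by_cases hd1 : d = 1
  · simp only [if_neg hd0, if_pos hd1]
    exact hj.pair (h0.pair ((primrec_d1.comp h1).pair (h2.pair h3)))
  by_cases hd2 : d = 2
  · simp only [if_neg hd0, if_neg hd1, if_pos hd2]
    exact hj.pair (h0.pair (h1.pair ((primrec_d1.comp h2).pair h3)))
  · simp only [if_neg hd0, if_neg hd1, if_neg hd2]
    exact hj.pair (h0.pair (h1.pair (h2.pair (primrec_d1.comp h3))))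

theorem primrec_dProg (d : Fin 4) : Primrec (dProg d) :=
  Primrec.list_map Primrec.id ((primrec_dTerm d).comp Primrec.snd).to₂

/-! ### rational evaluation -/

/-- `ev1Q (FQ d) L y` is primitive recursive in `(d, L, y)`. -/
theorem primrec_ev1Q {d : α → ℕ} {L : α → Prog1} {y : α → ℚ}
    (hd : Primrec d) (hL : Primrec L) (hy : Primrec y) :
    Primrec fun a => ev1Q (FQ (d a)) (L a) (y a) := by
  unfold ev1Q
  have hc : Primrec fun p : α × ℚ × ℕ × ℚ × ℚ => p.2.1 := Primrec.fst.comp Primrec.snd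
  have he : Primrec fun p : α × ℚ × ℕ × ℚ × ℚ => p.2.2.1 :=
    Primrec.fst.comp (Primrec.snd.comp Primrec.snd)
  have hal : Primrec fun p : α × ℚ × ℕ × ℚ × ℚ => p.2.2.2.1 :=
    Primrec.fst.comp (Primrec.snd.comp (Primrec.snd.comp Primrec.snd))
  have hbe : Primrec fun p : α × ℚ × ℕ × ℚ × ℚ => p.2.2.2.2 :=
    Primrec.snd.comp (Primrec.snd.comp (Primrec.snd.comp Primrec.snd))
  have hy' : Primrec fun p : α × ℚ × ℕ × ℚ × ℚ => y p.1 := hy.comp Primrec.fst
  have hd' : Primrec fun p : α × ℚ × ℕ × ℚ × ℚ => d p.1 := hd.comp Primrec.fst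
  have hatom : Primrec₂ fun (a : α) (b : ℚ × ℕ × ℚ × ℚ) =>
      b.1 * (y a) ^ b.2.1 * FQ (d a) (b.2.2.1 * y a + b.2.2.2) :=
    rat_mul.comp (rat_mul.comp hc (rat_pow.comp hy' he))
      (primrec_FQ.comp hd' (rat_add.comp (rat_mul.comp hal hy') hbe))
  exact rat_list_sum.comp (Primrec.list_map hL hatom)

/-- `size1 L y` is primitive recursive in `(L, y)`. -/
theorem primrec_size1 {L : α → Prog1} {y : α → ℚ} (hL : Primrec L) (hy : Primrec y) :
    Primrec fun a => size1 (L a) (y a) := by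
  unfold size1
  have hc : Primrec fun p : α × ℚ × ℕ × ℚ × ℚ => p.2.1 := Primrec.fst.comp Primrec.snd
  have he : Primrec fun p : α × ℚ × ℕ × ℚ × ℚ => p.2.2.1 :=
    Primrec.fst.comp (Primrec.snd.comp Primrec.snd)
  have hy' : Primrec fun p : α × ℚ × ℕ × ℚ × ℚ => y p.1 := hy.comp Primrec.fst
  have hatom : Primrec₂ fun (a : α) (b : ℚ × ℕ × ℚ × ℚ) => |b.1| * |y a| ^ b.2.1 :=
    rat_mul.comp (rat_abs.comp hc) (rat_pow.comp (rat_abs.comp hy') he)
  exact rat_list_sum.comp (Primrec.list_map hL hatom)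

/-- `bnd1 R L` is primitive recursive in `(R, L)`. -/
theorem primrec_bnd1 {R : α → ℕ} {L : α → Prog1} (hR : Primrec R) (hL : Primrec L) :
    Primrec fun a => bnd1 (R a) (L a) := by
  unfold bnd1
  have hc : Primrec fun p : α × ℚ × ℕ × ℚ × ℚ => p.2.1 := Primrec.fst.comp Primrec.snd
  have he : Primrec fun p : α × ℚ × ℕ × ℚ × ℚ => p.2.2.1 :=
    Primrec.fst.comp (Primrec.snd.comp Primrec.snd)
  have hR' : Primrec fun p : α × ℚ × ℕ × ℚ × ℚ => ((R p.1 : ℕ) : ℚ) :=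
    rat_natCast.comp (hR.comp Primrec.fst)
  have hatom : Primrec₂ fun (a : α) (b : ℚ × ℕ × ℚ × ℚ) => |b.1| * ((R a : ℕ) : ℚ) ^ b.2.1 :=
    rat_mul.comp (rat_abs.comp hc) (rat_pow.comp hR' he)
  exact rat_list_sum.comp (Primrec.list_map hL hatom)

/-- Component `j` of `evalQ (FQ d) P t q` is primitive recursive in `(d, P, t, q)`. -/
theorem primrec_evalQ_apply {d : α → ℕ} {P : α → Prog} {t : α → ℚ} {q : α → Fin 3 → ℚ}
    (hd : Primrec d) (hP : Primrec P) (ht : Primrec t) (hq : Primrec q) (j : Fin 3) :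
    Primrec fun a => evalQ (FQ (d a)) (P a) (t a) (q a) j := by
  unfold evalQ
  have hT0 : Primrec fun p : α × Fin 3 × Prog1 × Prog1 × Prog1 × Prog1 => p.2.2.1 :=
    Primrec.fst.comp (Primrec.snd.comp Primrec.snd)
  have hT1 : Primrec fun p : α × Fin 3 × Prog1 × Prog1 × Prog1 × Prog1 => p.2.2.2.1 :=
    Primrec.fst.comp (Primrec.snd.comp (Primrec.snd.comp Primrec.snd))
  have hT2 : Primrec fun p : α × Fin 3 × Prog1 × Prog1 × Prog1 × Prog1 => p.2.2.2.2.1 :=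
    Primrec.fst.comp (Primrec.snd.comp (Primrec.snd.comp (Primrec.snd.comp Primrec.snd)))
  have hT3 : Primrec fun p : α × Fin 3 × Prog1 × Prog1 × Prog1 × Prog1 => p.2.2.2.2.2 :=
    Primrec.snd.comp (Primrec.snd.comp (Primrec.snd.comp (Primrec.snd.comp Primrec.snd)))
  have hd' : Primrec fun p : α × Fin 3 × Prog1 × Prog1 × Prog1 × Prog1 => d p.1 :=
    hd.comp Primrec.fst
  have ht' : Primrec fun p : α × Fin 3 × Prog1 × Prog1 × Prog1 × Prog1 => t p.1 :=
    ht.comp Primrec.fst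
  have hq' : Primrec fun p : α × Fin 3 × Prog1 × Prog1 × Prog1 × Prog1 => q p.1 :=
    hq.comp Primrec.fst
  have hval : Primrec fun p : α × Fin 3 × Prog1 × Prog1 × Prog1 × Prog1 =>
      ev1Q (FQ (d p.1)) p.2.2.1 (t p.1) * ev1Q (FQ (d p.1)) p.2.2.2.1 (q p.1 0) *
        ev1Q (FQ (d p.1)) p.2.2.2.2.1 (q p.1 1) * ev1Q (FQ (d p.1)) p.2.2.2.2.2 (q p.1 2) :=
    rat_mul.comp (rat_mul.comp (rat_mul.comp (primrec_ev1Q hd' hT0 ht')
      (primrec_ev1Q hd' hT1 (primrec_fin_app hq' 0))) (primrec_ev1Q hd' hT2 (primrec_fin_app hq' 1)))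
      (primrec_ev1Q hd' hT3 (primrec_fin_app hq' 2))
  have hcond : PrimrecPred fun p : α × Fin 3 × Prog1 × Prog1 × Prog1 × Prog1 => p.2.1 = j :=
    Primrec.eq.comp (Primrec.fst.comp Primrec.snd) (Primrec.const j)
  have hterm : Primrec₂ fun (a : α) (T : Fin 3 × Prog1 × Prog1 × Prog1 × Prog1) =>
      if T.1 = j then
        ev1Q (FQ (d a)) T.2.1 (t a) * ev1Q (FQ (d a)) T.2.2.1 (q a 0) *
          ev1Q (FQ (d a)) T.2.2.2.1 (q a 1) * ev1Q (FQ (d a)) T.2.2.2.2 (q a 2)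
      else 0 :=
    Primrec.ite hcond hval (Primrec.const 0)
  exact rat_list_sum.comp (Primrec.list_map hP hterm)

/-- `evalQ (FQ d) P t q` is primitive recursive in `(d, P, t, q)`. -/
theorem primrec_evalQ {d : α → ℕ} {P : α → Prog} {t : α → ℚ} {q : α → Fin 3 → ℚ}
    (hd : Primrec d) (hP : Primrec P) (ht : Primrec t) (hq : Primrec q) :
    Primrec fun a => evalQ (FQ (d a)) (P a) (t a) (q a) :=
  primrec_fin_lam fun j => primrec_evalQ_apply hd hP ht hq j

/-- `sizeP P t q` is primitive recursive in `(P, t, q)`. -/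
theorem primrec_sizeP {P : α → Prog} {t : α → ℚ} {q : α → Fin 3 → ℚ}
    (hP : Primrec P) (ht : Primrec t) (hq : Primrec q) :
    Primrec fun a => sizeP (P a) (t a) (q a) := by
  unfold sizeP
  have hT0 : Primrec fun p : α × Fin 3 × Prog1 × Prog1 × Prog1 × Prog1 => p.2.2.1 :=
    Primrec.fst.comp (Primrec.snd.comp Primrec.snd)
  have hT1 : Primrec fun p : α × Fin 3 × Prog1 × Prog1 × Prog1 × Prog1 => p.2.2.2.1 :=
    Primrec.fst.comp (Primrec.snd.comp (Primrec.snd.comp Primrec.snd))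
  have hT2 : Primrec fun p : α × Fin 3 × Prog1 × Prog1 × Prog1 × Prog1 => p.2.2.2.2.1 :=
    Primrec.fst.comp (Primrec.snd.comp (Primrec.snd.comp (Primrec.snd.comp Primrec.snd)))
  have hT3 : Primrec fun p : α × Fin 3 × Prog1 × Prog1 × Prog1 × Prog1 => p.2.2.2.2.2 :=
    Primrec.snd.comp (Primrec.snd.comp (Primrec.snd.comp (Primrec.snd.comp Primrec.snd)))
  have ht' : Primrec fun p : α × Fin 3 × Prog1 × Prog1 × Prog1 × Prog1 => t p.1 :=
    ht.comp Primrec.fst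
  have hq' : Primrec fun p : α × Fin 3 × Prog1 × Prog1 × Prog1 × Prog1 => q p.1 :=
    hq.comp Primrec.fst
  have hterm : Primrec₂ fun (a : α) (T : Fin 3 × Prog1 × Prog1 × Prog1 × Prog1) =>
      size1 T.2.1 (t a) * size1 T.2.2.1 (q a 0) * size1 T.2.2.2.1 (q a 1) *
        size1 T.2.2.2.2 (q a 2) :=
    rat_mul.comp (rat_mul.comp (rat_mul.comp (primrec_size1 hT0 ht')
      (primrec_size1 hT1 (primrec_fin_app hq' 0))) (primrec_size1 hT2 (primrec_fin_app hq' 1)))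
      (primrec_size1 hT3 (primrec_fin_app hq' 2))
  exact rat_list_sum.comp (Primrec.list_map hP hterm)

/-- `bndP R P` is primitive recursive in `(R, P)`. -/
theorem primrec_bndP {R : α → ℕ} {P : α → Prog} (hR : Primrec R) (hP : Primrec P) :
    Primrec fun a => bndP (R a) (P a) := by
  unfold bndP
  have hT0 : Primrec fun p : α × Fin 3 × Prog1 × Prog1 × Prog1 × Prog1 => p.2.2.1 :=
    Primrec.fst.comp (Primrec.snd.comp Primrec.snd)
  have hT1 : Primrec fun p : α × Fin 3 × Prog1 × Prog1 × Prog1 × Prog1 => p.2.2.2.1 :=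
    Primrec.fst.comp (Primrec.snd.comp (Primrec.snd.comp Primrec.snd))
  have hT2 : Primrec fun p : α × Fin 3 × Prog1 × Prog1 × Prog1 × Prog1 => p.2.2.2.2.1 :=
    Primrec.fst.comp (Primrec.snd.comp (Primrec.snd.comp (Primrec.snd.comp Primrec.snd)))
  have hT3 : Primrec fun p : α × Fin 3 × Prog1 × Prog1 × Prog1 × Prog1 => p.2.2.2.2.2 :=
    Primrec.snd.comp (Primrec.snd.comp (Primrec.snd.comp (Primrec.snd.comp Primrec.snd)))
  have hR' : Primrec fun p : α × Fin 3 × Prog1 × Prog1 × Prog1 × Prog1 => R p.1 :=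
    hR.comp Primrec.fst
  have hterm : Primrec₂ fun (a : α) (T : Fin 3 × Prog1 × Prog1 × Prog1 × Prog1) =>
      bnd1 (R a) T.2.1 * bnd1 (R a) T.2.2.1 * bnd1 (R a) T.2.2.2.1 * bnd1 (R a) T.2.2.2.2 :=
    rat_mul.comp (rat_mul.comp (rat_mul.comp (primrec_bnd1 hR' hT0)
      (primrec_bnd1 hR' hT1)) (primrec_bnd1 hR' hT2)) (primrec_bnd1 hR' hT3)
  exact rat_list_sum.comp (Primrec.list_map hP hterm)

/-! ### the binding statements -/

/-- `Lib_S0170_EDefs.prec` is primitive recursive. -/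
theorem primrec_precE {P : α → Prog} {t : α → ℚ} {q : α → Fin 3 → ℚ} {n : α → ℕ}
    (hP : Primrec P) (ht : Primrec t) (hq : Primrec q) (hn : Primrec n) :
    Primrec fun a => Lib_S0170_EDefs.prec (P a) (t a) (q a) (n a) :=
  (primrec_prec.comp hn (primrec_sizeP hP ht hq)).of_eq fun _ => rfl

/-- D3 (binding statement of `Lib_S0170_EPlan`). -/
theorem primrec_E (P : Prog) : Primrec (E P) := by
  unfold E
  have hP' : Primrec fun x : List (Fin 4) × (ℚ × (Fin 3 → ℚ)) × ℕ => x.1.foldr dProg P :=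
    (primrec_foldr_dProg primrec_dProg P).comp Primrec.fst
  have ht : Primrec fun x : List (Fin 4) × (ℚ × (Fin 3 → ℚ)) × ℕ => x.2.1.1 :=
    Primrec.fst.comp (Primrec.fst.comp Primrec.snd)
  have hq : Primrec fun x : List (Fin 4) × (ℚ × (Fin 3 → ℚ)) × ℕ => x.2.1.2 :=
    Primrec.snd.comp (Primrec.fst.comp Primrec.snd)
  have hn : Primrec fun x : List (Fin 4) × (ℚ × (Fin 3 → ℚ)) × ℕ => x.2.2 :=
    Primrec.snd.comp Primrec.snd
  exact primrec_evalQ (primrec_precE hP' ht hq hn) hP' ht hq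

/-- D3 (binding statement of `Lib_S0170_EPlan`). -/
theorem primrec_bound (R : ℕ) (P : Prog) : Primrec (bound R P) := by
  unfold bound
  exact primrec_num_natAbs.comp
    (primrec_bndP (Primrec.const R) (primrec_foldr_dProg primrec_dProg P))

end Binding

end Crest.Agent.Lib_S0170_ED3
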