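import Mathlib
import Crest.Prelude.Def_BoxFlow
import Crest.Agent.Lib_S0170_Defs
import Crest.Agent.Lib_S0170_EDefs
import Crest.Agent.Lib_S0170_ED2
import Crest.Agent.Lib_S0170_ED3
import Crest.Agent.Lib_S0170_EAdapt

/-!
S0170, part [E]: ASSEMBLY with the remaining obligations as explicit hypotheses (sorry-free).

`effective_fieldOf_of` shows: D1 (`hmixed`), D3 (`hd`, `hsize`, `heval`, `hb`) and D4 (`hbound`)
give the Plan statement `effective_fieldOf`.  The error estimate (D2, helper13), the adapter and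
the support radius (helper26), and the generic pipeline (helper23) are used directly.
-/

set_option autoImplicit false

namespace Crest.Agent.Lib_S0170_EAsm

open Crest.AnalysisR.BoxFlow Crest.Agent.Lib_S0170_Defs Crest.Agent.Lib_S0170_EDefs
open Crest.Agent.Lib_S0170_Fabius (psi FQ)

/-- The real semantics of `Lib_S0170_EDefs` is the `s := psi` instance of `Lib_S0170_ED2`. -/
theorem evalField_eq_evalR (P : Prog) : evalField P = Lib_S0170_ED2.evalR psi P := rfl

/-- The local copy of `evalField` in `Lib_S0170_EAdapt` is the one of `Lib_S0170_EDefs`. -/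
theorem evalField_eq_adapt (P : Prog) : Lib_S0170_EAdapt.evalField P = evalField P := rfl

theorem abs_psi_le_one (u : ℝ) : |psi u| ≤ 1 :=
  abs_le.2 ⟨by linarith [Lib_S0170_Fabius.psi_nonneg u], Lib_S0170_Fabius.psi_le_one u⟩

/-- D2 in the shape `herr` of `Lib_S0170_ED3.effective_of_pipeline`. -/
theorem herr (d : ℕ) (hd : 1 ≤ d) (P' : Prog) (t : ℚ) (q : Fin 3 → ℚ) (j : Fin 3) :
    |evalField P' ((t : ℝ), ratPoint q) j - (Lib_S0170_ED2.evalQ (FQ d) P' t q j : ℝ)| ≤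
      15 * (2 / (2 : ℝ) ^ d) * (Lib_S0170_ED2.sizeP P' t q : ℝ) := by
  have hε0 : (0 : ℚ) ≤ 2 / 2 ^ d := by positivity
  have hε1 : (2 : ℚ) / 2 ^ d ≤ 1 := by
    rw [div_le_one (by positivity)]
    calc (2 : ℚ) = 2 ^ 1 := by norm_num
      _ ≤ 2 ^ d := pow_le_pow_right₀ (by norm_num) hd
  have hF : ∀ r : ℚ, |psi (r : ℝ) - (FQ d r : ℝ)| ≤ ((2 / 2 ^ d : ℚ) : ℝ) := by
    intro r
    have := Lib_S0170_Fabius.abs_psi_sub_FQ_le d hd r
    push_cast
    exact this
  have key := Lib_S0170_ED2.abs_evalR_sub_evalQ_le psi abs_psi_le_one (FQ d) (2 / 2 ^ d) hε0 hε1 hF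
    P' t q j
  push_cast at key
  exact key

/-- `Effective (evalField P)` from the remaining obligations. -/
theorem effective_evalField_of
    (hmixed : ∀ (ds : List (Fin 4)) (P : Prog),
      mixedDeriv ds (evalField P) = evalField (ds.foldr dProg P))
    (hd : ∀ d, Primrec (dProg d))
    (hsize : Primrec fun x : Prog × ℚ × (Fin 3 → ℚ) => Lib_S0170_ED2.sizeP x.1 x.2.1 x.2.2)
    (heval : Primrec fun x : ℕ × Prog × ℚ × (Fin 3 → ℚ) =>
      Lib_S0170_ED2.evalQ (FQ x.1) x.2.1 x.2.2.1 x.2.2.2)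
    (hb : ∀ R : ℕ, Primrec (bndP R))
    (hbound : ∀ (R : ℕ) (P : Prog),
      (∀ p : ℝ × (Fin 3 → ℝ), ((R : ℝ) < |p.1| ∨ ∃ j, (R : ℝ) < |p.2 j|) → evalField P p = 0) →
      ∀ (ds : List (Fin 4)) (p : ℝ × (Fin 3 → ℝ)) (j : Fin 3),
        |mixedDeriv ds (evalField P) p j| ≤ (bndP R (ds.foldr dProg P) : ℝ))
    (P : Prog) (R : ℕ)
    (hR : ∀ p : ℝ × (Fin 3 → ℝ), ((R : ℝ) < |p.1| ∨ ∃ j, (R : ℝ) < |p.2 j|) → evalField P p = 0) :
    Effective (evalField P) :=
  Lib_S0170_ED3.effective_of_pipeline (Pg := Prog) evalField dProg Lib_S0170_ED2.sizeP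
    (fun d => Lib_S0170_ED2.evalQ (FQ d)) (bndP R) P (fun ds => hmixed ds P) hd hsize heval (hb R)
    (fun d hd1 P' t q j => herr d hd1 P' t q j)
    (fun ds p j => by rw [← hmixed ds P]; exact hbound R P hR ds p j)

/-- The Plan statement [E] from the remaining obligations. -/
theorem effective_fieldOf_of
    (hmixed : ∀ (ds : List (Fin 4)) (P : Prog),
      mixedDeriv ds (evalField P) = evalField (ds.foldr dProg P))
    (hd : ∀ d, Primrec (dProg d))
    (hsize : Primrec fun x : Prog × ℚ × (Fin 3 → ℚ) => Lib_S0170_ED2.sizeP x.1 x.2.1 x.2.2)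
    (heval : Primrec fun x : ℕ × Prog × ℚ × (Fin 3 → ℚ) =>
      Lib_S0170_ED2.evalQ (FQ x.1) x.2.1 x.2.2.1 x.2.2.2)
    (hb : ∀ R : ℕ, Primrec (bndP R))
    (hbound : ∀ (R : ℕ) (P : Prog),
      (∀ p : ℝ × (Fin 3 → ℝ), ((R : ℝ) < |p.1| ∨ ∃ j, (R : ℝ) < |p.2 j|) → evalField P p = 0) →
      ∀ (ds : List (Fin 4)) (p : ℝ × (Fin 3 → ℝ)) (j : Fin 3),
        |mixedDeriv ds (evalField P) p j| ≤ (bndP R (ds.foldr dProg P) : ℝ))
    (L : List Stage) (hL : ∀ s ∈ L, s.Valid) : Effective (fieldOf L) := by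
  have h : fieldOf L = evalField (Lib_S0170_EAdapt.progOf L) :=
    Lib_S0170_EAdapt.fieldOf_eq_evalField L hL
  obtain ⟨R, hR⟩ := Lib_S0170_EAdapt.fieldOf_support_radius L hL
  rw [h]
  exact effective_evalField_of hmixed hd hsize heval hb hbound _ R (by rw [← h]; exact hR)

end Crest.Agent.Lib_S0170_EAsm
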