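import Mathlib
import Crest.Prelude.Def_BoxFlow
import Crest.Agent.Lib_S0170_Fabius
import Crest.Agent.Lib_S0170_CompQOps

/-!
# S0170, part [E], package D4: global bounds for the mixed derivatives of a program field

* `mixedDeriv_eq_zero_of_isOpen`: a field that vanishes on an open set has all its mixed
  derivatives vanishing there (generic, no program definitions).
* `abs_mixedDeriv_le_of_box`: a field vanishing outside the closed cube of radius `R` whose
  mixed derivative is bounded by `B` on the cube has that mixed derivative bounded by `B`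
  everywhere.
* `bnd1`, `bndP`: rational bounds of 1-D programs / tensor programs on the cube of radius `R`,
  `abs_ev1_le`, `abs_evalField_le`, and the final `abs_mixedDeriv_evalField_le`.

The program definitions `Prog1`, `ev1`, `Prog`, `evalField` are local copies of the shapes
fixed on the team board (#203); they are definitionally the same as the ones in the other
files of the project.
-/

set_option autoImplicit false

namespace Crest.Agent.Lib_S0170_EBound

open Crest.AnalysisR.BoxFlow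
open Crest.Agent.Lib_S0170_Fabius (psi psi_nonneg psi_le_one)
open Topology

/-! ### Generic facts -/

/-- If a field vanishes on an open set, so do all its mixed derivatives. -/
theorem mixedDeriv_eq_zero_of_isOpen (U : Field) (S : Set (ℝ × (Fin 3 → ℝ))) (hS : IsOpen S)
    (hU : ∀ p ∈ S, U p = 0) (ds : List (Fin 4)) : ∀ p ∈ S, mixedDeriv ds U p = 0 := by
  induction ds with
  | nil => exact hU
  | cons d ds ih =>
    intro p hp
    show fderiv ℝ (mixedDeriv ds U) p (direction d) = 0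
    have h : mixedDeriv ds U =ᶠ[𝓝 p] (fun _ => (0 : Fin 3 → ℝ)) := by
      filter_upwards [hS.mem_nhds hp] with x hx using ih x hx
    rw [h.fderiv_eq]
    simp

/-- The complement of the closed cube of radius `R` in space-time is open. -/
theorem isOpen_outside (R : ℝ) :
    IsOpen {p : ℝ × (Fin 3 → ℝ) | R < |p.1| ∨ ∃ j, R < |p.2 j|} := by
  have h1 : IsOpen {p : ℝ × (Fin 3 → ℝ) | R < |p.1|} :=
    isOpen_lt continuous_const (continuous_abs.comp continuous_fst)
  have h2 : ∀ j : Fin 3, IsOpen {p : ℝ × (Fin 3 → ℝ) | R < |p.2 j|} := fun j =>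
    isOpen_lt continuous_const
      (continuous_abs.comp ((continuous_apply j).comp continuous_snd))
  have h3 : {p : ℝ × (Fin 3 → ℝ) | R < |p.1| ∨ ∃ j, R < |p.2 j|} =
      {p : ℝ × (Fin 3 → ℝ) | R < |p.1|} ∪ ⋃ j : Fin 3, {p : ℝ × (Fin 3 → ℝ) | R < |p.2 j|} := by
    ext p
    simp
  rw [h3]
  exact h1.union (isOpen_iUnion h2)

/-- A point of space-time is either in the closed cube of radius `R` or outside. -/
theorem in_or_out (R : ℝ) (p : ℝ × (Fin 3 → ℝ)) :
    (|p.1| ≤ R ∧ ∀ j, |p.2 j| ≤ R) ∨ (R < |p.1| ∨ ∃ j, R < |p.2 j|) := by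
  by_cases h1 : |p.1| ≤ R
  · by_cases h2 : ∀ j, |p.2 j| ≤ R
    · exact Or.inl ⟨h1, h2⟩
    · rw [not_forall] at h2
      obtain ⟨j, hj⟩ := h2
      exact Or.inr (Or.inr ⟨j, not_le.1 hj⟩)
  · exact Or.inr (Or.inl (not_le.1 h1))

/-- All mixed derivatives of a field vanishing outside the cube vanish outside the cube. -/
theorem mixedDeriv_eq_zero_outside (U : Field) (R : ℝ)
    (hR : ∀ p : ℝ × (Fin 3 → ℝ), (R < |p.1| ∨ ∃ j, R < |p.2 j|) → U p = 0)
    (ds : List (Fin 4)) (p : ℝ × (Fin 3 → ℝ)) (hp : R < |p.1| ∨ ∃ j, R < |p.2 j|) :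
    mixedDeriv ds U p = 0 :=
  mixedDeriv_eq_zero_of_isOpen U _ (isOpen_outside R) hR ds p hp

/-- A bound of a mixed derivative on the cube is a bound everywhere, for a field vanishing
outside the cube. -/
theorem abs_mixedDeriv_le_of_box (U : Field) (R : ℝ)
    (hR : ∀ p : ℝ × (Fin 3 → ℝ), (R < |p.1| ∨ ∃ j, R < |p.2 j|) → U p = 0)
    (ds : List (Fin 4)) (B : ℝ) (hB0 : 0 ≤ B)
    (hB : ∀ p : ℝ × (Fin 3 → ℝ), (|p.1| ≤ R ∧ ∀ j, |p.2 j| ≤ R) →
      ∀ j, |mixedDeriv ds U p j| ≤ B) (p : ℝ × (Fin 3 → ℝ)) (j : Fin 3) :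
    |mixedDeriv ds U p j| ≤ B := by
  rcases in_or_out R p with h | h
  · exact hB p h j
  · rw [mixedDeriv_eq_zero_outside U R hR ds p h]
    simpa using hB0

/-- A nonnegative rational is at most the absolute value of its numerator. -/
theorem le_natAbs_num (q : ℚ) : (q : ℝ) ≤ (q.num.natAbs : ℝ) := by
  have h1 : q ≤ (q.num.natAbs : ℚ) := by
    have hd : (1 : ℚ) ≤ q.den := by exact_mod_cast q.den_pos
    have hq : q = (q.num : ℚ) / (q.den : ℚ) := (Rat.num_div_den q).symm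
    have h2 : (q.num : ℚ) ≤ (q.num.natAbs : ℚ) := by
      have h : q.num ≤ (q.num.natAbs : ℤ) := Int.le_natAbs
      have h' : ((q.num : ℤ) : ℚ) ≤ (((q.num.natAbs : ℕ) : ℤ) : ℚ) := Int.cast_le.2 h
      rwa [Int.cast_natCast] at h'
    have h3 : (0 : ℚ) ≤ (q.num.natAbs : ℚ) := by positivity
    calc q = (q.num : ℚ) / (q.den : ℚ) := hq
      _ ≤ (q.num.natAbs : ℚ) / (q.den : ℚ) := by
          apply div_le_div_of_nonneg_right h2 (by positivity)
      _ ≤ (q.num.natAbs : ℚ) / 1 := by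
          apply div_le_div_of_nonneg_left h3 (by norm_num) hd
      _ = (q.num.natAbs : ℚ) := by simp
  exact_mod_cast h1

/-! ### Program definitions (local copies of the shapes of the project) -/

/-- 1-D programs: lists of atoms `(c, e, α, β)` standing for `c * y ^ e * psi (α * y + β)`. -/
abbrev Prog1 := List (ℚ × ℕ × ℚ × ℚ)

/-- Value of a 1-D program. -/
noncomputable def ev1 (L : Prog1) (y : ℝ) : ℝ :=
  (L.map fun a => (a.1 : ℝ) * y ^ a.2.1 * psi (a.2.2.1 * y + a.2.2.2)).sum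

/-- Tensor programs: lists of terms (component, time factor, three space factors). -/
abbrev Prog := List (Fin 3 × Prog1 × Prog1 × Prog1 × Prog1)

/-- The field of a tensor program. -/
noncomputable def evalField (P : Prog) : Field := fun p =>
  (P.map fun T => (Pi.single T.1
    (ev1 T.2.1 p.1 * ev1 T.2.2.1 (p.2 0) * ev1 T.2.2.2.1 (p.2 1) * ev1 T.2.2.2.2 (p.2 2)) :
      Fin 3 → ℝ)).sum

theorem ev1_nil (y : ℝ) : ev1 [] y = 0 := by simp [ev1]

theorem ev1_cons (a : ℚ × ℕ × ℚ × ℚ) (L : Prog1) (y : ℝ) :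
    ev1 (a :: L) y = (a.1 : ℝ) * y ^ a.2.1 * psi (a.2.2.1 * y + a.2.2.2) + ev1 L y := by
  simp [ev1]

theorem evalField_nil : evalField [] = 0 := by
  funext p; simp [evalField]

theorem evalField_cons (T : Fin 3 × Prog1 × Prog1 × Prog1 × Prog1) (P : Prog)
    (p : ℝ × (Fin 3 → ℝ)) :
    evalField (T :: P) p = Pi.single T.1
      (ev1 T.2.1 p.1 * ev1 T.2.2.1 (p.2 0) * ev1 T.2.2.2.1 (p.2 1) * ev1 T.2.2.2.2 (p.2 2)) +
        evalField P p := by
  simp [evalField]

/-! ### The rational bounds -/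

/-- Bound of a 1-D program on `[-R, R]`. -/
def bnd1 (R : ℕ) (L : Prog1) : ℚ := (L.map fun a => |a.1| * (R : ℚ) ^ a.2.1).sum

/-- Bound of a tensor program on the cube of radius `R`. -/
def bndP (R : ℕ) (P : Prog) : ℚ :=
  (P.map fun T => bnd1 R T.2.1 * bnd1 R T.2.2.1 * bnd1 R T.2.2.2.1 * bnd1 R T.2.2.2.2).sum

theorem bnd1_nil (R : ℕ) : bnd1 R [] = 0 := by simp [bnd1]

theorem bnd1_cons (R : ℕ) (a : ℚ × ℕ × ℚ × ℚ) (L : Prog1) :
    bnd1 R (a :: L) = |a.1| * (R : ℚ) ^ a.2.1 + bnd1 R L := by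
  simp [bnd1]

theorem bndP_nil (R : ℕ) : bndP R [] = 0 := by simp [bndP]

theorem bndP_cons (R : ℕ) (T : Fin 3 × Prog1 × Prog1 × Prog1 × Prog1) (P : Prog) :
    bndP R (T :: P) =
      bnd1 R T.2.1 * bnd1 R T.2.2.1 * bnd1 R T.2.2.2.1 * bnd1 R T.2.2.2.2 + bndP R P := by
  simp [bndP]

theorem bnd1_nonneg (R : ℕ) (L : Prog1) : 0 ≤ bnd1 R L := by
  induction L with
  | nil => simp [bnd1_nil]
  | cons a L ih =>
    rw [bnd1_cons]
    have : (0 : ℚ) ≤ |a.1| * (R : ℚ) ^ a.2.1 := by positivity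
    linarith

theorem bndP_nonneg (R : ℕ) (P : Prog) : 0 ≤ bndP R P := by
  induction P with
  | nil => simp [bndP_nil]
  | cons T P ih =>
    rw [bndP_cons]
    have h1 := bnd1_nonneg R T.2.1
    have h2 := bnd1_nonneg R T.2.2.1
    have h3 := bnd1_nonneg R T.2.2.2.1
    have h4 := bnd1_nonneg R T.2.2.2.2
    have : 0 ≤ bnd1 R T.2.1 * bnd1 R T.2.2.1 * bnd1 R T.2.2.2.1 * bnd1 R T.2.2.2.2 := by
      positivity
    linarith

/-- A 1-D program is bounded by `bnd1 R` on `[-R, R]`. -/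
theorem abs_ev1_le (R : ℕ) (L : Prog1) (y : ℝ) (hy : |y| ≤ R) : |ev1 L y| ≤ (bnd1 R L : ℝ) := by
  induction L with
  | nil => simp [ev1_nil, bnd1_nil]
  | cons a L ih =>
    rw [ev1_cons, bnd1_cons]
    push_cast
    have h1 : |(a.1 : ℝ) * y ^ a.2.1 * psi (a.2.2.1 * y + a.2.2.2)| ≤
        |(a.1 : ℝ)| * (R : ℝ) ^ a.2.1 := by
      rw [abs_mul, abs_mul, abs_pow]
      have hp : |psi (a.2.2.1 * y + a.2.2.2)| ≤ 1 := by
        rw [abs_of_nonneg (psi_nonneg _)]
        exact psi_le_one _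
      have hpow : |y| ^ a.2.1 ≤ (R : ℝ) ^ a.2.1 := pow_le_pow_left₀ (abs_nonneg y) hy _
      calc |(a.1 : ℝ)| * |y| ^ a.2.1 * |psi (a.2.2.1 * y + a.2.2.2)|
          ≤ |(a.1 : ℝ)| * (R : ℝ) ^ a.2.1 * 1 := by
            apply mul_le_mul _ hp (abs_nonneg _) (by positivity)
            exact mul_le_mul_of_nonneg_left hpow (abs_nonneg _)
        _ = |(a.1 : ℝ)| * (R : ℝ) ^ a.2.1 := by ring
    calc |(a.1 : ℝ) * y ^ a.2.1 * psi (a.2.2.1 * y + a.2.2.2) + ev1 L y|
        ≤ |(a.1 : ℝ) * y ^ a.2.1 * psi (a.2.2.1 * y + a.2.2.2)| + |ev1 L y| := abs_add_le _ _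
      _ ≤ |(a.1 : ℝ)| * (R : ℝ) ^ a.2.1 + (bnd1 R L : ℝ) := add_le_add h1 ih

/-- A product of four factors is bounded by the product of the bounds. -/
theorem abs_mul4_le {a b c d A B C D : ℝ} (ha : |a| ≤ A) (hb : |b| ≤ B) (hc : |c| ≤ C)
    (hd : |d| ≤ D) : |a * b * c * d| ≤ A * B * C * D := by
  rw [abs_mul, abs_mul, abs_mul]
  have hA : 0 ≤ A := (abs_nonneg a).trans ha
  have hB : 0 ≤ B := (abs_nonneg b).trans hb
  have hC : 0 ≤ C := (abs_nonneg c).trans hc
  have h1 : |a| * |b| ≤ A * B := mul_le_mul ha hb (abs_nonneg _) hA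
  have h2 : |a| * |b| * |c| ≤ A * B * C :=
    mul_le_mul h1 hc (abs_nonneg _) (mul_nonneg hA hB)
  exact mul_le_mul h2 hd (abs_nonneg _) (mul_nonneg (mul_nonneg hA hB) hC)

/-- A program field is bounded by `bndP R` on the cube of radius `R`. -/
theorem abs_evalField_le (R : ℕ) (P : Prog) (p : ℝ × (Fin 3 → ℝ))
    (hp : |p.1| ≤ R ∧ ∀ j, |p.2 j| ≤ R) (j : Fin 3) : |evalField P p j| ≤ (bndP R P : ℝ) := by
  induction P with
  | nil => simp [evalField_nil, bndP_nil]
  | cons T P ih =>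
    rw [evalField_cons, bndP_cons]
    push_cast
    have h1 : |(Pi.single T.1 (ev1 T.2.1 p.1 * ev1 T.2.2.1 (p.2 0) * ev1 T.2.2.2.1 (p.2 1) *
        ev1 T.2.2.2.2 (p.2 2)) : Fin 3 → ℝ) j| ≤
        (bnd1 R T.2.1 : ℝ) * (bnd1 R T.2.2.1 : ℝ) * (bnd1 R T.2.2.2.1 : ℝ) *
          (bnd1 R T.2.2.2.2 : ℝ) := by
      have hprod := abs_mul4_le (abs_ev1_le R T.2.1 p.1 hp.1) (abs_ev1_le R T.2.2.1 (p.2 0) (hp.2 0))
        (abs_ev1_le R T.2.2.2.1 (p.2 1) (hp.2 1)) (abs_ev1_le R T.2.2.2.2 (p.2 2) (hp.2 2))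
      by_cases hj : j = T.1
      · subst hj
        rw [Pi.single_eq_same]
        exact hprod
      · rw [Pi.single_eq_of_ne hj]
        rw [abs_zero]
        exact (abs_nonneg _).trans hprod
    calc |((Pi.single T.1 (ev1 T.2.1 p.1 * ev1 T.2.2.1 (p.2 0) * ev1 T.2.2.2.1 (p.2 1) *
          ev1 T.2.2.2.2 (p.2 2)) : Fin 3 → ℝ) + evalField P p) j|
        ≤ |(Pi.single T.1 (ev1 T.2.1 p.1 * ev1 T.2.2.1 (p.2 0) * ev1 T.2.2.2.1 (p.2 1) *
          ev1 T.2.2.2.2 (p.2 2)) : Fin 3 → ℝ) j| + |evalField P p j| := by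
          rw [Pi.add_apply]; exact abs_add_le _ _
      _ ≤ _ := add_le_add h1 ih

/-- The natural-number bound used for `Effective`. -/
def natBound (R : ℕ) (P : Prog) : ℕ := (bndP R P).num.natAbs

theorem bndP_le_natBound (R : ℕ) (P : Prog) : (bndP R P : ℝ) ≤ (natBound R P : ℝ) :=
  le_natAbs_num _

/-- **D4**: if `evalField P` vanishes outside the cube of radius `R` and `P'` is a program for
its mixed derivative along `ds`, that mixed derivative is bounded everywhere by the natural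
number `natBound R P' = (bndP R P').num.natAbs`. -/
theorem abs_mixedDeriv_evalField_le (P : Prog) (R : ℕ)
    (hR : ∀ p : ℝ × (Fin 3 → ℝ), ((R : ℝ) < |p.1| ∨ ∃ j, (R : ℝ) < |p.2 j|) → evalField P p = 0)
    (ds : List (Fin 4)) (P' : Prog) (hP' : mixedDeriv ds (evalField P) = evalField P')
    (p : ℝ × (Fin 3 → ℝ)) (j : Fin 3) :
    |mixedDeriv ds (evalField P) p j| ≤ (natBound R P' : ℝ) := by
  refine abs_mixedDeriv_le_of_box (evalField P) R hR ds _ (Nat.cast_nonneg _) ?_ p j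
  intro p hp j
  rw [hP']
  exact (abs_evalField_le R P' p hp j).trans (bndP_le_natBound R P')

/-- The shape needed by the assembly (`hbound`): if `P'` is a program for the mixed derivative
of `evalField P` along `ds` and `evalField P` vanishes outside the cube of radius `R`, then
`evalField P'` is bounded by `bndP R P'` EVERYWHERE. -/
theorem abs_evalField_le_of_mixed (P : Prog) (R : ℕ)
    (hR : ∀ p : ℝ × (Fin 3 → ℝ), ((R : ℝ) < |p.1| ∨ ∃ j, (R : ℝ) < |p.2 j|) → evalField P p = 0)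
    (ds : List (Fin 4)) (P' : Prog) (hP' : mixedDeriv ds (evalField P) = evalField P')
    (p : ℝ × (Fin 3 → ℝ)) (j : Fin 3) :
    |evalField P' p j| ≤ (bndP R P' : ℝ) := by
  rcases in_or_out (R : ℝ) p with h | h
  · exact abs_evalField_le R P' p h j
  · rw [← hP', mixedDeriv_eq_zero_outside (evalField P) R hR ds p h]
    simpa using (by exact_mod_cast bndP_nonneg R P' : (0 : ℝ) ≤ (bndP R P' : ℝ))

/-- `hbound` of the assembly for a derivation operator `dProg`. -/
theorem abs_evalField_foldr_le (P : Prog) (R : ℕ)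
    (hR : ∀ p : ℝ × (Fin 3 → ℝ), ((R : ℝ) < |p.1| ∨ ∃ j, (R : ℝ) < |p.2 j|) → evalField P p = 0)
    (dProg : Fin 4 → Prog → Prog)
    (hmixed : ∀ ds : List (Fin 4), mixedDeriv ds (evalField P) = evalField (ds.foldr dProg P))
    (ds : List (Fin 4)) (p : ℝ × (Fin 3 → ℝ)) (j : Fin 3) :
    |evalField (ds.foldr dProg P) p j| ≤ (bndP R (ds.foldr dProg P) : ℝ) :=
  abs_evalField_le_of_mixed P R hR ds _ (hmixed ds) p j

/-! ### Primitive recursiveness of the bounds -/

open Crest.Agent.Lib_S0170_CompQOps in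
theorem primrec_bnd1 : Primrec (fun x : ℕ × Prog1 => bnd1 x.1 x.2) := by
  have hg : Primrec₂ (fun (x : ℕ × Prog1) (a : ℚ × ℕ × ℚ × ℚ) => |a.1| * (x.1 : ℚ) ^ a.2.1) := by
    have h1 : Primrec fun y : (ℕ × Prog1) × (ℚ × ℕ × ℚ × ℚ) => |y.2.1| :=
      rat_abs.comp (Primrec.fst.comp Primrec.snd)
    have h2 : Primrec fun y : (ℕ × Prog1) × (ℚ × ℕ × ℚ × ℚ) => (y.1.1 : ℚ) ^ y.2.2.1 :=
      rat_pow.comp (rat_natCast.comp (Primrec.fst.comp Primrec.fst))
        (Primrec.fst.comp (Primrec.snd.comp Primrec.snd))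
    exact rat_mul.comp h1 h2
  exact rat_list_sum.comp (Primrec.list_map Primrec.snd hg)

open Crest.Agent.Lib_S0170_CompQOps in
theorem primrec_bndP : Primrec (fun x : ℕ × Prog => bndP x.1 x.2) := by
  have hg : Primrec₂ (fun (x : ℕ × Prog) (T : Fin 3 × Prog1 × Prog1 × Prog1 × Prog1) =>
      bnd1 x.1 T.2.1 * bnd1 x.1 T.2.2.1 * bnd1 x.1 T.2.2.2.1 * bnd1 x.1 T.2.2.2.2) := by
    have R : Primrec fun y : (ℕ × Prog) × (Fin 3 × Prog1 × Prog1 × Prog1 × Prog1) => y.1.1 :=
      Primrec.fst.comp Primrec.fst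
    have T0 : Primrec fun y : (ℕ × Prog) × (Fin 3 × Prog1 × Prog1 × Prog1 × Prog1) => y.2.2 :=
      Primrec.snd.comp Primrec.snd
    have T1 : Primrec fun y : (ℕ × Prog) × (Fin 3 × Prog1 × Prog1 × Prog1 × Prog1) => y.2.2.1 :=
      Primrec.fst.comp T0
    have T2 : Primrec fun y : (ℕ × Prog) × (Fin 3 × Prog1 × Prog1 × Prog1 × Prog1) => y.2.2.2.1 :=
      Primrec.fst.comp (Primrec.snd.comp T0)
    have T3 : Primrec fun y : (ℕ × Prog) × (Fin 3 × Prog1 × Prog1 × Prog1 × Prog1) =>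
        y.2.2.2.2.1 := Primrec.fst.comp (Primrec.snd.comp (Primrec.snd.comp T0))
    have T4 : Primrec fun y : (ℕ × Prog) × (Fin 3 × Prog1 × Prog1 × Prog1 × Prog1) =>
        y.2.2.2.2.2 := Primrec.snd.comp (Primrec.snd.comp (Primrec.snd.comp T0))
    exact rat_mul.comp (rat_mul.comp (rat_mul.comp (primrec_bnd1.comp (Primrec.pair R T1))
      (primrec_bnd1.comp (Primrec.pair R T2))) (primrec_bnd1.comp (Primrec.pair R T3)))
      (primrec_bnd1.comp (Primrec.pair R T4))
  exact rat_list_sum.comp (Primrec.list_map Primrec.snd hg)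

/-- `hb` of the assembly: for a fixed radius the bound is primitive recursive in the program. -/
theorem primrec_bndP_fixed (R : ℕ) : Primrec (bndP R) := by
  have h1 : Primrec (fun P : Prog => ((R, P) : ℕ × Prog)) :=
    Primrec.pair (Primrec.const R) Primrec.id
  have h2 := primrec_bndP.comp h1
  exact h2

theorem primrec_natBound : Primrec (fun x : ℕ × Prog => natBound x.1 x.2) := by
  have h := Crest.Agent.Lib_S0170_CompQOps.rat_ub.comp primrec_bndP
  exact h

end Crest.Agent.Lib_S0170_EBound
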