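import Mathlib
import Crest.Prelude.Def_BoxFlow
import Crest.Agent.Lib_S0170_Defs
import Crest.Agent.Lib_S0170_EDefs
import Crest.Agent.Lib_S0170_AdapterCalc

/-!
S0170 [E], D1 on the binding names of `Lib_S0170_EDefs`: transfer of helper27's
`Lib_S0170_AdapterCalc.mixedDeriv_evalField` (proved for the local program shapes of
`Lib_S0170_Adapter` / `Lib_S0170_AdapterCalc`) to `Lib_S0170_EDefs.evalField` / `dProg`.
-/

set_option autoImplicit false

namespace Crest.Agent.Lib_S0170_ED1Bridge

open Crest.AnalysisR.BoxFlow Crest.Agent.Lib_S0170_Defs Crest.Agent.Lib_S0170_EDefs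
open scoped ContDiff

theorem ev1_eq (L : Prog1) : Lib_S0170_Adapter.ev1 L = ev1 L := rfl

theorem evalField_eq (P : Prog) : Lib_S0170_Adapter.evalField P = evalField P := rfl

theorem d1_eq (L : Prog1) : Lib_S0170_AdapterCalc.d1 L = d1 L := rfl

theorem dTerm_eq (d : Fin 4) (T : Fin 3 × Prog1 × Prog1 × Prog1 × Prog1) :
    Lib_S0170_AdapterCalc.dTerm d T = dTerm d T := by
  fin_cases d <;> rfl

theorem dProg_eq : Lib_S0170_AdapterCalc.dProg = dProg := by
  funext d P
  unfold Lib_S0170_AdapterCalc.dProg dProg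
  exact List.map_congr_left fun T _ => dTerm_eq d T

/-- D1 on the `Lib_S0170_EDefs` names. -/
theorem mixedDeriv_evalField (ds : List (Fin 4)) (P : Prog) :
    mixedDeriv ds (evalField P) = evalField (ds.foldr dProg P) := by
  have h := Lib_S0170_AdapterCalc.mixedDeriv_evalField ds P
  rw [dProg_eq] at h
  exact h

theorem hasDerivAt_ev1 (L : Prog1) (y : ℝ) : HasDerivAt (ev1 L) (ev1 (d1 L) y) y :=
  Lib_S0170_AdapterCalc.hasDerivAt_ev1 L y

theorem contDiff_evalField (P : Prog) : ContDiff ℝ ∞ (evalField P) :=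
  Lib_S0170_AdapterCalc.contDiff_evalField P

theorem fderiv_evalField (P : Prog) (d : Fin 4) (p : ℝ × (Fin 3 → ℝ)) :
    fderiv ℝ (evalField P) p (direction d) = evalField (dProg d P) p := by
  have h := Lib_S0170_AdapterCalc.fderiv_evalField P d p
  rw [dProg_eq] at h
  exact h

end Crest.Agent.Lib_S0170_ED1Bridge
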