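import Mathlib
import Crest.Agent.Lib_S0170_CompQOps
import Crest.Agent.Lib_S0170_CompFQ
import Crest.Agent.Lib_S0170_ED2

/-!
# S0170, part [E], package D3-num: the rational evaluators of `Lib_S0170_ED2` are
primitive recursive (with the Fabius approximant `FQ d` in place of the step function).
-/

set_option autoImplicit false

namespace Crest.Agent.Lib_S0170_ED3Num

open Crest.Agent.Lib_S0170_ED2 Crest.Agent.Lib_S0170_CompQOps Crest.Agent.Lib_S0170_CompFQ
open Crest.Agent.Lib_S0170_Fabius (FQ)

variable {α : Type*} [Primcodable α]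

/-- A function into `Fin n → σ` is primitive recursive as soon as its components are. -/
theorem primrec_fin_lam {σ : Type*} [Primcodable σ] {n : ℕ} {f : α → Fin n → σ}
    (hf : ∀ i, Primrec fun a => f a i) : Primrec f :=
  Primrec.fin_curry.2 ((Primrec.fin_curry₁.2 hf).comp Primrec.snd Primrec.fst)

/-- Evaluation of a primitive recursive `Fin n → σ`-valued function at a fixed index. -/
theorem primrec_fin_app {σ : Type*} [Primcodable σ] {n : ℕ} {f : α → Fin n → σ}
    (hf : Primrec f) (i : Fin n) : Primrec fun a => f a i :=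
  Primrec.fin_app.comp hf (Primrec.const i)

/-! ### 1-D programs -/

/-- `ev1Q (FQ d) L y` is primitive recursive in `(d, L, y)`. -/
theorem primrec_ev1Q {d : α → ℕ} {L : α → List Atom} {y : α → ℚ}
    (hd : Primrec d) (hL : Primrec L) (hy : Primrec y) :
    Primrec fun a => ev1Q (FQ (d a)) (L a) (y a) := by
  unfold ev1Q
  have hc : Primrec fun p : α × Atom => p.2.1 := Primrec.fst.comp Primrec.snd
  have he : Primrec fun p : α × Atom => p.2.2.1 :=
    Primrec.fst.comp (Primrec.snd.comp Primrec.snd)
  have hal : Primrec fun p : α × Atom => p.2.2.2.1 :=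
    Primrec.fst.comp (Primrec.snd.comp (Primrec.snd.comp Primrec.snd))
  have hbe : Primrec fun p : α × Atom => p.2.2.2.2 :=
    Primrec.snd.comp (Primrec.snd.comp (Primrec.snd.comp Primrec.snd))
  have hy' : Primrec fun p : α × Atom => y p.1 := hy.comp Primrec.fst
  have hd' : Primrec fun p : α × Atom => d p.1 := hd.comp Primrec.fst
  have hatom : Primrec₂ fun (a : α) (b : Atom) =>
      b.1 * (y a) ^ b.2.1 * FQ (d a) (b.2.2.1 * y a + b.2.2.2) :=
    rat_mul.comp (rat_mul.comp hc (rat_pow.comp hy' he))
      (primrec_FQ.comp hd' (rat_add.comp (rat_mul.comp hal hy') hbe))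
  exact rat_list_sum.comp (Primrec.list_map hL hatom)

/-- `size1 L y` is primitive recursive in `(L, y)`. -/
theorem primrec_size1 {L : α → List Atom} {y : α → ℚ} (hL : Primrec L) (hy : Primrec y) :
    Primrec fun a => size1 (L a) (y a) := by
  unfold size1
  have hc : Primrec fun p : α × Atom => p.2.1 := Primrec.fst.comp Primrec.snd
  have he : Primrec fun p : α × Atom => p.2.2.1 :=
    Primrec.fst.comp (Primrec.snd.comp Primrec.snd)
  have hy' : Primrec fun p : α × Atom => y p.1 := hy.comp Primrec.fst
  have hatom : Primrec₂ fun (a : α) (b : Atom) => |b.1| * |y a| ^ b.2.1 :=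
    rat_mul.comp (rat_abs.comp hc) (rat_pow.comp (rat_abs.comp hy') he)
  exact rat_list_sum.comp (Primrec.list_map hL hatom)

/-! ### Tensor terms -/

theorem primrec_termQ {d : α → ℕ} {T : α → Term} {t : α → ℚ} {q : α → Fin 3 → ℚ}
    (hd : Primrec d) (hT : Primrec T) (ht : Primrec t) (hq : Primrec q) :
    Primrec fun a => termQ (FQ (d a)) (T a) (t a) (q a) := by
  unfold termQ
  have h0 : Primrec fun a => (T a).2.1 := Primrec.fst.comp (Primrec.snd.comp hT)
  have h1 : Primrec fun a => (T a).2.2.1 :=
    Primrec.fst.comp (Primrec.snd.comp (Primrec.snd.comp hT))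
  have h2 : Primrec fun a => (T a).2.2.2.1 :=
    Primrec.fst.comp (Primrec.snd.comp (Primrec.snd.comp (Primrec.snd.comp hT)))
  have h3 : Primrec fun a => (T a).2.2.2.2 :=
    Primrec.snd.comp (Primrec.snd.comp (Primrec.snd.comp (Primrec.snd.comp hT)))
  exact rat_mul.comp (rat_mul.comp (rat_mul.comp (primrec_ev1Q hd h0 ht)
    (primrec_ev1Q hd h1 (primrec_fin_app hq 0))) (primrec_ev1Q hd h2 (primrec_fin_app hq 1)))
    (primrec_ev1Q hd h3 (primrec_fin_app hq 2))

theorem primrec_sizeT {T : α → Term} {t : α → ℚ} {q : α → Fin 3 → ℚ}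
    (hT : Primrec T) (ht : Primrec t) (hq : Primrec q) :
    Primrec fun a => sizeT (T a) (t a) (q a) := by
  unfold sizeT
  have h0 : Primrec fun a => (T a).2.1 := Primrec.fst.comp (Primrec.snd.comp hT)
  have h1 : Primrec fun a => (T a).2.2.1 :=
    Primrec.fst.comp (Primrec.snd.comp (Primrec.snd.comp hT))
  have h2 : Primrec fun a => (T a).2.2.2.1 :=
    Primrec.fst.comp (Primrec.snd.comp (Primrec.snd.comp (Primrec.snd.comp hT)))
  have h3 : Primrec fun a => (T a).2.2.2.2 :=
    Primrec.snd.comp (Primrec.snd.comp (Primrec.snd.comp (Primrec.snd.comp hT)))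
  exact rat_mul.comp (rat_mul.comp (rat_mul.comp (primrec_size1 h0 ht)
    (primrec_size1 h1 (primrec_fin_app hq 0))) (primrec_size1 h2 (primrec_fin_app hq 1)))
    (primrec_size1 h3 (primrec_fin_app hq 2))

/-! ### Programs -/

/-- Componentwise form of `evalQ`. -/
theorem evalQ_apply (F : ℚ → ℚ) (P : List Term) (t : ℚ) (q : Fin 3 → ℚ) (j : Fin 3) :
    evalQ F P t q j = (P.map fun T => if j = T.1 then termQ F T t q else 0).sum := by
  induction P with
  | nil => simp [evalQ]
  | cons T P ih =>
    have e1 : evalQ F (T :: P) t q j =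
        (if j = T.1 then termQ F T t q else 0) + evalQ F P t q j := by
      simp [evalQ, Pi.single_apply]
    rw [e1, ih]
    simp

theorem primrec_evalQ_apply {d : α → ℕ} {P : α → List Term} {t : α → ℚ} {q : α → Fin 3 → ℚ}
    (hd : Primrec d) (hP : Primrec P) (ht : Primrec t) (hq : Primrec q) (j : Fin 3) :
    Primrec fun a => evalQ (FQ (d a)) (P a) (t a) (q a) j := by
  have hterm : Primrec₂ fun (a : α) (T : Term) =>
      if j = T.1 then termQ (FQ (d a)) T (t a) (q a) else 0 := by
    have hcond : PrimrecPred fun p : α × Term => j = p.2.1 :=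
      Primrec.eq.comp (Primrec.const j) (Primrec.fst.comp Primrec.snd)
    have hval : Primrec fun p : α × Term => termQ (FQ (d p.1)) p.2 (t p.1) (q p.1) :=
      primrec_termQ (hd.comp Primrec.fst) Primrec.snd (ht.comp Primrec.fst)
        (hq.comp Primrec.fst)
    exact Primrec.ite hcond hval (Primrec.const 0)
  exact (rat_list_sum.comp (Primrec.list_map hP hterm)).of_eq fun a =>
    (evalQ_apply _ _ _ _ _).symm

/-- `evalQ (FQ d) P t q` is primitive recursive in `(d, P, t, q)`. -/
theorem primrec_evalQ {d : α → ℕ} {P : α → List Term} {t : α → ℚ} {q : α → Fin 3 → ℚ}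
    (hd : Primrec d) (hP : Primrec P) (ht : Primrec t) (hq : Primrec q) :
    Primrec fun a => evalQ (FQ (d a)) (P a) (t a) (q a) :=
  primrec_fin_lam fun j => primrec_evalQ_apply hd hP ht hq j

/-- `sizeP P t q` is primitive recursive in `(P, t, q)`. -/
theorem primrec_sizeP {P : α → List Term} {t : α → ℚ} {q : α → Fin 3 → ℚ}
    (hP : Primrec P) (ht : Primrec t) (hq : Primrec q) :
    Primrec fun a => sizeP (P a) (t a) (q a) := by
  unfold sizeP
  have hterm : Primrec₂ fun (a : α) (T : Term) => sizeT T (t a) (q a) :=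
    primrec_sizeT (α := α × Term) Primrec.snd (ht.comp Primrec.fst) (hq.comp Primrec.fst)
  exact rat_list_sum.comp (Primrec.list_map hP hterm)

/-- The exact `heval` hypothesis of `Lib_S0170_ED3.effective_of_pipeline`
(with `evalQ d := ED2.evalQ (FQ d)`). -/
theorem heval : Primrec fun x : ℕ × List Term × ℚ × (Fin 3 → ℚ) =>
    evalQ (FQ x.1) x.2.1 x.2.2.1 x.2.2.2 :=
  primrec_evalQ Primrec.fst (Primrec.fst.comp Primrec.snd)
    (Primrec.fst.comp (Primrec.snd.comp Primrec.snd))
    (Primrec.snd.comp (Primrec.snd.comp Primrec.snd))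

/-- The exact `hsize` hypothesis of `Lib_S0170_ED3.effective_of_pipeline`. -/
theorem hsize : Primrec fun x : List Term × ℚ × (Fin 3 → ℚ) => sizeP x.1 x.2.1 x.2.2 :=
  primrec_sizeP Primrec.fst (Primrec.fst.comp Primrec.snd) (Primrec.snd.comp Primrec.snd)

/-- A global bound candidate: `sizeP` at the corner `(R, R, R, R)` is primitive recursive in
the program (this is `bndP R` of the plan: `bnd1 R L = size1 L R` for `0 ≤ R`). -/
theorem hbnd (R : ℚ) : Primrec fun P : List Term => sizeP P R (fun _ => R) :=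
  primrec_sizeP Primrec.id (Primrec.const R) (Primrec.const fun _ => R)

/-! ### Syntactic transformations (generic helpers for `d1` / `dProg`) -/

/-- Building an atom from primitive recursive components. -/
theorem primrec_atom_mk {c : α → ℚ} {e : α → ℕ} {al be : α → ℚ} (hc : Primrec c)
    (he : Primrec e) (hal : Primrec al) (hbe : Primrec be) :
    Primrec fun a => ((c a, e a, al a, be a) : Atom) :=
  hc.pair (he.pair (hal.pair hbe))

/-- The three atoms of the derivative of the atom `c * y ^ e * s (α * y + β)` when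
`s' u = 2 * s (2 * u) - 2 * s (2 * u - 1)` (Fabius):
`(c * e) y^(e-1) s(αy+β) + (2cα) y^e s(2αy+2β) + (-(2cα)) y^e s(2αy+2β-1)`. -/
def dAtom (a : Atom) : List Atom :=
  [(a.1 * (a.2.1 : ℚ), a.2.1 - 1, a.2.2.1, a.2.2.2),
   (2 * a.1 * a.2.2.1, a.2.1, 2 * a.2.2.1, 2 * a.2.2.2),
   (-(2 * a.1 * a.2.2.1), a.2.1, 2 * a.2.2.1, 2 * a.2.2.2 - 1)]

theorem primrec_dAtom : Primrec dAtom := by
  unfold dAtom
  have hc : Primrec fun a : Atom => a.1 := Primrec.fst
  have he : Primrec fun a : Atom => a.2.1 := Primrec.fst.comp Primrec.snd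
  have hal : Primrec fun a : Atom => a.2.2.1 := Primrec.fst.comp (Primrec.snd.comp Primrec.snd)
  have hbe : Primrec fun a : Atom => a.2.2.2 := Primrec.snd.comp (Primrec.snd.comp Primrec.snd)
  have h2 : Primrec fun _ : Atom => (2 : ℚ) := Primrec.const 2
  have h2ca : Primrec fun a : Atom => 2 * a.1 * a.2.2.1 :=
    rat_mul.comp (rat_mul.comp h2 hc) hal
  have h2al : Primrec fun a : Atom => 2 * a.2.2.1 := rat_mul.comp h2 hal
  have h2be : Primrec fun a : Atom => 2 * a.2.2.2 := rat_mul.comp h2 hbe
  have a1 : Primrec fun a : Atom => ((a.1 * (a.2.1 : ℚ), a.2.1 - 1, a.2.2.1, a.2.2.2) : Atom) :=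
    primrec_atom_mk (rat_mul.comp hc (rat_natCast.comp he))
      (Primrec.nat_sub.comp he (Primrec.const 1)) hal hbe
  have a2 : Primrec fun a : Atom =>
      ((2 * a.1 * a.2.2.1, a.2.1, 2 * a.2.2.1, 2 * a.2.2.2) : Atom) :=
    primrec_atom_mk h2ca he h2al h2be
  have a3 : Primrec fun a : Atom =>
      ((-(2 * a.1 * a.2.2.1), a.2.1, 2 * a.2.2.1, 2 * a.2.2.2 - 1) : Atom) :=
    primrec_atom_mk (rat_neg.comp h2ca) he h2al (rat_sub.comp h2be (Primrec.const 1))
  exact Primrec.list_cons.comp a1 (Primrec.list_cons.comp a2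
    (Primrec.list_cons.comp a3 (Primrec.const [])))

/-- `flatMap` of a primitive recursive atom transformation. -/
theorem primrec_flatMap_atom {f : Atom → List Atom} (hf : Primrec f) :
    Primrec fun L : List Atom => L.flatMap f :=
  Primrec.list_flatMap Primrec.id (hf.comp Primrec.snd).to₂

/-- `map` of a primitive recursive atom transformation. -/
theorem primrec_map_atom {f : Atom → Atom} (hf : Primrec f) :
    Primrec fun L : List Atom => L.map f :=
  Primrec.list_map Primrec.id (hf.comp Primrec.snd).to₂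

/-- The syntactic derivative of a 1-D program (reference shape). -/
def d1 (L : List Atom) : List Atom := L.flatMap dAtom

theorem primrec_d1 : Primrec d1 := primrec_flatMap_atom primrec_dAtom

/-- `map` of a primitive recursive term transformation. -/
theorem primrec_map_term {f : Term → Term} (hf : Primrec f) :
    Primrec fun P : List Term => P.map f :=
  Primrec.list_map Primrec.id (hf.comp Primrec.snd).to₂

/-- `flatMap` of a primitive recursive term transformation. -/
theorem primrec_flatMap_term {f : Term → List Term} (hf : Primrec f) :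
    Primrec fun P : List Term => P.flatMap f :=
  Primrec.list_flatMap Primrec.id (hf.comp Primrec.snd).to₂

/-- Apply `g` to the slot `d : Fin 4` of a term (slot 0 = time factor). -/
def onSlot (g : List Atom → List Atom) (d : Fin 4) (T : Term) : Term :=
  if d = 0 then (T.1, g T.2.1, T.2.2.1, T.2.2.2.1, T.2.2.2.2)
  else if d = 1 then (T.1, T.2.1, g T.2.2.1, T.2.2.2.1, T.2.2.2.2)
  else if d = 2 then (T.1, T.2.1, T.2.2.1, g T.2.2.2.1, T.2.2.2.2)
  else (T.1, T.2.1, T.2.2.1, T.2.2.2.1, g T.2.2.2.2)

theorem primrec_onSlot {g : List Atom → List Atom} (hg : Primrec g) (d : Fin 4) :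
    Primrec (onSlot g d) := by
  have hj : Primrec fun T : Term => T.1 := Primrec.fst
  have h0 : Primrec fun T : Term => T.2.1 := Primrec.fst.comp Primrec.snd
  have h1 : Primrec fun T : Term => T.2.2.1 := Primrec.fst.comp (Primrec.snd.comp Primrec.snd)
  have h2 : Primrec fun T : Term => T.2.2.2.1 :=
    Primrec.fst.comp (Primrec.snd.comp (Primrec.snd.comp Primrec.snd))
  have h3 : Primrec fun T : Term => T.2.2.2.2 :=
    Primrec.snd.comp (Primrec.snd.comp (Primrec.snd.comp Primrec.snd))
  unfold onSlot
  by_cases hd0 : d = 0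
  · simp only [if_pos hd0]
    exact hj.pair ((hg.comp h0).pair (h1.pair (h2.pair h3)))
  by_cases hd1 : d = 1
  · simp only [if_neg hd0, if_pos hd1]
    exact hj.pair (h0.pair ((hg.comp h1).pair (h2.pair h3)))
  by_cases hd2 : d = 2
  · simp only [if_neg hd0, if_neg hd1, if_pos hd2]
    exact hj.pair (h0.pair (h1.pair ((hg.comp h2).pair h3)))
  · simp only [if_neg hd0, if_neg hd1, if_neg hd2]
    exact hj.pair (h0.pair (h1.pair (h2.pair (hg.comp h3))))

/-- The syntactic derivative of a program in direction `d` (reference shape). -/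
def dProg (d : Fin 4) (P : List Term) : List Term := P.map (onSlot d1 d)

/-- The exact `hd` hypothesis of `Lib_S0170_ED3.effective_of_pipeline` for the reference
shape of `dProg`. -/
theorem hd (d : Fin 4) : Primrec (dProg d) := primrec_map_term (primrec_onSlot primrec_d1 d)

end Crest.Agent.Lib_S0170_ED3Num
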