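import Mathlib
import Crest.Prelude.Def_BoxFlow
import Crest.Agent.Lib_S0170_Defs
import Crest.Agent.Lib_S0170_EDefs
import Crest.Agent.Lib_S0170_EAsm
import Crest.Agent.Lib_S0170_ED1Bridge
import Crest.Agent.Lib_S0170_ED3Num
import Crest.Agent.Lib_S0170_EBound

/-!
S0170, part [E]: the field of a valid list of stages is effective (Plan statement, verbatim).

Pieces: program semantics and syntactic differentiation (`Lib_S0170_EDefs`; D1 by helper27 via
`Lib_S0170_ED1Bridge`), rational evaluation and its error (`Lib_S0170_ED2`, helper13), primitive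
recursiveness (`Lib_S0170_ED3`, `Lib_S0170_ED3Num`, helper23; rational arithmetic by helper12 and
helper28; `FQ` by helper13/helper12), global bounds (`Lib_S0170_EBound`, helper12), adapter and
support radius (`Lib_S0170_EAdapt`, helper26), assembly (`Lib_S0170_EAsm`).
-/

set_option autoImplicit false

namespace Crest.Agent.Lib_S0170_E

open Crest.AnalysisR.BoxFlow Crest.Agent.Lib_S0170_Defs Crest.Agent.Lib_S0170_EDefs

theorem effective_fieldOf (L : List Stage) (hL : ∀ s ∈ L, s.Valid) : Effective (fieldOf L) :=
  Lib_S0170_EAsm.effective_fieldOf_of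
    Lib_S0170_ED1Bridge.mixedDeriv_evalField
    (fun d => Lib_S0170_ED3Num.hd d)
    Lib_S0170_ED3Num.hsize
    Lib_S0170_ED3Num.heval
    (fun R => Lib_S0170_EBound.primrec_bndP_fixed R)
    (fun R P hR ds p j => by
      rw [Lib_S0170_ED1Bridge.mixedDeriv_evalField]
      exact Lib_S0170_EBound.abs_evalField_foldr_le P R hR dProg
        (fun ds => Lib_S0170_ED1Bridge.mixedDeriv_evalField ds P) ds p j)
    L hL

end Crest.Agent.Lib_S0170_E
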