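import Mathlib
import Crest.Prelude.Def_BoxFlow
import Crest.Agent.Lib_S0170_Fabius

/-!
# S0170, part [E], package D1: calculus of "programs"

A 1-D program is a finite list of atoms `(c, e, α, β)` standing for `y ↦ c * y ^ e * psi (α * y + β)`
(`psi` the Fabius step).  By the functional equation `psi' x = 2 psi (2x) - 2 psi (2x - 1)` the class
of such finite sums is closed under differentiation, *syntactically* (`d1`).  A program is a finite
list of tensor terms (component, time factor, three space factors); its value `evalField` is a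
smooth field and every mixed partial derivative is again the value of a program
(`mixedDeriv_evalField`).
-/

set_option autoImplicit false

namespace Crest.Agent.Lib_S0170_ED1

open Crest.AnalysisR.BoxFlow
open Crest.Agent.Lib_S0170_Fabius (psi)
open scoped ContDiff

/-! ### Definitions (the shapes of board post #203) -/

/-- 1-D program: atoms `(c, e, α, β)` standing for `c * y ^ e * psi (α * y + β)`. -/
abbrev Prog1 : Type := List (ℚ × ℕ × ℚ × ℚ)

/-- Value of a 1-D program. -/
noncomputable def ev1 (L : Prog1) (y : ℝ) : ℝ :=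
  (L.map fun a => (a.1 : ℝ) * y ^ a.2.1 * psi (a.2.2.1 * y + a.2.2.2)).sum

/-- Tensor programs: (component, time factor, `x 0`-, `x 1`-, `x 2`-factor). -/
abbrev Prog : Type := List (Fin 3 × Prog1 × Prog1 × Prog1 × Prog1)

/-- Value of a tensor program. -/
noncomputable def evalField (P : Prog) : Field := fun p =>
  (P.map fun T => (Pi.single T.1
    (ev1 T.2.1 p.1 * ev1 T.2.2.1 (p.2 0) * ev1 T.2.2.2.1 (p.2 1) * ev1 T.2.2.2.2 (p.2 2)) :
      Fin 3 → ℝ)).sum

/-- Syntactic derivative of one atom. -/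
def d1Atom (a : ℚ × ℕ × ℚ × ℚ) : Prog1 :=
  [(a.1 * a.2.1, a.2.1 - 1, a.2.2.1, a.2.2.2),
   (2 * a.1 * a.2.2.1, a.2.1, 2 * a.2.2.1, 2 * a.2.2.2),
   (-(2 * a.1 * a.2.2.1), a.2.1, 2 * a.2.2.1, 2 * a.2.2.2 - 1)]

/-- Syntactic derivative of a 1-D program. -/
def d1 (L : Prog1) : Prog1 := L.flatMap d1Atom

/-- Syntactic derivative of one tensor term in the space-time direction `d`
(`0` = time, `j + 1` = `j`-th space coordinate). -/
def dTerm (d : Fin 4) (T : Fin 3 × Prog1 × Prog1 × Prog1 × Prog1) :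
    Fin 3 × Prog1 × Prog1 × Prog1 × Prog1 :=
  match d with
  | 0 => (T.1, d1 T.2.1, T.2.2.1, T.2.2.2.1, T.2.2.2.2)
  | 1 => (T.1, T.2.1, d1 T.2.2.1, T.2.2.2.1, T.2.2.2.2)
  | 2 => (T.1, T.2.1, T.2.2.1, d1 T.2.2.2.1, T.2.2.2.2)
  | 3 => (T.1, T.2.1, T.2.2.1, T.2.2.2.1, d1 T.2.2.2.2)

/-- Syntactic derivative of a program in the space-time direction `d`. -/
def dProg (d : Fin 4) (P : Prog) : Prog := P.map (dTerm d)

/-! ### Basic API -/

@[simp] theorem ev1_nil (y : ℝ) : ev1 [] y = 0 := by simp [ev1]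

@[simp] theorem ev1_cons (a : ℚ × ℕ × ℚ × ℚ) (L : Prog1) (y : ℝ) :
    ev1 (a :: L) y = (a.1 : ℝ) * y ^ a.2.1 * psi (a.2.2.1 * y + a.2.2.2) + ev1 L y := by
  simp [ev1]

@[simp] theorem ev1_append (L M : Prog1) (y : ℝ) : ev1 (L ++ M) y = ev1 L y + ev1 M y := by
  simp [ev1]

@[simp] theorem evalField_nil : evalField [] = 0 := by
  funext p; simp [evalField]

theorem evalField_cons (T : Fin 3 × Prog1 × Prog1 × Prog1 × Prog1) (P : Prog)
    (p : ℝ × (Fin 3 → ℝ)) :
    evalField (T :: P) p = Pi.single T.1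
      (ev1 T.2.1 p.1 * ev1 T.2.2.1 (p.2 0) * ev1 T.2.2.2.1 (p.2 1) * ev1 T.2.2.2.2 (p.2 2)) +
        evalField P p := by
  simp [evalField]

theorem evalField_append (P Q : Prog) (p : ℝ × (Fin 3 → ℝ)) :
    evalField (P ++ Q) p = evalField P p + evalField Q p := by
  simp [evalField]

@[simp] theorem d1_nil : d1 [] = [] := rfl

@[simp] theorem d1_cons (a : ℚ × ℕ × ℚ × ℚ) (L : Prog1) : d1 (a :: L) = d1Atom a ++ d1 L := by
  simp [d1]

@[simp] theorem d1_append (L M : Prog1) : d1 (L ++ M) = d1 L ++ d1 M := by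
  simp [d1]

@[simp] theorem dProg_nil (d : Fin 4) : dProg d [] = [] := rfl

@[simp] theorem dProg_cons (d : Fin 4) (T : Fin 3 × Prog1 × Prog1 × Prog1 × Prog1) (P : Prog) :
    dProg d (T :: P) = dTerm d T :: dProg d P := rfl

@[simp] theorem dProg_append (d : Fin 4) (P Q : Prog) :
    dProg d (P ++ Q) = dProg d P ++ dProg d Q := by
  simp [dProg]

/-! ### 1-D calculus -/

theorem hasDerivAt_atom (a : ℚ × ℕ × ℚ × ℚ) (y : ℝ) :
    HasDerivAt (fun y : ℝ => (a.1 : ℝ) * y ^ a.2.1 * psi (a.2.2.1 * y + a.2.2.2))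
      (ev1 (d1Atom a) y) y := by
  obtain ⟨c, e, α, β⟩ := a
  have h1 : HasDerivAt (fun y : ℝ => (c : ℝ) * y ^ e) ((c : ℝ) * ((e : ℝ) * y ^ (e - 1))) y :=
    (hasDerivAt_pow e y).const_mul (c : ℝ)
  have hl : HasDerivAt (fun y : ℝ => (α : ℝ) * y + (β : ℝ)) (α : ℝ) y := by
    simpa using ((hasDerivAt_id y).const_mul (α : ℝ)).add_const (β : ℝ)
  have h2 : HasDerivAt (fun y : ℝ => psi ((α : ℝ) * y + (β : ℝ)))
      ((2 * psi (2 * ((α : ℝ) * y + β)) - 2 * psi (2 * ((α : ℝ) * y + β) - 1)) * (α : ℝ)) y := by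
    have h := (Crest.Agent.Lib_S0170_Fabius.psi_hasDerivAt ((α : ℝ) * y + β)).comp y hl
    exact h
  have h3 := h1.mul h2
  have e1 : psi (((2 * α : ℚ) : ℝ) * y + ((2 * β : ℚ) : ℝ)) = psi (2 * ((α : ℝ) * y + β)) := by
    congr 1; push_cast; ring
  have e2 : psi (((2 * α : ℚ) : ℝ) * y + ((2 * β - 1 : ℚ) : ℝ))
      = psi (2 * ((α : ℝ) * y + β) - 1) := by
    congr 1; push_cast; ring
  have hval : ev1 (d1Atom (c, e, α, β)) y
      = (c : ℝ) * ((e : ℝ) * y ^ (e - 1)) * psi ((α : ℝ) * y + β)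
        + (c : ℝ) * y ^ e *
          ((2 * psi (2 * ((α : ℝ) * y + β)) - 2 * psi (2 * ((α : ℝ) * y + β) - 1)) * (α : ℝ)) := by
    simp only [d1Atom, ev1_cons, ev1_nil, e1, e2]
    push_cast
    ring
  rw [hval]
  exact h3

theorem hasDerivAt_ev1 (L : Prog1) (y : ℝ) : HasDerivAt (ev1 L) (ev1 (d1 L) y) y := by
  induction L with
  | nil =>
    have : ev1 [] = fun _ : ℝ => (0 : ℝ) := by funext y; simp
    rw [this]; simpa using hasDerivAt_const y (0 : ℝ)
  | cons a L ih =>
    have : ev1 (a :: L)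
        = fun y : ℝ => (a.1 : ℝ) * y ^ a.2.1 * psi (a.2.2.1 * y + a.2.2.2) + ev1 L y := by
      funext y; simp
    rw [this, d1_cons, ev1_append]
    exact (hasDerivAt_atom a y).add ih

theorem deriv_ev1 (L : Prog1) : deriv (ev1 L) = ev1 (d1 L) :=
  funext fun y => (hasDerivAt_ev1 L y).deriv

theorem contDiff_ev1 (L : Prog1) : ContDiff ℝ ∞ (ev1 L) := by
  induction L with
  | nil =>
    have : ev1 [] = fun _ : ℝ => (0 : ℝ) := by funext y; simp
    rw [this]; exact contDiff_const
  | cons a L ih =>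
    have : ev1 (a :: L)
        = fun y : ℝ => (a.1 : ℝ) * y ^ a.2.1 * psi (a.2.2.1 * y + a.2.2.2) + ev1 L y := by
      funext y; simp
    rw [this]
    have hpsi : ContDiff ℝ ∞ (fun y : ℝ => psi ((a.2.2.1 : ℝ) * y + (a.2.2.2 : ℝ))) :=
      Crest.Agent.Lib_S0170_Fabius.psi_contDiff.comp
        ((contDiff_const.mul contDiff_id).add contDiff_const)
    exact ((contDiff_const.mul (contDiff_id.pow a.2.1)).mul hpsi).add ih

theorem differentiable_ev1 (L : Prog1) : Differentiable ℝ (ev1 L) :=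
  fun y => (hasDerivAt_ev1 L y).differentiableAt

theorem continuous_ev1 (L : Prog1) : Continuous (ev1 L) :=
  (differentiable_ev1 L).continuous

/-- Derivative along a line. -/
theorem hasDerivAt_ev1_line (L : Prog1) (a b : ℝ) :
    HasDerivAt (fun s : ℝ => ev1 L (a + s * b)) (ev1 (d1 L) a * b) 0 := by
  have hl : HasDerivAt (fun s : ℝ => a + s * b) b 0 := by
    simpa using ((hasDerivAt_id (0 : ℝ)).mul_const b).const_add a
  have h : HasDerivAt (ev1 L) (ev1 (d1 L) a) ((fun s : ℝ => a + s * b) 0) := by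
    have := hasDerivAt_ev1 L a
    simpa using this
  have h2 := h.comp 0 hl
  exact h2

/-! ### Calculus of tensor programs -/

/-- The scalar value of one tensor term. -/
noncomputable def termVal (T : Fin 3 × Prog1 × Prog1 × Prog1 × Prog1) (p : ℝ × (Fin 3 → ℝ)) : ℝ :=
  ev1 T.2.1 p.1 * ev1 T.2.2.1 (p.2 0) * ev1 T.2.2.2.1 (p.2 1) * ev1 T.2.2.2.2 (p.2 2)

theorem evalField_eq (P : Prog) (p : ℝ × (Fin 3 → ℝ)) :
    evalField P p = (P.map fun T => (Pi.single T.1 (termVal T p) : Fin 3 → ℝ)).sum := rfl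

theorem evalField_cons' (T : Fin 3 × Prog1 × Prog1 × Prog1 × Prog1) (P : Prog)
    (p : ℝ × (Fin 3 → ℝ)) :
    evalField (T :: P) p = Pi.single T.1 (termVal T p) + evalField P p := by
  simp [evalField, termVal]

theorem contDiff_termVal (T : Fin 3 × Prog1 × Prog1 × Prog1 × Prog1) :
    ContDiff ℝ ∞ (termVal T) := by
  unfold termVal
  have h0 : ContDiff ℝ ∞ (fun p : ℝ × (Fin 3 → ℝ) => ev1 T.2.1 p.1) :=
    (contDiff_ev1 _).comp contDiff_fst
  have hc : ∀ m : Fin 3, ContDiff ℝ ∞ (fun p : ℝ × (Fin 3 → ℝ) => p.2 m) := fun m =>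
    (contDiff_apply ℝ ℝ m).comp contDiff_snd
  have h1 : ContDiff ℝ ∞ (fun p : ℝ × (Fin 3 → ℝ) => ev1 T.2.2.1 (p.2 0)) :=
    (contDiff_ev1 _).comp (hc 0)
  have h2 : ContDiff ℝ ∞ (fun p : ℝ × (Fin 3 → ℝ) => ev1 T.2.2.2.1 (p.2 1)) :=
    (contDiff_ev1 _).comp (hc 1)
  have h3 : ContDiff ℝ ∞ (fun p : ℝ × (Fin 3 → ℝ) => ev1 T.2.2.2.2 (p.2 2)) :=
    (contDiff_ev1 _).comp (hc 2)
  exact ((h0.mul h1).mul h2).mul h3

theorem contDiff_evalField (P : Prog) : ContDiff ℝ ∞ (evalField P) := by
  induction P with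
  | nil => rw [evalField_nil]; exact contDiff_const
  | cons T P ih =>
    have : evalField (T :: P)
        = fun p => (Pi.single T.1 (termVal T p) : Fin 3 → ℝ) + evalField P p := by
      funext p; exact evalField_cons' T P p
    rw [this]
    refine ContDiff.add ?_ ih
    rw [contDiff_pi]
    intro j
    by_cases hj : j = T.1
    · subst hj
      simpa using contDiff_termVal T
    · have : (fun p : ℝ × (Fin 3 → ℝ) => (Pi.single T.1 (termVal T p) : Fin 3 → ℝ) j)
          = fun _ => (0 : ℝ) := by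
        funext p; simp [hj]
      rw [this]; exact contDiff_const

theorem differentiable_evalField (P : Prog) : Differentiable ℝ (evalField P) :=
  (contDiff_evalField P).differentiable (by simp)

/-- Derivative of one term along the line through `p` with velocity `v`. -/
theorem hasDerivAt_termVal_line (T : Fin 3 × Prog1 × Prog1 × Prog1 × Prog1)
    (p v : ℝ × (Fin 3 → ℝ)) :
    HasDerivAt (fun s : ℝ => termVal T (p + s • v))
      (ev1 (d1 T.2.1) p.1 * v.1 * ev1 T.2.2.1 (p.2 0) * ev1 T.2.2.2.1 (p.2 1)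
          * ev1 T.2.2.2.2 (p.2 2)
        + ev1 T.2.1 p.1 * (ev1 (d1 T.2.2.1) (p.2 0) * v.2 0) * ev1 T.2.2.2.1 (p.2 1)
          * ev1 T.2.2.2.2 (p.2 2)
        + ev1 T.2.1 p.1 * ev1 T.2.2.1 (p.2 0) * (ev1 (d1 T.2.2.2.1) (p.2 1) * v.2 1)
          * ev1 T.2.2.2.2 (p.2 2)
        + ev1 T.2.1 p.1 * ev1 T.2.2.1 (p.2 0) * ev1 T.2.2.2.1 (p.2 1)
          * (ev1 (d1 T.2.2.2.2) (p.2 2) * v.2 2)) 0 := by
  have hfun : (fun s : ℝ => termVal T (p + s • v))
      = fun s : ℝ => ev1 T.2.1 (p.1 + s * v.1) * ev1 T.2.2.1 (p.2 0 + s * v.2 0)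
          * ev1 T.2.2.2.1 (p.2 1 + s * v.2 1) * ev1 T.2.2.2.2 (p.2 2 + s * v.2 2) := by
    funext s
    simp [termVal]
  rw [hfun]
  have h0 := hasDerivAt_ev1_line T.2.1 p.1 v.1
  have h1 := hasDerivAt_ev1_line T.2.2.1 (p.2 0) (v.2 0)
  have h2 := hasDerivAt_ev1_line T.2.2.2.1 (p.2 1) (v.2 1)
  have h3 := hasDerivAt_ev1_line T.2.2.2.2 (p.2 2) (v.2 2)
  have h := ((h0.mul h1).mul h2).mul h3
  refine HasDerivAt.congr_deriv h ?_
  simp only [Pi.mul_apply, zero_mul, add_zero]
  ring

theorem direction_zero : direction 0 = ((1 : ℝ), (0 : Fin 3 → ℝ)) := by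
  simp [direction]

theorem direction_one : direction 1 = ((0 : ℝ), (Pi.single 0 1 : Fin 3 → ℝ)) := by
  simp [direction]

theorem direction_two : direction 2 = ((0 : ℝ), (Pi.single 1 1 : Fin 3 → ℝ)) := by
  simp [direction]

theorem direction_three : direction 3 = ((0 : ℝ), (Pi.single 2 1 : Fin 3 → ℝ)) := by
  simp [direction]

/-- Derivative of one term along the coordinate direction `d`. -/
theorem hasDerivAt_termVal_direction (d : Fin 4) (T : Fin 3 × Prog1 × Prog1 × Prog1 × Prog1)
    (p : ℝ × (Fin 3 → ℝ)) :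
    HasDerivAt (fun s : ℝ => termVal T (p + s • direction d)) (termVal (dTerm d T) p) 0 := by
  have h := hasDerivAt_termVal_line T p (direction d)
  convert h using 1
  fin_cases d
  · simp [dTerm, termVal, direction_zero]
  · simp [dTerm, termVal, direction_one]
  · simp [dTerm, termVal, direction_two]
  · simp [dTerm, termVal, direction_three]

/-- Derivative of the value of a program along the coordinate direction `d`. -/
theorem hasDerivAt_evalField_direction (d : Fin 4) (P : Prog) (p : ℝ × (Fin 3 → ℝ)) :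
    HasDerivAt (fun s : ℝ => evalField P (p + s • direction d)) (evalField (dProg d P) p) 0 := by
  induction P with
  | nil => simpa using hasDerivAt_const (0 : ℝ) (0 : Fin 3 → ℝ)
  | cons T P ih =>
    have hfun : (fun s : ℝ => evalField (T :: P) (p + s • direction d))
        = fun s : ℝ => (Pi.single T.1 (termVal T (p + s • direction d)) : Fin 3 → ℝ)
            + evalField P (p + s • direction d) := by
      funext s; exact evalField_cons' T P _
    rw [hfun, dProg_cons, evalField_cons']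
    refine HasDerivAt.add ?_ ih
    have hT : (dTerm d T).1 = T.1 := by fin_cases d <;> rfl
    rw [hT]
    rw [hasDerivAt_pi]
    intro j
    by_cases hj : j = T.1
    · subst hj
      simpa using hasDerivAt_termVal_direction d T p
    · have : (fun s : ℝ => (Pi.single T.1 (termVal T (p + s • direction d)) : Fin 3 → ℝ) j)
          = fun _ => (0 : ℝ) := by
        funext s; simp [hj]
      rw [this]
      simpa [hj] using hasDerivAt_const (0 : ℝ) (0 : ℝ)

/-- The directional derivative of the value of a program is the value of the syntactically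
differentiated program. -/
theorem fderiv_evalField (P : Prog) (d : Fin 4) (p : ℝ × (Fin 3 → ℝ)) :
    fderiv ℝ (evalField P) p (direction d) = evalField (dProg d P) p := by
  have hF : HasFDerivAt (evalField P) (fderiv ℝ (evalField P) p)
      ((fun s : ℝ => p + s • direction d) 0) := by
    simpa using (differentiable_evalField P p).hasFDerivAt
  have hl : HasDerivAt (fun s : ℝ => p + s • direction d) (direction d) 0 := by
    simpa using ((hasDerivAt_id (0 : ℝ)).smul_const (direction d)).const_add p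
  have h1 : HasDerivAt (fun s : ℝ => evalField P (p + s • direction d))
      (fderiv ℝ (evalField P) p (direction d)) 0 := by
    have h := HasFDerivAt.comp_hasDerivAt (0 : ℝ) hF hl
    exact h
  exact h1.unique (hasDerivAt_evalField_direction d P p)

/-- Every mixed partial derivative of the value of a program is the value of the iterated
syntactic derivative. -/
theorem mixedDeriv_evalField (ds : List (Fin 4)) (P : Prog) :
    mixedDeriv ds (evalField P) = evalField (ds.foldr dProg P) := by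
  induction ds with
  | nil => rfl
  | cons d ds ih =>
    funext p
    show fderiv ℝ (mixedDeriv ds (evalField P)) p (direction d) = _
    rw [ih, fderiv_evalField, List.foldr_cons]

end Crest.Agent.Lib_S0170_ED1
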