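import Mathlib
import Crest.Prelude.Def_BoxFlow
import Crest.Agent.Lib_S0170_Defs
import Crest.Agent.Lib_S0170_EDefs

/-!
S0170, part [E], D1 (syntactic calculus): the mixed derivatives of the field of a program are the
fields of the syntactically differentiated programs.
-/

set_option autoImplicit false

namespace Crest.Agent.Lib_S0170_ED1b

open Crest.AnalysisR.BoxFlow Crest.Agent.Lib_S0170_Defs Crest.Agent.Lib_S0170_EDefs
open Crest.Agent.Lib_S0170_Fabius (psi FQ)
open scoped ContDiff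

/-! ### 1-D programs -/

theorem ev1_nil (y : ℝ) : ev1 [] y = 0 := by simp [ev1]

theorem ev1_cons (a : ℚ × ℕ × ℚ × ℚ) (L : Prog1) (y : ℝ) :
    ev1 (a :: L) y = (a.1 : ℝ) * y ^ a.2.1 * psi (a.2.2.1 * y + a.2.2.2) + ev1 L y := by
  simp [ev1]

theorem ev1_append (L M : Prog1) (y : ℝ) : ev1 (L ++ M) y = ev1 L y + ev1 M y := by
  simp [ev1]

theorem d1_nil : d1 [] = [] := rfl

theorem d1_cons (a : ℚ × ℕ × ℚ × ℚ) (L : Prog1) : d1 (a :: L) = dAtom a ++ d1 L := by
  simp [d1]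

theorem ev1_dAtom (a : ℚ × ℕ × ℚ × ℚ) (y : ℝ) :
    ev1 (dAtom a) y =
      (a.1 : ℝ) * ((a.2.1 : ℝ) * y ^ (a.2.1 - 1)) * psi (a.2.2.1 * y + a.2.2.2) +
        (a.1 : ℝ) * y ^ a.2.1 *
          ((2 * psi (2 * ((a.2.2.1 : ℝ) * y + a.2.2.2))
            - 2 * psi (2 * ((a.2.2.1 : ℝ) * y + a.2.2.2) - 1)) * (a.2.2.1 : ℝ)) := by
  unfold dAtom
  rw [ev1_cons, ev1_cons, ev1_cons, ev1_nil]
  push_cast
  have e1 : (2 * (a.2.2.1 : ℝ)) * y + 2 * (a.2.2.2 : ℝ) = 2 * ((a.2.2.1 : ℝ) * y + a.2.2.2) := by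
    ring
  have e2 : (2 * (a.2.2.1 : ℝ)) * y + (2 * (a.2.2.2 : ℝ) - 1)
      = 2 * ((a.2.2.1 : ℝ) * y + a.2.2.2) - 1 := by ring
  rw [e1, e2]
  ring

theorem hasDerivAt_atom (a : ℚ × ℕ × ℚ × ℚ) (y : ℝ) :
    HasDerivAt (fun y : ℝ => (a.1 : ℝ) * y ^ a.2.1 * psi (a.2.2.1 * y + a.2.2.2))
      (ev1 (dAtom a) y) y := by
  rw [ev1_dAtom]
  have h1 : HasDerivAt (fun y : ℝ => y ^ a.2.1) ((a.2.1 : ℝ) * y ^ (a.2.1 - 1)) y :=
    hasDerivAt_pow a.2.1 y
  have h2 : HasDerivAt (fun y : ℝ => (a.2.2.1 : ℝ) * y + (a.2.2.2 : ℝ)) (a.2.2.1 : ℝ) y := by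
    simpa using ((hasDerivAt_id y).const_mul (a.2.2.1 : ℝ)).add_const (a.2.2.2 : ℝ)
  have h3 : HasDerivAt (fun y : ℝ => psi ((a.2.2.1 : ℝ) * y + (a.2.2.2 : ℝ)))
      ((2 * psi (2 * ((a.2.2.1 : ℝ) * y + a.2.2.2))
            - 2 * psi (2 * ((a.2.2.1 : ℝ) * y + a.2.2.2) - 1)) * (a.2.2.1 : ℝ)) y :=
    (Lib_S0170_Fabius.psi_hasDerivAt _).comp y h2
  have h4 := (h1.const_mul (a.1 : ℝ)).mul h3
  exact h4

theorem hasDerivAt_ev1 (L : Prog1) (y : ℝ) : HasDerivAt (ev1 L) (ev1 (d1 L) y) y := by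
  induction L with
  | nil =>
    have h : ev1 [] = fun _ => (0 : ℝ) := funext ev1_nil
    rw [h, d1_nil, ev1_nil]
    exact hasDerivAt_const _ _
  | cons a L ih =>
    have h : ev1 (a :: L) = fun y : ℝ =>
        (a.1 : ℝ) * y ^ a.2.1 * psi (a.2.2.1 * y + a.2.2.2) + ev1 L y := funext (ev1_cons a L)
    rw [h, d1_cons, ev1_append]
    exact (hasDerivAt_atom a y).add ih

theorem contDiff_ev1 (L : Prog1) : ContDiff ℝ ∞ (ev1 L) := by
  induction L with
  | nil =>
    have h : ev1 [] = fun _ => (0 : ℝ) := funext ev1_nil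
    rw [h]
    exact contDiff_const
  | cons a L ih =>
    have h : ev1 (a :: L) = fun y : ℝ =>
        (a.1 : ℝ) * y ^ a.2.1 * psi (a.2.2.1 * y + a.2.2.2) + ev1 L y := funext (ev1_cons a L)
    rw [h]
    refine ContDiff.add ?_ ih
    exact (contDiff_const.mul (contDiff_id.pow _)).mul
      (Lib_S0170_Fabius.psi_contDiff.comp (by fun_prop))

/-! ### field programs -/

/-- The scalar value of a tensor term at a space-time point. -/
noncomputable def termVal (T : Fin 3 × Prog1 × Prog1 × Prog1 × Prog1) (p : ℝ × (Fin 3 → ℝ)) : ℝ :=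
  ev1 T.2.1 p.1 * ev1 T.2.2.1 (p.2 0) * ev1 T.2.2.2.1 (p.2 1) * ev1 T.2.2.2.2 (p.2 2)

theorem evalField_nil (p : ℝ × (Fin 3 → ℝ)) : evalField [] p = 0 := by
  simp [evalField]

theorem evalField_cons (T : Fin 3 × Prog1 × Prog1 × Prog1 × Prog1) (P : Prog)
    (p : ℝ × (Fin 3 → ℝ)) :
    evalField (T :: P) p = (Pi.single T.1 (termVal T p) : Fin 3 → ℝ) + evalField P p := by
  simp [evalField, termVal]

theorem dProg_nil (d : Fin 4) : dProg d [] = [] := rfl

theorem dProg_cons (d : Fin 4) (T : Fin 3 × Prog1 × Prog1 × Prog1 × Prog1) (P : Prog) :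
    dProg d (T :: P) = dTerm d T :: dProg d P := rfl

theorem dTerm_fst (d : Fin 4) (T : Fin 3 × Prog1 × Prog1 × Prog1 × Prog1) :
    (dTerm d T).1 = T.1 := by
  unfold dTerm
  split_ifs <;> rfl

theorem contDiff_termVal (T : Fin 3 × Prog1 × Prog1 × Prog1 × Prog1) :
    ContDiff ℝ ∞ (termVal T) := by
  unfold termVal
  have h0 : ContDiff ℝ ∞ fun p : ℝ × (Fin 3 → ℝ) => p.2 0 :=
    (contDiff_apply ℝ ℝ (0 : Fin 3)).comp contDiff_snd
  have h1 : ContDiff ℝ ∞ fun p : ℝ × (Fin 3 → ℝ) => p.2 1 :=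
    (contDiff_apply ℝ ℝ (1 : Fin 3)).comp contDiff_snd
  have h2 : ContDiff ℝ ∞ fun p : ℝ × (Fin 3 → ℝ) => p.2 2 :=
    (contDiff_apply ℝ ℝ (2 : Fin 3)).comp contDiff_snd
  exact ((((contDiff_ev1 _).comp contDiff_fst).mul ((contDiff_ev1 _).comp h0)).mul
    ((contDiff_ev1 _).comp h1)).mul ((contDiff_ev1 _).comp h2)

theorem contDiff_single (c : Fin 3) {f : ℝ × (Fin 3 → ℝ) → ℝ} (hf : ContDiff ℝ ∞ f) :
    ContDiff ℝ ∞ fun p => (Pi.single c (f p) : Fin 3 → ℝ) := by
  rw [contDiff_pi]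
  intro k
  by_cases hk : k = c
  · subst hk
    simpa using hf
  · simpa [Pi.single_apply, hk] using (contDiff_const : ContDiff ℝ ∞ fun _ : ℝ × (Fin 3 → ℝ) => (0 : ℝ))

theorem contDiff_evalField (P : Prog) : ContDiff ℝ ∞ (evalField P) := by
  induction P with
  | nil =>
    have h : evalField [] = fun _ => (0 : Fin 3 → ℝ) := funext evalField_nil
    rw [h]
    exact contDiff_const
  | cons T P ih =>
    have h : evalField (T :: P) = fun p =>
        (Pi.single T.1 (termVal T p) : Fin 3 → ℝ) + evalField P p := funext (evalField_cons T P)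
    rw [h]
    exact (contDiff_single T.1 (contDiff_termVal T)).add ih

theorem hasDerivAt_single (c : Fin 3) {f : ℝ → ℝ} {f' : ℝ} {x : ℝ} (hf : HasDerivAt f f' x) :
    HasDerivAt (fun σ => (Pi.single c (f σ) : Fin 3 → ℝ)) (Pi.single c f') x := by
  rw [hasDerivAt_pi]
  intro k
  by_cases hk : k = c
  · subst hk
    simpa using hf
  · simpa [Pi.single_apply, hk] using hasDerivAt_const x (0 : ℝ)

/-- Along the line through `p` in direction `direction d`, the value of a tensor term has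
derivative the value of the syntactically differentiated term. -/
theorem hasDerivAt_termVal_line (d : Fin 4) (T : Fin 3 × Prog1 × Prog1 × Prog1 × Prog1)
    (p : ℝ × (Fin 3 → ℝ)) :
    HasDerivAt (fun σ : ℝ => termVal T (p + σ • direction d)) (termVal (dTerm d T) p) 0 := by
  have key : ∀ (L : Prog1) (a : ℝ), HasDerivAt (fun σ : ℝ => ev1 L (a + σ)) (ev1 (d1 L) a) 0 := by
    intro L a
    have h := hasDerivAt_ev1 L (a + 0)
    rw [add_zero] at h
    have h' : HasDerivAt (ev1 L) (ev1 (d1 L) a) (a + 0) := by rw [add_zero]; exact h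
    exact h'.comp_const_add a 0
  fin_cases d
  · -- time direction
    have hfun : (fun σ : ℝ => termVal T (p + σ • direction 0)) = fun σ : ℝ =>
        ev1 T.2.1 (p.1 + σ) * ev1 T.2.2.1 (p.2 0) * ev1 T.2.2.2.1 (p.2 1) *
          ev1 T.2.2.2.2 (p.2 2) := by
      funext σ
      simp [termVal, direction]
    have hval : termVal (dTerm 0 T) p = ev1 (d1 T.2.1) p.1 * ev1 T.2.2.1 (p.2 0) *
        ev1 T.2.2.2.1 (p.2 1) * ev1 T.2.2.2.2 (p.2 2) := by
      simp [termVal, dTerm]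
    show HasDerivAt (fun σ : ℝ => termVal T (p + σ • direction 0)) (termVal (dTerm 0 T) p) 0
    rw [hfun, hval]
    exact (((key T.2.1 p.1).mul_const _).mul_const _).mul_const _
  · have hfun : (fun σ : ℝ => termVal T (p + σ • direction 1)) = fun σ : ℝ =>
        ev1 T.2.1 p.1 * ev1 T.2.2.1 (p.2 0 + σ) * ev1 T.2.2.2.1 (p.2 1) *
          ev1 T.2.2.2.2 (p.2 2) := by
      funext σ
      simp [termVal, direction]
    have hval : termVal (dTerm 1 T) p = ev1 T.2.1 p.1 * ev1 (d1 T.2.2.1) (p.2 0) *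
        ev1 T.2.2.2.1 (p.2 1) * ev1 T.2.2.2.2 (p.2 2) := by
      simp [termVal, dTerm]
    show HasDerivAt (fun σ : ℝ => termVal T (p + σ • direction 1)) (termVal (dTerm 1 T) p) 0
    rw [hfun, hval]
    exact ((((key T.2.2.1 (p.2 0)).const_mul _).mul_const _).mul_const _)
  · have hfun : (fun σ : ℝ => termVal T (p + σ • direction 2)) = fun σ : ℝ =>
        ev1 T.2.1 p.1 * ev1 T.2.2.1 (p.2 0) * ev1 T.2.2.2.1 (p.2 1 + σ) *
          ev1 T.2.2.2.2 (p.2 2) := by
      funext σ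
      simp [termVal, direction]
    have hval : termVal (dTerm 2 T) p = ev1 T.2.1 p.1 * ev1 T.2.2.1 (p.2 0) *
        ev1 (d1 T.2.2.2.1) (p.2 1) * ev1 T.2.2.2.2 (p.2 2) := by
      simp [termVal, dTerm]
    show HasDerivAt (fun σ : ℝ => termVal T (p + σ • direction 2)) (termVal (dTerm 2 T) p) 0
    rw [hfun, hval]
    exact (((key T.2.2.2.1 (p.2 1)).const_mul _).mul_const _)
  · have hfun : (fun σ : ℝ => termVal T (p + σ • direction 3)) = fun σ : ℝ =>
        ev1 T.2.1 p.1 * ev1 T.2.2.1 (p.2 0) * ev1 T.2.2.2.1 (p.2 1) *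
          ev1 T.2.2.2.2 (p.2 2 + σ) := by
      funext σ
      simp [termVal, direction]
    have hval : termVal (dTerm 3 T) p = ev1 T.2.1 p.1 * ev1 T.2.2.1 (p.2 0) *
        ev1 T.2.2.2.1 (p.2 1) * ev1 (d1 T.2.2.2.2) (p.2 2) := by
      simp [termVal, dTerm]
    show HasDerivAt (fun σ : ℝ => termVal T (p + σ • direction 3)) (termVal (dTerm 3 T) p) 0
    rw [hfun, hval]
    exact ((key T.2.2.2.2 (p.2 2)).const_mul _)

theorem hasDerivAt_evalField_line (d : Fin 4) (P : Prog) (p : ℝ × (Fin 3 → ℝ)) :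
    HasDerivAt (fun σ : ℝ => evalField P (p + σ • direction d)) (evalField (dProg d P) p) 0 := by
  induction P with
  | nil =>
    have h : (fun σ : ℝ => evalField [] (p + σ • direction d)) = fun _ => (0 : Fin 3 → ℝ) :=
      funext fun σ => evalField_nil _
    rw [h, dProg_nil, evalField_nil]
    exact hasDerivAt_const _ _
  | cons T P ih =>
    have h : (fun σ : ℝ => evalField (T :: P) (p + σ • direction d)) = fun σ : ℝ =>
        (Pi.single T.1 (termVal T (p + σ • direction d)) : Fin 3 → ℝ)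
          + evalField P (p + σ • direction d) := funext fun σ => evalField_cons T P _
    rw [h, dProg_cons, evalField_cons, dTerm_fst]
    exact (hasDerivAt_single T.1 (hasDerivAt_termVal_line d T p)).add ih

theorem fderiv_evalField (P : Prog) (d : Fin 4) (p : ℝ × (Fin 3 → ℝ)) :
    fderiv ℝ (evalField P) p (direction d) = evalField (dProg d P) p := by
  have hd : DifferentiableAt ℝ (evalField P) p :=
    ((contDiff_evalField P).differentiable (by simp)) p
  have hline : HasDerivAt (fun σ : ℝ => p + σ • direction d) (direction d) 0 := by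
    simpa using ((hasDerivAt_id (0 : ℝ)).smul_const (direction d)).const_add p
  have h0 : p + (0 : ℝ) • direction d = p := by simp
  have hF : HasFDerivAt (evalField P) (fderiv ℝ (evalField P) p)
      (p + (0 : ℝ) • direction d) := by
    rw [h0]; exact hd.hasFDerivAt
  have h1 : HasDerivAt (fun σ : ℝ => evalField P (p + σ • direction d))
      (fderiv ℝ (evalField P) p (direction d)) 0 := by
    have h := hF.comp_hasDerivAt (0 : ℝ) hline
    exact h
  exact h1.unique (hasDerivAt_evalField_line d P p)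

/-- D1 (statement verbatim from `Lib_S0170_EPlan`). -/
theorem mixedDeriv_evalField (ds : List (Fin 4)) (P : Prog) :
    mixedDeriv ds (evalField P) = evalField (ds.foldr dProg P) := by
  induction ds with
  | nil => rfl
  | cons d ds ih =>
    funext p
    show fderiv ℝ (mixedDeriv ds (evalField P)) p (direction d) = _
    rw [ih, fderiv_evalField]
    rfl

end Crest.Agent.Lib_S0170_ED1b
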