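import Mathlib
import Crest.Prelude.Def_BoxFlow
import Crest.Agent.Lib_S0170_EDefs
import Crest.Agent.Lib_S0170_EBound

/-!
# S0170, part [E], package D4 (bounds), in the shapes of `Lib_S0170_EPlan`

The proofs live in `Lib_S0170_EBound` (which was written against local copies of the program
definitions; these are definitionally equal to the ones of `Lib_S0170_EDefs`).
-/

set_option autoImplicit false

namespace Crest.Agent.Lib_S0170_ED4

open Crest.AnalysisR.BoxFlow Crest.Agent.Lib_S0170_EDefs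

theorem ev1_eq (L : Prog1) (y : ℝ) : ev1 L y = Lib_S0170_EBound.ev1 L y := rfl

theorem evalField_eq (P : Prog) : evalField P = Lib_S0170_EBound.evalField P := rfl

theorem bnd1_eq (R : ℕ) (L : Prog1) : bnd1 R L = Lib_S0170_EBound.bnd1 R L := rfl

theorem bndP_eq (R : ℕ) (P : Prog) : bndP R P = Lib_S0170_EBound.bndP R P := rfl

theorem bndP_nonneg (R : ℕ) (P : Prog) : 0 ≤ bndP R P := by
  rw [bndP_eq]; exact Lib_S0170_EBound.bndP_nonneg R P

/-- **D4 (i)** (EPlan, verbatim): a program field is bounded by `bndP R` on the cube of radius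
`R`. -/
theorem abs_evalField_le (R : ℕ) (P : Prog) (p : ℝ × (Fin 3 → ℝ))
    (hp : |p.1| ≤ R ∧ ∀ j, |p.2 j| ≤ R) (j : Fin 3) : |evalField P p j| ≤ (bndP R P : ℝ) := by
  rw [evalField_eq, bndP_eq]
  exact Lib_S0170_EBound.abs_evalField_le R P p hp j

/-- **D4 (ii)** (EPlan, verbatim): mixed derivatives vanish on open sets where the field does. -/
theorem mixedDeriv_eq_zero_of_isOpen (U : Field) (S : Set (ℝ × (Fin 3 → ℝ))) (hS : IsOpen S)
    (hU : ∀ p ∈ S, U p = 0) (ds : List (Fin 4)) : ∀ p ∈ S, mixedDeriv ds U p = 0 :=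
  Lib_S0170_EBound.mixedDeriv_eq_zero_of_isOpen U S hS hU ds

/-- The `hbound` hypothesis of `Lib_S0170_ED3.effective_of_pipeline`. -/
theorem abs_evalField_foldr_le (P : Prog) (R : ℕ)
    (hR : ∀ p : ℝ × (Fin 3 → ℝ), ((R : ℝ) < |p.1| ∨ ∃ j, (R : ℝ) < |p.2 j|) → evalField P p = 0)
    (hmixed : ∀ ds : List (Fin 4), mixedDeriv ds (evalField P) = evalField (ds.foldr dProg P))
    (ds : List (Fin 4)) (p : ℝ × (Fin 3 → ℝ)) (j : Fin 3) :
    |evalField (ds.foldr dProg P) p j| ≤ (bndP R (ds.foldr dProg P) : ℝ) :=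
  Lib_S0170_EBound.abs_evalField_foldr_le P R hR dProg hmixed ds p j

/-- For a fixed radius, `bndP R` is primitive recursive (the `hb` hypothesis of the pipeline). -/
theorem primrec_bndP (R : ℕ) : Primrec (bndP R) :=
  Lib_S0170_EBound.primrec_bndP_fixed R

/-- Joint version. -/
theorem primrec_bndP' : Primrec (fun x : ℕ × Prog => bndP x.1 x.2) :=
  Lib_S0170_EBound.primrec_bndP

/-- The `hbound` hypothesis of `Lib_S0170_EAsm.effective_evalField_of` /
`effective_fieldOf_of`, from D1 (`hmixed`). -/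
theorem hbound
    (hmixed : ∀ (ds : List (Fin 4)) (P : Prog),
      mixedDeriv ds (evalField P) = evalField (ds.foldr dProg P))
    (R : ℕ) (P : Prog)
    (hR : ∀ p : ℝ × (Fin 3 → ℝ), ((R : ℝ) < |p.1| ∨ ∃ j, (R : ℝ) < |p.2 j|) → evalField P p = 0)
    (ds : List (Fin 4)) (p : ℝ × (Fin 3 → ℝ)) (j : Fin 3) :
    |mixedDeriv ds (evalField P) p j| ≤ (bndP R (ds.foldr dProg P) : ℝ) := by
  rw [hmixed ds P]
  exact abs_evalField_foldr_le P R hR (fun ds => hmixed ds P) ds p j

/-- The global natural-number bound of `Effective`, from D1 (`hmixed`). -/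
theorem abs_mixedDeriv_le_bound
    (hmixed : ∀ (ds : List (Fin 4)) (P : Prog),
      mixedDeriv ds (evalField P) = evalField (ds.foldr dProg P))
    (R : ℕ) (P : Prog)
    (hR : ∀ p : ℝ × (Fin 3 → ℝ), ((R : ℝ) < |p.1| ∨ ∃ j, (R : ℝ) < |p.2 j|) → evalField P p = 0)
    (ds : List (Fin 4)) (p : ℝ × (Fin 3 → ℝ)) (j : Fin 3) :
    |mixedDeriv ds (evalField P) p j| ≤ (bound R P ds : ℝ) :=
  (hbound hmixed R P hR ds p j).trans (Lib_S0170_EBound.le_natAbs_num _)

/-- `bound R P` is primitive recursive as soon as the `dProg d` are. -/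
theorem primrec_bound_of (hd : ∀ d, Primrec (dProg d)) (R : ℕ) (P : Prog) :
    Primrec (bound R P) := by
  have h1 : Primrec (fun ds : List (Fin 4) => ds.foldr dProg P) := by
    have hd2 : Primrec₂ dProg := by
      have h0 : Primrec fun x : Fin 4 × Prog => dProg 0 x.2 := (hd 0).comp Primrec.snd
      have h1 : Primrec fun x : Fin 4 × Prog => dProg 1 x.2 := (hd 1).comp Primrec.snd
      have h2 : Primrec fun x : Fin 4 × Prog => dProg 2 x.2 := (hd 2).comp Primrec.snd
      have h3 : Primrec fun x : Fin 4 × Prog => dProg 3 x.2 := (hd 3).comp Primrec.snd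
      have e : ∀ k : Fin 4, PrimrecPred fun x : Fin 4 × Prog => x.1 = k := fun k =>
        Primrec.eq.comp Primrec.fst (Primrec.const k)
      have h := Primrec.ite (e 0) h0 (Primrec.ite (e 1) h1 (Primrec.ite (e 2) h2 h3))
      refine h.of_eq fun x => ?_
      obtain ⟨d, Q⟩ := x
      fin_cases d <;> simp
    have h := Primrec.list_foldr (f := fun ds : List (Fin 4) => ds) (g := fun _ => P)
      (h := fun _ (x : Fin 4 × Prog) => dProg x.1 x.2) Primrec.id (Primrec.const P)
      (hd2.comp₂ (Primrec.fst.comp₂ Primrec₂.right) (Primrec.snd.comp₂ Primrec₂.right))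
    exact h
  have h2 := (primrec_bndP R).comp h1
  have h3 := Lib_S0170_CompQOps.rat_ub.comp h2
  exact h3

end Crest.Agent.Lib_S0170_ED4
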