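import Mathlib
import Crest.Prelude.Def_BoxFlow
import Crest.Agent.Lib_S0170_CompList

/-!
General finite-difference theorem for S0170, part [E]:
a smooth field with a computable bound on all mixed derivatives and a computable rational
approximator of the field itself at rational points is `Effective`.
-/

set_option autoImplicit false

namespace Crest.Agent.Lib_S0170_EFd

open Crest.AnalysisR.BoxFlow
open scoped ContDiff

/-! ### Analysis -/

theorem contDiff_mixedDeriv (U : Field) (hU : ContDiff ℝ ∞ U) (ds : List (Fin 4)) :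
    ContDiff ℝ ∞ (mixedDeriv ds U) := by
  induction ds with
  | nil => exact hU
  | cons d ds ih =>
    have h1 : ContDiff ℝ ∞ (fderiv ℝ (mixedDeriv ds U)) := ih.fderiv_right (by simp)
    exact h1.clm_apply contDiff_const

/-- Derivative of a component of a smooth field along a line. -/
theorem hasDerivAt_line (H : Field) (hH : ContDiff ℝ ∞ H) (P v : ℝ × (Fin 3 → ℝ)) (j : Fin 3)
    (s : ℝ) :
    HasDerivAt (fun s : ℝ => H (P + s • v) j) (fderiv ℝ H (P + s • v) v j) s := by
  have hd : DifferentiableAt ℝ H (P + s • v) :=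
    (hH.differentiable (by simp)).differentiableAt
  have h1 : HasDerivAt (fun s : ℝ => P + s • v) v s := by
    simpa using ((hasDerivAt_id s).smul_const v).const_add P
  have h2 : HasDerivAt (fun s : ℝ => H (P + s • v)) (fderiv ℝ H (P + s • v) v) s :=
    hd.hasFDerivAt.comp_hasDerivAt s h1
  exact (hasDerivAt_pi.1 h2) j

/-- A cheap second-order Taylor estimate. -/
theorem taylor_lite (φ φ1 φ2 : ℝ → ℝ) (B : ℝ)
    (h1 : ∀ s, HasDerivAt φ (φ1 s) s) (h2 : ∀ s, HasDerivAt φ1 (φ2 s) s)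
    (hB : ∀ s, |φ2 s| ≤ B) (η : ℝ) (hη : 0 ≤ η) :
    |φ η - φ 0 - η * φ1 0| ≤ B * η ^ 2 := by
  have hB0 : 0 ≤ B := le_trans (abs_nonneg _) (hB 0)
  -- first estimate: |φ1 s - φ1 0| ≤ B * η on [0, η]
  have e1 : ∀ s ∈ Set.Icc (0 : ℝ) η, ‖φ1 s - φ1 0‖ ≤ B * η := by
    intro s hs
    have := (convex_Icc (0 : ℝ) η).norm_image_sub_le_of_norm_hasDerivWithin_le
      (f := φ1) (f' := φ2) (C := B)
      (fun x _ => (h2 x).hasDerivWithinAt) (fun x _ => by simpa using hB x)
      (Set.left_mem_Icc.2 hη) hs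
    calc ‖φ1 s - φ1 0‖ ≤ B * ‖s - 0‖ := this
      _ ≤ B * η := by
        apply mul_le_mul_of_nonneg_left _ hB0
        simp only [sub_zero, Real.norm_eq_abs]
        rw [abs_of_nonneg hs.1]; exact hs.2
  have e2 := (convex_Icc (0 : ℝ) η).norm_image_sub_le_of_norm_hasDerivWithin_le
      (f := fun s => φ s - s * φ1 0) (f' := fun s => φ1 s - φ1 0) (C := B * η)
      (fun x _ => by
        have h3 : HasDerivAt (fun s => φ s - s * φ1 0) (φ1 x - 1 * φ1 0) x :=
          (h1 x).sub ((hasDerivAt_id x).mul_const (φ1 0))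
        rw [one_mul] at h3
        exact h3.hasDerivWithinAt)
      (fun x hx => e1 x hx)
      (Set.left_mem_Icc.2 hη) (Set.right_mem_Icc.2 hη)
  simp only [zero_mul, sub_zero, Real.norm_eq_abs] at e2
  have e3 : φ η - φ 0 - η * φ1 0 = φ η - η * φ1 0 - φ 0 := by ring
  rw [e3]
  calc |φ η - η * φ1 0 - φ 0| ≤ B * η * |η| := e2
    _ = B * η ^ 2 := by rw [abs_of_nonneg hη]; ring


/-! ### The finite-difference scheme -/

/-- Rational space-time points. -/
abbrev Pt : Type := ℚ × (Fin 3 → ℚ)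

/-- Work lists: coefficient and point. -/
abbrev WL : Type := List (ℚ × Pt)

/-- The real point of a rational point. -/
def toR (p : Pt) : ℝ × (Fin 3 → ℝ) := ((p.1 : ℝ), ratPoint p.2)

/-- Shift a rational point by `η` in direction `d`. -/
def shift (d : Fin 4) (η : ℚ) (p : Pt) : Pt :=
  if h : d = 0 then (p.1 + η, p.2)
  else (p.1, fun m => if m = d.pred h then p.2 m + η else p.2 m)

theorem toR_shift (d : Fin 4) (η : ℚ) (p : Pt) :
    toR (shift d η p) = toR p + (η : ℝ) • direction d := by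
  unfold shift direction toR
  by_cases h : d = 0
  · simp only [h, dite_true]
    ext m <;> simp [ratPoint]
  · simp only [h, dite_false]
    ext m
    · simp
    · simp only [ratPoint, Prod.snd_add, Prod.smul_snd, Pi.add_apply, Pi.smul_apply,
        Pi.single_apply, smul_eq_mul]
      by_cases hm : m = d.pred h
      · simp [hm]
      · simp [hm]

/-- The list of directions together with the bounds needed at each level. -/
def sufB (bound : List (Fin 4) → ℕ) : List (Fin 4) → List (Fin 4 × ℕ)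
  | [] => []
  | d :: ds => (d, bound (d :: d :: ds)) :: sufB bound ds

/-- The step size denominator at a level. -/
def stepM (N B : ℕ) : ℕ := 2 * (N + 1) * B

/-- One level of the scheme: refine the precision and split every point. -/
def step (st : ℕ × WL) (db : Fin 4 × ℕ) : ℕ × WL :=
  (4 * (stepM st.1 db.2 + 1) * (st.1 + 1),
    st.2.flatMap fun cp =>
      [(((stepM st.1 db.2 + 1 : ℕ) : ℚ) * cp.1,
          shift db.1 (1 / ((stepM st.1 db.2 + 1 : ℕ) : ℚ)) cp.2),
        (0 - ((stepM st.1 db.2 + 1 : ℕ) : ℚ) * cp.1, cp.2)])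

/-- Run all levels, outermost derivative first. -/
def run (bound : List (Fin 4) → ℕ) (ds : List (Fin 4)) (st : ℕ × WL) : ℕ × WL :=
  (sufB bound ds).foldl step st

theorem run_nil (bound : List (Fin 4) → ℕ) (st : ℕ × WL) : run bound [] st = st := rfl

theorem run_cons (bound : List (Fin 4) → ℕ) (d : Fin 4) (ds : List (Fin 4)) (st : ℕ × WL) :
    run bound (d :: ds) st = run bound ds (step st (d, bound (d :: d :: ds))) := rfl

/-- Final evaluation of a work list with the approximator. -/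
def evalWL (A : Pt × ℕ → (Fin 3 → ℚ)) (st : ℕ × WL) (j : Fin 3) : ℚ :=
  st.2.foldl (fun acc cp => acc + cp.1 * A (cp.2, st.1) j) 0

/-- The approximating function. -/
def E (bound : List (Fin 4) → ℕ) (A : Pt × ℕ → (Fin 3 → ℚ))
    (x : List (Fin 4) × Pt × ℕ) : Fin 3 → ℚ :=
  fun j => evalWL A (run bound x.1 (x.2.2, [(1, x.2.1)])) j

/-- Weighted sum of a real function over a work list. -/
def wsum (W : WL) (G : ℝ × (Fin 3 → ℝ) → ℝ) : ℝ := (W.map fun cp => (cp.1 : ℝ) * G (toR cp.2)).sum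

/-- Total absolute weight. -/
def wabs (W : WL) : ℝ := (W.map fun cp => |(cp.1 : ℝ)|).sum

theorem wabs_nonneg (W : WL) : 0 ≤ wabs W := by
  unfold wabs
  apply List.sum_nonneg
  intro x hx
  simp only [List.mem_map] at hx
  obtain ⟨cp, _, rfl⟩ := hx
  exact abs_nonneg _

theorem evalWL_eq (A : Pt × ℕ → (Fin 3 → ℚ)) (st : ℕ × WL) (j : Fin 3) :
    ((evalWL A st j : ℚ) : ℝ) = (st.2.map fun cp => (cp.1 : ℝ) * (A (cp.2, st.1) j : ℝ)).sum := by
  unfold evalWL
  have key : ∀ (W : WL) (acc : ℚ),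
      ((W.foldl (fun acc cp => acc + cp.1 * A (cp.2, st.1) j) acc : ℚ) : ℝ) =
        (acc : ℝ) + (W.map fun cp => (cp.1 : ℝ) * (A (cp.2, st.1) j : ℝ)).sum := by
    intro W
    induction W with
    | nil => intro acc; simp
    | cons a W ih =>
      intro acc
      rw [List.foldl_cons, ih]
      simp only [List.map_cons, List.sum_cons]
      push_cast
      ring
  rw [key]
  simp

/-- Comparison of two weighted sums. -/
theorem wsum_sub_le (W : WL) (G G' : ℝ × (Fin 3 → ℝ) → ℝ) (δ : ℝ)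
    (h : ∀ cp ∈ W, |G (toR cp.2) - G' (toR cp.2)| ≤ δ) :
    |wsum W G - wsum W G'| ≤ wabs W * δ := by
  induction W with
  | nil => simp [wsum, wabs]
  | cons a W ih =>
    have ih' := ih (fun cp hcp => h cp (List.mem_cons_of_mem _ hcp))
    have ha := h a List.mem_cons_self
    simp only [wsum, wabs, List.map_cons, List.sum_cons] at ih' ⊢
    have e : (a.1 : ℝ) * G (toR a.2) + (W.map fun cp => (cp.1 : ℝ) * G (toR cp.2)).sum -
        ((a.1 : ℝ) * G' (toR a.2) + (W.map fun cp => (cp.1 : ℝ) * G' (toR cp.2)).sum) =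
        (a.1 : ℝ) * (G (toR a.2) - G' (toR a.2)) +
          ((W.map fun cp => (cp.1 : ℝ) * G (toR cp.2)).sum -
            (W.map fun cp => (cp.1 : ℝ) * G' (toR cp.2)).sum) := by ring
    rw [e, add_mul]
    refine le_trans (abs_add_le _ _) (add_le_add ?_ ih')
    rw [abs_mul]
    exact mul_le_mul_of_nonneg_left ha (abs_nonneg _)

/-- Weighted sum after one step. -/
theorem wsum_step (st : ℕ × WL) (db : Fin 4 × ℕ) (G : ℝ × (Fin 3 → ℝ) → ℝ) :
    wsum (step st db).2 G =
      wsum st.2 (fun P => ((stepM st.1 db.2 + 1 : ℕ) : ℝ) *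
        (G (P + (1 / ((stepM st.1 db.2 + 1 : ℕ) : ℝ)) • direction db.1) - G P)) := by
  obtain ⟨N, W⟩ := st
  simp only [step, wsum]
  induction W with
  | nil => simp
  | cons a W ih =>
    rw [List.flatMap_cons, List.map_append, List.sum_append, ih]
    simp only [List.map_cons, List.map_nil, List.sum_cons, List.sum_nil, toR_shift]
    push_cast
    ring

theorem wabs_step (st : ℕ × WL) (db : Fin 4 × ℕ) :
    wabs (step st db).2 = 2 * ((stepM st.1 db.2 + 1 : ℕ) : ℝ) * wabs st.2 := by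
  obtain ⟨N, W⟩ := st
  simp only [step, wabs]
  induction W with
  | nil => simp
  | cons a W ih =>
    rw [List.flatMap_cons, List.map_append, List.sum_append, ih]
    simp only [List.map_cons, List.map_nil, List.sum_cons, List.sum_nil]
    push_cast
    rw [zero_sub, abs_neg, abs_mul, abs_of_nonneg (by positivity : (0:ℝ) ≤ (stepM N db.2 : ℝ) + 1)]
    ring


/-- Comparison of a weighted sum with the evaluated work list. -/
theorem wsum_sub_eval_le (A : Pt × ℕ → (Fin 3 → ℚ)) (st : ℕ × WL) (j : Fin 3)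
    (G : ℝ × (Fin 3 → ℝ) → ℝ) (δ : ℝ)
    (h : ∀ cp ∈ st.2, |G (toR cp.2) - (A (cp.2, st.1) j : ℝ)| ≤ δ) :
    |wsum st.2 G - (evalWL A st j : ℝ)| ≤ wabs st.2 * δ := by
  rw [evalWL_eq]
  obtain ⟨N, W⟩ := st
  simp only at h ⊢
  induction W with
  | nil => simp [wsum, wabs]
  | cons a W ih =>
    have ih' := ih (fun cp hcp => h cp (List.mem_cons_of_mem _ hcp))
    have ha := h a List.mem_cons_self
    simp only [wsum, wabs, List.map_cons, List.sum_cons] at ih' ⊢
    have e : (a.1 : ℝ) * G (toR a.2) + (W.map fun cp => (cp.1 : ℝ) * G (toR cp.2)).sum -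
        ((a.1 : ℝ) * (A (a.2, N) j : ℝ) +
          (W.map fun cp => (cp.1 : ℝ) * (A (cp.2, N) j : ℝ)).sum) =
        (a.1 : ℝ) * (G (toR a.2) - (A (a.2, N) j : ℝ)) +
          ((W.map fun cp => (cp.1 : ℝ) * G (toR cp.2)).sum -
            (W.map fun cp => (cp.1 : ℝ) * (A (cp.2, N) j : ℝ)).sum) := by ring
    rw [e, add_mul]
    refine le_trans (abs_add_le _ _) (add_le_add ?_ ih')
    rw [abs_mul]
    exact mul_le_mul_of_nonneg_left ha (abs_nonneg _)

/-- One-level estimate: the difference quotient approximates the directional derivative. -/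
theorem diffQuot_le (U : Field) (hU : ContDiff ℝ ∞ U) (bound : List (Fin 4) → ℕ)
    (hb : ∀ ds p j, |mixedDeriv ds U p j| ≤ (bound ds : ℝ))
    (j : Fin 3) (d : Fin 4) (ds : List (Fin 4)) (M : ℕ) (P : ℝ × (Fin 3 → ℝ)) :
    |((M + 1 : ℕ) : ℝ) * (mixedDeriv ds U (P + (1 / ((M + 1 : ℕ) : ℝ)) • direction d) j -
        mixedDeriv ds U P j) - mixedDeriv (d :: ds) U P j| ≤
      (bound (d :: d :: ds) : ℝ) * (1 / ((M + 1 : ℕ) : ℝ)) := by
  set v := direction d with hv
  set η : ℝ := 1 / ((M + 1 : ℕ) : ℝ) with hη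
  have hMpos : (0 : ℝ) < ((M + 1 : ℕ) : ℝ) := by positivity
  have hηpos : 0 < η := by rw [hη]; positivity
  have hT := taylor_lite (fun s => mixedDeriv ds U (P + s • v) j)
    (fun s => mixedDeriv (d :: ds) U (P + s • v) j)
    (fun s => mixedDeriv (d :: d :: ds) U (P + s • v) j) (bound (d :: d :: ds))
    (fun s => hasDerivAt_line (mixedDeriv ds U) (contDiff_mixedDeriv U hU ds) P v j s)
    (fun s => hasDerivAt_line (mixedDeriv (d :: ds) U) (contDiff_mixedDeriv U hU (d :: ds)) P v j s)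
    (fun s => hb _ _ _) η hηpos.le
  simp only [zero_smul, add_zero] at hT
  have e : ((M + 1 : ℕ) : ℝ) * (mixedDeriv ds U (P + η • v) j - mixedDeriv ds U P j) -
      mixedDeriv (d :: ds) U P j =
      ((M + 1 : ℕ) : ℝ) * (mixedDeriv ds U (P + η • v) j - mixedDeriv ds U P j -
        η * mixedDeriv (d :: ds) U P j) := by
    rw [hη]; field_simp
  rw [e, abs_mul, abs_of_pos hMpos]
  calc ((M + 1 : ℕ) : ℝ) * |mixedDeriv ds U (P + η • v) j - mixedDeriv ds U P j -
        η * mixedDeriv (d :: ds) U P j|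
      ≤ ((M + 1 : ℕ) : ℝ) * ((bound (d :: d :: ds) : ℝ) * η ^ 2) :=
        mul_le_mul_of_nonneg_left hT hMpos.le
    _ = (bound (d :: d :: ds) : ℝ) * η := by rw [hη]; field_simp

theorem main_error (U : Field) (hU : ContDiff ℝ ∞ U) (bound : List (Fin 4) → ℕ)
    (hb : ∀ ds p j, |mixedDeriv ds U p j| ≤ (bound ds : ℝ))
    (A : Pt × ℕ → (Fin 3 → ℚ))
    (hA : ∀ (p : Pt) (n : ℕ) (j : Fin 3), |U (toR p) j - (A (p, n) j : ℝ)| ≤ 1 / ((n : ℝ) + 1))
    (j : Fin 3) :
    ∀ (ds : List (Fin 4)) (st : ℕ × WL),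
      |wsum st.2 (fun P => mixedDeriv ds U P j) - (evalWL A (run bound ds st) j : ℝ)| ≤
        wabs st.2 / ((st.1 : ℝ) + 1) := by
  intro ds
  induction ds with
  | nil =>
    intro st
    rw [run_nil, div_eq_mul_one_div]
    exact wsum_sub_eval_le A st j _ _ (fun cp _ => hA cp.2 st.1 j)
  | cons d ds ih =>
    intro st
    rw [run_cons]
    set B := bound (d :: d :: ds) with hBdef
    set st' := step st (d, B) with hst'
    have h1 := ih st'
    have hN : (0 : ℝ) < (st.1 : ℝ) + 1 := by positivity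
    have hw := wabs_nonneg st.2
    -- the Taylor part
    have h2 : |wsum st'.2 (fun P => mixedDeriv ds U P j) -
        wsum st.2 (fun P => mixedDeriv (d :: ds) U P j)| ≤
        wabs st.2 * ((B : ℝ) * (1 / ((stepM st.1 B + 1 : ℕ) : ℝ))) := by
      rw [hst', wsum_step]
      exact wsum_sub_le _ _ _ _ (fun cp _ => diffQuot_le U hU bound hb j d ds _ _)
    have h3 : (B : ℝ) * (1 / ((stepM st.1 B + 1 : ℕ) : ℝ)) ≤ 1 / (2 * ((st.1 : ℝ) + 1)) := by
      rw [mul_one_div, div_le_div_iff₀ (by positivity) (by positivity)]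
      unfold stepM
      push_cast
      nlinarith
    have h4 : wabs st'.2 / ((st'.1 : ℝ) + 1) ≤ wabs st.2 * (1 / (2 * ((st.1 : ℝ) + 1))) := by
      rw [hst', wabs_step]
      simp only [step]
      rw [mul_one_div, div_le_div_iff₀ (by positivity) (by positivity)]
      push_cast
      have : (0 : ℝ) ≤ (stepM st.1 B : ℝ) := by positivity
      nlinarith [mul_nonneg hw this, mul_nonneg (mul_nonneg hw this) hN.le]
    have h5 : wabs st.2 * ((B : ℝ) * (1 / ((stepM st.1 B + 1 : ℕ) : ℝ))) ≤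
        wabs st.2 * (1 / (2 * ((st.1 : ℝ) + 1))) := mul_le_mul_of_nonneg_left h3 hw
    have h6 : wabs st.2 * (1 / (2 * ((st.1 : ℝ) + 1))) + wabs st.2 * (1 / (2 * ((st.1 : ℝ) + 1))) =
        wabs st.2 / ((st.1 : ℝ) + 1) := by field_simp; ring
    have h7 : wsum st.2 (fun P => mixedDeriv (d :: ds) U P j) - (evalWL A (run bound ds st') j : ℝ) =
        (wsum st'.2 (fun P => mixedDeriv ds U P j) - (evalWL A (run bound ds st') j : ℝ)) -
        (wsum st'.2 (fun P => mixedDeriv ds U P j) -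
          wsum st.2 (fun P => mixedDeriv (d :: ds) U P j)) := by ring
    rw [h7, ← h6]
    refine le_trans (abs_sub _ _) ?_
    have := le_trans h1 h4
    have := le_trans h2 h5
    linarith

/-- Correctness of the finite-difference approximator. -/
theorem E_spec (U : Field) (hU : ContDiff ℝ ∞ U) (bound : List (Fin 4) → ℕ)
    (hb : ∀ ds p j, |mixedDeriv ds U p j| ≤ (bound ds : ℝ))
    (A : Pt × ℕ → (Fin 3 → ℚ))
    (hA : ∀ (t : ℚ) (q : Fin 3 → ℚ) (n : ℕ) (j : Fin 3),
      |U ((t : ℝ), ratPoint q) j - (A ((t, q), n) j : ℝ)| ≤ 1 / ((n : ℝ) + 1))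
    (ds : List (Fin 4)) (t : ℚ) (q : Fin 3 → ℚ) (n : ℕ) (j : Fin 3) :
    |mixedDeriv ds U ((t : ℝ), ratPoint q) j - (E bound A (ds, (t, q), n) j : ℝ)| ≤
      1 / ((n : ℝ) + 1) := by
  have h := main_error U hU bound hb A (fun p n j => hA p.1 p.2 n j) j ds (n, [(1, (t, q))])
  simpa [wsum, wabs, toR, E] using h


/-! ### Computability -/

/-- The computable rational arithmetic needed by the scheme. -/
structure QComp : Prop where
  add : Computable₂ (fun a b : ℚ => a + b)
  sub : Computable₂ (fun a b : ℚ => a - b)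
  mul : Computable₂ (fun a b : ℚ => a * b)
  div : Computable₂ (fun a b : ℚ => a / b)
  natCast : Computable (fun n : ℕ => (n : ℚ))

open Computable Crest.Agent.Lib_S0170_CompList

theorem sufB_eq_rec (bound : List (Fin 4) → ℕ) (ds : List (Fin 4)) :
    sufB bound ds = List.recOn (motive := fun _ => List (Fin 4 × ℕ)) ds []
      (fun d l IH => (d, bound (d :: d :: l)) :: IH) := by
  induction ds with
  | nil => rfl
  | cons d ds ih => simp only [sufB, ih]

theorem computable_sufB (bound : List (Fin 4) → ℕ) (hbc : Computable bound) :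
    Computable (sufB bound) := by
  have hh : Computable₂ fun (_ : List (Fin 4))
      (p : Fin 4 × List (Fin 4) × List (Fin 4 × ℕ)) =>
      (p.1, bound (p.1 :: p.1 :: p.2.1)) :: p.2.2 := by
    refine Computable₂.mk ?_
    have hd : Computable fun q : List (Fin 4) × Fin 4 × List (Fin 4) × List (Fin 4 × ℕ) =>
        q.2.1 := fst.comp snd
    have hl : Computable fun q : List (Fin 4) × Fin 4 × List (Fin 4) × List (Fin 4 × ℕ) =>
        q.2.2.1 := fst.comp (snd.comp snd)
    have hI : Computable fun q : List (Fin 4) × Fin 4 × List (Fin 4) × List (Fin 4 × ℕ) =>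
        q.2.2.2 := snd.comp (snd.comp snd)
    exact list_cons.comp (hd.pair (hbc.comp (list_cons.comp hd (list_cons.comp hd hl)))) hI
  refine (list_rec (f := fun ds : List (Fin 4) => ds) (g := fun _ => ([] : List (Fin 4 × ℕ)))
    Computable.id (const _) hh).of_eq fun ds => ?_
  rw [sufB_eq_rec]

theorem computable_shift_fixed (hQ : QComp) (d : Fin 4) :
    Computable fun y : ℚ × Pt => shift d y.1 y.2 := by
  unfold shift
  by_cases h : d = 0
  · simp only [h, dite_true]
    exact (hQ.add.comp (fst.comp snd) fst).pair (snd.comp snd)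
  · simp only [h, dite_false]
    refine (fst.comp snd).pair (fin_lam fun m => ?_)
    by_cases hm : m = d.pred h
    · simp only [hm, if_true]
      exact hQ.add.comp (fin_apply_const (snd.comp snd) _) fst
    · simp only [hm, if_false]
      exact fin_apply_const (snd.comp snd) _

theorem computable_shift (hQ : QComp) :
    Computable fun x : Fin 4 × ℚ × Pt => shift x.1 x.2.1 x.2.2 := by
  have hF : Computable fun y : ℚ × Pt => fun d : Fin 4 => shift d y.1 y.2 :=
    fin_lam fun d => computable_shift_fixed hQ d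
  exact (fin_apply (hF.comp snd) fst).of_eq fun x => rfl

theorem computable_step (hQ : QComp) :
    Computable fun x : (ℕ × WL) × (Fin 4 × ℕ) => step x.1 x.2 := by
  have hm : Computable fun x : (ℕ × WL) × (Fin 4 × ℕ) => stepM x.1.1 x.2.2 + 1 := by
    have : Primrec fun x : (ℕ × WL) × (Fin 4 × ℕ) => (2 * (x.1.1 + 1) * x.2.2) + 1 :=
      Primrec.succ.comp (Primrec.nat_mul.comp
        (Primrec.nat_mul.comp (Primrec.const 2) (Primrec.succ.comp (Primrec.fst.comp Primrec.fst)))
        (Primrec.snd.comp Primrec.snd))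
    exact this.to_comp
  have hN : Computable fun x : (ℕ × WL) × (Fin 4 × ℕ) =>
      4 * (stepM x.1.1 x.2.2 + 1) * (x.1.1 + 1) := by
    have h1 : Computable₂ (fun a b : ℕ => a * b) := Primrec.nat_mul.to_comp
    exact h1.comp (h1.comp (const 4) hm) (succ.comp (fst.comp fst))
  have hcM : Computable fun x : (ℕ × WL) × (Fin 4 × ℕ) => ((stepM x.1.1 x.2.2 + 1 : ℕ) : ℚ) :=
    hQ.natCast.comp hm
  have hg : Computable₂ fun (x : (ℕ × WL) × (Fin 4 × ℕ)) (cp : ℚ × Pt) =>
      [(((stepM x.1.1 x.2.2 + 1 : ℕ) : ℚ) * cp.1,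
          shift x.2.1 (1 / ((stepM x.1.1 x.2.2 + 1 : ℕ) : ℚ)) cp.2),
        (0 - ((stepM x.1.1 x.2.2 + 1 : ℕ) : ℚ) * cp.1, cp.2)] := by
    refine Computable₂.mk ?_
    have hc : Computable fun q : ((ℕ × WL) × (Fin 4 × ℕ)) × (ℚ × Pt) =>
        ((stepM q.1.1.1 q.1.2.2 + 1 : ℕ) : ℚ) := hcM.comp fst
    have hc1 : Computable fun q : ((ℕ × WL) × (Fin 4 × ℕ)) × (ℚ × Pt) => q.2.1 := fst.comp snd
    have hc2 : Computable fun q : ((ℕ × WL) × (Fin 4 × ℕ)) × (ℚ × Pt) => q.2.2 := snd.comp snd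
    have hd : Computable fun q : ((ℕ × WL) × (Fin 4 × ℕ)) × (ℚ × Pt) => q.1.2.1 :=
      fst.comp (snd.comp fst)
    have hmul : Computable fun q : ((ℕ × WL) × (Fin 4 × ℕ)) × (ℚ × Pt) =>
        ((stepM q.1.1.1 q.1.2.2 + 1 : ℕ) : ℚ) * q.2.1 := hQ.mul.comp hc hc1
    have hdiv : Computable fun q : ((ℕ × WL) × (Fin 4 × ℕ)) × (ℚ × Pt) =>
        (1 : ℚ) / ((stepM q.1.1.1 q.1.2.2 + 1 : ℕ) : ℚ) := hQ.div.comp (const 1) hc
    have harg : Computable fun q : ((ℕ × WL) × (Fin 4 × ℕ)) × (ℚ × Pt) =>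
        (q.1.2.1, ((1 : ℚ) / ((stepM q.1.1.1 q.1.2.2 + 1 : ℕ) : ℚ), q.2.2)) :=
      hd.pair (hdiv.pair hc2)
    have hsh0 := Computable.comp (f := fun x : Fin 4 × ℚ × Pt => shift x.1 x.2.1 x.2.2)
        (computable_shift hQ) harg
    have hsh : Computable fun q : ((ℕ × WL) × (Fin 4 × ℕ)) × (ℚ × Pt) =>
        shift q.1.2.1 (1 / ((stepM q.1.1.1 q.1.2.2 + 1 : ℕ) : ℚ)) q.2.2 := hsh0
    have hneg : Computable fun q : ((ℕ × WL) × (Fin 4 × ℕ)) × (ℚ × Pt) =>
        0 - ((stepM q.1.1.1 q.1.2.2 + 1 : ℕ) : ℚ) * q.2.1 := hQ.sub.comp (const 0) hmul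
    exact list_cons.comp (hmul.pair hsh) (list_cons.comp (hneg.pair hc2) (const []))
  have hfl : Computable fun x : (ℕ × WL) × (Fin 4 × ℕ) => x.1.2.flatMap fun cp =>
      [(((stepM x.1.1 x.2.2 + 1 : ℕ) : ℚ) * cp.1,
          shift x.2.1 (1 / ((stepM x.1.1 x.2.2 + 1 : ℕ) : ℚ)) cp.2),
        (0 - ((stepM x.1.1 x.2.2 + 1 : ℕ) : ℚ) * cp.1, cp.2)] :=
    list_flatMap (snd.comp fst) hg
  exact (hN.pair hfl).of_eq fun x => rfl

theorem computable_run (hQ : QComp) (bound : List (Fin 4) → ℕ) (hbc : Computable bound) :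
    Computable fun x : List (Fin 4) × (ℕ × WL) => run bound x.1 x.2 := by
  have hh : Computable₂ fun (_ : List (Fin 4) × (ℕ × WL)) (p : (ℕ × WL) × (Fin 4 × ℕ)) =>
      step p.1 p.2 := ((computable_step hQ).comp snd).to₂
  exact (list_foldl ((computable_sufB bound hbc).comp fst) snd hh).of_eq fun x => rfl

theorem computable_evalWL (hQ : QComp) (A : Pt × ℕ → (Fin 3 → ℚ)) (hAc : Computable A)
    (j : Fin 3) : Computable fun st : ℕ × WL => evalWL A st j := by
  have hh : Computable₂ fun (st : ℕ × WL) (p : ℚ × (ℚ × Pt)) =>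
      p.1 + p.2.1 * A (p.2.2, st.1) j := by
    refine Computable₂.mk ?_
    have hA' : Computable fun q : (ℕ × WL) × (ℚ × (ℚ × Pt)) => A (q.2.2.2, q.1.1) j :=
      fin_apply_const (hAc.comp ((snd.comp (snd.comp snd)).pair (fst.comp fst))) j
    exact hQ.add.comp (fst.comp snd) (hQ.mul.comp (fst.comp (snd.comp snd)) hA')
  exact (list_foldl (f := fun st : ℕ × WL => st.2) snd (const (0 : ℚ)) hh).of_eq fun st => rfl

theorem computable_E (hQ : QComp) (bound : List (Fin 4) → ℕ) (hbc : Computable bound)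
    (A : Pt × ℕ → (Fin 3 → ℚ)) (hAc : Computable A) : Computable (E bound A) := by
  refine fin_lam fun j => ?_
  have h0 : Computable fun x : List (Fin 4) × Pt × ℕ =>
      (x.1, (x.2.2, [((1 : ℚ), x.2.1)])) :=
    fst.pair ((snd.comp snd).pair
      (list_cons.comp ((const (1 : ℚ)).pair (fst.comp snd)) (const [])))
  exact ((computable_evalWL hQ A hAc j).comp ((computable_run hQ bound hbc).comp h0)).of_eq
    fun x => rfl

/-- **General finite-difference theorem.** A smooth field with a computable bound on all its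
mixed derivatives and a computable rational approximator of the field itself at rational points
is effective. -/
theorem effective_of_approx (hQ : QComp) (U : Field) (hU : ContDiff ℝ ∞ U)
    (bound : List (Fin 4) → ℕ) (hbc : Computable bound)
    (hb : ∀ ds p j, |mixedDeriv ds U p j| ≤ (bound ds : ℝ))
    (A : (ℚ × (Fin 3 → ℚ)) × ℕ → (Fin 3 → ℚ)) (hAc : Computable A)
    (hA : ∀ (t : ℚ) (q : Fin 3 → ℚ) (n : ℕ) (j : Fin 3),
      |U ((t : ℝ), ratPoint q) j - (A ((t, q), n) j : ℝ)| ≤ 1 / ((n : ℝ) + 1)) :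
    Effective U :=
  ⟨E bound A, bound, computable_E hQ bound hbc A hAc, hbc,
    fun ds t q n j => E_spec U hU bound hb A hA ds t q n j, hb⟩

end Crest.Agent.Lib_S0170_EFd
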