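import Mathlib
import Crest.Prelude.Def_BoxFlow
import Crest.Agent.Lib_S0170_Defs
import Crest.Agent.Lib_S0170_EDefs
import Crest.Agent.Lib_S0170_CompFQ
import Crest.Agent.Lib_S0170_EAdapt

/-!
PLAN / INTERFACE for part [E] of S0170 (`effective_fieldOf`).  NEVER imported by a result.

Every statement with `sorry` below is a sub-package; prove it VERBATIM (same name, same statement,
with `open Crest.Agent.Lib_S0170_EDefs`) in the file named in its comment, inside
`namespace Crest.Agent.<that file>`.  The last two theorems are COMPILED proofs that the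
sub-packages give `effective_evalField` and the Plan statement `effective_fieldOf`.

Already on main and used here without sorry:
* `Lib_S0170_Fabius` (helper13): `psi`, `FQ`, `abs_psi_sub_FQ_le`;
* `Lib_S0170_CompFQ` (helper12): `primrec_FQ : Primrec₂ FQ`;
* `Lib_S0170_EAdapt` (helper26): `progOf`, `fieldOf_eq_evalField`, `fieldOf_support_radius`
  (its local copies of `ev1`/`evalField` are definitionally equal to those of `Lib_S0170_EDefs`).
-/

set_option autoImplicit false

namespace Crest.Agent.Lib_S0170_EPlan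

open Crest.AnalysisR.BoxFlow Crest.Agent.Lib_S0170_Defs Crest.Agent.Lib_S0170_EDefs
open Crest.Agent.Lib_S0170_Fabius (psi FQ)
open scoped ContDiff

/-! ### D1 — file `Lib_S0170_ED1.lean` (helper22): syntactic calculus -/

theorem mixedDeriv_evalField (ds : List (Fin 4)) (P : Prog) :
    mixedDeriv ds (evalField P) = evalField (ds.foldr dProg P) := by
  sorry

/-! ### D2 — file `Lib_S0170_ED2.lean`: error of the rational evaluation -/

theorem abs_evalField_sub_evalQ_le (F : ℚ → ℚ) (ε : ℚ) (h0 : 0 ≤ ε) (h1 : ε ≤ 1)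
    (hF : ∀ r : ℚ, |psi (r : ℝ) - (F r : ℝ)| ≤ ε) (P : Prog) (t : ℚ) (q : Fin 3 → ℚ) (j : Fin 3) :
    |evalField P ((t : ℝ), ratPoint q) j - (evalQ F P t q j : ℝ)| ≤
      ((15 * ε * sizeP P t q : ℚ) : ℝ) := by
  sorry

/-! ### D3 — file `Lib_S0170_ED3.lean` (helper23, helper15): primitive recursiveness, `P`, `R` fixed -/

theorem primrec_E (P : Prog) : Primrec (E P) := by
  sorry

theorem primrec_bound (R : ℕ) (P : Prog) : Primrec (bound R P) := by
  sorry

/-! ### D4 — file `Lib_S0170_ED4.lean`: bounds -/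

theorem abs_evalField_le (R : ℕ) (P : Prog) (p : ℝ × (Fin 3 → ℝ))
    (hp : |p.1| ≤ R ∧ ∀ j, |p.2 j| ≤ R) (j : Fin 3) : |evalField P p j| ≤ (bndP R P : ℝ) := by
  sorry

theorem mixedDeriv_eq_zero_of_isOpen (U : Field) (S : Set (ℝ × (Fin 3 → ℝ))) (hS : IsOpen S)
    (hU : ∀ p ∈ S, U p = 0) (ds : List (Fin 4)) : ∀ p ∈ S, mixedDeriv ds U p = 0 := by
  sorry

/-! ### assembly (compiled) -/

/-- `|q| ≤ q.num.natAbs`. -/
theorem rat_le_natAbs_num (q : ℚ) : (q : ℝ) ≤ (q.num.natAbs : ℝ) := by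
  have h1 : q ≤ (q.num.natAbs : ℚ) := by
    have hd : (1 : ℚ) ≤ q.den := by exact_mod_cast q.den_pos
    have hn : (q.num : ℚ) ≤ (q.num.natAbs : ℚ) := by
      have h : q.num ≤ ((q.num.natAbs : ℕ) : ℤ) := by omega
      calc (q.num : ℚ) ≤ (((q.num.natAbs : ℕ) : ℤ) : ℚ) := Int.cast_le.mpr h
        _ = (q.num.natAbs : ℚ) := Int.cast_natCast _
    have hn0 : (0 : ℚ) ≤ (q.num.natAbs : ℚ) := by positivity
    calc q = q.num / q.den := (Rat.num_div_den q).symm
      _ ≤ (q.num.natAbs : ℚ) / q.den := by gcongr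
      _ ≤ (q.num.natAbs : ℚ) := div_le_self hn0 hd
  exact_mod_cast h1

theorem effective_evalField (P : Prog) (R : ℕ)
    (hR : ∀ p : ℝ × (Fin 3 → ℝ), ((R : ℝ) < |p.1| ∨ ∃ j, (R : ℝ) < |p.2 j|) → evalField P p = 0) :
    Effective (evalField P) := by
  refine ⟨E P, bound R P, (primrec_E P).to_comp, (primrec_bound R P).to_comp, ?_, ?_⟩
  · intro ds t q n j
    rw [mixedDeriv_evalField]
    set P' := ds.foldr dProg P with hP'
    set d := prec P' t q n with hd
    have hd1 : 1 ≤ d := by rw [hd]; unfold prec; omega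
    have hε0 : (0 : ℚ) ≤ 2 / 2 ^ d := by positivity
    have hε1 : (2 : ℚ) / 2 ^ d ≤ 1 := by
      rw [div_le_one (by positivity)]
      calc (2 : ℚ) = 2 ^ 1 := by norm_num
        _ ≤ 2 ^ d := pow_le_pow_right₀ (by norm_num) hd1
    have hF : ∀ r : ℚ, |psi (r : ℝ) - (FQ d r : ℝ)| ≤ ((2 / 2 ^ d : ℚ) : ℝ) := by
      intro r
      have := Lib_S0170_Fabius.abs_psi_sub_FQ_le d hd1 r
      push_cast
      exact this
    have key := abs_evalField_sub_evalQ_le (FQ d) (2 / 2 ^ d) hε0 hε1 hF P' t q j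
    have hE : E P (ds, (t, q), n) = evalQ (FQ d) P' t q := rfl
    rw [hE]
    refine key.trans ?_
    have hs : (sizeP P' t q : ℝ) ≤ ((sizeP P' t q).num.natAbs : ℝ) := rat_le_natAbs_num _
    have hdlt : (d : ℝ) < 2 ^ d := by exact_mod_cast Nat.lt_two_pow_self
    have hdval : (d : ℝ) = 30 * ((n : ℝ) + 1) * (((sizeP P' t q).num.natAbs : ℝ) + 1) + 1 := by
      rw [hd]; unfold prec; push_cast; ring
    have hn : (0 : ℝ) < (n : ℝ) + 1 := by positivity
    have h2d : (0 : ℝ) < 2 ^ d := by positivity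
    push_cast
    rw [show (15 : ℝ) * (2 / 2 ^ d) * (sizeP P' t q : ℝ) = 30 * (sizeP P' t q : ℝ) / 2 ^ d by ring]
    rw [div_le_div_iff₀ h2d hn]
    have h3 : 30 * (sizeP P' t q : ℝ) * ((n : ℝ) + 1) ≤ (d : ℝ) := by
      rw [hdval]
      nlinarith [hs, hn]
    linarith
  · intro ds p j
    by_cases hp : (R : ℝ) < |p.1| ∨ ∃ j, (R : ℝ) < |p.2 j|
    · have hopen : IsOpen {p : ℝ × (Fin 3 → ℝ) | (R : ℝ) < |p.1| ∨ ∃ j, (R : ℝ) < |p.2 j|} := by
        have h1 : IsOpen {p : ℝ × (Fin 3 → ℝ) | (R : ℝ) < |p.1|} :=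
          isOpen_lt continuous_const (continuous_abs.comp continuous_fst)
        have h2 : ∀ j : Fin 3, IsOpen {p : ℝ × (Fin 3 → ℝ) | (R : ℝ) < |p.2 j|} := fun j =>
          isOpen_lt continuous_const
            (continuous_abs.comp ((continuous_apply j).comp continuous_snd))
        have : {p : ℝ × (Fin 3 → ℝ) | (R : ℝ) < |p.1| ∨ ∃ j, (R : ℝ) < |p.2 j|} =
            {p : ℝ × (Fin 3 → ℝ) | (R : ℝ) < |p.1|} ∪ ⋃ j : Fin 3, {p | (R : ℝ) < |p.2 j|} := by
          ext p; simp
        rw [this]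
        exact h1.union (isOpen_iUnion h2)
      have := mixedDeriv_eq_zero_of_isOpen (evalField P) _ hopen hR ds p hp
      rw [this]
      simp
    · push Not at hp
      rw [mixedDeriv_evalField]
      refine (abs_evalField_le R _ p hp j).trans ?_
      exact rat_le_natAbs_num _

/-- The Plan statement [E]. -/
theorem effective_fieldOf (L : List Stage) (hL : ∀ s ∈ L, s.Valid) : Effective (fieldOf L) := by
  have h : fieldOf L = evalField (Lib_S0170_EAdapt.progOf L) :=
    Lib_S0170_EAdapt.fieldOf_eq_evalField L hL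
  obtain ⟨R, hR⟩ := Lib_S0170_EAdapt.fieldOf_support_radius L hL
  rw [h]
  exact effective_evalField _ R (by rw [← h]; exact hR)

end Crest.Agent.Lib_S0170_EPlan
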