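import Mathlib
import Crest.Prelude.Def_BoxFlow

/-!
# S0170, package D: effectivity of "program fields"

A *program field* is a finite sum of tensor terms, each of which is a product of four
one-variable functions (time, and the three space coordinates) of the form
`y ↦ ∑ c * y ^ e * ψ (α * y + β)` with rational data, times a coordinate vector.  If the step
function `ψ` satisfies `ψ' x = 2 * ψ (2 * x) - 2 * ψ (2 * x - 1)`, this class is closed under
partial derivatives *syntactically*, which makes all mixed derivatives computable.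

Everything here is generic in `ψ` and in its rational approximants `FQ`; the hypotheses are
collected in the structures `StepHyp` (analysis) and `QComp` (computability of the rational
arithmetic that is used).
-/

set_option autoImplicit false

open scoped ContDiff
open Crest.AnalysisR.BoxFlow

namespace Crest.Agent.Lib_S0170_Eff

/-! ## Computable list combinators -/

theorem rec_eq_foldl_take {β σ : Type*} (l : List β) (s0 : σ) (step : σ → β → σ) :
    ∀ n : ℕ, n ≤ l.length →
      Nat.rec (motive := fun _ => σ) s0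
        (fun k s => Option.casesOn (motive := fun _ => σ) (l[k]?) s (fun b => step s b)) n
        = (l.take n).foldl step s0 := by
  intro n
  induction n with
  | zero => intro _; simp
  | succ n ih =>
    intro hn
    have hn' : n < l.length := hn
    have h1 : l[n]? = some l[n] := List.getElem?_eq_getElem hn'
    have h2 : l.take (n + 1) = l.take n ++ [l[n]] := by
      rw [List.take_add_one, h1]; rfl
    simp only [h2, List.foldl_append, List.foldl_cons, List.foldl_nil]
    rw [← ih (Nat.le_of_succ_le hn), h1]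

section Comb

variable {α β γ σ : Type*} [Primcodable α] [Primcodable β] [Primcodable γ] [Primcodable σ]

theorem comp_list_foldl {f : α → List β} {g : α → σ} {h : α → σ × β → σ}
    (hf : Computable f) (hg : Computable g) (hh : Computable₂ h) :
    Computable fun a => (f a).foldl (fun s b => h a (s, b)) (g a) := by
  have step : Computable₂ (fun (a : α) (p : ℕ × σ) =>
      Option.casesOn (motive := fun _ => σ) ((f a)[p.1]?) p.2 (fun b => h a (p.2, b))) := by
    have ho : Computable (fun q : α × ℕ × σ => (f q.1)[q.2.1]?) :=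
      Computable.list_getElem?.comp (hf.comp Computable.fst)
        (Computable.fst.comp Computable.snd)
    have hf' : Computable (fun q : α × ℕ × σ => q.2.2) :=
      Computable.snd.comp Computable.snd
    have hg' : Computable₂ (fun (q : α × ℕ × σ) (b : β) => h q.1 (q.2.2, b)) :=
      (hh.comp (Computable.fst.comp Computable.fst)
        ((Computable.snd.comp (Computable.snd.comp Computable.fst)).pair Computable.snd)).to₂
    exact Computable.option_casesOn ho hf' hg'
  have key := Computable.nat_rec (Computable.list_length.comp hf) hg step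
  refine key.of_eq fun a => ?_
  have := rec_eq_foldl_take (f a) (g a) (fun s b => h a (s, b)) (f a).length le_rfl
  simpa using this

theorem comp_list_foldr {f : α → List β} {g : α → σ} {h : α → β × σ → σ}
    (hf : Computable f) (hg : Computable g) (hh : Computable₂ h) :
    Computable fun a => (f a).foldr (fun b s => h a (b, s)) (g a) := by
  have h' : Computable₂ (fun (a : α) (p : σ × β) => h a (p.2, p.1)) :=
    (hh.comp Computable.fst
      ((Computable.snd.comp Computable.snd).pair (Computable.fst.comp Computable.snd))).to₂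
  have key := comp_list_foldl (Computable.list_reverse.comp hf) hg h'
  refine key.of_eq fun a => ?_
  simp [List.foldl_reverse]

theorem comp_list_map {f : α → List β} {g : α → β → γ}
    (hf : Computable f) (hg : Computable₂ g) :
    Computable fun a => (f a).map (g a) := by
  have h' : Computable₂ (fun (a : α) (p : β × List γ) => g a p.1 :: p.2) :=
    (Computable.list_cons.comp (hg.comp Computable.fst (Computable.fst.comp Computable.snd))
      (Computable.snd.comp Computable.snd)).to₂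
  have key := comp_list_foldr hf (Computable.const ([] : List γ)) h'
  refine key.of_eq fun a => ?_
  induction f a with
  | nil => rfl
  | cons b l ih => simp [ih]

theorem comp_list_flatMap {f : α → List β} {g : α → β → List γ}
    (hf : Computable f) (hg : Computable₂ g) :
    Computable fun a => (f a).flatMap (g a) := by
  have h' : Computable₂ (fun (a : α) (p : β × List γ) => g a p.1 ++ p.2) :=
    (Computable.list_append.comp (hg.comp Computable.fst (Computable.fst.comp Computable.snd))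
      (Computable.snd.comp Computable.snd)).to₂
  have key := comp_list_foldr hf (Computable.const ([] : List γ)) h'
  refine key.of_eq fun a => ?_
  induction f a with
  | nil => rfl
  | cons b l ih => simp [ih]

theorem comp_fin_lam {n : ℕ} {f : α → Fin n → σ} (hf : ∀ i, Computable fun a => f a i) :
    Computable f :=
  ((Primrec.vector_get' (α := σ) (n := n)).to_comp.comp
    (Computable.vector_ofFn (f := fun i a => f a i) hf)).of_eq fun a => by
      funext i; simp

theorem comp_ite {c : α → Prop} [DecidablePred c] {f g : α → σ} (hc : PrimrecPred c)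
    (hf : Computable f) (hg : Computable g) : Computable fun a => if c a then f a else g a := by
  have := Computable.cond hc.decide.to_comp hf hg
  refine this.of_eq fun a => ?_
  by_cases h : c a <;> simp [h]

end Comb

/-! ## One-variable programs -/

/-- An atom `(c, e, α, β)` stands for the function `y ↦ c * y ^ e * ψ (α * y + β)`. -/
abbrev Atom : Type := ℚ × ℕ × ℚ × ℚ

/-- A one-variable program: a finite sum of atoms. -/
abbrev Prog1 : Type := List Atom

/-- The value of an atom. -/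
noncomputable def atomVal (ψ : ℝ → ℝ) (a : Atom) (y : ℝ) : ℝ :=
  (a.1 : ℝ) * y ^ a.2.1 * ψ ((a.2.2.1 : ℝ) * y + (a.2.2.2 : ℝ))

/-- The value of a one-variable program. -/
noncomputable def ev1 (ψ : ℝ → ℝ) (L : Prog1) (y : ℝ) : ℝ :=
  (L.map fun a => atomVal ψ a y).sum

/-- The derivative of an atom, as a program. -/
def dAtom (a : Atom) : Prog1 :=
  [(a.1 * (a.2.1 : ℚ), a.2.1 - 1, a.2.2.1, a.2.2.2),
   (2 * a.1 * a.2.2.1, a.2.1, 2 * a.2.2.1, 2 * a.2.2.2),
   ((-2) * a.1 * a.2.2.1, a.2.1, 2 * a.2.2.1, 2 * a.2.2.2 + (-1))]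

/-- The derivative of a one-variable program. -/
def d1 (L : Prog1) : Prog1 := L.flatMap dAtom

@[simp] theorem ev1_nil (ψ : ℝ → ℝ) (y : ℝ) : ev1 ψ [] y = 0 := rfl

@[simp] theorem ev1_cons (ψ : ℝ → ℝ) (a : Atom) (L : Prog1) (y : ℝ) :
    ev1 ψ (a :: L) y = atomVal ψ a y + ev1 ψ L y := by
  simp [ev1]

@[simp] theorem ev1_append (ψ : ℝ → ℝ) (L M : Prog1) (y : ℝ) :
    ev1 ψ (L ++ M) y = ev1 ψ L y + ev1 ψ M y := by
  simp [ev1]

/-- The analytic hypotheses on the step function `ψ` and its rational approximants `FQ`. -/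
structure StepHyp (ψ : ℝ → ℝ) (FQ : ℕ → ℚ → ℚ) : Prop where
  smooth : ContDiff ℝ ∞ ψ
  nonneg : ∀ x, 0 ≤ ψ x
  le_one : ∀ x, ψ x ≤ 1
  hasDeriv : ∀ x, HasDerivAt ψ (2 * ψ (2 * x) - 2 * ψ (2 * x - 1)) x
  approx : ∀ (d : ℕ) (q : ℚ), 1 ≤ d → |ψ (q : ℝ) - ((FQ d q : ℚ) : ℝ)| ≤ 2 / 2 ^ d

section Calc

variable {ψ : ℝ → ℝ} {FQ : ℕ → ℚ → ℚ}

theorem contDiff_atomVal (hS : StepHyp ψ FQ) (a : Atom) : ContDiff ℝ ∞ (atomVal ψ a) := by
  unfold atomVal
  have h1 : ContDiff ℝ ∞ (fun y : ℝ => ψ ((a.2.2.1 : ℝ) * y + (a.2.2.2 : ℝ))) :=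
    hS.smooth.comp (by fun_prop)
  exact (contDiff_const.mul (contDiff_id.pow _)).mul h1

theorem contDiff_ev1 (hS : StepHyp ψ FQ) (L : Prog1) : ContDiff ℝ ∞ (ev1 ψ L) := by
  induction L with
  | nil => exact contDiff_const
  | cons a L ih =>
    have : ev1 ψ (a :: L) = fun y => atomVal ψ a y + ev1 ψ L y := by
      funext y; simp
    rw [this]
    exact (contDiff_atomVal hS a).add ih

theorem hasDerivAt_atomVal (hS : StepHyp ψ FQ) (a : Atom) (y : ℝ) :
    HasDerivAt (atomVal ψ a) (ev1 ψ (dAtom a) y) y := by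
  obtain ⟨c, e, α, β⟩ := a
  have hψ := hS.hasDeriv ((α : ℝ) * y + (β : ℝ))
  have hin : HasDerivAt (fun y : ℝ => (α : ℝ) * y + (β : ℝ)) (α : ℝ) y := by
    simpa using ((hasDerivAt_id y).const_mul (α : ℝ)).add_const (β : ℝ)
  have hcomp : HasDerivAt (fun y : ℝ => ψ ((α : ℝ) * y + (β : ℝ)))
      ((2 * ψ (2 * ((α : ℝ) * y + (β : ℝ))) - 2 * ψ (2 * ((α : ℝ) * y + (β : ℝ)) - 1)) * (α : ℝ))
      y := hψ.comp y hin
  have hpow : HasDerivAt (fun y : ℝ => (c : ℝ) * y ^ e) ((c : ℝ) * ((e : ℝ) * y ^ (e - 1))) y :=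
    (hasDerivAt_pow e y).const_mul (c : ℝ)
  have h := hpow.mul hcomp
  refine h.congr_deriv ?_
  simp only [dAtom, ev1, atomVal, List.map_cons, List.map_nil, List.sum_cons, List.sum_nil]
  push_cast
  have e1 : (2 : ℝ) * (α : ℝ) * y + 2 * (β : ℝ) = 2 * ((α : ℝ) * y + (β : ℝ)) := by ring
  have e2 : (2 : ℝ) * (α : ℝ) * y + (2 * (β : ℝ) + -1) = 2 * ((α : ℝ) * y + (β : ℝ)) - 1 := by
    ring
  rw [e1, e2]
  ring

theorem hasDerivAt_ev1 (hS : StepHyp ψ FQ) (L : Prog1) (y : ℝ) :
    HasDerivAt (ev1 ψ L) (ev1 ψ (d1 L) y) y := by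
  induction L with
  | nil =>
    have h1 : ev1 ψ [] = fun _ => (0 : ℝ) := by funext y; simp
    have h2 : ev1 ψ (d1 []) y = 0 := by simp [d1]
    rw [h1, h2]
    exact hasDerivAt_const y (0 : ℝ)
  | cons a L ih =>
    have h1 : ev1 ψ (a :: L) = fun y => atomVal ψ a y + ev1 ψ L y := by
      funext y; simp
    have h2 : ev1 ψ (d1 (a :: L)) y = ev1 ψ (dAtom a) y + ev1 ψ (d1 L) y := by
      simp [d1]
    rw [h1, h2]
    exact (hasDerivAt_atomVal hS a y).add ih

theorem deriv_ev1 (hS : StepHyp ψ FQ) (L : Prog1) : deriv (ev1 ψ L) = ev1 ψ (d1 L) :=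
  funext fun y => (hasDerivAt_ev1 hS L y).deriv

end Calc

/-! ## Tensor terms and program fields -/

/-- A tensor term: a component index and one one-variable program per space-time coordinate
(slot `0` is time, slot `j + 1` is the `j`-th space coordinate). -/
abbrev Term : Type := Fin 3 × (Fin 4 → Prog1)

/-- A program field: a finite sum of tensor terms. -/
abbrev Prog : Type := List Term

/-- The four coordinates of a space-time point. -/
def crd (i : Fin 4) (p : ℝ × (Fin 3 → ℝ)) : ℝ := ![p.1, p.2 0, p.2 1, p.2 2] i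

/-- The scalar value of a tensor term. -/
noncomputable def termVal (ψ : ℝ → ℝ) (T : Term) (p : ℝ × (Fin 3 → ℝ)) : ℝ :=
  ∏ i : Fin 4, ev1 ψ (T.2 i) (crd i p)

/-- The field described by a program. -/
noncomputable def evalField (ψ : ℝ → ℝ) (P : Prog) : Field :=
  fun p j => (P.map fun T => if T.1 = j then termVal ψ T p else 0).sum

/-- Differentiate a tensor term in the space-time direction `d`. -/
def dTerm (d : Fin 4) (T : Term) : Term := (T.1, Function.update T.2 d (d1 (T.2 d)))

/-- Differentiate a program field in the space-time direction `d`. -/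
def dProg (d : Fin 4) (P : Prog) : Prog := P.map (dTerm d)

@[simp] theorem evalField_nil (ψ : ℝ → ℝ) : evalField ψ [] = 0 := rfl

theorem evalField_cons (ψ : ℝ → ℝ) (T : Term) (P : Prog) (p : ℝ × (Fin 3 → ℝ)) (j : Fin 3) :
    evalField ψ (T :: P) p j = (if T.1 = j then termVal ψ T p else 0) + evalField ψ P p j := by
  simp [evalField]

theorem evalField_append (ψ : ℝ → ℝ) (P Q : Prog) :
    evalField ψ (P ++ Q) = evalField ψ P + evalField ψ Q := by
  funext p j
  simp [evalField]

/-- The field of a single tensor term, in the shape used by the other packages. -/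
theorem evalField_single (ψ : ℝ → ℝ) (c : Fin 3) (L0 L1 L2 L3 : Prog1) (p : ℝ × (Fin 3 → ℝ)) :
    evalField ψ [(c, ![L0, L1, L2, L3])] p
      = Pi.single c (ev1 ψ L0 p.1 * ev1 ψ L1 (p.2 0) * ev1 ψ L2 (p.2 1) * ev1 ψ L3 (p.2 2)) := by
  funext j
  by_cases h : c = j
  · subst h
    simp [evalField, termVal, crd, Fin.prod_univ_four]
  · simp [evalField, h, Ne.symm h]

theorem direction_zero : direction 0 = (1, 0) := by simp [direction]

theorem direction_succ (j : Fin 3) : direction j.succ = (0, Pi.single j 1) := by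
  simp [direction, Fin.succ_ne_zero]

theorem crd_zero (p : ℝ × (Fin 3 → ℝ)) : crd 0 p = p.1 := rfl

theorem crd_succ (j : Fin 3) (p : ℝ × (Fin 3 → ℝ)) : crd j.succ p = p.2 j := by
  fin_cases j <;> rfl

theorem crd_add_smul_direction (i d : Fin 4) (p : ℝ × (Fin 3 → ℝ)) (τ : ℝ) :
    crd i (p + τ • direction d) = crd i p + if i = d then τ else 0 := by
  refine Fin.cases ?_ (fun j => ?_) d
  · rw [direction_zero]
    refine Fin.cases ?_ (fun k => ?_) i
    · simp [crd_zero]
    · simp [crd_succ, Fin.succ_ne_zero]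
  · rw [direction_succ]
    refine Fin.cases ?_ (fun k => ?_) i
    · simp [crd_zero, (Fin.succ_ne_zero j).symm]
    · by_cases h : k = j
      · subst h; simp [crd_succ]
      · simp [crd_succ, h]

theorem contDiff_crd (i : Fin 4) : ContDiff ℝ ∞ (crd i) := by
  refine Fin.cases ?_ (fun j => ?_) i
  · exact contDiff_fst
  · have : crd j.succ = fun p : ℝ × (Fin 3 → ℝ) => p.2 j := by
      funext p; exact crd_succ j p
    rw [this]
    exact (contDiff_apply ℝ ℝ j).comp contDiff_snd

section Calc2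

variable {ψ : ℝ → ℝ} {FQ : ℕ → ℚ → ℚ}

theorem contDiff_termVal (hS : StepHyp ψ FQ) (T : Term) : ContDiff ℝ ∞ (termVal ψ T) := by
  unfold termVal
  exact contDiff_prod fun i _ => (contDiff_ev1 hS (T.2 i)).comp (contDiff_crd i)

theorem contDiff_evalField (hS : StepHyp ψ FQ) (P : Prog) : ContDiff ℝ ∞ (evalField ψ P) := by
  rw [contDiff_pi]
  intro j
  induction P with
  | nil => exact contDiff_const
  | cons T P ih =>
    have : (fun p => evalField ψ (T :: P) p j)
        = fun p => (if T.1 = j then termVal ψ T p else 0) + evalField ψ P p j := by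
      funext p; exact evalField_cons ψ T P p j
    rw [this]
    refine ContDiff.add ?_ ih
    by_cases h : T.1 = j
    · simpa [h] using contDiff_termVal hS T
    · simpa [h] using (contDiff_const : ContDiff ℝ ∞ fun _ : ℝ × (Fin 3 → ℝ) => (0 : ℝ))

theorem termVal_dTerm (T : Term) (d : Fin 4) (p : ℝ × (Fin 3 → ℝ)) :
    termVal ψ (dTerm d T) p
      = ev1 ψ (d1 (T.2 d)) (crd d p) * ∏ i ∈ Finset.univ.erase d, ev1 ψ (T.2 i) (crd i p) := by
  unfold termVal dTerm
  rw [← Finset.mul_prod_erase Finset.univ _ (Finset.mem_univ d)]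
  simp only [Function.update_self]
  congr 1
  refine Finset.prod_congr rfl fun i hi => ?_
  rw [Function.update_of_ne (Finset.ne_of_mem_erase hi)]

theorem hasDerivAt_termVal_line (hS : StepHyp ψ FQ) (T : Term) (d : Fin 4)
    (p : ℝ × (Fin 3 → ℝ)) :
    HasDerivAt (fun τ : ℝ => termVal ψ T (p + τ • direction d)) (termVal ψ (dTerm d T) p) 0 := by
  have h1 : (fun τ : ℝ => termVal ψ T (p + τ • direction d))
      = fun τ : ℝ => ev1 ψ (T.2 d) (crd d p + τ)
          * ∏ i ∈ Finset.univ.erase d, ev1 ψ (T.2 i) (crd i p) := by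
    funext τ
    unfold termVal
    rw [← Finset.mul_prod_erase Finset.univ _ (Finset.mem_univ d)]
    rw [crd_add_smul_direction, if_pos rfl]
    congr 1
    refine Finset.prod_congr rfl fun i hi => ?_
    rw [crd_add_smul_direction, if_neg (Finset.ne_of_mem_erase hi), add_zero]
  rw [h1, termVal_dTerm]
  have h2 : HasDerivAt (fun τ : ℝ => ev1 ψ (T.2 d) (crd d p + τ))
      (ev1 ψ (d1 (T.2 d)) (crd d p)) 0 := by
    have := hasDerivAt_ev1 hS (T.2 d) (crd d p + 0)
    rw [add_zero] at this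
    have h3 := HasDerivAt.comp_const_add (crd d p) 0 (by simpa using this)
    simpa using h3
  exact h2.mul_const _

theorem hasDerivAt_evalField_line (hS : StepHyp ψ FQ) (P : Prog) (d : Fin 4)
    (p : ℝ × (Fin 3 → ℝ)) :
    HasDerivAt (fun τ : ℝ => evalField ψ P (p + τ • direction d)) (evalField ψ (dProg d P) p) 0 := by
  rw [hasDerivAt_pi]
  intro j
  induction P with
  | nil => simpa [evalField, dProg] using hasDerivAt_const (0 : ℝ) (0 : ℝ)
  | cons T P ih =>
    have e1 : (fun τ : ℝ => evalField ψ (T :: P) (p + τ • direction d) j)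
        = fun τ : ℝ => (if T.1 = j then termVal ψ T (p + τ • direction d) else 0)
            + evalField ψ P (p + τ • direction d) j := by
      funext τ; exact evalField_cons ψ T P _ j
    have e2 : evalField ψ (dProg d (T :: P)) p j
        = (if T.1 = j then termVal ψ (dTerm d T) p else 0) + evalField ψ (dProg d P) p j := by
      simp only [dProg, List.map_cons]
      rw [evalField_cons]
      rfl
    rw [e1, e2]
    refine HasDerivAt.add ?_ ih
    by_cases h : T.1 = j
    · simpa [h] using hasDerivAt_termVal_line hS T d p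
    · simpa [h] using hasDerivAt_const (0 : ℝ) (0 : ℝ)

theorem fderiv_evalField (hS : StepHyp ψ FQ) (P : Prog) (d : Fin 4) (p : ℝ × (Fin 3 → ℝ)) :
    fderiv ℝ (evalField ψ P) p (direction d) = evalField ψ (dProg d P) p := by
  have hdiff : DifferentiableAt ℝ (evalField ψ P) p :=
    ((contDiff_evalField hS P).differentiable (by simp)).differentiableAt
  have hline : HasDerivAt (fun τ : ℝ => p + τ • direction d) (direction d) 0 := by
    simpa using ((hasDerivAt_id (0 : ℝ)).smul_const (direction d)).const_add p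
  have h1 : HasDerivAt (fun τ : ℝ => evalField ψ P (p + τ • direction d))
      (fderiv ℝ (evalField ψ P) p (direction d)) 0 := by
    have hf : HasFDerivAt (evalField ψ P) (fderiv ℝ (evalField ψ P) p) (p + (0 : ℝ) • direction d) := by
      simpa using hdiff.hasFDerivAt
    exact hf.comp_hasDerivAt (0 : ℝ) hline
  exact h1.unique (hasDerivAt_evalField_line hS P d p)

theorem mixedDeriv_evalField (hS : StepHyp ψ FQ) (ds : List (Fin 4)) (P : Prog) :
    mixedDeriv ds (evalField ψ P) = evalField ψ (ds.foldr dProg P) := by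
  induction ds with
  | nil => rfl
  | cons d ds ih =>
    funext p
    simp only [mixedDeriv, List.foldr_cons]
    rw [ih]
    exact fderiv_evalField hS _ d p

end Calc2

/-! ## Rational approximation and bounds -/

/-- The four coordinates of a rational space-time point. -/
def crdQ (i : Fin 4) (tq : ℚ × (Fin 3 → ℚ)) : ℚ := ![tq.1, tq.2 0, tq.2 1, tq.2 2] i

theorem crd_ratPoint (i : Fin 4) (t : ℚ) (q : Fin 3 → ℚ) :
    crd i ((t : ℝ), ratPoint q) = ((crdQ i (t, q) : ℚ) : ℝ) := by
  fin_cases i <;> rfl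

/-- Rational approximation of an atom value (with `FQ d` in place of `ψ`). -/
def atomQ (FQ : ℕ → ℚ → ℚ) (d : ℕ) (a : Atom) (y : ℚ) : ℚ :=
  a.1 * y ^ a.2.1 * FQ d (a.2.2.1 * y + a.2.2.2)

/-- Rational approximation of a one-variable program. -/
def ev1Q (FQ : ℕ → ℚ → ℚ) (d : ℕ) (L : Prog1) (y : ℚ) : ℚ :=
  (L.map fun a => atomQ FQ d a y).sum

/-- A bound for an atom on `|y| ≤ z`. -/
def atomS (a : Atom) (z : ℚ) : ℚ := (1 + a.1 * a.1) * z ^ a.2.1

/-- A bound for a one-variable program on `|y| ≤ z`. -/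
def S1 (L : Prog1) (z : ℚ) : ℚ := (L.map fun a => atomS a z).sum

/-- Rational approximation of a tensor term. -/
def termQ (FQ : ℕ → ℚ → ℚ) (d : ℕ) (T : Term) (y : Fin 4 → ℚ) : ℚ :=
  ∏ i : Fin 4, ev1Q FQ d (T.2 i) (y i)

/-- A bound for a tensor term. -/
def termS (T : Term) (z : Fin 4 → ℚ) : ℚ := ∏ i : Fin 4, S1 (T.2 i) (z i)

/-- Rational approximation of a program field. -/
def evalQ (FQ : ℕ → ℚ → ℚ) (d : ℕ) (P : Prog) (y : Fin 4 → ℚ) : Fin 3 → ℚ :=
  fun j => (P.map fun T => if T.1 = j then termQ FQ d T y else 0).sum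

/-- A bound for a program field. -/
def progS (P : Prog) (z : Fin 4 → ℚ) : ℚ := (P.map fun T => termS T z).sum

theorem abs_le_one_add_mul_self (c : ℝ) : |c| ≤ 1 + c * c :=
  abs_le.2 ⟨by nlinarith [sq_nonneg (c + 1)], by nlinarith [sq_nonneg (c - 1)]⟩

section Approx

variable {ψ : ℝ → ℝ} {FQ : ℕ → ℚ → ℚ}

theorem atomS_nonneg (a : Atom) {z : ℚ} (hz : 0 ≤ z) : 0 ≤ atomS a z := by
  unfold atomS
  have : 0 ≤ a.1 * a.1 := mul_self_nonneg _
  positivity

theorem S1_nonneg (L : Prog1) {z : ℚ} (hz : 0 ≤ z) : 0 ≤ S1 L z := by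
  unfold S1
  refine List.sum_nonneg ?_
  intro x hx
  obtain ⟨a, _, rfl⟩ := List.mem_map.1 hx
  exact atomS_nonneg a hz

theorem abs_atomVal_le (hS : StepHyp ψ FQ) (a : Atom) {y : ℝ} {z : ℚ} (hy : |y| ≤ (z : ℝ)) :
    |atomVal ψ a y| ≤ ((atomS a z : ℚ) : ℝ) := by
  unfold atomVal atomS
  push_cast
  rw [abs_mul, abs_mul, abs_pow]
  have h1 : |(a.1 : ℝ)| ≤ 1 + (a.1 : ℝ) * (a.1 : ℝ) := abs_le_one_add_mul_self _
  have h2 : |y| ^ a.2.1 ≤ (z : ℝ) ^ a.2.1 := pow_le_pow_left₀ (abs_nonneg y) hy _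
  have h3 : |ψ ((a.2.2.1 : ℝ) * y + (a.2.2.2 : ℝ))| ≤ 1 := by
    rw [abs_of_nonneg (hS.nonneg _)]; exact hS.le_one _
  have h4 : |(a.1 : ℝ)| * |y| ^ a.2.1 ≤ (1 + (a.1 : ℝ) * (a.1 : ℝ)) * (z : ℝ) ^ a.2.1 :=
    mul_le_mul h1 h2 (by positivity) (by nlinarith [mul_self_nonneg (a.1 : ℝ)])
  calc |(a.1 : ℝ)| * |y| ^ a.2.1 * |ψ ((a.2.2.1 : ℝ) * y + (a.2.2.2 : ℝ))|
      ≤ ((1 + (a.1 : ℝ) * (a.1 : ℝ)) * (z : ℝ) ^ a.2.1) * 1 :=
        mul_le_mul h4 h3 (abs_nonneg _) (le_trans (by positivity) h4)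
    _ = (1 + (a.1 : ℝ) * (a.1 : ℝ)) * (z : ℝ) ^ a.2.1 := mul_one _

theorem abs_ev1_le (hS : StepHyp ψ FQ) (L : Prog1) {y : ℝ} {z : ℚ} (hy : |y| ≤ (z : ℝ)) :
    |ev1 ψ L y| ≤ ((S1 L z : ℚ) : ℝ) := by
  induction L with
  | nil => simp [S1]
  | cons a L ih =>
    have : S1 (a :: L) z = atomS a z + S1 L z := by simp [S1]
    rw [ev1_cons, this]
    push_cast
    exact (abs_add_le _ _).trans (add_le_add (abs_atomVal_le hS a hy) ih)

theorem abs_atomVal_sub_le (hS : StepHyp ψ FQ) (a : Atom) (d : ℕ) (hd : 1 ≤ d) (y z : ℚ)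
    (hy : |(y : ℝ)| ≤ (z : ℝ)) :
    |atomVal ψ a (y : ℝ) - ((atomQ FQ d a y : ℚ) : ℝ)| ≤ ((atomS a z : ℚ) : ℝ) * (2 / 2 ^ d) := by
  unfold atomVal atomQ atomS
  have happ := hS.approx d (a.2.2.1 * y + a.2.2.2) hd
  push_cast at happ ⊢
  have e : (a.1 : ℝ) * (y : ℝ) ^ a.2.1 * ψ ((a.2.2.1 : ℝ) * (y : ℝ) + (a.2.2.2 : ℝ))
      - (a.1 : ℝ) * (y : ℝ) ^ a.2.1 * ((FQ d (a.2.2.1 * y + a.2.2.2) : ℚ) : ℝ)
      = (a.1 : ℝ) * (y : ℝ) ^ a.2.1 * (ψ ((a.2.2.1 : ℝ) * (y : ℝ) + (a.2.2.2 : ℝ))
          - ((FQ d (a.2.2.1 * y + a.2.2.2) : ℚ) : ℝ)) := by ring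
  rw [e, abs_mul, abs_mul, abs_pow]
  have h1 : |(a.1 : ℝ)| ≤ 1 + (a.1 : ℝ) * (a.1 : ℝ) := abs_le_one_add_mul_self _
  have h2 : |(y : ℝ)| ^ a.2.1 ≤ (z : ℝ) ^ a.2.1 := pow_le_pow_left₀ (abs_nonneg _) hy _
  have h4 : |(a.1 : ℝ)| * |(y : ℝ)| ^ a.2.1 ≤ (1 + (a.1 : ℝ) * (a.1 : ℝ)) * (z : ℝ) ^ a.2.1 :=
    mul_le_mul h1 h2 (by positivity) (by nlinarith [mul_self_nonneg (a.1 : ℝ)])
  exact mul_le_mul h4 happ (abs_nonneg _) (le_trans (by positivity) h4)

theorem abs_ev1_sub_le (hS : StepHyp ψ FQ) (L : Prog1) (d : ℕ) (hd : 1 ≤ d) (y z : ℚ)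
    (hy : |(y : ℝ)| ≤ (z : ℝ)) :
    |ev1 ψ L (y : ℝ) - ((ev1Q FQ d L y : ℚ) : ℝ)| ≤ ((S1 L z : ℚ) : ℝ) * (2 / 2 ^ d) := by
  induction L with
  | nil => simp [S1, ev1Q]
  | cons a L ih =>
    have h1 : S1 (a :: L) z = atomS a z + S1 L z := by simp [S1]
    have h2 : ev1Q FQ d (a :: L) y = atomQ FQ d a y + ev1Q FQ d L y := by simp [ev1Q]
    rw [ev1_cons, h1, h2]
    push_cast
    have e : atomVal ψ a (y : ℝ) + ev1 ψ L (y : ℝ)
        - (((atomQ FQ d a y : ℚ) : ℝ) + ((ev1Q FQ d L y : ℚ) : ℝ))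
        = (atomVal ψ a (y : ℝ) - ((atomQ FQ d a y : ℚ) : ℝ))
          + (ev1 ψ L (y : ℝ) - ((ev1Q FQ d L y : ℚ) : ℝ)) := by ring
    rw [e, add_mul]
    exact (abs_add_le _ _).trans (add_le_add (abs_atomVal_sub_le hS a d hd y z hy) ih)

/-- Error propagation through a product. -/
theorem prod_approx {a a' b b' S T m m' ε : ℝ} (ha : |a| ≤ S) (haa : |a - a'| ≤ m * S * ε)
    (hb : |b| ≤ T) (hbb : |b - b'| ≤ m' * T * ε) (hε0 : 0 ≤ ε) (hε1 : ε ≤ 1)
    (hm : 0 ≤ m) (hm' : 0 ≤ m') :
    |a * b| ≤ S * T ∧ |a * b - a' * b'| ≤ (m + m' + m * m') * (S * T) * ε := by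
  have hS : 0 ≤ S := (abs_nonneg a).trans ha
  have hT : 0 ≤ T := (abs_nonneg b).trans hb
  refine ⟨by rw [abs_mul]; exact mul_le_mul ha hb (abs_nonneg _) hS, ?_⟩
  have e : a * b - a' * b' = (a - a') * b + a * (b - b') - (a - a') * (b - b') := by ring
  have h1 : |(a - a') * b| ≤ m * S * ε * T := by
    rw [abs_mul]; exact mul_le_mul haa hb (abs_nonneg _) (by positivity)
  have h2 : |a * (b - b')| ≤ S * (m' * T * ε) := by
    rw [abs_mul]; exact mul_le_mul ha hbb (abs_nonneg _) hS
  have h3 : |(a - a') * (b - b')| ≤ m * S * ε * (m' * T * ε) := by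
    rw [abs_mul]; exact mul_le_mul haa hbb (abs_nonneg _) (by positivity)
  have h4 : m * S * ε * (m' * T * ε) ≤ m * m' * (S * T) * ε := by
    have : 0 ≤ m * m' * (S * T) * ε := by positivity
    have h5 : m * S * ε * (m' * T * ε) = (m * m' * (S * T) * ε) * ε := by ring
    rw [h5]
    exact mul_le_of_le_one_right this hε1
  rw [e]
  calc |(a - a') * b + a * (b - b') - (a - a') * (b - b')|
      ≤ |(a - a') * b + a * (b - b')| + |(a - a') * (b - b')| := abs_sub _ _
    _ ≤ |(a - a') * b| + |a * (b - b')| + |(a - a') * (b - b')| := by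
        gcongr; exact abs_add_le _ _
    _ ≤ m * S * ε * T + S * (m' * T * ε) + m * m' * (S * T) * ε := by
        gcongr; exact h3.trans h4
    _ = (m + m' + m * m') * (S * T) * ε := by ring

theorem abs_termVal_le (hS : StepHyp ψ FQ) (T : Term) {p : ℝ × (Fin 3 → ℝ)} {z : Fin 4 → ℚ}
    (hp : ∀ i, |crd i p| ≤ (z i : ℝ)) : |termVal ψ T p| ≤ ((termS T z : ℚ) : ℝ) := by
  unfold termVal termS
  rw [Finset.abs_prod]
  push_cast
  exact Finset.prod_le_prod (fun i _ => abs_nonneg _) (fun i _ => abs_ev1_le hS (T.2 i) (hp i))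

theorem abs_termVal_sub_le (hS : StepHyp ψ FQ) (T : Term) (d : ℕ) (hd : 1 ≤ d)
    {p : ℝ × (Fin 3 → ℝ)} {y z : Fin 4 → ℚ} (hy : ∀ i, crd i p = (y i : ℝ))
    (hp : ∀ i, |crd i p| ≤ (z i : ℝ)) :
    |termVal ψ T p - ((termQ FQ d T y : ℚ) : ℝ)| ≤ 15 * ((termS T z : ℚ) : ℝ) * (2 / 2 ^ d) := by
  have hε0 : (0 : ℝ) ≤ 2 / 2 ^ d := by positivity
  have hε1 : (2 : ℝ) / 2 ^ d ≤ 1 := by
    rw [div_le_one (by positivity)]
    calc (2 : ℝ) = 2 ^ 1 := by norm_num
      _ ≤ 2 ^ d := pow_le_pow_right₀ (by norm_num) hd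
  have hA : ∀ i, |ev1 ψ (T.2 i) (crd i p)| ≤ ((S1 (T.2 i) (z i) : ℚ) : ℝ) :=
    fun i => abs_ev1_le hS (T.2 i) (hp i)
  have hB : ∀ i, |ev1 ψ (T.2 i) (crd i p) - ((ev1Q FQ d (T.2 i) (y i) : ℚ) : ℝ)|
      ≤ 1 * ((S1 (T.2 i) (z i) : ℚ) : ℝ) * (2 / 2 ^ d) := by
    intro i
    have := abs_ev1_sub_le hS (T.2 i) d hd (y i) (z i) (by rw [← hy i]; exact hp i)
    rw [hy i, one_mul]
    exact this
  obtain ⟨h01, h01'⟩ := prod_approx (hA 0) (hB 0) (hA 1) (hB 1) hε0 hε1 zero_le_one zero_le_one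
  obtain ⟨h012, h012'⟩ := prod_approx h01 h01' (hA 2) (hB 2) hε0 hε1 (by norm_num) zero_le_one
  obtain ⟨_, h0123'⟩ := prod_approx h012 h012' (hA 3) (hB 3) hε0 hε1 (by norm_num) zero_le_one
  unfold termVal termQ termS
  rw [Fin.prod_univ_four, Fin.prod_univ_four, Fin.prod_univ_four]
  push_cast
  refine h0123'.trans (le_of_eq ?_)
  norm_num

theorem abs_evalField_le (hS : StepHyp ψ FQ) (P : Prog) {p : ℝ × (Fin 3 → ℝ)} {z : Fin 4 → ℚ}
    (hp : ∀ i, |crd i p| ≤ (z i : ℝ)) (j : Fin 3) :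
    |evalField ψ P p j| ≤ ((progS P z : ℚ) : ℝ) := by
  induction P with
  | nil => simp [progS]
  | cons T P ih =>
    have h1 : progS (T :: P) z = termS T z + progS P z := by simp [progS]
    rw [evalField_cons, h1]
    push_cast
    refine (abs_add_le _ _).trans (add_le_add ?_ ih)
    by_cases h : T.1 = j
    · simpa [h] using abs_termVal_le hS T hp
    · simpa [h] using (abs_nonneg _).trans (abs_termVal_le hS T hp)

theorem abs_evalField_sub_le (hS : StepHyp ψ FQ) (P : Prog) (d : ℕ) (hd : 1 ≤ d)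
    {p : ℝ × (Fin 3 → ℝ)} {y z : Fin 4 → ℚ} (hy : ∀ i, crd i p = (y i : ℝ))
    (hp : ∀ i, |crd i p| ≤ (z i : ℝ)) (j : Fin 3) :
    |evalField ψ P p j - ((evalQ FQ d P y j : ℚ) : ℝ)|
      ≤ 15 * ((progS P z : ℚ) : ℝ) * (2 / 2 ^ d) := by
  induction P with
  | nil => simp [progS, evalQ]
  | cons T P ih =>
    have h1 : progS (T :: P) z = termS T z + progS P z := by simp [progS]
    have h2 : evalQ FQ d (T :: P) y j
        = (if T.1 = j then termQ FQ d T y else 0) + evalQ FQ d P y j := by simp [evalQ]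
    rw [evalField_cons, h1, h2]
    push_cast
    have e : (if T.1 = j then termVal ψ T p else 0) + evalField ψ P p j
        - ((((if T.1 = j then termQ FQ d T y else 0 : ℚ)) : ℝ) + ((evalQ FQ d P y j : ℚ) : ℝ))
        = ((if T.1 = j then termVal ψ T p else 0)
            - (((if T.1 = j then termQ FQ d T y else 0 : ℚ)) : ℝ))
          + (evalField ψ P p j - ((evalQ FQ d P y j : ℚ) : ℝ)) := by ring
    rw [e, mul_add, add_mul]
    refine (abs_add_le _ _).trans (add_le_add ?_ ih)
    have hT := abs_termVal_sub_le hS T d hd hy hp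
    by_cases h : T.1 = j
    · simpa [h] using hT
    · simpa [h] using (abs_nonneg _).trans hT

theorem termS_nonneg (T : Term) {z : Fin 4 → ℚ} (hz : ∀ i, 0 ≤ z i) : 0 ≤ termS T z :=
  Finset.prod_nonneg fun i _ => S1_nonneg (T.2 i) (hz i)

theorem progS_nonneg (P : Prog) {z : Fin 4 → ℚ} (hz : ∀ i, 0 ≤ z i) : 0 ≤ progS P z := by
  unfold progS
  refine List.sum_nonneg ?_
  intro x hx
  obtain ⟨T, _, rfl⟩ := List.mem_map.1 hx
  exact termS_nonneg T hz

/-- Mixed derivatives vanish on an open set on which the field vanishes. -/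
theorem mixedDeriv_eq_zero_of_isOpen (U : Field) (O : Set (ℝ × (Fin 3 → ℝ))) (hO : IsOpen O)
    (hU : ∀ p ∈ O, U p = 0) :
    ∀ (ds : List (Fin 4)) (p : ℝ × (Fin 3 → ℝ)), p ∈ O → mixedDeriv ds U p = 0 := by
  intro ds
  induction ds with
  | nil => exact hU
  | cons d ds ih =>
    intro p hp
    have h : mixedDeriv ds U =ᶠ[nhds p] fun _ => 0 := by
      filter_upwards [hO.mem_nhds hp] with q hq using ih q hq
    simp only [mixedDeriv]
    rw [h.fderiv_eq]
    simp

theorem isOpen_outside (R : ℝ) : IsOpen {p : ℝ × (Fin 3 → ℝ) | ∃ i, R < |crd i p|} := by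
  have : {p : ℝ × (Fin 3 → ℝ) | ∃ i, R < |crd i p|}
      = ⋃ i, (fun p => |crd i p|) ⁻¹' Set.Ioi R := by
    ext p; simp
  rw [this]
  exact isOpen_iUnion fun i =>
    isOpen_Ioi.preimage (continuous_abs.comp (contDiff_crd i).continuous)

theorem abs_mixedDeriv_le (hS : StepHyp ψ FQ) (P : Prog) (R : ℕ)
    (hR : ∀ p : ℝ × (Fin 3 → ℝ), (∃ i, (R : ℝ) < |crd i p|) → evalField ψ P p = 0)
    (ds : List (Fin 4)) (p : ℝ × (Fin 3 → ℝ)) (j : Fin 3) :
    |mixedDeriv ds (evalField ψ P) p j|
      ≤ ((progS (ds.foldr dProg P) (fun _ => (R : ℚ)) : ℚ) : ℝ) := by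
  by_cases h : ∃ i, (R : ℝ) < |crd i p|
  · have h0 := mixedDeriv_eq_zero_of_isOpen (evalField ψ P) _ (isOpen_outside (R : ℝ))
      (fun p hp => hR p hp) ds p h
    rw [h0]
    simp only [Pi.zero_apply, abs_zero]
    exact_mod_cast progS_nonneg (ds.foldr dProg P) (z := fun _ => (R : ℚ))
      (fun _ => Nat.cast_nonneg R)
  · simp only [not_exists, not_lt] at h
    rw [mixedDeriv_evalField hS]
    exact abs_evalField_le hS _ (z := fun _ => (R : ℚ)) (fun i => by simpa using h i) j

end Approx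

/-! ## The effective data -/

/-- The precision (index of the approximant `FQ d`) used for accuracy `1 / (n + 1)`. -/
def prec (ub : ℚ → ℕ) (P : Prog) (y : Fin 4 → ℚ) (n : ℕ) : ℕ :=
  30 * (n + 1) * ub (progS P fun i => 1 + y i * y i) + 1

/-- The approximation function of a program field. -/
def Efun (FQ : ℕ → ℚ → ℚ) (ub : ℚ → ℕ) (P : Prog)
    (x : List (Fin 4) × (ℚ × (Fin 3 → ℚ)) × ℕ) : Fin 3 → ℚ :=
  evalQ FQ (prec ub (x.1.foldr dProg P) (fun i => crdQ i x.2.1) x.2.2) (x.1.foldr dProg P)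
    (fun i => crdQ i x.2.1)

/-- The derivative bound of a program field supported in the box of radius `R`. -/
def boundFun (ub : ℚ → ℕ) (P : Prog) (R : ℕ) (ds : List (Fin 4)) : ℕ :=
  ub (progS (ds.foldr dProg P) fun _ => (R : ℚ))

section Main

variable {ψ : ℝ → ℝ} {FQ : ℕ → ℚ → ℚ} {ub : ℚ → ℕ}

theorem abs_mixedDeriv_sub_Efun_le (hS : StepHyp ψ FQ) (hub : ∀ q : ℚ, q ≤ (ub q : ℚ))
    (P : Prog) (ds : List (Fin 4)) (t : ℚ) (q : Fin 3 → ℚ) (n : ℕ) (j : Fin 3) :
    |mixedDeriv ds (evalField ψ P) ((t : ℝ), ratPoint q) j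
        - ((Efun FQ ub P (ds, (t, q), n) j : ℚ) : ℝ)| ≤ 1 / ((n : ℝ) + 1) := by
  rw [mixedDeriv_evalField hS]
  set P' := ds.foldr dProg P with hP'
  set y : Fin 4 → ℚ := fun i => crdQ i (t, q) with hy
  set z : Fin 4 → ℚ := fun i => 1 + y i * y i with hz
  set d := prec ub P' y n with hd
  have hd1 : 1 ≤ d := by rw [hd]; unfold prec; omega
  have hcrd : ∀ i, crd i ((t : ℝ), ratPoint q) = ((y i : ℚ) : ℝ) := fun i => crd_ratPoint i t q
  have hbd : ∀ i, |crd i ((t : ℝ), ratPoint q)| ≤ ((z i : ℚ) : ℝ) := by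
    intro i
    rw [hcrd i, hz]
    push_cast
    exact abs_le_one_add_mul_self _
  have key := abs_evalField_sub_le hS P' d hd1 hcrd hbd j
  have hE : Efun FQ ub P (ds, (t, q), n) = evalQ FQ d P' y := rfl
  rw [hE]
  refine key.trans ?_
  set N := ub (progS P' z) with hN
  have hSN : ((progS P' z : ℚ) : ℝ) ≤ (N : ℝ) := by
    have := hub (progS P' z)
    exact_mod_cast this
  have hdN : d = 30 * (n + 1) * N + 1 := rfl
  have hpow : (30 * ((n : ℝ) + 1) * (N : ℝ)) ≤ (2 : ℝ) ^ d := by
    have h1 : d < 2 ^ d := Nat.lt_two_pow_self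
    have h2 : 30 * (n + 1) * N ≤ 2 ^ d := by omega
    exact_mod_cast h2
  have hpos : (0 : ℝ) < (2 : ℝ) ^ d := by positivity
  calc 15 * ((progS P' z : ℚ) : ℝ) * (2 / 2 ^ d) ≤ 15 * (N : ℝ) * (2 / 2 ^ d) := by gcongr
    _ = (30 * (N : ℝ)) / 2 ^ d := by ring
    _ ≤ 1 / ((n : ℝ) + 1) := by
        rw [div_le_div_iff₀ hpos (by positivity)]
        nlinarith [hpow]

theorem abs_mixedDeriv_le_boundFun (hS : StepHyp ψ FQ) (hub : ∀ q : ℚ, q ≤ (ub q : ℚ))
    (P : Prog) (R : ℕ)
    (hR : ∀ p : ℝ × (Fin 3 → ℝ), (∃ i, (R : ℝ) < |crd i p|) → evalField ψ P p = 0)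
    (ds : List (Fin 4)) (p : ℝ × (Fin 3 → ℝ)) (j : Fin 3) :
    |mixedDeriv ds (evalField ψ P) p j| ≤ (boundFun ub P R ds : ℝ) := by
  refine (abs_mixedDeriv_le hS P R hR ds p j).trans ?_
  unfold boundFun
  exact_mod_cast hub _

end Main

/-! ## Computability -/

/-- The computability hypotheses on rational arithmetic (for Mathlib's `Primcodable ℚ`), on the
approximants `FQ`, and on an upper-bound function `ub : ℚ → ℕ`. -/
structure QComp (FQ : ℕ → ℚ → ℚ) (ub : ℚ → ℕ) : Prop where
  add : Computable₂ (fun a b : ℚ => a + b)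
  mul : Computable₂ (fun a b : ℚ => a * b)
  natCast : Computable (fun n : ℕ => (n : ℚ))
  fq : Computable₂ FQ
  ubc : Computable ub
  le_ub : ∀ q : ℚ, q ≤ (ub q : ℚ)

section Cmp

variable {α : Type*} [Primcodable α] {FQ : ℕ → ℚ → ℚ} {ub : ℚ → ℕ}

theorem comp_qpow (hQ : QComp FQ ub) : Computable₂ (fun (q : ℚ) (n : ℕ) => q ^ n) := by
  have h : Computable₂ (fun (a : ℚ × ℕ) (p : ℕ × ℚ) => p.2 * a.1) :=
    (hQ.mul.comp (Computable.snd.comp Computable.snd) (Computable.fst.comp Computable.fst)).to₂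
  have key := Computable.nat_rec (Computable.snd : Computable (fun a : ℚ × ℕ => a.2))
    (Computable.const (1 : ℚ)) h
  refine key.of_eq fun a => ?_
  obtain ⟨q, n⟩ := a
  show Nat.rec (motive := fun _ => ℚ) 1 (fun _ IH => IH * q) n = q ^ n
  induction n with
  | zero => simp
  | succ n ih => rw [pow_succ, ← ih]

theorem comp_list_sum (hQ : QComp FQ ub) {f : α → List ℚ} (hf : Computable f) :
    Computable fun a => (f a).sum := by
  have h : Computable₂ (fun (_ : α) (p : ℚ × ℚ) => p.1 + p.2) :=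
    (hQ.add.comp (Computable.fst.comp Computable.snd) (Computable.snd.comp Computable.snd)).to₂
  have key := comp_list_foldr hf (Computable.const (0 : ℚ)) h
  refine key.of_eq fun a => ?_
  induction f a with
  | nil => rfl
  | cons b l ih => simp [ih]

theorem comp_prod4 (hQ : QComp FQ ub) {F : Fin 4 → α → ℚ} (hF : ∀ i, Computable (F i)) :
    Computable fun a => ∏ i : Fin 4, F i a := by
  have key := hQ.mul.comp (hQ.mul.comp (hQ.mul.comp (hF 0) (hF 1)) (hF 2)) (hF 3)
  refine key.of_eq fun a => ?_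
  rw [Fin.prod_univ_four]

theorem comp_dAtom (hQ : QComp FQ ub) : Computable dAtom := by
  have c : Computable (fun a : Atom => a.1) := Computable.fst
  have e : Computable (fun a : Atom => a.2.1) := Computable.fst.comp Computable.snd
  have al : Computable (fun a : Atom => a.2.2.1) :=
    Computable.fst.comp (Computable.snd.comp Computable.snd)
  have be : Computable (fun a : Atom => a.2.2.2) :=
    Computable.snd.comp (Computable.snd.comp Computable.snd)
  have two : Computable (fun _ : Atom => (2 : ℚ)) := Computable.const 2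
  have e' : Computable (fun a : Atom => a.2.1 - 1) :=
    (Computable.pred.comp e).of_eq fun a => by simp
  have x1 : Computable (fun a : Atom =>
      ((a.1 * (a.2.1 : ℚ), a.2.1 - 1, a.2.2.1, a.2.2.2) : Atom)) :=
    (hQ.mul.comp c (hQ.natCast.comp e)).pair (e'.pair (al.pair be))
  have x2 : Computable (fun a : Atom =>
      ((2 * a.1 * a.2.2.1, a.2.1, 2 * a.2.2.1, 2 * a.2.2.2) : Atom)) :=
    (hQ.mul.comp (hQ.mul.comp two c) al).pair
      (e.pair ((hQ.mul.comp two al).pair (hQ.mul.comp two be)))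
  have x3 : Computable (fun a : Atom =>
      (((-2) * a.1 * a.2.2.1, a.2.1, 2 * a.2.2.1, 2 * a.2.2.2 + (-1)) : Atom)) :=
    (hQ.mul.comp (hQ.mul.comp (Computable.const (-2 : ℚ)) c) al).pair
      (e.pair ((hQ.mul.comp two al).pair
        (hQ.add.comp (hQ.mul.comp two be) (Computable.const (-1 : ℚ)))))
  have key := Computable.list_cons.comp x1
    (Computable.list_cons.comp x2 (Computable.list_cons.comp x3 (Computable.const [])))
  exact key

theorem comp_d1 (hQ : QComp FQ ub) : Computable d1 := by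
  have h : Computable₂ (fun (_ : Prog1) (a : Atom) => dAtom a) :=
    ((comp_dAtom hQ).comp Computable.snd).to₂
  have key := comp_list_flatMap (Computable.id : Computable (fun L : Prog1 => L)) h
  exact key

theorem comp_dTerm (hQ : QComp FQ ub) : Computable₂ dTerm := by
  have h2 : Computable (fun x : Fin 4 × Term => Function.update x.2.2 x.1 (d1 (x.2.2 x.1))) := by
    refine comp_fin_lam fun i => ?_
    have hc : PrimrecPred (fun x : Fin 4 × Term => i = x.1) :=
      Primrec.eq.comp (Primrec.const i) Primrec.fst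
    have hx : Computable (fun x : Fin 4 × Term => x.2.2 x.1) :=
      Computable.fin_app.comp (Computable.snd.comp Computable.snd) Computable.fst
    have hf : Computable (fun x : Fin 4 × Term => d1 (x.2.2 x.1)) := (comp_d1 hQ).comp hx
    have hg : Computable (fun x : Fin 4 × Term => x.2.2 i) :=
      Computable.fin_app.comp (Computable.snd.comp Computable.snd) (Computable.const i)
    refine (comp_ite hc hf hg).of_eq fun x => ?_
    simp [Function.update_apply]
  have h1 : Computable (fun x : Fin 4 × Term => x.2.1) := Computable.fst.comp Computable.snd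
  have key := h1.pair h2
  exact key

theorem comp_dProg (hQ : QComp FQ ub) : Computable₂ dProg := by
  have h : Computable₂ (fun (x : Fin 4 × Prog) (T : Term) => dTerm x.1 T) :=
    ((comp_dTerm hQ).comp (Computable.fst.comp Computable.fst) Computable.snd).to₂
  have key := comp_list_map (Computable.snd : Computable (fun x : Fin 4 × Prog => x.2)) h
  exact key

theorem comp_derive (hQ : QComp FQ ub) (P : Prog) :
    Computable (fun ds : List (Fin 4) => ds.foldr dProg P) := by
  have h : Computable₂ (fun (_ : List (Fin 4)) (p : Fin 4 × Prog) => dProg p.1 p.2) :=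
    ((comp_dProg hQ).comp (Computable.fst.comp Computable.snd)
      (Computable.snd.comp Computable.snd)).to₂
  have key := comp_list_foldr (Computable.id : Computable (fun ds : List (Fin 4) => ds))
    (Computable.const P) h
  exact key

theorem comp_atomS (hQ : QComp FQ ub) : Computable₂ atomS := by
  have c : Computable (fun x : Atom × ℚ => x.1.1) := Computable.fst.comp Computable.fst
  have e : Computable (fun x : Atom × ℚ => x.1.2.1) :=
    Computable.fst.comp (Computable.snd.comp Computable.fst)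
  have z : Computable (fun x : Atom × ℚ => x.2) := Computable.snd
  have key := hQ.mul.comp (hQ.add.comp (Computable.const 1) (hQ.mul.comp c c))
    ((comp_qpow hQ).comp z e)
  exact key

theorem comp_S1 (hQ : QComp FQ ub) : Computable₂ S1 := by
  have h : Computable₂ (fun (x : Prog1 × ℚ) (a : Atom) => atomS a x.2) :=
    ((comp_atomS hQ).comp Computable.snd (Computable.snd.comp Computable.fst)).to₂
  have key := comp_list_sum hQ
    (comp_list_map (Computable.fst : Computable (fun x : Prog1 × ℚ => x.1)) h)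
  exact key

theorem comp_termS (hQ : QComp FQ ub) : Computable₂ termS := by
  have h : ∀ i : Fin 4, Computable (fun x : Term × (Fin 4 → ℚ) => S1 (x.1.2 i) (x.2 i)) := by
    intro i
    have h1 : Computable (fun x : Term × (Fin 4 → ℚ) => x.1.2 i) :=
      Computable.fin_app.comp (Computable.snd.comp Computable.fst) (Computable.const i)
    have h2 : Computable (fun x : Term × (Fin 4 → ℚ) => x.2 i) :=
      Computable.fin_app.comp Computable.snd (Computable.const i)
    exact (comp_S1 hQ).comp h1 h2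
  have key := comp_prod4 hQ h
  exact key

theorem comp_progS (hQ : QComp FQ ub) : Computable₂ progS := by
  have h : Computable₂ (fun (x : Prog × (Fin 4 → ℚ)) (T : Term) => termS T x.2) :=
    ((comp_termS hQ).comp Computable.snd (Computable.snd.comp Computable.fst)).to₂
  have key := comp_list_sum hQ
    (comp_list_map (Computable.fst : Computable (fun x : Prog × (Fin 4 → ℚ) => x.1)) h)
  exact key

theorem comp_atomQ (hQ : QComp FQ ub) :
    Computable (fun x : ℕ × Atom × ℚ => atomQ FQ x.1 x.2.1 x.2.2) := by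
  have d : Computable (fun x : ℕ × Atom × ℚ => x.1) := Computable.fst
  have a : Computable (fun x : ℕ × Atom × ℚ => x.2.1) := Computable.fst.comp Computable.snd
  have y : Computable (fun x : ℕ × Atom × ℚ => x.2.2) := Computable.snd.comp Computable.snd
  have c : Computable (fun x : ℕ × Atom × ℚ => x.2.1.1) := Computable.fst.comp a
  have e : Computable (fun x : ℕ × Atom × ℚ => x.2.1.2.1) :=
    Computable.fst.comp (Computable.snd.comp a)
  have al : Computable (fun x : ℕ × Atom × ℚ => x.2.1.2.2.1) :=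
    Computable.fst.comp (Computable.snd.comp (Computable.snd.comp a))
  have be : Computable (fun x : ℕ × Atom × ℚ => x.2.1.2.2.2) :=
    Computable.snd.comp (Computable.snd.comp (Computable.snd.comp a))
  have key := hQ.mul.comp (hQ.mul.comp c ((comp_qpow hQ).comp y e))
    (hQ.fq.comp d (hQ.add.comp (hQ.mul.comp al y) be))
  exact key

theorem comp_ev1Q (hQ : QComp FQ ub) :
    Computable (fun x : ℕ × Prog1 × ℚ => ev1Q FQ x.1 x.2.1 x.2.2) := by
  have h : Computable₂ (fun (x : ℕ × Prog1 × ℚ) (a : Atom) => atomQ FQ x.1 a x.2.2) := by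
    have h1 : Computable (fun p : (ℕ × Prog1 × ℚ) × Atom => (p.1.1, p.2, p.1.2.2)) :=
      (Computable.fst.comp Computable.fst).pair
        (Computable.snd.pair (Computable.snd.comp (Computable.snd.comp Computable.fst)))
    have key := (comp_atomQ hQ).comp h1
    exact key
  have hf : Computable (fun x : ℕ × Prog1 × ℚ => x.2.1) := Computable.fst.comp Computable.snd
  have key := comp_list_sum hQ (comp_list_map hf h)
  exact key

theorem comp_termQ (hQ : QComp FQ ub) :
    Computable (fun x : ℕ × Term × (Fin 4 → ℚ) => termQ FQ x.1 x.2.1 x.2.2) := by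
  have h : ∀ i : Fin 4, Computable (fun x : ℕ × Term × (Fin 4 → ℚ) =>
      ev1Q FQ x.1 (x.2.1.2 i) (x.2.2 i)) := by
    intro i
    have h1 : Computable (fun x : ℕ × Term × (Fin 4 → ℚ) => x.2.1.2 i) :=
      Computable.fin_app.comp (Computable.snd.comp (Computable.fst.comp Computable.snd))
        (Computable.const i)
    have h2 : Computable (fun x : ℕ × Term × (Fin 4 → ℚ) => x.2.2 i) :=
      Computable.fin_app.comp (Computable.snd.comp Computable.snd) (Computable.const i)
    have h0 : Computable (fun x : ℕ × Term × (Fin 4 → ℚ) => x.1) := Computable.fst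
    have key := (comp_ev1Q hQ).comp (h0.pair (h1.pair h2))
    exact key
  have key := comp_prod4 hQ h
  exact key

theorem comp_evalQ (hQ : QComp FQ ub) :
    Computable (fun x : ℕ × Prog × (Fin 4 → ℚ) => evalQ FQ x.1 x.2.1 x.2.2) := by
  have h : ∀ j : Fin 3, Computable (fun x : ℕ × Prog × (Fin 4 → ℚ) =>
      (x.2.1.map fun T => if T.1 = j then termQ FQ x.1 T x.2.2 else 0).sum) := by
    intro j
    have hc : PrimrecPred (fun p : (ℕ × Prog × (Fin 4 → ℚ)) × Term => p.2.1 = j) :=
      Primrec.eq.comp (Primrec.fst.comp Primrec.snd) (Primrec.const j)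
    have hf : Computable (fun p : (ℕ × Prog × (Fin 4 → ℚ)) × Term =>
        termQ FQ p.1.1 p.2 p.1.2.2) := by
      have h1 : Computable (fun p : (ℕ × Prog × (Fin 4 → ℚ)) × Term => (p.1.1, p.2, p.1.2.2)) :=
        (Computable.fst.comp Computable.fst).pair
          (Computable.snd.pair (Computable.snd.comp (Computable.snd.comp Computable.fst)))
      have key := (comp_termQ hQ).comp h1
      exact key
    have hg : Computable₂ (fun (x : ℕ × Prog × (Fin 4 → ℚ)) (T : Term) =>
        if T.1 = j then termQ FQ x.1 T x.2.2 else 0) :=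
      (comp_ite hc hf (Computable.const (0 : ℚ))).to₂
    have hl : Computable (fun x : ℕ × Prog × (Fin 4 → ℚ) => x.2.1) :=
      Computable.fst.comp Computable.snd
    have key := comp_list_sum hQ (comp_list_map hl hg)
    exact key
  have key := comp_fin_lam (f := fun (x : ℕ × Prog × (Fin 4 → ℚ)) (j : Fin 3) =>
      (x.2.1.map fun T : Term => if T.1 = j then termQ FQ x.1 T x.2.2 else 0).sum) h
  exact key

theorem crdQ_zero (tq : ℚ × (Fin 3 → ℚ)) : crdQ 0 tq = tq.1 := rfl

theorem crdQ_succ (j : Fin 3) (tq : ℚ × (Fin 3 → ℚ)) : crdQ j.succ tq = tq.2 j := by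
  fin_cases j <;> rfl

theorem comp_crdQ (i : Fin 4) : Computable (fun tq : ℚ × (Fin 3 → ℚ) => crdQ i tq) := by
  refine Fin.cases ?_ (fun j => ?_) i
  · exact Computable.fst
  · have key : Computable (fun tq : ℚ × (Fin 3 → ℚ) => tq.2 j) :=
      Computable.fin_app.comp Computable.snd (Computable.const j)
    exact key.of_eq fun tq => (crdQ_succ j tq).symm

theorem comp_prec (hQ : QComp FQ ub) :
    Computable (fun x : Prog × (Fin 4 → ℚ) × ℕ => prec ub x.1 x.2.1 x.2.2) := by
  have hz : Computable (fun x : Prog × (Fin 4 → ℚ) × ℕ =>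
      (fun i => 1 + x.2.1 i * x.2.1 i : Fin 4 → ℚ)) := by
    refine comp_fin_lam fun i => ?_
    have hy : Computable (fun x : Prog × (Fin 4 → ℚ) × ℕ => x.2.1 i) :=
      Computable.fin_app.comp (Computable.fst.comp Computable.snd) (Computable.const i)
    have key := hQ.add.comp (Computable.const 1) (hQ.mul.comp hy hy)
    exact key
  have hP : Computable (fun x : Prog × (Fin 4 → ℚ) × ℕ => x.1) := Computable.fst
  have hN : Computable (fun x : Prog × (Fin 4 → ℚ) × ℕ =>
      ub (progS x.1 fun i => 1 + x.2.1 i * x.2.1 i)) :=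
    hQ.ubc.comp ((comp_progS hQ).comp hP hz)
  have hn : Computable (fun x : Prog × (Fin 4 → ℚ) × ℕ => x.2.2 + 1) :=
    Computable.succ.comp (Computable.snd.comp Computable.snd)
  have key := Computable.succ.comp (Primrec.nat_mul.to_comp.comp
    (Primrec.nat_mul.to_comp.comp (Computable.const 30) hn) hN)
  exact key

theorem comp_Efun (hQ : QComp FQ ub) (P : Prog) : Computable (Efun FQ ub P) := by
  have hP : Computable (fun x : List (Fin 4) × (ℚ × (Fin 3 → ℚ)) × ℕ => x.1.foldr dProg P) :=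
    (comp_derive hQ P).comp Computable.fst
  have hy : Computable (fun x : List (Fin 4) × (ℚ × (Fin 3 → ℚ)) × ℕ =>
      (fun i => crdQ i x.2.1 : Fin 4 → ℚ)) :=
    comp_fin_lam fun i => (comp_crdQ i).comp (Computable.fst.comp Computable.snd)
  have hn : Computable (fun x : List (Fin 4) × (ℚ × (Fin 3 → ℚ)) × ℕ => x.2.2) :=
    Computable.snd.comp Computable.snd
  have hd : Computable (fun x : List (Fin 4) × (ℚ × (Fin 3 → ℚ)) × ℕ =>
      prec ub (x.1.foldr dProg P) (fun i => crdQ i x.2.1) x.2.2) := by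
    have key := (comp_prec hQ).comp (hP.pair (hy.pair hn))
    exact key
  have key := (comp_evalQ hQ).comp (hd.pair (hP.pair hy))
  exact key

theorem comp_boundFun (hQ : QComp FQ ub) (P : Prog) (R : ℕ) : Computable (boundFun ub P R) := by
  have hz : Computable (fun _ : List (Fin 4) => (fun _ => (R : ℚ) : Fin 4 → ℚ)) :=
    Computable.const _
  have key := hQ.ubc.comp ((comp_progS hQ).comp (comp_derive hQ P) hz)
  exact key

end Cmp

/-! ## Combinators for building programs -/

/-- The program of `y ↦ ψ (α * y + β)`. -/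
def atom (α β : ℚ) : Prog1 := [(1, 0, α, β)]

/-- Multiply a one-variable program by a rational constant. -/
def smul1 (c : ℚ) (L : Prog1) : Prog1 := L.map fun a => (c * a.1, a.2)

/-- Multiply a one-variable program by `y ^ k`. -/
def mulX (k : ℕ) (L : Prog1) : Prog1 := L.map fun a => (a.1, a.2.1 + k, a.2.2)

/-- The program of a single tensor term `e_c * f₀(t) * f₁(x₀) * f₂(x₁) * f₃(x₂)`. -/
def tens (c : Fin 3) (L0 L1 L2 L3 : Prog1) : Prog := [(c, ![L0, L1, L2, L3])]

@[simp] theorem ev1_atom (ψ : ℝ → ℝ) (α β : ℚ) (y : ℝ) :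
    ev1 ψ (atom α β) y = ψ ((α : ℝ) * y + (β : ℝ)) := by
  simp [atom, atomVal]

@[simp] theorem ev1_smul1 (ψ : ℝ → ℝ) (c : ℚ) (L : Prog1) (y : ℝ) :
    ev1 ψ (smul1 c L) y = (c : ℝ) * ev1 ψ L y := by
  induction L with
  | nil => simp [smul1]
  | cons a L ih =>
    have h : smul1 c (a :: L) = (c * a.1, a.2) :: smul1 c L := rfl
    rw [h, ev1_cons, ev1_cons, ih]
    simp only [atomVal]
    push_cast
    ring

@[simp] theorem ev1_mulX (ψ : ℝ → ℝ) (k : ℕ) (L : Prog1) (y : ℝ) :
    ev1 ψ (mulX k L) y = y ^ k * ev1 ψ L y := by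
  induction L with
  | nil => simp [mulX]
  | cons a L ih =>
    have h : mulX k (a :: L) = (a.1, a.2.1 + k, a.2.2) :: mulX k L := rfl
    rw [h, ev1_cons, ev1_cons, ih]
    simp only [atomVal]
    ring

theorem evalField_tens (ψ : ℝ → ℝ) (c : Fin 3) (L0 L1 L2 L3 : Prog1) (p : ℝ × (Fin 3 → ℝ)) :
    evalField ψ (tens c L0 L1 L2 L3) p
      = Pi.single c (ev1 ψ L0 p.1 * ev1 ψ L1 (p.2 0) * ev1 ψ L2 (p.2 1) * ev1 ψ L3 (p.2 2)) :=
  evalField_single ψ c L0 L1 L2 L3 p

theorem evalField_append_apply (ψ : ℝ → ℝ) (P Q : Prog) (p : ℝ × (Fin 3 → ℝ)) :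
    evalField ψ (P ++ Q) p = evalField ψ P p + evalField ψ Q p := by
  rw [evalField_append]; rfl

theorem evalField_flatMap {ι : Type*} (ψ : ℝ → ℝ) (l : List ι) (f : ι → Prog)
    (p : ℝ × (Fin 3 → ℝ)) :
    evalField ψ (l.flatMap f) p = (l.map fun i => evalField ψ (f i) p).sum := by
  induction l with
  | nil => simp
  | cons i l ih => simp [evalField_append_apply, ih]

/-! ## Main theorem -/

/-- **Effectivity of program fields.**  A program field that vanishes outside a box is
effective in the sense of `Crest.AnalysisR.BoxFlow.Effective`. -/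
theorem effective_evalField {ψ : ℝ → ℝ} {FQ : ℕ → ℚ → ℚ} {ub : ℚ → ℕ} (hS : StepHyp ψ FQ)
    (hQ : QComp FQ ub) (P : Prog) (R : ℕ)
    (hR : ∀ p : ℝ × (Fin 3 → ℝ), ((R : ℝ) < |p.1| ∨ ∃ j, (R : ℝ) < |p.2 j|) →
      evalField ψ P p = 0) :
    Effective (evalField ψ P) := by
  have hR' : ∀ p : ℝ × (Fin 3 → ℝ), (∃ i, (R : ℝ) < |crd i p|) → evalField ψ P p = 0 := by
    intro p ⟨i, hi⟩
    apply hR p
    revert hi
    refine Fin.cases ?_ (fun j => ?_) i
    · intro hi; exact Or.inl hi
    · intro hi; rw [crd_succ] at hi; exact Or.inr ⟨j, hi⟩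
  exact ⟨Efun FQ ub P, boundFun ub P R, comp_Efun hQ P, comp_boundFun hQ P R,
    fun ds t q n j => abs_mixedDeriv_sub_Efun_le hS hQ.le_ub P ds t q n j,
    fun ds p j => abs_mixedDeriv_le_boundFun hS hQ.le_ub P R hR' ds p j⟩

end Crest.Agent.Lib_S0170_Eff
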