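import Mathlib
import Crest.Prelude.Def_BoxFlow
import Crest.Agent.Lib_S0170_Defs
import Crest.Agent.Lib_S0170_Fabius
import Crest.Agent.Lib_S0170_CompQOps
import Crest.Agent.Lib_S0170_CompFQ
import Crest.Agent.Lib_S0170_EAdapt
import Crest.Agent.Lib_S0170_Eff

/-!
# S0170, part [E]: `effective_fieldOf`

The field of a valid list of stages is effective.  This is the generic theorem
`Lib_S0170_Eff.effective_evalField` instantiated with the Fabius step `psi`, its rational
approximants `FQ`, the primitive recursive rational arithmetic of `Lib_S0170_CompQOps` /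
`Lib_S0170_CompFQ`, and the adapter `Lib_S0170_EAdapt` (program of a list of stages and its
support radius).
-/

set_option autoImplicit false

namespace Crest.Agent.Lib_S0170_EffFinal

open Crest.AnalysisR.BoxFlow Crest.Agent.Lib_S0170_Defs
open Crest.Agent.Lib_S0170_Fabius (psi FQ)
open Crest.Agent.Lib_S0170_Eff

/-- The Fabius step and its rational approximants satisfy the analytic hypotheses. -/
theorem stepHyp : StepHyp psi FQ where
  smooth := Lib_S0170_Fabius.psi_contDiff
  nonneg := Lib_S0170_Fabius.psi_nonneg
  le_one := Lib_S0170_Fabius.psi_le_one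
  hasDeriv := Lib_S0170_Fabius.psi_hasDerivAt
  approx := fun d q hd => Lib_S0170_Fabius.abs_psi_sub_FQ_le d hd q

/-- A computable upper bound for a rational number. -/
def ubQ (q : ℚ) : ℕ := q.num.natAbs

/-- The computability hypotheses hold for Mathlib's encoding of `ℚ`. -/
theorem qComp : QComp FQ ubQ where
  add := Lib_S0170_CompQOps.rat_add.to_comp
  mul := Lib_S0170_CompQOps.rat_mul.to_comp
  natCast := Lib_S0170_CompQOps.rat_natCast.to_comp
  fq := Lib_S0170_CompFQ.primrec_FQ.to_comp
  ubc := Lib_S0170_CompQOps.rat_ub.to_comp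
  le_ub := fun q => (le_abs_self q).trans (Lib_S0170_CompQOps.abs_le_natAbs_num q)

/-- Conversion of a tuple-shaped tensor term into a `Lib_S0170_Eff.Term`. -/
def conv (T : Fin 3 × Prog1 × Prog1 × Prog1 × Prog1) : Term :=
  (T.1, ![T.2.1, T.2.2.1, T.2.2.2.1, T.2.2.2.2])

theorem ev1_eq (L : Prog1) (y : ℝ) : Lib_S0170_EAdapt.ev1 L y = ev1 psi L y := rfl

theorem evalField_conv (P : Lib_S0170_EAdapt.Prog) :
    Lib_S0170_EAdapt.evalField P = evalField psi (P.map conv) := by
  funext p
  induction P with
  | nil =>
    rw [Lib_S0170_EAdapt.evalField_nil]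
    rfl
  | cons T P ih =>
    rw [Lib_S0170_EAdapt.evalField_cons, List.map_cons, ← List.singleton_append,
      evalField_append_apply, ← ih]
    congr 1
    exact (evalField_single psi T.1 T.2.1 T.2.2.1 T.2.2.2.1 T.2.2.2.2 p).symm

/-- **[E]**: the field of a valid list of stages is effective. -/
theorem effective_fieldOf (L : List Stage) (hL : ∀ s ∈ L, s.Valid) : Effective (fieldOf L) := by
  obtain ⟨R, hR⟩ := Lib_S0170_EAdapt.fieldOf_support_radius L hL
  have h1 : fieldOf L = evalField psi ((Lib_S0170_EAdapt.progOf L).map conv) := by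
    rw [Lib_S0170_EAdapt.fieldOf_eq_evalField L hL, evalField_conv]
  rw [h1]
  exact effective_evalField stepHyp qComp _ R (fun p hp => by rw [← h1]; exact hR p hp)

end Crest.Agent.Lib_S0170_EffFinal
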