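import Mathlib
import Crest.Agent.Lib_S0170_Defs

/-!
S0170, part [F], assembly: given global flows of the autonomous stage fields, the composition of
the time-reparametrized stage flows is a flow of `fieldOf L`, and its time-one map is the
composition of the time-one maps of the stages.
-/

set_option autoImplicit false

namespace Crest.Agent.Lib_S0170_FAsm

open Crest.AnalysisR.BoxFlow Crest.Agent.Lib_S0170_Defs

/-! ### the step function -/

theorem sg_of_nonpos {u : ℝ} (h : u ≤ 0) : sg u = 0 := Lib_S0170_Fabius.psi_of_nonpos h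

theorem sg_of_one_le {u : ℝ} (h : 1 ≤ u) : sg u = 1 := Lib_S0170_Fabius.psi_of_one_le h

theorem hasDerivAt_sg (u : ℝ) : HasDerivAt sg (sg' u) u :=
  Lib_S0170_Fabius.psi_hasDerivAt u

theorem sg'_of_nonpos {u : ℝ} (h : u ≤ 0) : sg' u = 0 := by
  have h1 : HasDerivWithinAt sg (sg' u) (Set.Iic 0) u := (hasDerivAt_sg u).hasDerivWithinAt
  have h2 : HasDerivWithinAt sg 0 (Set.Iic 0) u :=
    (hasDerivWithinAt_const u (Set.Iic 0) (0 : ℝ)).congr (fun y hy => sg_of_nonpos hy)
      (sg_of_nonpos h)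
  exact (uniqueDiffOn_Iic 0 u h).eq_deriv _ h1 h2

theorem sg'_of_one_le {u : ℝ} (h : 1 ≤ u) : sg' u = 0 := by
  have h1 : HasDerivWithinAt sg (sg' u) (Set.Ici 1) u := (hasDerivAt_sg u).hasDerivWithinAt
  have h2 : HasDerivWithinAt sg 0 (Set.Ici 1) u :=
    (hasDerivWithinAt_const u (Set.Ici 1) (1 : ℝ)).congr (fun y hy => sg_of_one_le hy)
      (sg_of_one_le h)
  exact (uniqueDiffOn_Ici 1 u h).eq_deriv _ h1 h2

theorem hasDerivAt_slot (K r : ℕ) (t : ℝ) : HasDerivAt (slot K r) (slot' K r t) t := by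
  have h1 : HasDerivAt (fun t : ℝ => 2 * (K : ℝ) * (t - 1 / 4) - r) (2 * (K : ℝ)) t := by
    have := (((hasDerivAt_id t).sub_const (1 / 4 : ℝ)).const_mul (2 * (K : ℝ))).sub_const (r : ℝ)
    simpa using this
  have h2 := (hasDerivAt_sg (2 * (K : ℝ) * (t - 1 / 4) - r)).comp t h1
  rw [slot', mul_comm]
  exact h2

theorem slot_of_le (K r : ℕ) (t : ℝ) (h : 2 * (K : ℝ) * (t - 1 / 4) ≤ r) : slot K r t = 0 :=
  sg_of_nonpos (by linarith)

theorem slot_of_ge (K r : ℕ) (t : ℝ) (h : (r : ℝ) + 1 ≤ 2 * (K : ℝ) * (t - 1 / 4)) :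
    slot K r t = 1 :=
  sg_of_one_le (by linarith)

theorem slot'_of_le (K r : ℕ) (t : ℝ) (h : 2 * (K : ℝ) * (t - 1 / 4) ≤ r) : slot' K r t = 0 := by
  rw [slot', sg'_of_nonpos (by linarith), mul_zero]

theorem slot'_of_ge (K r : ℕ) (t : ℝ) (h : (r : ℝ) + 1 ≤ 2 * (K : ℝ) * (t - 1 / 4)) :
    slot' K r t = 0 := by
  rw [slot', sg'_of_one_le (by linarith), mul_zero]

/-! ### composition of reparametrized flows -/

section
variable (K : ℕ) (W : Fin K → Sp → Sp) (ψ : Fin K → ℝ → Sp → Sp)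

/-- Composition of the first `m` reparametrized stage flows. -/
noncomputable def PhiM : ℕ → ℝ → Sp → Sp
  | 0 => fun _ x => x
  | m + 1 => fun t x => if h : m < K then ψ ⟨m, h⟩ (slot K m t) (PhiM m t x) else PhiM m t x

/-- Composition of the first `m` time-one maps. -/
def PM : ℕ → Sp → Sp
  | 0 => fun x => x
  | m + 1 => fun x => if h : m < K then ψ ⟨m, h⟩ 1 (PM m x) else PM m x

/-- The field of the first `m` stages. -/
noncomputable def DM (m : ℕ) (t : ℝ) (y : Sp) : Sp :=
  ∑ r : Fin K, if (r : ℕ) < m then slot' K r t • W r y else 0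

theorem PhiM_succ (m : ℕ) (hm : m < K) (t : ℝ) (x : Sp) :
    PhiM K ψ (m + 1) t x = ψ ⟨m, hm⟩ (slot K m t) (PhiM K ψ m t x) := by
  simp [PhiM, hm]

theorem PM_succ (m : ℕ) (hm : m < K) (x : Sp) :
    PM K ψ (m + 1) x = ψ ⟨m, hm⟩ 1 (PM K ψ m x) := by
  simp [PM, hm]

theorem DM_zero (t : ℝ) (y : Sp) : DM K W 0 t y = 0 := by
  simp [DM]

theorem DM_succ (m : ℕ) (hm : m < K) (t : ℝ) (y : Sp) :
    DM K W (m + 1) t y = DM K W m t y + slot' K m t • W ⟨m, hm⟩ y := by
  unfold DM
  have h1 : ∀ r : Fin K, (if (r : ℕ) < m + 1 then slot' K r t • W r y else 0)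
      = (if (r : ℕ) < m then slot' K r t • W r y else 0)
        + (if r = ⟨m, hm⟩ then slot' K m t • W ⟨m, hm⟩ y else 0) := by
    intro r
    by_cases h : (r : ℕ) < m
    · have h' : r ≠ ⟨m, hm⟩ := fun e => by rw [e] at h; exact lt_irrefl _ h
      rw [if_pos h, if_pos (Nat.lt_succ_of_lt h), if_neg h', add_zero]
    · by_cases h' : r = ⟨m, hm⟩
      · subst h'
        simp
      · have h'' : ¬ (r : ℕ) < m + 1 := by
          intro h3
          exact h' (Fin.ext (by
            have : (r : ℕ) = m := by omega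
            exact this))
        rw [if_neg h, if_neg h'', if_neg h', add_zero]
  rw [Finset.sum_congr rfl (fun r _ => h1 r), Finset.sum_add_distrib, Finset.sum_ite_eq']
  simp

theorem DM_eq_zero_of_ge (m : ℕ) (t : ℝ) (y : Sp) (h : (m : ℝ) ≤ 2 * (K : ℝ) * (t - 1 / 4)) :
    DM K W m t y = 0 := by
  unfold DM
  apply Finset.sum_eq_zero
  intro r _
  split_ifs with hr
  · have hr' : (r : ℝ) + 1 ≤ (m : ℝ) := by exact_mod_cast hr
    rw [slot'_of_ge K r t (by linarith), zero_smul]
  · rfl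

theorem PhiM_zero_time (h0 : ∀ r x, ψ r 0 x = x) (m : ℕ) (x : Sp) : PhiM K ψ m 0 x = x := by
  induction m with
  | zero => rfl
  | succ m ih =>
    by_cases hm : m < K
    · rw [PhiM_succ K ψ m hm, ih, slot_of_le K m 0 (by
        have : (0 : ℝ) ≤ (K : ℝ) := Nat.cast_nonneg K
        have : (0 : ℝ) ≤ (m : ℝ) := Nat.cast_nonneg m
        nlinarith), h0]
    · simp [PhiM, hm, ih]

theorem phiM_spec (h0 : ∀ r x, ψ r 0 x = x)
    (hd : ∀ r s x, HasDerivAt (fun τ => ψ r τ x) (W r (ψ r s x)) s) :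
    ∀ m, m ≤ K →
      (∀ t x, HasDerivAt (fun s => PhiM K ψ m s x) (DM K W m t (PhiM K ψ m t x)) t) ∧
      (∀ t x, (m : ℝ) ≤ 2 * (K : ℝ) * (t - 1 / 4) → PhiM K ψ m t x = PM K ψ m x) := by
  intro m
  induction m with
  | zero =>
    intro _
    refine ⟨fun t x => ?_, fun t x _ => rfl⟩
    rw [DM_zero]
    exact hasDerivAt_const t x
  | succ m ih =>
    intro hmK
    have hm : m < K := hmK
    obtain ⟨iha, ihb⟩ := ih hm.le
    have hKpos : (0 : ℝ) < (K : ℝ) := by
      have : 0 < K := lt_of_le_of_lt (Nat.zero_le m) hm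
      exact_mod_cast this
    -- the junction time
    set T : ℝ := 1 / 4 + (m : ℝ) / (2 * (K : ℝ)) with hT
    have hTeq : 2 * (K : ℝ) * (T - 1 / 4) = m := by
      rw [hT]
      field_simp
      ring
    have hL : ∀ s, s ≤ T → 2 * (K : ℝ) * (s - 1 / 4) ≤ m := by
      intro s hs
      rw [← hTeq]
      have : s - 1 / 4 ≤ T - 1 / 4 := by linarith
      exact mul_le_mul_of_nonneg_left this (by positivity)
    have hR : ∀ s, T ≤ s → (m : ℝ) ≤ 2 * (K : ℝ) * (s - 1 / 4) := by
      intro s hs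
      rw [← hTeq]
      have : T - 1 / 4 ≤ s - 1 / 4 := by linarith
      exact mul_le_mul_of_nonneg_left this (by positivity)
    refine ⟨fun t x => ?_, fun t x ht => ?_⟩
    · -- derivative
      have eL : ∀ s, s ≤ T → PhiM K ψ (m + 1) s x = PhiM K ψ m s x := by
        intro s hs
        rw [PhiM_succ K ψ m hm, slot_of_le K m s (hL s hs), h0]
      have eR : ∀ s, T ≤ s →
          PhiM K ψ (m + 1) s x = ψ ⟨m, hm⟩ (slot K m s) (PM K ψ m x) := by
        intro s hs
        rw [PhiM_succ K ψ m hm, ihb s x (hR s hs)]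
      have dL : t ≤ T → HasDerivWithinAt (fun s => PhiM K ψ (m + 1) s x)
          (DM K W (m + 1) t (PhiM K ψ (m + 1) t x)) (Set.Iic T) t := by
        intro htT
        have h1 := (iha t x).hasDerivWithinAt (s := Set.Iic T)
        have h2 : DM K W (m + 1) t (PhiM K ψ (m + 1) t x) = DM K W m t (PhiM K ψ m t x) := by
          rw [DM_succ K W m hm, slot'_of_le K m t (hL t htT), zero_smul, add_zero, eL t htT]
        rw [h2]
        exact h1.congr (fun s hs => eL s hs) (eL t htT)
      have dR : T ≤ t → HasDerivWithinAt (fun s => PhiM K ψ (m + 1) s x)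
          (DM K W (m + 1) t (PhiM K ψ (m + 1) t x)) (Set.Ici T) t := by
        intro htT
        have h1 : HasDerivAt (fun s => ψ ⟨m, hm⟩ (slot K m s) (PM K ψ m x))
            (slot' K m t • W ⟨m, hm⟩ (ψ ⟨m, hm⟩ (slot K m t) (PM K ψ m x))) t :=
          HasDerivAt.scomp t (hd ⟨m, hm⟩ (slot K m t) (PM K ψ m x)) (hasDerivAt_slot K m t)
        have h2 : DM K W (m + 1) t (PhiM K ψ (m + 1) t x)
            = slot' K m t • W ⟨m, hm⟩ (ψ ⟨m, hm⟩ (slot K m t) (PM K ψ m x)) := by
          rw [DM_succ K W m hm, DM_eq_zero_of_ge K W m t _ (hR t htT), zero_add, eR t htT]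
        rw [h2]
        exact h1.hasDerivWithinAt.congr (fun s hs => eR s hs) (eR t htT)
      rcases lt_trichotomy t T with h | h | h
      · exact (dL h.le).hasDerivAt (Iic_mem_nhds h)
      · have hu := (dL h.le).union (dR h.ge)
        rw [Set.Iic_union_Ici] at hu
        exact hasDerivWithinAt_univ.1 hu
      · exact (dR h.le).hasDerivAt (Ici_mem_nhds h)
    · -- after the window
      have ht' : (m : ℝ) + 1 ≤ 2 * (K : ℝ) * (t - 1 / 4) := by
        have : ((m + 1 : ℕ) : ℝ) = (m : ℝ) + 1 := by push_cast; ring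
        linarith
      rw [PhiM_succ K ψ m hm, PM_succ K ψ m hm, slot_of_ge K m t ht', ihb t x (by linarith)]

theorem PM_eq_take (x : Sp) : ∀ m, m ≤ K →
    PM K ψ m x = ((List.ofFn fun r => ψ r 1).take m).foldl (fun y f => f y) x := by
  intro m
  induction m with
  | zero => intro _; rfl
  | succ m ih =>
    intro hmK
    have hm : m < K := hmK
    have hlen : m < (List.ofFn fun r => ψ r 1).length := by rw [List.length_ofFn]; exact hm
    rw [PM_succ K ψ m hm, ih hm.le, List.take_succ_eq_append_getElem hlen, List.foldl_append]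
    simp

theorem PM_eq_runMaps (x : Sp) : PM K ψ K x = runMaps (fun r => ψ r 1) x := by
  rw [PM_eq_take K ψ x K le_rfl, runMaps, List.take_of_length_le (by rw [List.length_ofFn])]

end

/-- **F-asm.** -/
theorem flow_of_stage_flows (L : List Stage) (psi : Fin L.length → ℝ → Sp → Sp)
    (h0 : ∀ r x, psi r 0 x = x)
    (hd : ∀ r s x, HasDerivAt (fun τ => psi r τ x) ((L.get r).field (psi r s x)) s) :
    ∃ Φ : ℝ → Sp → Sp, IsFlow (fieldOf L) Φ ∧ ∀ x, Φ 1 x = runMaps (fun r => psi r 1) x := by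
  have hspec := phiM_spec L.length (fun r => (L.get r).field) psi h0 hd L.length le_rfl
  refine ⟨PhiM L.length psi L.length, ⟨fun x => PhiM_zero_time L.length psi h0 L.length x,
    fun t x => ?_⟩, fun x => ?_⟩
  · have h1 := hspec.1 t x
    have h2 : fieldOf L (t, PhiM L.length psi L.length t x)
        = DM L.length (fun r => (L.get r).field) L.length t (PhiM L.length psi L.length t x) := by
      unfold fieldOf DM
      exact Finset.sum_congr rfl (fun r _ => (if_pos r.2).symm)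
    rw [h2]
    exact h1
  · rw [hspec.2 1 x (by
      have : (0 : ℝ) ≤ (L.length : ℝ) := Nat.cast_nonneg _
      nlinarith), PM_eq_runMaps]

end Crest.Agent.Lib_S0170_FAsm
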