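import Mathlib
import Crest.Prelude.Def_BoxFlow
import Crest.Agent.Lib_S0170_Defs

/-!
S0170, part [F], sub-package (F-stage): the time-one map of the global flow of a stage field
realizes the stage.
-/

set_option autoImplicit false

namespace Crest.Agent.Lib_S0170_FStage

open Crest.AnalysisR.BoxFlow Crest.Agent.Lib_S0170_Defs

/-- Uniqueness on `[0, 1]`: a curve solving the autonomous ODE of a Lipschitz field `W` on
`[0, 1)` and starting at `psi 0 x` ends at `psi 1 x`, for any global flow `psi` of `W`. -/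
theorem flow_eq_of_curve (W : Sp → Sp) (C : NNReal) (hLip : LipschitzWith C W)
    (psi : ℝ → Sp → Sp) (hd : ∀ σ x, HasDerivAt (fun τ => psi τ x) (W (psi σ x)) σ)
    (x : Sp) (γ : ℝ → Sp) (hγ0 : γ 0 = psi 0 x)
    (hγ : ∀ τ ∈ Set.Ico (0 : ℝ) 1, HasDerivAt γ (W (γ τ)) τ)
    (hγc : ContinuousOn γ (Set.Icc (0 : ℝ) 1)) :
    γ 1 = psi 1 x := by
  have hpc : Continuous (fun τ => psi τ x) :=
    continuous_iff_continuousAt.mpr (fun t => (hd t x).continuousAt)
  have h := ODE_solution_unique_of_mem_Icc_right (v := fun _ => W) (s := fun _ => Set.univ)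
    (K := C) (f := γ) (g := fun τ => psi τ x) (a := 0) (b := 1)
    (fun _ _ => hLip.lipschitzOnWith) hγc (fun t ht => (hγ t ht).hasDerivWithinAt)
    (fun _ _ => Set.mem_univ _) hpc.continuousOn (fun t _ => (hd t x).hasDerivWithinAt)
    (fun _ _ => Set.mem_univ _) hγ0
  exact h (Set.right_mem_Icc.mpr zero_le_one)

/-- (F-stage), with the three facts about the stage field as hypotheses. -/
theorem realizes_of_flow_aux (s : Stage) (hij : s.i ≠ s.j) (C : NNReal)
    (hLip : LipschitzWith C s.field)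
    (hcore : ∀ x ∈ s.core, s.field x = s.vel x) (hsupp : ∀ x, x ∉ s.supp → s.field x = 0)
    (psi : ℝ → Sp → Sp) (h0 : ∀ x, psi 0 x = x)
    (hd : ∀ σ x, HasDerivAt (fun τ => psi τ x) (s.field (psi σ x)) σ) : s.Realizes (psi 1) := by
  constructor
  · intro x hx
    have hj : ∀ τ : ℝ, (x + τ • s.vel x) s.j = x s.j := by
      intro τ
      simp [Stage.vel, hij.symm]
    have hvel : ∀ τ : ℝ, s.vel (x + τ • s.vel x) = s.vel x := by
      intro τ
      funext m
      simp only [Stage.vel]
      rw [hj τ]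
    have h1 := flow_eq_of_curve s.field C hLip psi hd x (fun τ => x + τ • s.vel x)
      (by simp [h0]) ?_ ?_
    · rw [← h1]; simp
    · intro τ hτ
      have h2 : s.field (x + τ • s.vel x) = s.vel x := by
        rw [hcore _ (hx τ ⟨hτ.1, hτ.2.le⟩), hvel]
      rw [h2]
      have h3 := ((hasDerivAt_id τ).smul_const (s.vel x)).const_add x
      simpa using h3
    · exact Continuous.continuousOn (by fun_prop)
  · intro x hx
    have h1 := flow_eq_of_curve s.field C hLip psi hd x (fun _ => x) (by simp [h0]) ?_ ?_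
    · exact h1.symm
    · intro τ _
      rw [hsupp x hx]
      exact hasDerivAt_const τ x
    · exact continuousOn_const

/-! ### The stage field on the core and off the support

These are stated with the three basic facts about `sg`, `sg'` as hypotheses, so that they do not
depend on how `sg` is defined. -/

section field

variable (h0 : ∀ u : ℝ, u ≤ 0 → sg u = 0) (h1 : ∀ u : ℝ, 1 ≤ u → sg u = 1)
  (h' : ∀ u : ℝ, u ≤ 0 ∨ 1 ≤ u → sg' u = 0)

include h0 h1 in
theorem plat_eq_one (lo hi w : ℚ) (hw : 0 < w) (x : ℝ) (hlo : (lo : ℝ) ≤ x) (hhi : x ≤ (hi : ℝ)) :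
    plat lo hi w x = 1 := by
  have hw' : (0 : ℝ) < w := by exact_mod_cast hw
  unfold plat
  rw [h1 _ (by have := div_nonneg (sub_nonneg.mpr hlo) hw'.le; linarith),
    h0 _ (div_nonpos_of_nonpos_of_nonneg (sub_nonpos.mpr hhi) hw'.le)]
  ring

include h' in
theorem plat'_eq_zero (lo hi w : ℚ) (hw : 0 < w) (x : ℝ) (hlo : (lo : ℝ) ≤ x)
    (hhi : x ≤ (hi : ℝ)) : plat' lo hi w x = 0 := by
  have hw' : (0 : ℝ) < w := by exact_mod_cast hw
  unfold plat'
  rw [h' _ (Or.inr (by have := div_nonneg (sub_nonneg.mpr hlo) hw'.le; linarith)),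
    h' _ (Or.inl (div_nonpos_of_nonpos_of_nonneg (sub_nonpos.mpr hhi) hw'.le))]
  simp

include h0 h1 in
theorem plat_eq_zero (lo hi w : ℚ) (hw : 0 < w) (hlh : lo ≤ hi) (x : ℝ)
    (hx : ¬ ((lo : ℝ) - w ≤ x ∧ x ≤ (hi : ℝ) + w)) : plat lo hi w x = 0 := by
  have hw' : (0 : ℝ) < w := by exact_mod_cast hw
  have hlh' : (lo : ℝ) ≤ hi := by exact_mod_cast hlh
  unfold plat
  rw [not_and_or, not_le, not_le] at hx
  rcases hx with hx | hx
  · have e1 : (x - lo) / w + 1 ≤ 0 := by
      have : (x - lo) / w ≤ -1 := by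
        rw [div_le_iff₀ hw']; linarith
      linarith
    have e2 : (x - hi) / w ≤ 0 :=
      div_nonpos_of_nonpos_of_nonneg (by linarith) hw'.le
    rw [h0 _ e1, h0 _ e2]; ring
  · have e1 : 1 ≤ (x - lo) / w + 1 := by
      have := div_nonneg (by linarith : (0 : ℝ) ≤ x - lo) hw'.le
      linarith
    have e2 : 1 ≤ (x - hi) / w := by
      rw [le_div_iff₀ hw']; linarith
    rw [h1 _ e1, h1 _ e2]; ring

include h' in
theorem plat'_eq_zero_off (lo hi w : ℚ) (hw : 0 < w) (hlh : lo ≤ hi) (x : ℝ)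
    (hx : ¬ ((lo : ℝ) - w ≤ x ∧ x ≤ (hi : ℝ) + w)) : plat' lo hi w x = 0 := by
  have hw' : (0 : ℝ) < w := by exact_mod_cast hw
  have hlh' : (lo : ℝ) ≤ hi := by exact_mod_cast hlh
  unfold plat'
  rw [not_and_or, not_le, not_le] at hx
  rcases hx with hx | hx
  · have e1 : (x - lo) / w + 1 ≤ 0 := by
      have : (x - lo) / w ≤ -1 := by
        rw [div_le_iff₀ hw']; linarith
      linarith
    have e2 : (x - hi) / w ≤ 0 :=
      div_nonpos_of_nonpos_of_nonneg (by linarith) hw'.le
    rw [h' _ (Or.inl e1), h' _ (Or.inl e2)]; simp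
  · have e1 : 1 ≤ (x - lo) / w + 1 := by
      have := div_nonneg (by linarith : (0 : ℝ) ≤ x - lo) hw'.le
      linarith
    have e2 : 1 ≤ (x - hi) / w := by
      rw [le_div_iff₀ hw']; linarith
    rw [h' _ (Or.inr e1), h' _ (Or.inr e2)]; simp

include h0 h1 h' in
/-- On the core the stage field is the model velocity. -/
theorem field_eq_vel (s : Stage) (hs : s.Valid) (x : Sp) (hx : x ∈ s.core) :
    s.field x = s.vel x := by
  obtain ⟨hij, hw, hlh⟩ := hs
  have hji : ¬ s.j = s.i := fun h => hij h.symm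
  have hp : ∀ m, plat (s.lo m) (s.hi m) s.w (x m) = 1 := fun m =>
    plat_eq_one h0 h1 _ _ _ hw _ (hx m).1 (hx m).2
  have hp' : ∀ m, plat' (s.lo m) (s.hi m) s.w (x m) = 0 := fun m =>
    plat'_eq_zero h' _ _ _ hw _ (hx m).1 (hx m).2
  have hthird : s.third x = 1 := by
    unfold Stage.third
    exact Finset.prod_eq_one (fun m _ => hp m)
  funext m
  unfold Stage.field Stage.vel
  by_cases hmi : m = s.i
  · rw [hmi, if_pos rfl, if_pos rfl, hp, hp', hp, hthird]; ring
  · by_cases hmj : m = s.j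
    · rw [hmj, if_neg hji, if_pos rfl, if_neg hji, hp']; ring
    · rw [if_neg hmi, if_neg hmj, if_neg hmi]

include h0 h1 h' in
/-- Off the support box the stage field vanishes. -/
theorem field_eq_zero (s : Stage) (hs : s.Valid) (x : Sp) (hx : x ∉ s.supp) :
    s.field x = 0 := by
  obtain ⟨hij, hw, hlh⟩ := hs
  have hji : ¬ s.j = s.i := fun h => hij h.symm
  have hx' : ∃ m, ¬ ((s.lo m : ℝ) - s.w ≤ x m ∧ x m ≤ (s.hi m : ℝ) + s.w) := by
    by_contra hcon
    rw [not_exists] at hcon
    exact hx (fun m => not_not.mp (hcon m))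
  obtain ⟨m₀, hm₀⟩ := hx'
  have hp : plat (s.lo m₀) (s.hi m₀) s.w (x m₀) = 0 :=
    plat_eq_zero h0 h1 _ _ _ hw (hlh m₀) _ hm₀
  have hp' : plat' (s.lo m₀) (s.hi m₀) s.w (x m₀) = 0 :=
    plat'_eq_zero_off h' _ _ _ hw (hlh m₀) _ hm₀
  -- the three scalar factors
  have key : (plat (s.lo s.i) (s.hi s.i) s.w (x s.i) * s.third x *
        (plat' (s.lo s.j) (s.hi s.j) s.w (x s.j) * s.g (x s.j) +
          plat (s.lo s.j) (s.hi s.j) s.w (x s.j) * s.g' (x s.j)) = 0) ∧
      (plat' (s.lo s.i) (s.hi s.i) s.w (x s.i) * s.third x *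
        (plat (s.lo s.j) (s.hi s.j) s.w (x s.j) * s.g (x s.j)) = 0) := by
    by_cases h1m : m₀ = s.i
    · rw [h1m] at hp hp'
      rw [hp, hp']; simp
    · by_cases h2m : m₀ = s.j
      · rw [h2m] at hp hp'
        rw [hp, hp']; simp
      · have hthird : s.third x = 0 := by
          unfold Stage.third
          exact Finset.prod_eq_zero (i := m₀) (by simp [h1m, h2m]) hp
        rw [hthird]; simp
  funext m
  unfold Stage.field
  by_cases hmi : m = s.i
  · rw [hmi, if_pos rfl, key.1]; rfl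
  · by_cases hmj : m = s.j
    · rw [hmj, if_neg hji, if_pos rfl, key.2]; simp
    · rw [if_neg hmi, if_neg hmj]; rfl

end field

/-! ### Smoothness, compact support, Lipschitz -/

section smooth

variable {n : WithTop ℕ∞} (hsg : ContDiff ℝ n sg) (hsg' : ContDiff ℝ n sg')

include hsg in
theorem contDiff_plat (lo hi w : ℚ) : ContDiff ℝ n (plat lo hi w) := by
  unfold plat
  have e1 : ContDiff ℝ n (fun x : ℝ => (x - (lo : ℝ)) / (w : ℝ) + 1) :=
    ((contDiff_id.sub contDiff_const).div_const _).add contDiff_const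
  have e2 : ContDiff ℝ n (fun x : ℝ => (x - (hi : ℝ)) / (w : ℝ)) :=
    (contDiff_id.sub contDiff_const).div_const _
  exact (hsg.comp e1).sub (hsg.comp e2)

include hsg' in
theorem contDiff_plat' (lo hi w : ℚ) : ContDiff ℝ n (plat' lo hi w) := by
  unfold plat'
  have e1 : ContDiff ℝ n (fun x : ℝ => (x - (lo : ℝ)) / (w : ℝ) + 1) :=
    ((contDiff_id.sub contDiff_const).div_const _).add contDiff_const
  have e2 : ContDiff ℝ n (fun x : ℝ => (x - (hi : ℝ)) / (w : ℝ)) :=
    (contDiff_id.sub contDiff_const).div_const _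
  exact ((hsg'.comp e1).sub (hsg'.comp e2)).div_const _

theorem contDiff_coord (m : Fin 3) : ContDiff ℝ n (fun x : Sp => x m) :=
  contDiff_apply ℝ ℝ m

include hsg hsg' in
/-- The stage field is as smooth as `sg` and `sg'`. -/
theorem contDiff_field (s : Stage) : ContDiff ℝ n s.field := by
  have hpl : ∀ m m' : Fin 3, ContDiff ℝ n
      (fun x : Sp => plat (s.lo m) (s.hi m) s.w (x m')) := fun m m' =>
    (contDiff_plat hsg _ _ _).comp (contDiff_coord m')
  have hpl' : ∀ m m' : Fin 3, ContDiff ℝ n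
      (fun x : Sp => plat' (s.lo m) (s.hi m) s.w (x m')) := fun m m' =>
    (contDiff_plat' hsg' _ _ _).comp (contDiff_coord m')
  have hthird : ContDiff ℝ n s.third := by
    unfold Stage.third
    exact contDiff_prod (fun m _ => hpl m m)
  have hg : ContDiff ℝ n (fun x : Sp => s.g (x s.j)) := by
    unfold Stage.g
    exact (contDiff_const.mul ((contDiff_coord s.j).sub contDiff_const)).add
      (contDiff_const.mul (((contDiff_coord s.j).sub contDiff_const).pow 2))
  have hg' : ContDiff ℝ n (fun x : Sp => s.g' (x s.j)) := by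
    unfold Stage.g'
    exact contDiff_const.add (contDiff_const.mul ((contDiff_coord s.j).sub contDiff_const))
  have hA : ContDiff ℝ n (fun x : Sp =>
      plat (s.lo s.i) (s.hi s.i) s.w (x s.i) * s.third x *
        (plat' (s.lo s.j) (s.hi s.j) s.w (x s.j) * s.g (x s.j) +
          plat (s.lo s.j) (s.hi s.j) s.w (x s.j) * s.g' (x s.j))) :=
    ((hpl s.i s.i).mul hthird).mul (((hpl' s.j s.j).mul hg).add ((hpl s.j s.j).mul hg'))
  have hB : ContDiff ℝ n (fun x : Sp =>
      -(plat' (s.lo s.i) (s.hi s.i) s.w (x s.i) * s.third x *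
        (plat (s.lo s.j) (s.hi s.j) s.w (x s.j) * s.g (x s.j)))) :=
    (((hpl' s.i s.i).mul hthird).mul ((hpl s.j s.j).mul hg)).neg
  rw [contDiff_pi]
  intro m
  unfold Stage.field
  by_cases hmi : m = s.i
  · simp only [if_pos hmi]; exact hA
  · by_cases hmj : m = s.j
    · simp only [if_neg hmi, if_pos hmj]; exact hB
    · simp only [if_neg hmi, if_neg hmj]; exact contDiff_const

theorem isCompact_supp (s : Stage) : IsCompact s.supp := by
  have e : s.supp = Set.pi Set.univ
      (fun m : Fin 3 => Set.Icc ((s.lo m : ℝ) - s.w) ((s.hi m : ℝ) + s.w)) := by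
    ext x
    constructor
    · intro hx m _
      exact hx m
    · intro hx m
      exact hx m (Set.mem_univ m)
  rw [e]
  exact isCompact_univ_pi (fun m => isCompact_Icc)

theorem hasCompactSupport_field (s : Stage) (hz : ∀ x, x ∉ s.supp → s.field x = 0) :
    HasCompactSupport s.field := by
  apply HasCompactSupport.of_support_subset_isCompact (isCompact_supp s)
  intro x hx
  by_contra hcon
  exact hx (hz x hcon)

end smooth

/-- (F-stage), generic in the step function: uses only that `sg` is `0` on `(-∞, 0]`, `1` on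
`[1, ∞)`, that `sg'` vanishes outside `(0, 1)`, and that both are `C¹`. -/
theorem realizes_of_flow_of_sg (h0 : ∀ u : ℝ, u ≤ 0 → sg u = 0) (h1 : ∀ u : ℝ, 1 ≤ u → sg u = 1)
    (h' : ∀ u : ℝ, u ≤ 0 ∨ 1 ≤ u → sg' u = 0) (hsg : ContDiff ℝ 1 sg) (hsg' : ContDiff ℝ 1 sg')
    (s : Stage) (hs : s.Valid) (psi : ℝ → Sp → Sp) (hpsi0 : ∀ x, psi 0 x = x)
    (hd : ∀ σ x, HasDerivAt (fun τ => psi τ x) (s.field (psi σ x)) σ) : s.Realizes (psi 1) := by
  have hz : ∀ x, x ∉ s.supp → s.field x = 0 := fun x hx => field_eq_zero h0 h1 h' s hs x hx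
  obtain ⟨C, hC⟩ := (contDiff_field hsg hsg' s).lipschitzWith_of_hasCompactSupport
    (hasCompactSupport_field s hz) one_ne_zero
  exact realizes_of_flow_aux s hs.1 C hC (fun x hx => field_eq_vel h0 h1 h' s hs x hx) hz psi
    hpsi0 hd

/-! ### The step facts for the actual `sg` (Fabius step) -/

theorem sg_of_nonpos {u : ℝ} (h : u ≤ 0) : sg u = 0 := Lib_S0170_Fabius.psi_of_nonpos h

theorem sg_of_one_le {u : ℝ} (h : 1 ≤ u) : sg u = 1 := Lib_S0170_Fabius.psi_of_one_le h

theorem sg'_eq_zero {u : ℝ} (h : u ≤ 0 ∨ 1 ≤ u) : sg' u = 0 := by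
  unfold sg'
  rcases h with h | h
  · rw [sg_of_nonpos (by linarith), sg_of_nonpos (by linarith)]; ring
  · rw [sg_of_one_le (by linarith), sg_of_one_le (by linarith)]; ring

theorem contDiff_sg {n : WithTop ℕ∞} (hn : n ≤ (⊤ : ℕ∞)) : ContDiff ℝ n sg :=
  Lib_S0170_Fabius.psi_contDiff.of_le hn

theorem contDiff_sg' {n : WithTop ℕ∞} (hn : n ≤ (⊤ : ℕ∞)) : ContDiff ℝ n sg' := by
  unfold sg'
  have e1 : ContDiff ℝ n (fun u : ℝ => 2 * u) := contDiff_const.mul contDiff_id
  have e2 : ContDiff ℝ n (fun u : ℝ => 2 * u - 1) := e1.sub contDiff_const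
  exact (contDiff_const.mul ((contDiff_sg hn).comp e1)).sub
    (contDiff_const.mul ((contDiff_sg hn).comp e2))

/-- **(F-stage)**: the time-one map of any global flow of the stage field realizes the stage. -/
theorem realizes_of_flow (s : Stage) (hs : s.Valid) (psi : ℝ → Sp → Sp)
    (h0 : ∀ x, psi 0 x = x)
    (hd : ∀ σ x, HasDerivAt (fun τ => psi τ x) (s.field (psi σ x)) σ) : s.Realizes (psi 1) :=
  realizes_of_flow_of_sg (fun _ h => sg_of_nonpos h) (fun _ h => sg_of_one_le h)
    (fun _ h => sg'_eq_zero h) (contDiff_sg (by exact_mod_cast le_top))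
    (contDiff_sg' (by exact_mod_cast le_top)) s hs psi h0 hd

/-- The stage field is smooth. -/
theorem contDiff_stage_field (s : Stage) : ContDiff ℝ (⊤ : ℕ∞) s.field :=
  contDiff_field (contDiff_sg le_rfl) (contDiff_sg' le_rfl) s

/-- On the core the stage field is the model velocity. -/
theorem stage_field_eq_vel (s : Stage) (hs : s.Valid) (x : Sp) (hx : x ∈ s.core) :
    s.field x = s.vel x :=
  field_eq_vel (fun _ h => sg_of_nonpos h) (fun _ h => sg_of_one_le h)
    (fun _ h => sg'_eq_zero h) s hs x hx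

/-- Off the support box the stage field vanishes. -/
theorem stage_field_eq_zero (s : Stage) (hs : s.Valid) (x : Sp) (hx : x ∉ s.supp) :
    s.field x = 0 :=
  field_eq_zero (fun _ h => sg_of_nonpos h) (fun _ h => sg_of_one_le h)
    (fun _ h => sg'_eq_zero h) s hs x hx

/-- The stage field has compact support. -/
theorem hasCompactSupport_stage_field (s : Stage) (hs : s.Valid) : HasCompactSupport s.field :=
  hasCompactSupport_field s (fun x hx => stage_field_eq_zero s hs x hx)

end Crest.Agent.Lib_S0170_FStage
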