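import Mathlib
import Crest.Prelude.Def_BoxFlow

/-!
# S0170, package E: global flows of smooth compactly supported velocity fields

For a `C¹` compactly supported time-dependent field `U` on three-space:

* `exists_flow` : a global flow `Φ` with `IsFlow U Φ` exists (Picard–Lindelöf on `[-T, T]` for
  every `T`, patched by uniqueness);
* `flow_unique` : any curve solving the differential equation on `[t₀, t₁]` (right derivatives
  suffice) and starting on a flow line at time `t₀` stays on that flow line;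
* corollaries `flow_eq_of_hasDerivAt`, `flow_const_of_zero`, `flow_eq_self_of_zero`.
-/

set_option autoImplicit false
open Set Metric
open scoped NNReal Topology ContDiff
open Crest.AnalysisR.BoxFlow

namespace Crest.Agent.Lib_S0170_Flow

/-- A continuous compactly supported field is bounded. -/
theorem exists_bound (U : Field) (hU : Continuous U) (hc : HasCompactSupport U) :
    ∃ M : ℝ≥0, ∀ p, ‖U p‖ ≤ M := by
  obtain ⟨C, hC⟩ := hU.bounded_above_of_compact_support hc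
  exact ⟨⟨max C 0, le_max_right _ _⟩, fun p => (hC p).trans (le_max_left _ _)⟩

/-- A `C¹` compactly supported field is Lipschitz in the space variable, uniformly in time. -/
theorem exists_lipschitz (U : Field) (hU : ContDiff ℝ 1 U) (hc : HasCompactSupport U) :
    ∃ K : ℝ≥0, ∀ t : ℝ, LipschitzWith K (fun x : Fin 3 → ℝ => U (t, x)) := by
  obtain ⟨K, hK⟩ := hU.lipschitzWith_of_hasCompactSupport hc one_ne_zero
  refine ⟨K, fun t => ?_⟩
  have h2 : LipschitzWith 1 (fun x : Fin 3 → ℝ => ((t, x) : ℝ × (Fin 3 → ℝ))) :=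
    LipschitzWith.prodMk_left t
  have h3 := hK.comp h2
  rw [mul_one] at h3
  exact h3

/-- Solutions on every symmetric compact time interval. -/
theorem exists_local (U : Field) (hU : ContDiff ℝ 1 U) (hc : HasCompactSupport U)
    (x₀ : Fin 3 → ℝ) (T : ℝ) (hT : 0 < T) :
    ∃ α : ℝ → (Fin 3 → ℝ), α 0 = x₀ ∧
      ∀ t ∈ Icc (-T) T, HasDerivWithinAt α (U (t, α t)) (Icc (-T) T) t := by
  obtain ⟨M, hM⟩ := exists_bound U hU.continuous hc
  obtain ⟨K, hK⟩ := exists_lipschitz U hU hc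
  have h0 : (0 : ℝ) ∈ Icc (-T) T := ⟨by linarith, hT.le⟩
  have hPL : IsPicardLindelof (fun t x => U (t, x)) (⟨0, h0⟩ : Icc (-T) T) x₀
      (M * ⟨T, hT.le⟩) 0 M K :=
    { lipschitzOnWith := fun t _ => (hK t).lipschitzOnWith
      continuousOn := fun x _ => (hU.continuous.comp (by fun_prop)).continuousOn
      norm_le := fun t _ x _ => hM (t, x)
      mul_max_le := by
        have e : ((M * ⟨T, hT.le⟩ : ℝ≥0) : ℝ) = M * T := rfl
        simp [e] }
  obtain ⟨α, hα0, hα⟩ := hPL.exists_eq_forall_mem_Icc_hasDerivWithinAt₀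
  exact ⟨α, by simpa using hα0, hα⟩

/-- **Global existence of the flow.** -/
theorem exists_flow (U : Field) (hU : ContDiff ℝ 1 U) (hc : HasCompactSupport U) :
    ∃ Φ : ℝ → (Fin 3 → ℝ) → (Fin 3 → ℝ), IsFlow U Φ := by
  obtain ⟨K, hK⟩ := exists_lipschitz U hU hc
  choose α hα0 hα using fun (x : Fin 3 → ℝ) (T : {T : ℝ // 0 < T}) =>
    exists_local U hU hc x T.1 T.2
  -- solutions on nested intervals agree
  have hcons : ∀ (x : Fin 3 → ℝ) (T T' : {T : ℝ // 0 < T}), T.1 ≤ T'.1 →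
      EqOn (α x T) (α x T') (Icc (-T.1) T.1) := by
    intro x T T' hTT'
    have hsub : Icc (-T.1) T.1 ⊆ Icc (-T'.1) T'.1 := Icc_subset_Icc (by linarith) hTT'
    have hsubo : Ioo (-T.1) T.1 ⊆ Ioo (-T'.1) T'.1 := Ioo_subset_Ioo (by linarith) hTT'
    refine ODE_solution_unique_of_mem_Icc (v := fun t x => U (t, x)) (s := fun _ => univ)
      (K := K) (t₀ := 0) (fun t _ => (hK t).lipschitzOnWith) ⟨by linarith [T.2], T.2⟩
      (fun t ht => (hα x T t ht).continuousWithinAt)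
      (fun t ht => (hα x T t (Ioo_subset_Icc_self ht)).hasDerivAt (Icc_mem_nhds ht.1 ht.2))
      (fun _ _ => trivial)
      (fun t ht => ((hα x T' t (hsub ht)).continuousWithinAt).mono hsub)
      (fun t ht => (hα x T' t (Ioo_subset_Icc_self (hsubo ht))).hasDerivAt
        (Icc_mem_nhds (hsubo ht).1 (hsubo ht).2))
      (fun _ _ => trivial) ?_
    rw [hα0, hα0]
  refine ⟨fun t x => α x ⟨|t| + 1, by positivity⟩ t, fun x => hα0 x _, fun t x => ?_⟩
  set T : {T : ℝ // 0 < T} := ⟨|t| + 2, by positivity⟩ with hTdef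
  have hT1 : T.1 = |t| + 2 := rfl
  have hev : (fun s => α x ⟨|s| + 1, by positivity⟩ s) =ᶠ[𝓝 t] α x T := by
    have hnhds : Ioo (t - 1) (t + 1) ∈ 𝓝 t := Ioo_mem_nhds (by linarith) (by linarith)
    filter_upwards [hnhds] with s hs
    have hs1 : |s| ≤ |t| + 1 := by
      have h1 : |s - t| < 1 := by rw [abs_lt]; constructor <;> linarith [hs.1, hs.2]
      have h2 : |s| ≤ |s - t| + |t| := by
        have := abs_add_le (s - t) t
        simpa using this
      linarith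
    refine hcons x ⟨|s| + 1, by positivity⟩ T ?_ ⟨?_, ?_⟩
    · show |s| + 1 ≤ |t| + 2
      linarith
    · show -(|s| + 1) ≤ s
      linarith [neg_abs_le s]
    · show s ≤ |s| + 1
      linarith [le_abs_self s]
  have htT : t ∈ Ioo (-T.1) T.1 := by
    rw [hT1]
    constructor
    · linarith [neg_abs_le t]
    · linarith [le_abs_self t]
  have hd : HasDerivAt (α x T) (U (t, α x T t)) t :=
    (hα x T t (Ioo_subset_Icc_self htT)).hasDerivAt (Icc_mem_nhds htT.1 htT.2)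
  have hval : α x ⟨|t| + 1, by positivity⟩ t = α x T t := hev.self_of_nhds
  show HasDerivAt (fun s => α x ⟨|s| + 1, by positivity⟩ s) (U (t, α x ⟨|t| + 1, by positivity⟩ t)) t
  rw [hval]
  exact hd.congr_of_eventuallyEq hev

/-- **Uniqueness.** A curve `γ` that solves the differential equation on `[t₀, t₁]`
(continuous, with right derivatives) and satisfies `γ t₀ = Φ t₀ x` coincides with the flow line
`t ↦ Φ t x` on `[t₀, t₁]`. -/
theorem flow_unique (U : Field) (hU : ContDiff ℝ 1 U) (hc : HasCompactSupport U)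
    (Φ : ℝ → (Fin 3 → ℝ) → (Fin 3 → ℝ)) (hΦ : IsFlow U Φ) (γ : ℝ → Fin 3 → ℝ) (t₀ t₁ : ℝ)
    (x : Fin 3 → ℝ) (h0 : γ t₀ = Φ t₀ x) (hγc : ContinuousOn γ (Icc t₀ t₁))
    (hγ : ∀ t ∈ Ico t₀ t₁, HasDerivWithinAt γ (U (t, γ t)) (Ici t) t) :
    ∀ t ∈ Icc t₀ t₁, γ t = Φ t x := by
  obtain ⟨K, hK⟩ := exists_lipschitz U hU hc
  exact ODE_solution_unique (v := fun t x => U (t, x)) (f := γ) (g := fun s => Φ s x) hK hγc hγ
    (fun t _ => (hΦ.2 t x).continuousAt.continuousWithinAt)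
    (fun t _ => (hΦ.2 t x).hasDerivWithinAt) h0

/-- Uniqueness, version with two-sided derivatives on the closed interval. -/
theorem flow_unique' (U : Field) (hU : ContDiff ℝ 1 U) (hc : HasCompactSupport U)
    (Φ : ℝ → (Fin 3 → ℝ) → (Fin 3 → ℝ)) (hΦ : IsFlow U Φ) (γ : ℝ → Fin 3 → ℝ) (t₀ t₁ : ℝ)
    (x : Fin 3 → ℝ) (h0 : γ t₀ = Φ t₀ x)
    (hγ : ∀ t ∈ Icc t₀ t₁, HasDerivAt γ (U (t, γ t)) t) :
    ∀ t ∈ Icc t₀ t₁, γ t = Φ t x :=
  flow_unique U hU hc Φ hΦ γ t₀ t₁ x h0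
    (fun t ht => (hγ t ht).continuousAt.continuousWithinAt)
    (fun t ht => (hγ t (Ico_subset_Icc_self ht)).hasDerivWithinAt)

/-- A global solution starting at `x` at time `0` is the flow line of `x`. -/
theorem flow_eq_of_hasDerivAt (U : Field) (hU : ContDiff ℝ 1 U) (hc : HasCompactSupport U)
    (Φ : ℝ → (Fin 3 → ℝ) → (Fin 3 → ℝ)) (hΦ : IsFlow U Φ) (γ : ℝ → Fin 3 → ℝ)
    (x : Fin 3 → ℝ) (h0 : γ 0 = x) (hγ : ∀ t, HasDerivAt γ (U (t, γ t)) t) :
    ∀ t, γ t = Φ t x := by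
  obtain ⟨K, hK⟩ := exists_lipschitz U hU hc
  have := ODE_solution_unique_univ (v := fun t x => U (t, x)) (s := fun _ => univ) (K := K)
    (f := γ) (g := fun s => Φ s x) (t₀ := 0) (fun t => (hK t).lipschitzOnWith)
    (fun t => ⟨hγ t, trivial⟩) (fun t => ⟨hΦ.2 t x, trivial⟩) (by rw [h0, hΦ.1 x])
  intro t
  exact congrFun this t

/-- Where the field vanishes identically in time, the flow lines do not move. -/
theorem flow_const_of_zero (U : Field) (hU : ContDiff ℝ 1 U) (hc : HasCompactSupport U)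
    (Φ : ℝ → (Fin 3 → ℝ) → (Fin 3 → ℝ)) (hΦ : IsFlow U Φ) (t₀ t₁ : ℝ)
    (hz : ∀ t ∈ Ico t₀ t₁, ∀ y, U (t, y) = 0) (x : Fin 3 → ℝ) :
    ∀ t ∈ Icc t₀ t₁, Φ t x = Φ t₀ x := by
  intro t ht
  have := flow_unique U hU hc Φ hΦ (fun _ => Φ t₀ x) t₀ t₁ x rfl continuousOn_const
    (fun s hs => by
      rw [hz s hs]
      exact hasDerivWithinAt_const _ _ _) t ht
  exact this.symm

/-- If the field vanishes for times in `[0, t₁)`, the flow is the identity up to time `t₁`. -/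
theorem flow_eq_self_of_zero (U : Field) (hU : ContDiff ℝ 1 U) (hc : HasCompactSupport U)
    (Φ : ℝ → (Fin 3 → ℝ) → (Fin 3 → ℝ)) (hΦ : IsFlow U Φ) (t₁ : ℝ)
    (hz : ∀ t ∈ Ico 0 t₁, ∀ y, U (t, y) = 0) (x : Fin 3 → ℝ) :
    ∀ t ∈ Icc 0 t₁, Φ t x = x := by
  intro t ht
  rw [flow_const_of_zero U hU hc Φ hΦ 0 t₁ hz x t ht, hΦ.1 x]

/-! ### General (time-dependent, bounded, Lipschitz) and autonomous versions -/

/-- Solutions on every symmetric compact time interval, for a bounded time-dependent field that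
is Lipschitz in space (uniformly in time) and continuous in time. -/
theorem exists_local_of_bounded (v : ℝ → (Fin 3 → ℝ) → (Fin 3 → ℝ)) (K M : ℝ≥0)
    (hK : ∀ t, LipschitzWith K (v t)) (hM : ∀ t x, ‖v t x‖ ≤ M)
    (hcont : ∀ x, Continuous fun t => v t x) (x₀ : Fin 3 → ℝ) (T : ℝ) (hT : 0 < T) :
    ∃ α : ℝ → (Fin 3 → ℝ), α 0 = x₀ ∧
      ∀ t ∈ Icc (-T) T, HasDerivWithinAt α (v t (α t)) (Icc (-T) T) t := by
  have h0 : (0 : ℝ) ∈ Icc (-T) T := ⟨by linarith, hT.le⟩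
  have hPL : IsPicardLindelof v (⟨0, h0⟩ : Icc (-T) T) x₀ (M * ⟨T, hT.le⟩) 0 M K :=
    { lipschitzOnWith := fun t _ => (hK t).lipschitzOnWith
      continuousOn := fun x _ => (hcont x).continuousOn
      norm_le := fun t _ x _ => hM t x
      mul_max_le := by
        have e : ((M * ⟨T, hT.le⟩ : ℝ≥0) : ℝ) = M * T := rfl
        simp [e] }
  obtain ⟨α, hα0, hα⟩ := hPL.exists_eq_forall_mem_Icc_hasDerivWithinAt₀
  exact ⟨α, by simpa using hα0, hα⟩

/-- **Global flow** of a bounded time-dependent field, Lipschitz in space and continuous in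
time. -/
theorem exists_global_flow_of_bounded (v : ℝ → (Fin 3 → ℝ) → (Fin 3 → ℝ)) (K M : ℝ≥0)
    (hK : ∀ t, LipschitzWith K (v t)) (hM : ∀ t x, ‖v t x‖ ≤ M)
    (hcont : ∀ x, Continuous fun t => v t x) :
    ∃ Φ : ℝ → (Fin 3 → ℝ) → (Fin 3 → ℝ), (∀ x, Φ 0 x = x) ∧
      ∀ t x, HasDerivAt (fun s => Φ s x) (v t (Φ t x)) t := by
  choose α hα0 hα using fun (x : Fin 3 → ℝ) (T : {T : ℝ // 0 < T}) =>
    exists_local_of_bounded v K M hK hM hcont x T.1 T.2
  have hcons : ∀ (x : Fin 3 → ℝ) (T T' : {T : ℝ // 0 < T}), T.1 ≤ T'.1 →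
      EqOn (α x T) (α x T') (Icc (-T.1) T.1) := by
    intro x T T' hTT'
    have hsub : Icc (-T.1) T.1 ⊆ Icc (-T'.1) T'.1 := Icc_subset_Icc (by linarith) hTT'
    have hsubo : Ioo (-T.1) T.1 ⊆ Ioo (-T'.1) T'.1 := Ioo_subset_Ioo (by linarith) hTT'
    refine ODE_solution_unique_of_mem_Icc (v := v) (s := fun _ => univ)
      (K := K) (t₀ := 0) (fun t _ => (hK t).lipschitzOnWith) ⟨by linarith [T.2], T.2⟩
      (fun t ht => (hα x T t ht).continuousWithinAt)
      (fun t ht => (hα x T t (Ioo_subset_Icc_self ht)).hasDerivAt (Icc_mem_nhds ht.1 ht.2))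
      (fun _ _ => trivial)
      (fun t ht => ((hα x T' t (hsub ht)).continuousWithinAt).mono hsub)
      (fun t ht => (hα x T' t (Ioo_subset_Icc_self (hsubo ht))).hasDerivAt
        (Icc_mem_nhds (hsubo ht).1 (hsubo ht).2))
      (fun _ _ => trivial) ?_
    rw [hα0, hα0]
  refine ⟨fun t x => α x ⟨|t| + 1, by positivity⟩ t, fun x => hα0 x _, fun t x => ?_⟩
  set T : {T : ℝ // 0 < T} := ⟨|t| + 2, by positivity⟩ with hTdef
  have hT1 : T.1 = |t| + 2 := rfl
  have hev : (fun s => α x ⟨|s| + 1, by positivity⟩ s) =ᶠ[𝓝 t] α x T := by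
    have hnhds : Ioo (t - 1) (t + 1) ∈ 𝓝 t := Ioo_mem_nhds (by linarith) (by linarith)
    filter_upwards [hnhds] with s hs
    have hs1 : |s| ≤ |t| + 1 := by
      have h1 : |s - t| < 1 := by rw [abs_lt]; constructor <;> linarith [hs.1, hs.2]
      have h2 : |s| ≤ |s - t| + |t| := by
        have := abs_add_le (s - t) t
        simpa using this
      linarith
    refine hcons x ⟨|s| + 1, by positivity⟩ T ?_ ⟨?_, ?_⟩
    · show |s| + 1 ≤ |t| + 2
      linarith
    · show -(|s| + 1) ≤ s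
      linarith [neg_abs_le s]
    · show s ≤ |s| + 1
      linarith [le_abs_self s]
  have htT : t ∈ Ioo (-T.1) T.1 := by
    rw [hT1]
    constructor
    · linarith [neg_abs_le t]
    · linarith [le_abs_self t]
  have hd : HasDerivAt (α x T) (v t (α x T t)) t :=
    (hα x T t (Ioo_subset_Icc_self htT)).hasDerivAt (Icc_mem_nhds htT.1 htT.2)
  have hval : α x ⟨|t| + 1, by positivity⟩ t = α x T t := hev.self_of_nhds
  show HasDerivAt (fun s => α x ⟨|s| + 1, by positivity⟩ s) (v t (α x ⟨|t| + 1, by positivity⟩ t)) t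
  rw [hval]
  exact hd.congr_of_eventuallyEq hev

/-- **Global flow of an autonomous bounded Lipschitz field** `W`. -/
theorem exists_global_flow (W : (Fin 3 → ℝ) → (Fin 3 → ℝ)) (C M : ℝ≥0) (hW : LipschitzWith C W)
    (hM : ∀ x, ‖W x‖ ≤ M) :
    ∃ psi : ℝ → (Fin 3 → ℝ) → (Fin 3 → ℝ), (∀ x, psi 0 x = x) ∧
      ∀ s x, HasDerivAt (fun τ => psi τ x) (W (psi s x)) s :=
  exists_global_flow_of_bounded (fun _ => W) C M (fun _ => hW) (fun _ x => hM x)
    (fun _ => continuous_const)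

/-- Global flow of an autonomous `C¹` compactly supported field. -/
theorem exists_global_flow_of_contDiff (W : (Fin 3 → ℝ) → (Fin 3 → ℝ)) (hW : ContDiff ℝ 1 W)
    (hc : HasCompactSupport W) :
    ∃ psi : ℝ → (Fin 3 → ℝ) → (Fin 3 → ℝ), (∀ x, psi 0 x = x) ∧
      ∀ s x, HasDerivAt (fun τ => psi τ x) (W (psi s x)) s := by
  obtain ⟨C, hC⟩ := hW.lipschitzWith_of_hasCompactSupport hc one_ne_zero
  obtain ⟨B, hB⟩ := hW.continuous.bounded_above_of_compact_support hc
  exact exists_global_flow W C ⟨max B 0, le_max_right _ _⟩ hC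
    (fun x => (hB x).trans (le_max_left _ _))

/-- **Uniqueness for an autonomous Lipschitz field** (right derivatives on `[0, t₁)`): a curve
solving the equation and starting at `x` agrees with the flow line of `x` on `[0, t₁]`. -/
theorem autonomous_unique (W : (Fin 3 → ℝ) → (Fin 3 → ℝ)) (C : ℝ≥0) (hW : LipschitzWith C W)
    (psi : ℝ → (Fin 3 → ℝ) → (Fin 3 → ℝ)) (h0 : ∀ x, psi 0 x = x)
    (hd : ∀ s x, HasDerivAt (fun τ => psi τ x) (W (psi s x)) s)
    (γ : ℝ → Fin 3 → ℝ) (x : Fin 3 → ℝ) (h : γ 0 = x) (t₁ : ℝ)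
    (hγc : ContinuousOn γ (Icc 0 t₁))
    (hγ : ∀ τ ∈ Ico 0 t₁, HasDerivWithinAt γ (W (γ τ)) (Ici τ) τ) :
    ∀ τ ∈ Icc 0 t₁, γ τ = psi τ x :=
  ODE_solution_unique (v := fun _ => W) (f := γ) (g := fun s => psi s x) (fun _ => hW) hγc hγ
    (fun t _ => (hd t x).continuousAt.continuousWithinAt)
    (fun t _ => (hd t x).hasDerivWithinAt) (by rw [h, h0 x])

/-- Uniqueness for an autonomous Lipschitz field, global two-sided form. -/
theorem autonomous_unique_univ (W : (Fin 3 → ℝ) → (Fin 3 → ℝ)) (C : ℝ≥0) (hW : LipschitzWith C W)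
    (psi : ℝ → (Fin 3 → ℝ) → (Fin 3 → ℝ)) (h0 : ∀ x, psi 0 x = x)
    (hd : ∀ s x, HasDerivAt (fun τ => psi τ x) (W (psi s x)) s)
    (γ : ℝ → Fin 3 → ℝ) (x : Fin 3 → ℝ) (h : γ 0 = x)
    (hγ : ∀ τ, HasDerivAt γ (W (γ τ)) τ) : ∀ τ, γ τ = psi τ x := by
  have := ODE_solution_unique_univ (v := fun _ => W) (s := fun _ => univ) (K := C)
    (f := γ) (g := fun s => psi s x) (t₀ := 0) (fun _ => hW.lipschitzOnWith)
    (fun t => ⟨hγ t, trivial⟩) (fun t => ⟨hd t x, trivial⟩) (by rw [h, h0 x])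
  intro τ
  exact congrFun this τ

/-- Uniqueness for an autonomous Lipschitz field on `[0, 1]` with two-sided derivatives there. -/
theorem autonomous_unique_Icc (W : (Fin 3 → ℝ) → (Fin 3 → ℝ)) (C : ℝ≥0) (hW : LipschitzWith C W)
    (psi : ℝ → (Fin 3 → ℝ) → (Fin 3 → ℝ)) (h0 : ∀ x, psi 0 x = x)
    (hd : ∀ s x, HasDerivAt (fun τ => psi τ x) (W (psi s x)) s)
    (γ : ℝ → Fin 3 → ℝ) (x : Fin 3 → ℝ) (h : γ 0 = x)
    (hγ : ∀ τ ∈ Icc (0 : ℝ) 1, HasDerivAt γ (W (γ τ)) τ) : γ 1 = psi 1 x :=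
  autonomous_unique W C hW psi h0 hd γ x h 1
    (fun t ht => (hγ t ht).continuousAt.continuousWithinAt)
    (fun t ht => (hγ t (Ico_subset_Icc_self ht)).hasDerivWithinAt) 1 ⟨zero_le_one, le_rfl⟩

end Crest.Agent.Lib_S0170_Flow
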