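import Mathlib
import Crest.Agent.Lib_S0170_Defs
import Crest.Agent.Lib_S0170_Flow
import Crest.Agent.Lib_S0170_FAsm
import Crest.Agent.Lib_S0170_FStage

/-!
S0170, part [F]: the field of a valid list of stages has a flow whose time-one map is the
composition of maps realizing the stages (`exists_flow`, verbatim from `Lib_S0170_Plan`).
-/

set_option autoImplicit false

namespace Crest.Agent.Lib_S0170_F

open Crest.AnalysisR.BoxFlow Crest.Agent.Lib_S0170_Defs
open scoped ContDiff

/-! ### smoothness of the stage field -/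

theorem contDiff_sg : ContDiff ℝ ∞ sg := Lib_S0170_Fabius.psi_contDiff

theorem contDiff_sg' : ContDiff ℝ ∞ sg' := by
  have h1 : ContDiff ℝ ∞ (fun u : ℝ => sg (2 * u)) := contDiff_sg.comp (by fun_prop)
  have h2 : ContDiff ℝ ∞ (fun u : ℝ => sg (2 * u - 1)) := contDiff_sg.comp (by fun_prop)
  exact (contDiff_const.mul h1).sub (contDiff_const.mul h2)

theorem contDiff_plat (lo hi w : ℚ) : ContDiff ℝ ∞ (plat lo hi w) := by
  have h1 : ContDiff ℝ ∞ (fun x : ℝ => sg ((x - lo) / w + 1)) := contDiff_sg.comp (by fun_prop)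
  have h2 : ContDiff ℝ ∞ (fun x : ℝ => sg ((x - hi) / w)) := contDiff_sg.comp (by fun_prop)
  exact h1.sub h2

theorem contDiff_plat' (lo hi w : ℚ) : ContDiff ℝ ∞ (plat' lo hi w) := by
  have h1 : ContDiff ℝ ∞ (fun x : ℝ => sg' ((x - lo) / w + 1)) := contDiff_sg'.comp (by fun_prop)
  have h2 : ContDiff ℝ ∞ (fun x : ℝ => sg' ((x - hi) / w)) := contDiff_sg'.comp (by fun_prop)
  exact (h1.sub h2).div_const _

theorem contDiff_coord {f : ℝ → ℝ} (hf : ContDiff ℝ ∞ f) (m : Fin 3) :
    ContDiff ℝ ∞ (fun x : Sp => f (x m)) :=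
  hf.comp (contDiff_apply ℝ ℝ m)

theorem contDiff_g (s : Stage) : ContDiff ℝ ∞ s.g := by
  unfold Stage.g
  fun_prop

theorem contDiff_g' (s : Stage) : ContDiff ℝ ∞ s.g' := by
  unfold Stage.g'
  fun_prop

theorem contDiff_third (s : Stage) : ContDiff ℝ ∞ s.third := by
  unfold Stage.third
  exact contDiff_prod (fun m _ => contDiff_coord (contDiff_plat _ _ _) m)

theorem contDiff_field (s : Stage) : ContDiff ℝ ∞ s.field := by
  rw [contDiff_pi]
  intro m
  have hPi := contDiff_coord (contDiff_plat (s.lo s.i) (s.hi s.i) s.w) s.i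
  have hPi' := contDiff_coord (contDiff_plat' (s.lo s.i) (s.hi s.i) s.w) s.i
  have hPj := contDiff_coord (contDiff_plat (s.lo s.j) (s.hi s.j) s.w) s.j
  have hPj' := contDiff_coord (contDiff_plat' (s.lo s.j) (s.hi s.j) s.w) s.j
  have hg := contDiff_coord (contDiff_g s) s.j
  have hg' := contDiff_coord (contDiff_g' s) s.j
  have hT := contDiff_third s
  by_cases h1 : m = s.i
  · have : (fun x : Sp => s.field x m) = fun x : Sp =>
        plat (s.lo s.i) (s.hi s.i) s.w (x s.i) * s.third x *
          (plat' (s.lo s.j) (s.hi s.j) s.w (x s.j) * s.g (x s.j) +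
            plat (s.lo s.j) (s.hi s.j) s.w (x s.j) * s.g' (x s.j)) := by
      funext x
      simp only [Stage.field, if_pos h1]
    rw [this]
    exact (hPi.mul hT).mul ((hPj'.mul hg).add (hPj.mul hg'))
  · by_cases h2 : m = s.j
    · have : (fun x : Sp => s.field x m) = fun x : Sp =>
          -(plat' (s.lo s.i) (s.hi s.i) s.w (x s.i) * s.third x *
            (plat (s.lo s.j) (s.hi s.j) s.w (x s.j) * s.g (x s.j))) := by
        funext x
        simp only [Stage.field, if_neg h1, if_pos h2]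
      rw [this]
      exact ((hPi'.mul hT).mul (hPj.mul hg)).neg
    · have : (fun x : Sp => s.field x m) = fun _ : Sp => (0 : ℝ) := by
        funext x
        simp only [Stage.field, if_neg h1, if_neg h2]
      rw [this]
      exact contDiff_const

/-! ### support of the stage field -/

theorem plat_eq_zero {lo hi w : ℚ} (hw : 0 < w) (hlh : lo ≤ hi) {x : ℝ}
    (hx : x < (lo : ℝ) - w ∨ (hi : ℝ) + w < x) : plat lo hi w x = 0 := by
  have hw' : (0 : ℝ) < w := by exact_mod_cast hw
  have hlh' : (lo : ℝ) ≤ hi := by exact_mod_cast hlh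
  unfold plat
  rcases hx with hx | hx
  · have h1 : (x - lo) / w + 1 ≤ 0 := by
      have : (x - lo) / w ≤ -1 := by
        rw [div_le_iff₀ hw']; linarith
      linarith
    have h2 : (x - hi) / w ≤ 0 := by
      apply div_nonpos_of_nonpos_of_nonneg _ hw'.le; linarith
    rw [Lib_S0170_FAsm.sg_of_nonpos h1, Lib_S0170_FAsm.sg_of_nonpos h2, sub_zero]
  · have h2 : 1 ≤ (x - hi) / w := by
      rw [le_div_iff₀ hw']; linarith
    have h1 : 1 ≤ (x - lo) / w + 1 := by
      have : 0 ≤ (x - lo) / w := by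
        apply div_nonneg _ hw'.le; linarith
      linarith
    rw [Lib_S0170_FAsm.sg_of_one_le h1, Lib_S0170_FAsm.sg_of_one_le h2, sub_self]

theorem plat'_eq_zero {lo hi w : ℚ} (hw : 0 < w) (hlh : lo ≤ hi) {x : ℝ}
    (hx : x < (lo : ℝ) - w ∨ (hi : ℝ) + w < x) : plat' lo hi w x = 0 := by
  have hw' : (0 : ℝ) < w := by exact_mod_cast hw
  have hlh' : (lo : ℝ) ≤ hi := by exact_mod_cast hlh
  unfold plat'
  rcases hx with hx | hx
  · have h1 : (x - lo) / w + 1 ≤ 0 := by
      have : (x - lo) / w ≤ -1 := by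
        rw [div_le_iff₀ hw']; linarith
      linarith
    have h2 : (x - hi) / w ≤ 0 := by
      apply div_nonpos_of_nonpos_of_nonneg _ hw'.le; linarith
    rw [Lib_S0170_FAsm.sg'_of_nonpos h1, Lib_S0170_FAsm.sg'_of_nonpos h2, sub_zero, zero_div]
  · have h2 : 1 ≤ (x - hi) / w := by
      rw [le_div_iff₀ hw']; linarith
    have h1 : 1 ≤ (x - lo) / w + 1 := by
      have : 0 ≤ (x - lo) / w := by
        apply div_nonneg _ hw'.le; linarith
      linarith
    rw [Lib_S0170_FAsm.sg'_of_one_le h1, Lib_S0170_FAsm.sg'_of_one_le h2, sub_self, zero_div]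

theorem field_eq_zero_of_not_mem_supp (s : Stage) (hs : s.Valid) (x : Sp) (hx : x ∉ s.supp) :
    s.field x = 0 := by
  obtain ⟨hij, hw, hlh⟩ := hs
  have hx' : ∃ m, x m < (s.lo m : ℝ) - s.w ∨ (s.hi m : ℝ) + s.w < x m := by
    by_contra hcon
    apply hx
    intro m
    by_contra hm
    apply hcon
    refine ⟨m, ?_⟩
    rcases not_and_or.mp hm with h | h
    · exact Or.inl (not_le.mp h)
    · exact Or.inr (not_le.mp h)
  obtain ⟨m, hm⟩ := hx'
  have hP := plat_eq_zero hw (hlh m) hm
  have hP' := plat'_eq_zero hw (hlh m) hm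
  funext m'
  simp only [Stage.field, Pi.zero_apply]
  by_cases hmi : m = s.i
  · subst hmi
    simp [hP, hP']
  · by_cases hmj : m = s.j
    · subst hmj
      simp [hP, hP']
    · have hT : s.third x = 0 := by
        unfold Stage.third
        exact Finset.prod_eq_zero (i := m) (by simp [hmi, hmj]) hP
      simp [hT]

theorem isCompact_supp (s : Stage) : IsCompact s.supp := by
  have : s.supp = Set.Icc (fun m => (s.lo m : ℝ) - s.w) (fun m => (s.hi m : ℝ) + s.w) := by
    ext x
    constructor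
    · intro h
      exact ⟨fun m => (h m).1, fun m => (h m).2⟩
    · intro h m
      exact ⟨h.1 m, h.2 m⟩
  rw [this]
  exact isCompact_Icc

theorem hasCompactSupport_field (s : Stage) (hs : s.Valid) : HasCompactSupport s.field :=
  HasCompactSupport.intro (isCompact_supp s) (fun x hx => field_eq_zero_of_not_mem_supp s hs x hx)

/-! ### the flow -/

/-- `exists_flow`, given the stage lemma `realizes_of_flow` as a hypothesis. -/
theorem exists_flow_of_realizes
    (hreal : ∀ (s : Stage), s.Valid → ∀ psi : ℝ → Sp → Sp, (∀ x, psi 0 x = x) →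
      (∀ σ x, HasDerivAt (fun τ => psi τ x) (s.field (psi σ x)) σ) → s.Realizes (psi 1))
    (L : List Stage) (hL : ∀ s ∈ L, s.Valid) :
    ∃ (Φ : ℝ → Sp → Sp) (F : Fin L.length → Sp → Sp), IsFlow (fieldOf L) Φ ∧
      (∀ r, (L.get r).Realizes (F r)) ∧ ∀ x, Φ 1 x = runMaps F x := by
  have hv : ∀ r : Fin L.length, (L.get r).Valid := fun r => hL _ (List.get_mem L r)
  have hex : ∀ r : Fin L.length, ∃ psi : ℝ → Sp → Sp, (∀ x, psi 0 x = x) ∧
      ∀ s x, HasDerivAt (fun τ => psi τ x) ((L.get r).field (psi s x)) s := fun r =>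
    Lib_S0170_Flow.exists_global_flow_of_contDiff _
      ((contDiff_field (L.get r)).of_le (by exact_mod_cast le_top))
      (hasCompactSupport_field _ (hv r))
  choose psi h0 hd using hex
  obtain ⟨Φ, hΦ, h1⟩ := Lib_S0170_FAsm.flow_of_stage_flows L psi h0 hd
  exact ⟨Φ, fun r => psi r 1, hΦ,
    fun r => hreal _ (hv r) (psi r) (h0 r) (hd r), h1⟩

/-- [F] of `Lib_S0170_Plan`, verbatim: the field of a valid list of stages has a flow whose
time-one map is the composition of maps realizing the stages. -/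
theorem exists_flow (L : List Stage) (hL : ∀ s ∈ L, s.Valid) :
    ∃ (Φ : ℝ → Sp → Sp) (F : Fin L.length → Sp → Sp), IsFlow (fieldOf L) Φ ∧
      (∀ r, (L.get r).Realizes (F r)) ∧ ∀ x, Φ 1 x = runMaps F x :=
  exists_flow_of_realizes
    (fun s hs psi h0 hd => Lib_S0170_FStage.realizes_of_flow s hs psi h0 hd) L hL

end Crest.Agent.Lib_S0170_F
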