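import Mathlib

/-!
# S0170, planning: the parking plan (pure rational box combinatorics)

Boxes are given by rational centres `c i : Fin 3 → ℚ` and fixed rational half-widths
`H i : Fin 3 → ℚ`.  A translation step moves one box along one coordinate axis; it is allowed
when every other box is separated, by more than a margin `w` and in a single coordinate, from
the box swept by the moving box.  We show that every `w`-separated configuration inside the
cube `[-ρ, ρ]³` can be moved by such steps to the *parked* configuration, in which box `i` sits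
at `(M (i+1), 0, Z + L (i+1))`.
-/

set_option autoImplicit false

namespace Crest.Agent.Lib_S0170_GPark

/-- A configuration: the centres of `n` boxes. -/
abbrev Cfg (n : ℕ) := Fin n → Fin 3 → ℚ

variable {n : ℕ}

/-- A translation step: box `i₀` is translated by `δ` along axis `m`; every other box is
separated by more than `w`, in one coordinate, from the swept box. -/
def TStep (w : ℚ) (H : Fin n → Fin 3 → ℚ) (c c' : Cfg n) : Prop :=
  ∃ (i₀ : Fin n) (m : Fin 3) (δ : ℚ),
    c' = Function.update c i₀ (Function.update (c i₀) m (c i₀ m + δ)) ∧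
    ∀ j, j ≠ i₀ →
      (∃ m', m' ≠ m ∧ H j m' + H i₀ m' + w < |c j m' - c i₀ m'|) ∨
      (c j m + H j m + w < min (c i₀ m) (c i₀ m + δ) - H i₀ m) ∨
      (max (c i₀ m) (c i₀ m + δ) + H i₀ m + w < c j m - H j m)

/-- The parked configuration. -/
def parked (M L Z : ℚ) : Cfg n := fun i => ![M * ((i : ℕ) + 1), 0, Z + L * ((i : ℕ) + 1)]

/-- Translation steps are reversible. -/
theorem TStep.symm {w : ℚ} {H : Fin n → Fin 3 → ℚ} {c c' : Cfg n} (h : TStep w H c c') :
    TStep w H c' c := by
  obtain ⟨i₀, m, δ, rfl, hsep⟩ := h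
  refine ⟨i₀, m, -δ, ?_, ?_⟩
  · simp only [Function.update_self, add_neg_cancel_right, Function.update_idem,
      Function.update_eq_self]
  · intro j hj
    have hcj : Function.update c i₀ (Function.update (c i₀) m (c i₀ m + δ)) j = c j :=
      Function.update_of_ne hj _ _
    rcases hsep j hj with ⟨m', hm', h1⟩ | h2 | h3
    · left
      refine ⟨m', hm', ?_⟩
      rw [hcj]
      simpa [Function.update_of_ne hm'] using h1
    · right; left
      rw [hcj]
      simp only [Function.update_self, add_neg_cancel_right]
      rw [min_comm]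
      exact h2
    · right; right
      rw [hcj]
      simp only [Function.update_self, add_neg_cancel_right]
      rw [max_comm]
      exact h3

/-- Chains of translation steps are reversible. -/
theorem rtg_symm {w : ℚ} {H : Fin n → Fin 3 → ℚ} {c c' : Cfg n}
    (h : Relation.ReflTransGen (TStep w H) c c') : Relation.ReflTransGen (TStep w H) c' c := by
  induction h with
  | refl => exact Relation.ReflTransGen.refl
  | tail _ hbc ih => exact Relation.ReflTransGen.head hbc.symm ih

/-- Distinct indices have casts at distance at least one. -/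
lemma one_le_abs_cast_sub {i j : Fin n} (hij : i ≠ j) :
    (1 : ℚ) ≤ |((i : ℕ) : ℚ) - ((j : ℕ) : ℚ)| := by
  have hne : (i : ℕ) ≠ (j : ℕ) := fun h => hij (Fin.ext h)
  rcases Nat.lt_or_gt_of_ne hne with h | h
  · have : ((i : ℕ) : ℚ) + 1 ≤ ((j : ℕ) : ℚ) := by exact_mod_cast h
    rw [abs_sub_comm, abs_of_nonneg (by linarith)]
    linarith
  · have : ((j : ℕ) : ℚ) + 1 ≤ ((i : ℕ) : ℚ) := by exact_mod_cast h
    rw [abs_of_nonneg (by linarith)]
    linarith

/-- Parked boxes are at mutual distance at least `L` in the last coordinate. -/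
theorem parked_dist (M L Z : ℚ) (hL : 0 ≤ L) {i j : Fin n} (hij : i ≠ j) :
    L ≤ |(parked M L Z : Cfg n) i 2 - (parked M L Z : Cfg n) j 2| := by
  have h1 := one_le_abs_cast_sub hij
  have e : (parked M L Z : Cfg n) i 2 - (parked M L Z : Cfg n) j 2 =
      L * (((i : ℕ) : ℚ) - ((j : ℕ) : ℚ)) := by
    simp [parked]
    ring
  rw [e, abs_mul, abs_of_nonneg hL]
  nlinarith

/-- Parked boxes are at mutual distance at least `M` in the first coordinate. -/
theorem parked_dist₀ (M L Z : ℚ) (hM : 0 ≤ M) {i j : Fin n} (hij : i ≠ j) :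
    M ≤ |(parked M L Z : Cfg n) i 0 - (parked M L Z : Cfg n) j 0| := by
  have h1 := one_le_abs_cast_sub hij
  have e : (parked M L Z : Cfg n) i 0 - (parked M L Z : Cfg n) j 0 =
      M * (((i : ℕ) : ℚ) - ((j : ℕ) : ℚ)) := by
    simp [parked]
    ring
  rw [e, abs_mul, abs_of_nonneg hM]
  nlinarith

/-- The mixed configuration: boxes in `S` are parked, the others are at their original place. -/
def mix (S : Finset (Fin n)) (a : Cfg n) (M L Z : ℚ) : Cfg n :=
  fun i => if i ∈ S then parked M L Z i else a i

section Park

variable (w ρ M L Z : ℚ) (H : Fin n → Fin 3 → ℚ) (a : Cfg n)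

/-- Parking one more box (the one with the largest top among the unparked ones). -/
theorem park_one (hw : 0 < w) (hH : ∀ i m, 0 < H i m)
    (hρ : ∀ i m, |a i m| + H i m ≤ ρ)
    (hsep : ∀ i j, i ≠ j → ∃ m, H i m + H j m + w < |a i m - a j m|)
    (hM : 2 * ρ + w < M) (hL : 2 * ρ + w < L) (hZ : 2 * ρ + w ≤ Z)
    (S : Finset (Fin n)) (i : Fin n) (hiS : i ∉ S)
    (hmax : ∀ j, j ∉ S → a j 2 + H j 2 ≤ a i 2 + H i 2) :
    Relation.ReflTransGen (TStep w H) (mix S a M L Z) (mix (insert i S) a M L Z) := by
  -- basic bounds
  have hρ0 : 0 < ρ := by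
    have := hρ i 0
    have := hH i 0
    have := abs_nonneg (a i 0)
    linarith
  have hM0 : 0 < M := by linarith
  have hL0 : 0 < L := by linarith
  have hi1 : (0 : ℚ) < ((i : ℕ) : ℚ) + 1 := by positivity
  have habs : ∀ j m, a j m ≤ |a j m| := fun j m => le_abs_self _
  have habs' : ∀ j m, -a j m ≤ |a j m| := fun j m => neg_le_abs _
  have hHρ : ∀ j m, H j m ≤ ρ := fun j m => by
    have := hρ j m
    have := abs_nonneg (a j m)
    linarith
  set Zi : ℚ := Z + L * (((i : ℕ) : ℚ) + 1) with hZi
  have hZi_gt : Z < Zi := by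
    rw [hZi]
    have : 0 < L * (((i : ℕ) : ℚ) + 1) := mul_pos hL0 hi1
    linarith
  -- the three intermediate configurations
  set c0 : Cfg n := mix S a M L Z with hc0
  set c1 : Cfg n := Function.update c0 i ![a i 0, a i 1, Zi] with hc1
  set c2 : Cfg n := Function.update c0 i ![a i 0, 0, Zi] with hc2
  set c3 : Cfg n := Function.update c0 i ![M * (((i : ℕ) : ℚ) + 1), 0, Zi] with hc3
  have hc0i : c0 i = a i := by simp [hc0, mix, hiS]
  have hc0S : ∀ j, j ∈ S → c0 j = parked M L Z j := fun j hj => by simp [hc0, mix, hj]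
  have hc0N : ∀ j, j ∉ S → c0 j = a j := fun j hj => by simp [hc0, mix, hj]
  have hc3eq : c3 = mix (insert i S) a M L Z := by
    funext j
    by_cases hj : j = i
    · subst hj
      simp [hc3, mix, parked, hZi]
    · have : (j ∈ insert i S) ↔ j ∈ S := by simp [hj]
      simp [hc3, mix, Function.update_of_ne hj, hc0, this]
  -- separation of a parked box from the cluster, in coordinate 0
  have hparked0 : ∀ j, j ∈ S → H j 0 + H i 0 + w < |c0 j 0 - a i 0| := by
    intro j hj
    rw [hc0S j hj]
    have e : (parked M L Z : Cfg n) j 0 = M * (((j : ℕ) : ℚ) + 1) := by simp [parked]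
    rw [e]
    have hj0 : (0 : ℚ) ≤ ((j : ℕ) : ℚ) := Nat.cast_nonneg _
    have h1 : M ≤ M * (((j : ℕ) : ℚ) + 1) := by nlinarith
    have h2 := hρ i 0
    have h3 := hHρ j 0
    have h4 := habs i 0
    calc H j 0 + H i 0 + w < M * (((j : ℕ) : ℚ) + 1) - a i 0 := by linarith
      _ ≤ |M * (((j : ℕ) : ℚ) + 1) - a i 0| := le_abs_self _
  -- separation at the private height, in coordinate 2
  have hpriv : ∀ j, j ≠ i → H j 2 + H i 2 + w < |c0 j 2 - Zi| := by
    intro j hj
    by_cases hjS : j ∈ S
    · rw [hc0S j hjS]
      have h1 := parked_dist (n := n) M L Z hL0.le hj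
      have e : (parked M L Z : Cfg n) i 2 = Zi := by simp [parked, hZi]
      rw [e] at h1
      have h2 := hHρ j 2
      have h3 := hHρ i 2
      linarith
    · rw [hc0N j hjS]
      have h2 := hρ j 2
      have h3 := hHρ i 2
      have h4 := habs j 2
      calc H j 2 + H i 2 + w < Zi - a j 2 := by linarith
        _ ≤ |Zi - a j 2| := le_abs_self _
        _ = |a j 2 - Zi| := abs_sub_comm _ _
  -- step 1: lift along axis 2
  have s1 : TStep w H c0 c1 := by
    refine ⟨i, 2, Zi - a i 2, ?_, ?_⟩
    · rw [hc1, hc0i]
      congr 1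
      funext m
      fin_cases m <;> simp
    · intro j hj
      rw [hc0i]
      by_cases hjS : j ∈ S
      · left
        exact ⟨0, by decide, hparked0 j hjS⟩
      · rw [hc0N j hjS]
        obtain ⟨m₀, hm₀⟩ := hsep i j (Ne.symm hj)
        by_cases hm2 : m₀ = 2
        · subst hm2
          right; left
          have hδ : a i 2 ≤ a i 2 + (Zi - a i 2) := by
            have := hρ i 2
            have := habs i 2
            have := hH i 2
            linarith
          rw [min_eq_left hδ]
          have hmx := hmax j hjS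
          have hHj := hH j 2
          rcases le_or_gt (a j 2) (a i 2) with hle | hgt
          · rw [abs_of_nonneg (by linarith)] at hm₀
            linarith
          · rw [abs_of_neg (by linarith)] at hm₀
            linarith
        · left
          refine ⟨m₀, hm2, ?_⟩
          rw [abs_sub_comm]
          linarith
  -- step 2: slide along axis 1 to 0
  have s2 : TStep w H c1 c2 := by
    have hc1i : c1 i = ![a i 0, a i 1, Zi] := by simp [hc1]
    refine ⟨i, 1, -a i 1, ?_, ?_⟩
    · rw [hc1i, hc2, hc1, Function.update_idem]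
      congr 1
      funext m
      fin_cases m <;> simp
    · intro j hj
      left
      refine ⟨2, by decide, ?_⟩
      have hc1j : c1 j = c0 j := by simp [hc1, Function.update_of_ne hj]
      rw [hc1j, hc1i]
      simpa using hpriv j hj
  -- step 3: slide along axis 0 to the parking slot
  have s3 : TStep w H c2 c3 := by
    have hc2i : c2 i = ![a i 0, 0, Zi] := by simp [hc2]
    refine ⟨i, 0, M * (((i : ℕ) : ℚ) + 1) - a i 0, ?_, ?_⟩
    · rw [hc2i, hc3, hc2, Function.update_idem]
      congr 1
      funext m
      fin_cases m <;> simp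
    · intro j hj
      left
      refine ⟨2, by decide, ?_⟩
      have hc2j : c2 j = c0 j := by simp [hc2, Function.update_of_ne hj]
      rw [hc2j, hc2i]
      simpa using hpriv j hj
  rw [← hc3eq]
  exact Relation.ReflTransGen.tail (Relation.ReflTransGen.tail (Relation.ReflTransGen.single s1) s2) s3

/-- **The parking plan.** -/
theorem park (hw : 0 < w) (hH : ∀ i m, 0 < H i m)
    (hρ : ∀ i m, |a i m| + H i m ≤ ρ)
    (hsep : ∀ i j, i ≠ j → ∃ m, H i m + H j m + w < |a i m - a j m|)
    (hM : 2 * ρ + w < M) (hL : 2 * ρ + w < L) (hZ : 2 * ρ + w ≤ Z) :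
    Relation.ReflTransGen (TStep w H) a (parked M L Z) := by
  have key : ∀ (k : ℕ) (S : Finset (Fin n)), Sᶜ.card = k →
      Relation.ReflTransGen (TStep w H) (mix S a M L Z) (parked M L Z) := by
    intro k
    induction k with
    | zero =>
      intro S hS
      have hSu : ∀ i, i ∈ S := by
        intro i
        by_contra hi
        have : i ∈ Sᶜ := Finset.mem_compl.2 hi
        rw [Finset.card_eq_zero] at hS
        rw [hS] at this
        simp at this
      have : mix S a M L Z = parked M L Z := by
        funext i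
        simp [mix, hSu i]
      rw [this]
    | succ k ih =>
      intro S hS
      have hne : Sᶜ.Nonempty := by
        rw [← Finset.card_pos, hS]
        omega
      obtain ⟨i, hi, hmax⟩ := Finset.exists_max_image Sᶜ (fun j => a j 2 + H j 2) hne
      have hiS : i ∉ S := Finset.mem_compl.1 hi
      have h1 := park_one w ρ M L Z H a hw hH hρ hsep hM hL hZ S i hiS
        (fun j hj => hmax j (Finset.mem_compl.2 hj))
      have hcard : (insert i S)ᶜ.card = k := by
        have e : (insert i S)ᶜ = Sᶜ.erase i := by
          ext j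
          simp only [Finset.mem_compl, Finset.mem_insert, Finset.mem_erase, not_or]
        rw [e, Finset.card_erase_of_mem hi, hS]
        rfl
      exact h1.trans (ih (insert i S) hcard)
  have h0 : mix ∅ a M L Z = a := by
    funext i
    simp [mix]
  have := key _ ∅ rfl
  rwa [h0] at this

/-- The parking plan read backwards: from the parked configuration to `a`. -/
theorem unpark (hw : 0 < w) (hH : ∀ i m, 0 < H i m)
    (hρ : ∀ i m, |a i m| + H i m ≤ ρ)
    (hsep : ∀ i j, i ≠ j → ∃ m, H i m + H j m + w < |a i m - a j m|)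
    (hM : 2 * ρ + w < M) (hL : 2 * ρ + w < L) (hZ : 2 * ρ + w ≤ Z) :
    Relation.ReflTransGen (TStep w H) (parked M L Z) a :=
  rtg_symm (park w ρ M L Z H a hw hH hρ hsep hM hL hZ)

end Park

end Crest.Agent.Lib_S0170_GPark
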