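import Mathlib
import Crest.Agent.Lib_S0170_Defs

/-!
S0170, part [G]: stage-level primitives.

* `forall2_ofFn`: a family of maps realizing the stages of a list, as a `List.Forall₂`.
* `exists_translate`: one stage translating along an axis inside a (swept) box.
* `exists_reshape_plane`: four shear stages realizing `diag(ρ, 1/ρ)` in a coordinate plane,
  inside a cube.
-/

set_option autoImplicit false

namespace Crest.Agent.Lib_S0170_GPrim

open Crest.AnalysisR.BoxFlow Crest.Agent.Lib_S0170_Defs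

/-- A family of maps realizing the stages of a list, as a `List.Forall₂`. -/
theorem forall2_ofFn (L : List Stage) (F : Fin L.length → Sp → Sp)
    (hF : ∀ r, (L.get r).Realizes (F r)) :
    List.Forall₂ (fun s f => Stage.Realizes s f) L (List.ofFn F) := by
  rw [List.forall₂_iff_get]
  refine ⟨by simp, fun i h1 h2 => ?_⟩
  simpa using hF ⟨i, h1⟩

/-- `runMaps` is a `foldl`. -/
theorem runMaps_eq {K : ℕ} (F : Fin K → Sp → Sp) (x : Sp) :
    runMaps F x = (List.ofFn F).foldl (fun y f => f y) x := rfl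

/-! ### translation -/

/-- The translation stage. -/
def transStage (m : Fin 3) (δ : ℚ) (lo hi : Fin 3 → ℚ) (w : ℚ) : Stage :=
  { i := m, j := if m = 0 then 1 else 0, q1 := δ, q2 := 0, c := 0, lo := lo, hi := hi, w := w }

theorem transStage_vel (m : Fin 3) (δ : ℚ) (lo hi : Fin 3 → ℚ) (w : ℚ) (x : Sp) :
    (transStage m δ lo hi w).vel x = fun j => if j = m then (δ : ℝ) else 0 := by
  funext j
  simp [Stage.vel, Stage.g', transStage]

theorem exists_translate (m : Fin 3) (δ : ℚ) (lo hi : Fin 3 → ℚ) (hlohi : ∀ j, lo j ≤ hi j)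
    (w : ℚ) (hw : 0 < w) :
    ∃ s : Stage, s.Valid ∧ ∀ F : Sp → Sp, s.Realizes F →
      (∀ x : Sp, (∀ j, (lo j : ℝ) ≤ x j ∧ x j ≤ hi j) →
        ((lo m : ℝ) ≤ x m + δ ∧ x m + δ ≤ hi m) →
          F x = fun j => if j = m then x m + δ else x j) ∧
      (∀ x : Sp, (∃ j, x j < (lo j : ℝ) - w ∨ (hi j : ℝ) + w < x j) → F x = x) := by
  refine ⟨transStage m δ lo hi w, ⟨?_, hw, hlohi⟩, fun F hF => ⟨fun x hx hxm => ?_, fun x hx => ?_⟩⟩
  · simp only [transStage]
    fin_cases m <;> simp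
  · rw [hF.1 x ?_, transStage_vel]
    · funext j
      by_cases hj : j = m <;> simp [hj]
    · intro τ hτ j
      rw [transStage_vel]
      have h0 := hτ.1
      have h1 := hτ.2
      simp only [Pi.add_apply, Pi.smul_apply, smul_eq_mul]
      by_cases hj : j = m
      · subst hj
        simp only [if_true]
        have := hx j
        constructor
        · show ((lo j : ℚ) : ℝ) ≤ x j + τ * δ
          nlinarith [hxm.1, hxm.2, this.1, this.2]
        · show x j + τ * δ ≤ ((hi j : ℚ) : ℝ)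
          nlinarith [hxm.1, hxm.2, this.1, this.2]
      · simp only [hj, if_false, mul_zero, add_zero]
        exact hx j
  · apply hF.2
    intro hmem
    obtain ⟨j, hj⟩ := hx
    have := hmem j
    change ((lo j : ℚ) : ℝ) - ((w : ℚ) : ℝ) ≤ x j ∧ x j ≤ ((hi j : ℚ) : ℝ) + ((w : ℚ) : ℝ) at this
    rcases hj with hj | hj <;> linarith [this.1, this.2]

/-! ### shears -/

/-- The shear stage `x_i += q (x_j - c_j)` with core the cube of centre `c` and half-side `R`. -/
def shearStage (i j : Fin 3) (q : ℚ) (c : Fin 3 → ℚ) (R w : ℚ) : Stage :=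
  { i := i, j := j, q1 := 0, q2 := q, c := c j, lo := fun m => c m - R, hi := fun m => c m + R,
    w := w }

theorem shearStage_valid (i j : Fin 3) (hij : i ≠ j) (q : ℚ) (c : Fin 3 → ℚ) (R w : ℚ)
    (hR : 0 ≤ R) (hw : 0 < w) : (shearStage i j q c R w).Valid :=
  ⟨hij, hw, fun m => by simp only [shearStage]; linarith⟩

theorem shearStage_vel (i j : Fin 3) (q : ℚ) (c : Fin 3 → ℚ) (R w : ℚ) (x : Sp) :
    (shearStage i j q c R w).vel x = fun m => if m = i then (q : ℝ) * (x j - c j) else 0 := by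
  funext m
  simp [Stage.vel, Stage.g', shearStage]

theorem mem_core_shearStage (i j : Fin 3) (q : ℚ) (c : Fin 3 → ℚ) (R w : ℚ) (x : Sp) :
    x ∈ (shearStage i j q c R w).core ↔ ∀ m, |x m - (c m : ℝ)| ≤ R := by
  simp only [Stage.core, shearStage, Set.mem_ofPred_eq, Rat.cast_sub, Rat.cast_add]
  refine forall_congr' fun m => ?_
  rw [abs_le]
  constructor <;> rintro ⟨h1, h2⟩ <;> constructor <;> linarith

theorem mem_supp_shearStage (i j : Fin 3) (q : ℚ) (c : Fin 3 → ℚ) (R w : ℚ) (x : Sp) :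
    x ∈ (shearStage i j q c R w).supp ↔ ∀ m, |x m - (c m : ℝ)| ≤ R + w := by
  simp only [Stage.supp, shearStage, Set.mem_ofPred_eq, Rat.cast_sub, Rat.cast_add]
  refine forall_congr' fun m => ?_
  rw [abs_le]
  constructor <;> rintro ⟨h1, h2⟩ <;> constructor <;> linarith

/-- A map realizing a shear stage: points of the cube whose image stays in the cube are sheared. -/
theorem shear_apply (i j : Fin 3) (hij : i ≠ j) (q : ℚ) (c : Fin 3 → ℚ) (R w : ℚ)
    (F : Sp → Sp) (hF : (shearStage i j q c R w).Realizes F) (x : Sp)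
    (hx : ∀ m, |x m - (c m : ℝ)| ≤ R)
    (hx' : |x i + q * (x j - c j) - (c i : ℝ)| ≤ R) :
    F x = fun m => if m = i then x i + (q : ℝ) * (x j - c j) else x m := by
  rw [hF.1 x ?_, shearStage_vel]
  · funext m
    by_cases hm : m = i <;> simp [hm]
  · intro τ hτ
    rw [mem_core_shearStage, shearStage_vel]
    intro m
    have h0 := hτ.1
    have h1 := hτ.2
    simp only [Pi.add_apply, Pi.smul_apply, smul_eq_mul]
    by_cases hm : m = i
    · subst hm
      simp only [if_true]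
      have h2 := abs_le.1 (hx m)
      have h3 := abs_le.1 hx'
      rw [abs_le]
      constructor <;> nlinarith [h2.1, h2.2, h3.1, h3.2]
    · simp only [hm, if_false, mul_zero, add_zero]
      exact hx m

/-- A map realizing a shear stage fixes the points far from the cube. -/
theorem shear_apply_out (i j : Fin 3) (q : ℚ) (c : Fin 3 → ℚ) (R w : ℚ)
    (F : Sp → Sp) (hF : (shearStage i j q c R w).Realizes F) (x : Sp)
    (hx : ∃ m, (R : ℝ) + w < |x m - (c m : ℝ)|) : F x = x := by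
  apply hF.2
  rw [mem_supp_shearStage]
  intro hmem
  obtain ⟨m, hm⟩ := hx
  linarith [hmem m]

/-! ### reshaping in a coordinate plane -/

/-- The point with prescribed `p`- and `q`-coordinates, other coordinates as `x`. -/
def pt (p q : Fin 3) (x : Sp) (A B : ℝ) : Sp :=
  fun m => if m = p then A else if m = q then B else x m

theorem pt_self (p q : Fin 3) (x : Sp) : pt p q x (x p) (x q) = x := by
  funext m
  simp only [pt]
  split_ifs with h1 h2
  · rw [h1]
  · rw [h2]
  · rfl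

theorem pt_bound (p q : Fin 3) (c : Fin 3 → ℚ) (R : ℝ) (x : Sp) (A B : ℝ)
    (hx : ∀ m, |x m - (c m : ℝ)| ≤ R) (hA : |A - (c p : ℝ)| ≤ R) (hB : |B - (c q : ℝ)| ≤ R) :
    ∀ m, |pt p q x A B m - (c m : ℝ)| ≤ R := by
  intro m
  simp only [pt]
  split_ifs with h1 h2
  · rw [h1]; exact hA
  · rw [h2]; exact hB
  · exact hx m

theorem shear_pq (p q : Fin 3) (hpq : p ≠ q) (s : ℚ) (c : Fin 3 → ℚ) (R w : ℚ)
    (F : Sp → Sp) (hF : (shearStage p q s c R w).Realizes F) (x : Sp) (A B : ℝ)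
    (hx : ∀ m, |x m - (c m : ℝ)| ≤ R) (hA : |A - (c p : ℝ)| ≤ R) (hB : |B - (c q : ℝ)| ≤ R)
    (hA' : |A + s * (B - c q) - (c p : ℝ)| ≤ R) :
    F (pt p q x A B) = pt p q x (A + s * (B - c q)) B := by
  have hp : pt p q x A B p = A := by simp [pt]
  have hq : pt p q x A B q = B := by simp [pt, hpq.symm]
  rw [shear_apply p q hpq s c R w F hF (pt p q x A B) (pt_bound p q c R x A B hx hA hB)
    (by rw [hp, hq]; exact hA')]
  funext m
  rw [hp, hq]
  simp only [pt]
  split_ifs <;> rfl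

theorem shear_qp (p q : Fin 3) (hpq : p ≠ q) (s : ℚ) (c : Fin 3 → ℚ) (R w : ℚ)
    (F : Sp → Sp) (hF : (shearStage q p s c R w).Realizes F) (x : Sp) (A B : ℝ)
    (hx : ∀ m, |x m - (c m : ℝ)| ≤ R) (hA : |A - (c p : ℝ)| ≤ R) (hB : |B - (c q : ℝ)| ≤ R)
    (hB' : |B + s * (A - c p) - (c q : ℝ)| ≤ R) :
    F (pt p q x A B) = pt p q x A (B + s * (A - c p)) := by
  have hp : pt p q x A B p = A := by simp [pt]
  have hq : pt p q x A B q = B := by simp [pt, hpq.symm]
  rw [shear_apply q p hpq.symm s c R w F hF (pt p q x A B) (pt_bound p q c R x A B hx hA hB)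
    (by rw [hp, hq]; exact hB')]
  funext m
  rw [hp, hq]
  simp only [pt]
  by_cases h1 : m = q
  · have h2 : m ≠ p := fun h => hpq (h ▸ h1)
    simp [h1, hpq.symm]
  · simp [h1]

/-- The four shears realizing `diag(ρ, 1/ρ)` in the `(p,q)`-plane, in order of application. -/
def reshapeStages (p q : Fin 3) (ρ : ℚ) (c : Fin 3 → ℚ) (R w : ℚ) : List Stage :=
  [shearStage p q (-(1 - ρ) / ρ ^ 2) c R w, shearStage q p (-ρ) c R w,
    shearStage p q ((1 - ρ) / ρ) c R w, shearStage q p 1 c R w]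

private theorem lin_bound (α β a b K R : ℝ) (hα : |α| ≤ K) (hβ : |β| ≤ K)
    (hR : K * (|a| + |b|) ≤ R) : |α * a + β * b| ≤ R := by
  have h1 : |α * a + β * b| ≤ |α| * |a| + |β| * |b| := by
    rw [← abs_mul, ← abs_mul]; exact abs_add_le _ _
  have h2 : |α| * |a| ≤ K * |a| := mul_le_mul_of_nonneg_right hα (abs_nonneg a)
  have h3 : |β| * |b| ≤ K * |b| := mul_le_mul_of_nonneg_right hβ (abs_nonneg b)
  linarith

theorem exists_reshape_plane (p q : Fin 3) (hpq : p ≠ q) (ρ : ℚ) (hρ : 0 < ρ) (c : Fin 3 → ℚ)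
    (R w : ℚ) (hR : 0 ≤ R) (hw : 0 < w) :
    ∃ L : List Stage, (∀ s ∈ L, s.Valid) ∧
      ∀ Fs : List (Sp → Sp), List.Forall₂ (fun s f => Stage.Realizes s f) L Fs →
        (∀ x : Sp, (∀ m, |x m - (c m : ℝ)| ≤ R) →
          ((1 + ρ + 1 / ρ + 1 / ρ ^ 2 : ℚ) : ℝ) * (|x p - c p| + |x q - c q|) ≤ R →
            Fs.foldl (fun y f => f y) x = fun m =>
              if m = p then (c p : ℝ) + ρ * (x p - c p)
              else if m = q then (c q : ℝ) + (x q - c q) / ρ else x m) ∧
        (∀ x : Sp, (∃ m, (R : ℝ) + w < |x m - (c m : ℝ)|) → Fs.foldl (fun y f => f y) x = x) := by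
  refine ⟨reshapeStages p q ρ c R w, ?_, ?_⟩
  · intro s hs
    simp only [reshapeStages, List.mem_cons, List.not_mem_nil, or_false] at hs
    rcases hs with rfl | rfl | rfl | rfl
    · exact shearStage_valid p q hpq _ c R w hR hw
    · exact shearStage_valid q p hpq.symm _ c R w hR hw
    · exact shearStage_valid p q hpq _ c R w hR hw
    · exact shearStage_valid q p hpq.symm _ c R w hR hw
  · intro Fs hFs
    simp only [reshapeStages] at hFs
    obtain ⟨F1, Fs1, h1, hFs1, rfl⟩ := List.forall₂_cons_left_iff.1 hFs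
    obtain ⟨F2, Fs2, h2, hFs2, rfl⟩ := List.forall₂_cons_left_iff.1 hFs1
    obtain ⟨F3, Fs3, h3, hFs3, rfl⟩ := List.forall₂_cons_left_iff.1 hFs2
    obtain ⟨F4, Fs4, h4, hFs4, rfl⟩ := List.forall₂_cons_left_iff.1 hFs3
    obtain rfl := List.forall₂_nil_left_iff.1 hFs4
    simp only [List.foldl_cons, List.foldl_nil]
    constructor
    · intro x hx hK
      have hr : (0 : ℝ) < (ρ : ℝ) := by exact_mod_cast hρ
      set r : ℝ := (ρ : ℝ) with hr_def
      have hrne : r ≠ 0 := hr.ne'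
      set a : ℝ := x p - c p with ha_def
      set b : ℝ := x q - c q with hb_def
      have hK' : (1 + r + 1 / r + 1 / r ^ 2) * (|a| + |b|) ≤ R := by
        have : ((1 + ρ + 1 / ρ + 1 / ρ ^ 2 : ℚ) : ℝ) = 1 + r + 1 / r + 1 / r ^ 2 := by
          push_cast; rfl
        rw [← this]; exact hK
      set K : ℝ := 1 + r + 1 / r + 1 / r ^ 2 with hK_def
      have hir : 0 < 1 / r := by positivity
      have hir2 : 0 < 1 / r ^ 2 := by positivity
      -- the shear coefficients
      have hu : ((-(1 - ρ) / ρ ^ 2 : ℚ) : ℝ) = -(1 - r) / r ^ 2 := by push_cast; rfl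
      have hv : (((1 - ρ) / ρ : ℚ) : ℝ) = (1 - r) / r := by push_cast; rfl
      have hm : ((-ρ : ℚ) : ℝ) = -r := by push_cast; rfl
      have h1' : ((1 : ℚ) : ℝ) = 1 := by push_cast; rfl
      -- coefficient bounds
      have hK1 : |(1 : ℝ)| ≤ K := by
        rw [abs_one, hK_def]; linarith
      have hKu : |-(1 - r) / r ^ 2| ≤ K := by
        rw [abs_div, abs_neg, abs_of_pos (by positivity : (0 : ℝ) < r ^ 2), div_le_iff₀ (by positivity)]
        have e1 : K * r ^ 2 = r ^ 2 + r ^ 3 + r + 1 := by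
          rw [hK_def]; field_simp
        rw [e1, abs_le]
        constructor <;> nlinarith [sq_nonneg r, pow_pos hr 3]
      have hKr : |-r| ≤ K := by
        rw [abs_neg, abs_of_pos hr, hK_def]; linarith
      have hKr' : |r| ≤ K := by
        rw [abs_of_pos hr, hK_def]; linarith
      have hKi : |1 / r| ≤ K := by
        rw [abs_of_pos hir, hK_def]; linarith
      have hK0 : |(0 : ℝ)| ≤ K := by
        rw [abs_zero, hK_def]; positivity
      -- the four intermediate bounds
      have hxp : |x p - (c p : ℝ)| ≤ R := hx p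
      have hxq : |x q - (c q : ℝ)| ≤ R := hx q
      have b1 : |x p + ((-(1 - ρ) / ρ ^ 2 : ℚ) : ℝ) * (x q - c q) - (c p : ℝ)| ≤ R := by
        have e : x p + ((-(1 - ρ) / ρ ^ 2 : ℚ) : ℝ) * (x q - c q) - (c p : ℝ)
            = 1 * a + (-(1 - r) / r ^ 2) * b := by rw [hu]; ring
        rw [e]; exact lin_bound _ _ a b K R hK1 hKu hK'
      have b2 : |x q + ((-ρ : ℚ) : ℝ) * (x p + ((-(1 - ρ) / ρ ^ 2 : ℚ) : ℝ) * (x q - c q) - c p)
          - (c q : ℝ)| ≤ R := by
        have e : x q + ((-ρ : ℚ) : ℝ) * (x p + ((-(1 - ρ) / ρ ^ 2 : ℚ) : ℝ) * (x q - c q) - c p)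
            - (c q : ℝ) = (-r) * a + (1 / r) * b := by
          rw [hu, hm]; field_simp; ring
        rw [e]; exact lin_bound _ _ a b K R hKr hKi hK'
      have e3 : x p + ((-(1 - ρ) / ρ ^ 2 : ℚ) : ℝ) * (x q - c q) + (((1 - ρ) / ρ : ℚ) : ℝ) *
          (x q + ((-ρ : ℚ) : ℝ) * (x p + ((-(1 - ρ) / ρ ^ 2 : ℚ) : ℝ) * (x q - c q) - c p)
            - c q) = (c p : ℝ) + r * a := by
        rw [hu, hm, hv]; field_simp; ring
      have b3 : |x p + ((-(1 - ρ) / ρ ^ 2 : ℚ) : ℝ) * (x q - c q) + (((1 - ρ) / ρ : ℚ) : ℝ) *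
          (x q + ((-ρ : ℚ) : ℝ) * (x p + ((-(1 - ρ) / ρ ^ 2 : ℚ) : ℝ) * (x q - c q) - c p)
            - c q) - (c p : ℝ)| ≤ R := by
        rw [e3]
        have e : (c p : ℝ) + r * a - (c p : ℝ) = r * a + 0 * b := by ring
        rw [e]; exact lin_bound _ _ a b K R hKr' hK0 hK'
      have e4 : x q + ((-ρ : ℚ) : ℝ) * (x p + ((-(1 - ρ) / ρ ^ 2 : ℚ) : ℝ) * (x q - c q) - c p)
          + ((1 : ℚ) : ℝ) * ((c p : ℝ) + r * a - c p) = (c q : ℝ) + b / r := by
        rw [hu, hm, h1']; field_simp; ring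
      have b4 : |x q + ((-ρ : ℚ) : ℝ) * (x p + ((-(1 - ρ) / ρ ^ 2 : ℚ) : ℝ) * (x q - c q) - c p)
          + ((1 : ℚ) : ℝ) * ((c p : ℝ) + r * a - c p) - (c q : ℝ)| ≤ R := by
        rw [e4]
        have e : (c q : ℝ) + b / r - (c q : ℝ) = 0 * a + (1 / r) * b := by ring
        rw [e]; exact lin_bound _ _ a b K R hK0 hKi hK'
      -- run the four stages
      have s1 := shear_pq p q hpq _ c R w F1 h1 x (x p) (x q) hx hxp hxq b1
      rw [pt_self] at s1
      rw [s1]
      have s2 := shear_qp p q hpq _ c R w F2 h2 x _ (x q) hx b1 hxq b2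
      rw [s2]
      have s3 := shear_pq p q hpq _ c R w F3 h3 x _ _ hx b1 b2 b3
      rw [s3, e3]
      have b3' : |(c p : ℝ) + r * a - (c p : ℝ)| ≤ R := by rw [← e3]; exact b3
      have s4 := shear_qp p q hpq _ c R w F4 h4 x _ _ hx b3' b2 b4
      rw [s4, e4]
      rfl
    · intro x hx
      rw [shear_apply_out p q _ c R w F1 h1 x hx, shear_apply_out q p _ c R w F2 h2 x hx,
        shear_apply_out p q _ c R w F3 h3 x hx, shear_apply_out q p _ c R w F4 h4 x hx]

end Crest.Agent.Lib_S0170_GPrim
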