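import Mathlib
import Crest.Prelude.Def_BoxFlow
import Crest.Agent.Lib_S0170_Defs

/-!
S0170, part [G]: the semantic layer.  `Acts L A T` says that every family of maps realizing the
stages of `L` sends each point `x` of `A` to `T x`; plans compose by `acts_append`; a single stage
moves the points whose model trajectory stays in the core and fixes the points off the support.
-/

set_option autoImplicit false

namespace Crest.Agent.Lib_S0170_GSem

open Crest.AnalysisR.BoxFlow Crest.Agent.Lib_S0170_Defs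

/-- Apply a list of maps one after the other (head first). -/
def runList (Fs : List (Sp → Sp)) (x : Sp) : Sp := Fs.foldl (fun y f => f y) x

theorem runMaps_eq_runList {K : ℕ} (F : Fin K → Sp → Sp) (x : Sp) :
    runMaps F x = runList (List.ofFn F) x := rfl

@[simp] theorem runList_nil (x : Sp) : runList [] x = x := rfl

@[simp] theorem runList_cons (f : Sp → Sp) (Fs : List (Sp → Sp)) (x : Sp) :
    runList (f :: Fs) x = runList Fs (f x) := rfl

theorem runList_append (Fs Gs : List (Sp → Sp)) (x : Sp) :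
    runList (Fs ++ Gs) x = runList Gs (runList Fs x) := by
  unfold runList
  rw [List.foldl_append]

/-- List-level version of `Acts`. -/
def ActsL (L : List Stage) (A : Set Sp) (T : Sp → Sp) : Prop :=
  ∀ Fs : List (Sp → Sp), List.Forall₂ (fun s f => Stage.Realizes s f) L Fs →
    ∀ x ∈ A, runList Fs x = T x

/-- `Acts L A T`: every family of maps realizing the stages of `L` sends each `x ∈ A` to `T x`. -/
def Acts (L : List Stage) (A : Set Sp) (T : Sp → Sp) : Prop :=
  ∀ F : Fin L.length → Sp → Sp, (∀ r, (L.get r).Realizes (F r)) → ∀ x ∈ A, runMaps F x = T x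

theorem acts_iff_actsL (L : List Stage) (A : Set Sp) (T : Sp → Sp) :
    Acts L A T ↔ ActsL L A T := by
  constructor
  · intro h Fs hFs x hx
    have hlen : L.length = Fs.length := hFs.length_eq
    have hF : ∀ r : Fin L.length, (L.get r).Realizes (Fs.get (r.cast hlen)) := by
      intro r
      exact hFs.get r.2 (hlen ▸ r.2)
    have key := h (fun r => Fs.get (r.cast hlen)) hF x hx
    rw [runMaps_eq_runList] at key
    have hof : List.ofFn (fun r : Fin L.length => Fs.get (r.cast hlen)) = Fs := by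
      apply List.ext_getElem
      · simp [hlen]
      · intro i h1 h2
        simp
    rw [hof] at key
    exact key
  · intro h F hF x hx
    rw [runMaps_eq_runList]
    refine h (List.ofFn F) ?_ x hx
    rw [List.forall₂_iff_get]
    refine ⟨by simp, ?_⟩
    intro i h1 h2
    have : (List.ofFn F).get ⟨i, h2⟩ = F ⟨i, h1⟩ := by simp
    rw [this]
    exact hF ⟨i, h1⟩

theorem actsL_nil (A : Set Sp) : ActsL [] A id := by
  intro Fs hFs x _
  rw [List.forall₂_nil_left_iff] at hFs
  subst hFs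
  rfl

theorem forall₂_append_left {L₁ L₂ : List Stage} {Fs : List (Sp → Sp)}
    (h : List.Forall₂ (fun s f => Stage.Realizes s f) (L₁ ++ L₂) Fs) :
    ∃ Fs₁ Fs₂, Fs = Fs₁ ++ Fs₂ ∧ List.Forall₂ (fun s f => Stage.Realizes s f) L₁ Fs₁ ∧
      List.Forall₂ (fun s f => Stage.Realizes s f) L₂ Fs₂ := by
  induction L₁ generalizing Fs with
  | nil => exact ⟨[], Fs, rfl, List.Forall₂.nil, h⟩
  | cons s L ih =>
    rw [List.cons_append, List.forall₂_cons_left_iff] at h
    obtain ⟨f, u, hf, hu, rfl⟩ := h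
    obtain ⟨Fs₁, Fs₂, rfl, h1, h2⟩ := ih hu
    exact ⟨f :: Fs₁, Fs₂, rfl, List.Forall₂.cons hf h1, h2⟩

theorem actsL_append {L₁ L₂ : List Stage} {A : Set Sp} {T₁ T₂ : Sp → Sp}
    (h₁ : ActsL L₁ A T₁) (h₂ : ActsL L₂ (T₁ '' A) T₂) : ActsL (L₁ ++ L₂) A (T₂ ∘ T₁) := by
  intro Fs hFs x hx
  obtain ⟨Fs₁, Fs₂, rfl, hf1, hf2⟩ := forall₂_append_left hFs
  rw [runList_append, h₁ Fs₁ hf1 x hx]
  exact h₂ Fs₂ hf2 (T₁ x) ⟨x, hx, rfl⟩

theorem acts_nil (A : Set Sp) : Acts [] A id :=
  (acts_iff_actsL _ _ _).mpr (actsL_nil A)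

/-- Composition of plans. -/
theorem acts_append {L₁ L₂ : List Stage} {A : Set Sp} {T₁ T₂ : Sp → Sp}
    (h₁ : Acts L₁ A T₁) (h₂ : Acts L₂ (T₁ '' A) T₂) : Acts (L₁ ++ L₂) A (T₂ ∘ T₁) :=
  (acts_iff_actsL _ _ _).mpr
    (actsL_append ((acts_iff_actsL _ _ _).mp h₁) ((acts_iff_actsL _ _ _).mp h₂))

theorem acts_mono {L : List Stage} {A B : Set Sp} {T : Sp → Sp} (h : Acts L B T) (hAB : A ⊆ B) :
    Acts L A T :=
  fun F hF x hx => h F hF x (hAB hx)

theorem acts_congr {L : List Stage} {A : Set Sp} {T T' : Sp → Sp} (h : Acts L A T)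
    (hT : ∀ x ∈ A, T x = T' x) : Acts L A T' :=
  fun F hF x hx => (h F hF x hx).trans (hT x hx)

/-- Composition of plans, with the intermediate set and the composite map given explicitly. -/
theorem acts_append' {L₁ L₂ : List Stage} {A B : Set Sp} {T₁ T₂ T : Sp → Sp}
    (h₁ : Acts L₁ A T₁) (h₂ : Acts L₂ B T₂) (hB : ∀ x ∈ A, T₁ x ∈ B)
    (hT : ∀ x ∈ A, T₂ (T₁ x) = T x) : Acts (L₁ ++ L₂) A T := by
  refine acts_congr (acts_append h₁ (acts_mono h₂ ?_)) hT
  rintro _ ⟨x, hx, rfl⟩
  exact hB x hx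

/-! ### Single stages -/

theorem actsL_single {s : Stage} {A : Set Sp} {T : Sp → Sp}
    (h : ∀ f : Sp → Sp, s.Realizes f → ∀ x ∈ A, f x = T x) : ActsL [s] A T := by
  intro Fs hFs x hx
  rw [List.forall₂_cons_left_iff] at hFs
  obtain ⟨f, u, hf, hu, rfl⟩ := hFs
  rw [List.forall₂_nil_left_iff] at hu
  subst hu
  exact h f hf x hx

theorem vel_apply (s : Stage) (x : Sp) (m : Fin 3) :
    s.vel x m = if m = s.i then s.g' (x s.j) else 0 := rfl

/-- If both endpoints of the model trajectory lie in the core box, so does the whole segment. -/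
theorem segment_mem_core (s : Stage) (x : Sp) (h0 : x ∈ s.core) (h1 : x + s.vel x ∈ s.core)
    (τ : ℝ) (hτ : τ ∈ Set.Icc (0 : ℝ) 1) : x + τ • s.vel x ∈ s.core := by
  intro m
  have e : (x + τ • s.vel x) m = x m + τ * s.vel x m := by simp
  have e1 : (x + s.vel x) m = x m + s.vel x m := by simp
  have a0 := h0 m
  have a1 := h1 m
  rw [e1] at a1
  rw [e]
  obtain ⟨hτ0, hτ1⟩ := hτ
  constructor
  · have : (s.lo m : ℝ) = (1 - τ) * (s.lo m : ℝ) + τ * (s.lo m : ℝ) := by ring
    have h2 : (1 - τ) * (s.lo m : ℝ) ≤ (1 - τ) * x m :=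
      mul_le_mul_of_nonneg_left a0.1 (by linarith)
    have h3 : τ * (s.lo m : ℝ) ≤ τ * (x m + s.vel x m) := mul_le_mul_of_nonneg_left a1.1 hτ0
    nlinarith
  · have h2 : (1 - τ) * x m ≤ (1 - τ) * (s.hi m : ℝ) :=
      mul_le_mul_of_nonneg_left a0.2 (by linarith)
    have h3 : τ * (x m + s.vel x m) ≤ τ * (s.hi m : ℝ) := mul_le_mul_of_nonneg_left a1.2 hτ0
    nlinarith

/-- A stage moves by `vel` every point whose model trajectory has both endpoints in the core. -/
theorem acts_single_move (s : Stage) (A : Set Sp)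
    (hA : ∀ x ∈ A, x ∈ s.core ∧ x + s.vel x ∈ s.core) : Acts [s] A (fun x => x + s.vel x) := by
  rw [acts_iff_actsL]
  refine actsL_single (fun f hf x hx => ?_)
  exact hf.1 x (fun τ hτ => segment_mem_core s x (hA x hx).1 (hA x hx).2 τ hτ)

/-- A stage fixes every point outside its support box. -/
theorem acts_single_fix (s : Stage) (A : Set Sp) (hA : ∀ x ∈ A, x ∉ s.supp) : Acts [s] A id := by
  rw [acts_iff_actsL]
  refine actsL_single (fun f hf x hx => ?_)
  exact hf.2 x (hA x hx)

/-- Coordinate form of the model displacement. -/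
theorem add_vel_eq_update (s : Stage) (x : Sp) :
    x + s.vel x = Function.update x s.i (x s.i + s.g' (x s.j)) := by
  funext m
  by_cases hm : m = s.i
  · subst hm
    simp [vel_apply]
  · simp [vel_apply, hm]

theorem g'_of_q2_eq_zero (s : Stage) (h : s.q2 = 0) (y : ℝ) : s.g' y = s.q1 := by
  simp [Stage.g', h]

theorem g'_of_q1_eq_zero (s : Stage) (h : s.q1 = 0) (y : ℝ) : s.g' y = s.q2 * (y - s.c) := by
  simp [Stage.g', h]

theorem mem_core_iff (s : Stage) (x : Sp) :
    x ∈ s.core ↔ ∀ m, (s.lo m : ℝ) ≤ x m ∧ x m ≤ (s.hi m : ℝ) := Iff.rfl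

/-- A point with one coordinate outside the thickened range is off the support. -/
theorem not_mem_supp_of (s : Stage) (x : Sp) (m : Fin 3)
    (h : x m < (s.lo m : ℝ) - s.w ∨ (s.hi m : ℝ) + s.w < x m) : x ∉ s.supp := by
  intro hx
  have := hx m
  rcases h with h | h
  · linarith [this.1]
  · linarith [this.2]

/-! ### Open rational boxes -/

/-- The open axis-parallel box with rational centre `c` and half-widths `h`. -/
def obox (c h : Fin 3 → ℚ) : Set Sp := {x | ∀ j : Fin 3, |x j - (c j : ℝ)| < (h j : ℝ)}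

theorem isOpen_obox (c h : Fin 3 → ℚ) : IsOpen (obox c h) := by
  have : obox c h = ⋂ j : Fin 3, {x : Sp | |x j - (c j : ℝ)| < (h j : ℝ)} := by
    ext x; simp [obox]
  rw [this]
  refine isOpen_iInter_of_finite (fun j => ?_)
  exact isOpen_lt (by fun_prop) continuous_const

theorem box_subset_obox (c h h' : Fin 3 → ℚ) (hh : ∀ j, h j < h' j) : box c h ⊆ obox c h' := by
  intro x hx j
  have h1 : |x j - (c j : ℝ)| ≤ (h j : ℝ) := hx j
  have h2 : (h j : ℝ) < (h' j : ℝ) := by exact_mod_cast hh j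
  linarith

end Crest.Agent.Lib_S0170_GSem
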