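import Mathlib
import Crest.Prelude.Def_BoxFlow
import Crest.Agent.Lib_S0170_Defs
import Crest.Agent.Lib_S0170_GSem
import Crest.Agent.Lib_S0170_GPrim

/-!
S0170, part [G]: reshaping a box about its centre by a determinant-one positive diagonal map,
as a list of valid stages (two planar reshapes), in `Acts` form.
-/

set_option autoImplicit false

namespace Crest.Agent.Lib_S0170_GReshape

open Crest.AnalysisR.BoxFlow Crest.Agent.Lib_S0170_Defs Crest.Agent.Lib_S0170_GSem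
open Crest.Agent.Lib_S0170_GPrim

/-- The diagonal map `x ↦ c + d (x - c)` (coordinatewise). -/
def diagMap (c d : Fin 3 → ℚ) (x : Sp) : Sp := fun m => (c m : ℝ) + (d m : ℝ) * (x m - (c m : ℝ))

/-- **Reshape about a centre.** For positive half-widths `h` and a positive diagonal `d` of
determinant one there is a radius `R` (depending on `h`, `d` only) such that for every centre `c`
and margin `w > 0` a list of valid stages maps the open box `obox c h` by `x ↦ c + d (x - c)` and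
fixes every point having some coordinate farther than `R + w` from the centre. -/
theorem exists_reshape (h d : Fin 3 → ℚ) (hh : ∀ m, 0 < h m) (hd : ∀ m, 0 < d m)
    (hprod : d 0 * d 1 * d 2 = 1) :
    ∃ R : ℚ, 0 < R ∧ ∀ (c : Fin 3 → ℚ) (w : ℚ), 0 < w →
      ∃ L : List Stage, (∀ s ∈ L, s.Valid) ∧ Acts L (obox c h) (diagMap c d) ∧
        ∀ A : Set Sp, (∀ x ∈ A, ∃ m, (R : ℝ) + w < |x m - (c m : ℝ)|) → Acts L A id := by
  have h0 := hh 0
  have h1 := hh 1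
  have h2 := hh 2
  have d0 := hd 0
  have d1 := hd 1
  have d2 := hd 2
  set ρ₁ : ℚ := d 0 with hρ₁
  set ρ₂ : ℚ := d 0 * d 1 with hρ₂
  have hρ₁pos : 0 < ρ₁ := d0
  have hρ₂pos : 0 < ρ₂ := mul_pos d0 d1
  set κ₁ : ℚ := 1 + ρ₁ + 1 / ρ₁ + 1 / ρ₁ ^ 2 with hκ₁
  set κ₂ : ℚ := 1 + ρ₂ + 1 / ρ₂ + 1 / ρ₂ ^ 2 with hκ₂
  have hκ₁pos : 0 < κ₁ := by positivity
  have hκ₂pos : 0 < κ₂ := by positivity
  set R : ℚ := h 0 + h 1 + h 2 + κ₁ * (h 0 + h 1) + d 0 * h 0 + h 1 / d 0 +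
    κ₂ * (h 1 / d 0 + h 2) with hR
  have hRpos : 0 < R := by positivity
  have hR0 : h 0 ≤ R := by
    have : 0 ≤ h 1 + h 2 + κ₁ * (h 0 + h 1) + d 0 * h 0 + h 1 / d 0 + κ₂ * (h 1 / d 0 + h 2) := by
      positivity
    rw [hR]; linarith
  have hR1 : h 1 ≤ R := by
    have : 0 ≤ h 0 + h 2 + κ₁ * (h 0 + h 1) + d 0 * h 0 + h 1 / d 0 + κ₂ * (h 1 / d 0 + h 2) := by
      positivity
    rw [hR]; linarith
  have hR2 : h 2 ≤ R := by
    have : 0 ≤ h 0 + h 1 + κ₁ * (h 0 + h 1) + d 0 * h 0 + h 1 / d 0 + κ₂ * (h 1 / d 0 + h 2) := by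
      positivity
    rw [hR]; linarith
  have hRκ₁ : κ₁ * (h 0 + h 1) ≤ R := by
    have : 0 ≤ h 0 + h 1 + h 2 + d 0 * h 0 + h 1 / d 0 + κ₂ * (h 1 / d 0 + h 2) := by positivity
    rw [hR]; linarith
  have hRd0 : d 0 * h 0 ≤ R := by
    have : 0 ≤ h 0 + h 1 + h 2 + κ₁ * (h 0 + h 1) + h 1 / d 0 + κ₂ * (h 1 / d 0 + h 2) := by
      positivity
    rw [hR]; linarith
  have hRd1 : h 1 / d 0 ≤ R := by
    have : 0 ≤ h 0 + h 1 + h 2 + κ₁ * (h 0 + h 1) + d 0 * h 0 + κ₂ * (h 1 / d 0 + h 2) := by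
      positivity
    rw [hR]; linarith
  have hRκ₂ : κ₂ * (h 1 / d 0 + h 2) ≤ R := by
    have : 0 ≤ h 0 + h 1 + h 2 + κ₁ * (h 0 + h 1) + d 0 * h 0 + h 1 / d 0 := by positivity
    rw [hR]; linarith
  refine ⟨R, hRpos, fun c w hw => ?_⟩
  obtain ⟨L₁, hL₁v, hL₁⟩ := exists_reshape_plane 0 1 (by decide) ρ₁ hρ₁pos c R w hRpos.le hw
  obtain ⟨L₂, hL₂v, hL₂⟩ := exists_reshape_plane 1 2 (by decide) ρ₂ hρ₂pos c R w hRpos.le hw
  -- real-number versions of the bounds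
  have rR0 : (h 0 : ℝ) ≤ R := by exact_mod_cast hR0
  have rR1 : (h 1 : ℝ) ≤ R := by exact_mod_cast hR1
  have rR2 : (h 2 : ℝ) ≤ R := by exact_mod_cast hR2
  have rRκ₁ : (κ₁ : ℝ) * ((h 0 : ℝ) + h 1) ≤ R := by exact_mod_cast hRκ₁
  have rRd0 : (d 0 : ℝ) * h 0 ≤ R := by exact_mod_cast hRd0
  have rRd1 : (h 1 : ℝ) / d 0 ≤ R := by exact_mod_cast hRd1
  have rRκ₂ : (κ₂ : ℝ) * ((h 1 : ℝ) / d 0 + h 2) ≤ R := by exact_mod_cast hRκ₂
  have rd0 : (0 : ℝ) < d 0 := by exact_mod_cast d0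
  have rd1 : (0 : ℝ) < d 1 := by exact_mod_cast d1
  have rd2 : (0 : ℝ) < d 2 := by exact_mod_cast d2
  have rκ₁ : (0 : ℝ) < κ₁ := by exact_mod_cast hκ₁pos
  have rκ₂ : (0 : ℝ) < κ₂ := by exact_mod_cast hκ₂pos
  have rprod : (d 0 : ℝ) * d 1 * d 2 = 1 := by exact_mod_cast hprod
  have rρ₁ : (ρ₁ : ℝ) = d 0 := rfl
  have rρ₂ : (ρ₂ : ℝ) = (d 0 : ℝ) * d 1 := by rw [hρ₂]; push_cast; ring
  refine ⟨L₁ ++ L₂, ?_, ?_, ?_⟩
  · intro s hs
    rcases List.mem_append.mp hs with hs | hs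
    · exact hL₁v s hs
    · exact hL₂v s hs
  · rw [acts_iff_actsL]
    intro Fs hFs x hx
    obtain ⟨Fs₁, Fs₂, rfl, hf1, hf2⟩ := forall₂_append_left hFs
    have hx0 : |x 0 - (c 0 : ℝ)| < (h 0 : ℝ) := hx 0
    have hx1 : |x 1 - (c 1 : ℝ)| < (h 1 : ℝ) := hx 1
    have hx2 : |x 2 - (c 2 : ℝ)| < (h 2 : ℝ) := hx 2
    rw [runList_append]
    -- first planar reshape
    have e1 : runList Fs₁ x = fun m =>
        if m = 0 then (c 0 : ℝ) + ρ₁ * (x 0 - c 0)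
        else if m = 1 then (c 1 : ℝ) + (x 1 - c 1) / ρ₁ else x m := by
      refine (hL₁ Fs₁ hf1).1 x ?_ ?_
      · intro m
        fin_cases m
        · exact (hx0.le).trans rR0
        · exact (hx1.le).trans rR1
        · exact (hx2.le).trans rR2
      · have : (κ₁ : ℝ) * (|x 0 - (c 0 : ℝ)| + |x 1 - (c 1 : ℝ)|) ≤ (κ₁ : ℝ) * ((h 0 : ℝ) + h 1) :=
          mul_le_mul_of_nonneg_left (by linarith) rκ₁.le
        exact this.trans rRκ₁
    rw [e1]
    set y : Sp := fun m =>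
        if m = 0 then (c 0 : ℝ) + ρ₁ * (x 0 - c 0)
        else if m = 1 then (c 1 : ℝ) + (x 1 - c 1) / ρ₁ else x m with hy
    have y0 : y 0 = (c 0 : ℝ) + d 0 * (x 0 - c 0) := by simp [hy, rρ₁]
    have y1 : y 1 = (c 1 : ℝ) + (x 1 - c 1) / d 0 := by simp [hy, rρ₁]
    have y2 : y 2 = x 2 := by simp [hy]
    have hy0 : |y 0 - (c 0 : ℝ)| ≤ (d 0 : ℝ) * h 0 := by
      rw [y0, add_sub_cancel_left, abs_mul, abs_of_pos rd0]
      exact mul_le_mul_of_nonneg_left hx0.le rd0.le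
    have hy1 : |y 1 - (c 1 : ℝ)| ≤ (h 1 : ℝ) / d 0 := by
      rw [y1, add_sub_cancel_left, abs_div, abs_of_pos rd0]
      exact div_le_div_of_nonneg_right hx1.le rd0.le
    have hy2 : |y 2 - (c 2 : ℝ)| ≤ (h 2 : ℝ) := by
      rw [y2]; exact hx2.le
    have e2 : runList Fs₂ y = fun m =>
        if m = 1 then (c 1 : ℝ) + ρ₂ * (y 1 - c 1)
        else if m = 2 then (c 2 : ℝ) + (y 2 - c 2) / ρ₂ else y m := by
      refine (hL₂ Fs₂ hf2).1 y ?_ ?_
      · intro m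
        fin_cases m
        · exact hy0.trans rRd0
        · exact hy1.trans rRd1
        · exact hy2.trans rR2
      · have : (κ₂ : ℝ) * (|y 1 - (c 1 : ℝ)| + |y 2 - (c 2 : ℝ)|) ≤
            (κ₂ : ℝ) * ((h 1 : ℝ) / d 0 + h 2) :=
          mul_le_mul_of_nonneg_left (by linarith) rκ₂.le
        exact this.trans rRκ₂
    rw [e2]
    funext m
    fin_cases m
    · simp [diagMap, y0]
    · simp only [diagMap, y1, rρ₂]
      simp
      field_simp
    · simp only [diagMap, y2, rρ₂]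
      simp
      have hd2 : (d 2 : ℝ) = 1 / ((d 0 : ℝ) * d 1) := by
        field_simp
        linarith
      rw [hd2]
      field_simp
  · intro A hA
    rw [acts_iff_actsL]
    intro Fs hFs x hx
    obtain ⟨Fs₁, Fs₂, rfl, hf1, hf2⟩ := forall₂_append_left hFs
    rw [runList_append]
    have e1 : runList Fs₁ x = x := (hL₁ Fs₁ hf1).2 x (hA x hx)
    rw [e1]
    exact (hL₂ Fs₂ hf2).2 x (hA x hx)

end Crest.Agent.Lib_S0170_GReshape
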