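import Mathlib
import Crest.Prelude.Def_BoxFlow
import Crest.Agent.Lib_S0170_Defs
import Crest.Agent.Lib_S0170_GSem
import Crest.Agent.Lib_S0170_GReshape

/-!
S0170, part [G]: in-place reshape of ALL boxes of a well separated configuration.

`exists_reshape_all`: for half-widths `H`, `K` (positive, same volume for every box) there is a
separation `S`, depending on `H`, `K` only, such that for every family of centres `P` whose members
are pairwise more than `S` apart in some coordinate, one list of valid stages maps every open box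
`obox (P i) (H i)` onto `obox (P i) (K i)` by the diagonal map about its centre.
-/

set_option autoImplicit false

namespace Crest.Agent.Lib_S0170_GRsound

open Crest.AnalysisR.BoxFlow Crest.Agent.Lib_S0170_Defs Crest.Agent.Lib_S0170_GSem
open Crest.Agent.Lib_S0170_GReshape

/-- The in-place scaling of a box with centre `c` from half-widths `H` to half-widths `K`. -/
def scale (c H K : Fin 3 → ℚ) (x : Sp) : Sp :=
  fun m => (c m : ℝ) + ((K m / H m : ℚ) : ℝ) * (x m - (c m : ℝ))

theorem scale_eq_diagMap (c H K : Fin 3 → ℚ) : scale c H K = diagMap c (fun m => K m / H m) := rfl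

theorem scale_apply (c H K : Fin 3 → ℚ) (x : Sp) (m : Fin 3) :
    scale c H K x m = (c m : ℝ) + ((K m / H m : ℚ) : ℝ) * (x m - (c m : ℝ)) := rfl

/-- The scaling maps the open box of half-widths `H` into the open box of half-widths `K`. -/
theorem scale_mem_obox (c H K : Fin 3 → ℚ) (hH : ∀ m, 0 < H m) (hK : ∀ m, 0 < K m) (x : Sp)
    (hx : x ∈ obox c H) : scale c H K x ∈ obox c K := by
  intro m
  have hHm : (0 : ℝ) < H m := by exact_mod_cast hH m
  have hKm : (0 : ℝ) < K m := by exact_mod_cast hK m
  have hxm : |x m - (c m : ℝ)| < (H m : ℝ) := hx m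
  show |(c m : ℝ) + ((K m / H m : ℚ) : ℝ) * (x m - (c m : ℝ)) - (c m : ℝ)| < (K m : ℝ)
  rw [add_sub_cancel_left, abs_mul]
  push_cast
  rw [abs_of_pos (div_pos hKm hHm)]
  calc (K m : ℝ) / H m * |x m - c m| < K m / H m * H m :=
        mul_lt_mul_of_pos_left hxm (div_pos hKm hHm)
    _ = K m := by field_simp

/-- The scaling back is the inverse map. -/
theorem scale_scale (c H K : Fin 3 → ℚ) (hH : ∀ m, 0 < H m) (hK : ∀ m, 0 < K m) (x : Sp) :
    scale c H K (scale c K H x) = x := by
  funext m
  have hHm : (H m : ℝ) ≠ 0 := by exact_mod_cast (hH m).ne'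
  have hKm : (K m : ℝ) ≠ 0 := by exact_mod_cast (hK m).ne'
  simp only [scale]
  push_cast
  field_simp
  ring

/-- The image of the open box of half-widths `H` is the open box of half-widths `K`. -/
theorem scale_image_obox (c H K : Fin 3 → ℚ) (hH : ∀ m, 0 < H m) (hK : ∀ m, 0 < K m) :
    scale c H K '' obox c H = obox c K := by
  apply Set.Subset.antisymm
  · rintro _ ⟨x, hx, rfl⟩
    exact scale_mem_obox c H K hH hK x hx
  · intro y hy
    exact ⟨scale c K H y, scale_mem_obox c K H hK hH y hy, scale_scale c H K hH hK y⟩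

/-- **In-place reshape of all boxes.** -/
theorem exists_reshape_all (n : ℕ) (H K : Fin n → Fin 3 → ℚ) (hH : ∀ i m, 0 < H i m)
    (hK : ∀ i m, 0 < K i m) (hvol : ∀ i, ∏ m : Fin 3, K i m / H i m = 1) :
    ∃ S : ℚ, 0 < S ∧ ∀ P : Fin n → Fin 3 → ℚ, (∀ i j, i ≠ j → ∃ m, S < |P i m - P j m|) →
      ∃ L : List Stage, (∀ s ∈ L, s.Valid) ∧
        ∀ i, Acts L (obox (P i) (H i))
          (fun x m => (P i m : ℝ) + ((K i m / H i m : ℚ) : ℝ) * (x m - (P i m : ℝ))) := by
  have hd : ∀ i m, 0 < K i m / H i m := fun i m => div_pos (hK i m) (hH i m)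
  have hprod : ∀ i, (K i 0 / H i 0) * (K i 1 / H i 1) * (K i 2 / H i 2) = 1 := by
    intro i
    have := hvol i
    rw [Fin.prod_univ_three] at this
    exact this
  choose R hRpos hR using fun i =>
    exists_reshape (H i) (fun m => K i m / H i m) (hH i) (hd i) (hprod i)
  set E : ℚ := ∑ i, ∑ m, (H i m + K i m) with hE
  have hE0 : 0 ≤ E :=
    Finset.sum_nonneg fun i _ => Finset.sum_nonneg fun m _ => (add_pos (hH i m) (hK i m)).le
  have hRsum : ∀ i, R i ≤ ∑ i, R i := fun i =>
    Finset.single_le_sum (f := R) (fun j _ => (hRpos j).le) (Finset.mem_univ i)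
  have hR0 : 0 ≤ ∑ i, R i := Finset.sum_nonneg fun j _ => (hRpos j).le
  have hEle : ∀ i m, H i m + K i m ≤ E := by
    intro i m
    have h1 : H i m + K i m ≤ ∑ m, (H i m + K i m) :=
      Finset.single_le_sum (f := fun m => H i m + K i m)
        (fun m _ => (add_pos (hH i m) (hK i m)).le) (Finset.mem_univ m)
    have h2 : ∑ m, (H i m + K i m) ≤ E :=
      Finset.single_le_sum (f := fun i => ∑ m, (H i m + K i m))
        (fun i _ => Finset.sum_nonneg fun m _ => (add_pos (hH i m) (hK i m)).le)
        (Finset.mem_univ i)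
    exact h1.trans h2
  refine ⟨(∑ i, R i) + E + 2, by linarith, fun P hP => ?_⟩
  -- induction on the list of boxes already reshaped
  have key : ∀ l : List (Fin n), l.Nodup → ∃ L : List Stage, (∀ s ∈ L, s.Valid) ∧
      ∀ i, Acts L (obox (P i) (H i)) (if i ∈ l then scale (P i) (H i) (K i) else id) := by
    intro l
    induction l with
    | nil =>
      intro _
      exact ⟨[], by simp, fun i => by simpa using acts_nil _⟩
    | cons i₀ l ih =>
      intro hl
      rw [List.nodup_cons] at hl
      obtain ⟨L, hLv, hL⟩ := ih hl.2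
      obtain ⟨L₀, hL₀v, hL₀, hL₀out⟩ := hR i₀ (P i₀) 1 one_pos
      refine ⟨L ++ L₀, ?_, fun i => ?_⟩
      · intro s hs
        rcases List.mem_append.mp hs with hs | hs
        · exact hLv s hs
        · exact hL₀v s hs
      · by_cases hi : i = i₀
        · subst hi
          have h1 := hL i
          rw [if_neg hl.1] at h1
          refine acts_append' h1 hL₀ (fun x hx => hx) (fun x _ => ?_)
          rw [if_pos List.mem_cons_self]
          rfl
        · have h1 := hL i
          refine acts_append' h1
            (hL₀out {y | ∃ m, ((R i₀ : ℚ) : ℝ) + ((1 : ℚ) : ℝ) < |y m - (P i₀ m : ℝ)|}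
              (fun y hy => hy)) (fun x hx => ?_) (fun x _ => ?_)
          · obtain ⟨m, hm⟩ := hP i i₀ hi
            refine ⟨m, ?_⟩
            have hHm : (0 : ℝ) < H i m := by exact_mod_cast hH i m
            have hKm : (0 : ℝ) < K i m := by exact_mod_cast hK i m
            have hT : |(if i ∈ l then scale (P i) (H i) (K i) else id) x m - (P i m : ℝ)|
                < (H i m : ℝ) + K i m := by
              split_ifs
              · have := scale_mem_obox (P i) (H i) (K i) (hH i) (hK i) x hx m
                linarith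
              · have : |x m - (P i m : ℝ)| < (H i m : ℝ) := hx m
                simp only [id]
                linarith
            have hle : ((H i m + K i m : ℚ) : ℝ) ≤ (E : ℝ) := by exact_mod_cast hEle i m
            have hRle : ((R i₀ : ℚ) : ℝ) ≤ ((∑ i, R i : ℚ) : ℝ) := by exact_mod_cast hRsum i₀
            have hm' : (((∑ i, R i) + E + 2 : ℚ) : ℝ) < |(P i m : ℝ) - (P i₀ m : ℝ)| := by
              exact_mod_cast hm
            push_cast at hle hm' hRle ⊢
            set y : Sp := (if i ∈ l then scale (P i) (H i) (K i) else id) x with hy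
            have tri : |(P i m : ℝ) - (P i₀ m : ℝ)| ≤
                |y m - (P i₀ m : ℝ)| + |y m - (P i m : ℝ)| := by
              have e : (P i m : ℝ) - (P i₀ m : ℝ) = (y m - (P i₀ m : ℝ)) - (y m - (P i m : ℝ)) := by
                ring
              rw [e]
              exact abs_sub _ _
            linarith
          · have : (i ∈ i₀ :: l) ↔ i ∈ l := by simp [hi]
            simp only [this, id]
  obtain ⟨L, hLv, hL⟩ := key (List.finRange n) (List.nodup_finRange n)
  refine ⟨L, hLv, fun i => ?_⟩
  have := hL i
  rw [if_pos (List.mem_finRange i)] at this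
  exact this

end Crest.Agent.Lib_S0170_GRsound
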