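import Mathlib
import Crest.Prelude.Def_BoxFlow
import Crest.Agent.Lib_S0170_Defs
import Crest.Agent.Lib_S0170_GSem
import Crest.Agent.Lib_S0170_GPrim
import Crest.Agent.Lib_S0170_GPark

/-!
S0170, package G-tsound: soundness of the translation steps `TStep` of `Lib_S0170_GPark`.
A single `TStep` is realized by one valid stage; a chain of `TStep`s by a valid list of stages.
-/

set_option autoImplicit false

namespace Crest.Agent.Lib_S0170_GTSound

open Crest.AnalysisR.BoxFlow Crest.Agent.Lib_S0170_Defs
open Crest.Agent.Lib_S0170_GSem Crest.Agent.Lib_S0170_GPrim Crest.Agent.Lib_S0170_GPark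

/-- Translation of space by a rational vector. -/
def shift (v : Fin 3 → ℚ) : Sp → Sp := fun x j => x j + (v j : ℝ)

theorem shift_zero : shift 0 = id := by
  funext x j
  simp [shift]

theorem shift_comp (u v : Fin 3 → ℚ) : shift u ∘ shift v = shift (u + v) := by
  funext x j
  simp only [shift, Function.comp_apply, Pi.add_apply, Rat.cast_add]
  ring

theorem shift_mem_obox {c H v : Fin 3 → ℚ} {x : Sp} (hx : x ∈ obox c H) :
    shift v x ∈ obox (c + v) H := by
  intro j
  have := hx j
  simp only [shift, Pi.add_apply, Rat.cast_add]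
  rwa [add_sub_add_right_eq_sub]

theorem shift_image_obox_subset (c H v : Fin 3 → ℚ) : shift v '' obox c H ⊆ obox (c + v) H := by
  rintro _ ⟨x, hx, rfl⟩
  exact shift_mem_obox hx

theorem shift_image_obox (c H v : Fin 3 → ℚ) : shift v '' obox c H = obox (c + v) H := by
  refine Set.Subset.antisymm (shift_image_obox_subset c H v) ?_
  intro y hy
  refine ⟨shift (-v) y, ?_, ?_⟩
  · have := shift_mem_obox (v := -v) hy
    simpa using this
  · have := congrFun (shift_comp v (-v)) y
    simpa [shift_zero] using this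

/-- A single stage acts as `T` on `A` as soon as every map realizing it does. -/
theorem acts_single (s : Stage) (A : Set Sp) (T : Sp → Sp)
    (h : ∀ F : Sp → Sp, s.Realizes F → ∀ x ∈ A, F x = T x) : Acts [s] A T := by
  intro F hF x hx
  have h0 := hF ⟨0, by simp⟩
  have : runMaps F x = F ⟨0, by simp⟩ x := by
    simp [runMaps, List.ofFn_succ]
  rw [this]
  exact h _ h0 x hx

/-- Soundness of one translation step. -/
theorem tstep_sound {n : ℕ} (w : ℚ) (hw : 0 < w) (H : Fin n → Fin 3 → ℚ)
    (hH : ∀ i m, 0 < H i m) (c c' : Cfg n) (h : TStep w H c c') :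
    ∃ s : Stage, s.Valid ∧ ∀ i, Acts [s] (obox (c i) (H i)) (shift (c' i - c i)) := by
  obtain ⟨i₀, m, δ, rfl, hsep⟩ := h
  set lo : Fin 3 → ℚ := fun j => if j = m then min (c i₀ m) (c i₀ m + δ) - H i₀ m
    else c i₀ j - H i₀ j with hlo
  set hi : Fin 3 → ℚ := fun j => if j = m then max (c i₀ m) (c i₀ m + δ) + H i₀ m
    else c i₀ j + H i₀ j with hhi
  have hlohi : ∀ j, lo j ≤ hi j := by
    intro j
    have := hH i₀ j
    by_cases hj : j = m
    · subst hj
      simp only [hlo, hhi, if_true]
      have h1 := min_le_left (c i₀ j) (c i₀ j + δ)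
      have h2 := le_max_left (c i₀ j) (c i₀ j + δ)
      linarith
    · simp only [hlo, hhi, if_neg hj]
      linarith
  obtain ⟨s, hs, hsF⟩ := exists_translate m δ lo hi hlohi w hw
  refine ⟨s, hs, fun i => acts_single s _ _ fun F hF x hx => ?_⟩
  obtain ⟨hmove, hfix⟩ := hsF F hF
  have hlom : (lo m : ℝ) = min (c i₀ m : ℝ) (c i₀ m + δ) - H i₀ m := by
    simp only [hlo, if_true]; push_cast; rfl
  have hhim : (hi m : ℝ) = max (c i₀ m : ℝ) (c i₀ m + δ) + H i₀ m := by
    simp only [hhi, if_true]; push_cast; rfl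
  have hloj : ∀ j, j ≠ m → (lo j : ℝ) = c i₀ j - H i₀ j := by
    intro j hj; simp only [hlo, if_neg hj]; push_cast; rfl
  have hhij : ∀ j, j ≠ m → (hi j : ℝ) = c i₀ j + H i₀ j := by
    intro j hj; simp only [hhi, if_neg hj]; push_cast; rfl
  by_cases hi₀ : i = i₀
  · subst hi₀
    have hxb : ∀ j, (lo j : ℝ) ≤ x j ∧ x j ≤ hi j := by
      intro j
      have hxj := abs_lt.mp (hx j)
      by_cases hj : j = m
      · subst hj
        rw [hlom, hhim]
        have h1 := min_le_left (c i j : ℝ) (c i j + δ)
        have h2 := le_max_left (c i j : ℝ) (c i j + δ)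
        constructor <;> linarith [hxj.1, hxj.2]
      · rw [hloj j hj, hhij j hj]
        constructor <;> linarith [hxj.1, hxj.2]
    have hxm : (lo m : ℝ) ≤ x m + δ ∧ x m + δ ≤ hi m := by
      have hxj := abs_lt.mp (hx m)
      rw [hlom, hhim]
      have h1 := min_le_right (c i m : ℝ) (c i m + δ)
      have h2 := le_max_right (c i m : ℝ) (c i m + δ)
      constructor <;> linarith [hxj.1, hxj.2]
    rw [hmove x hxb hxm]
    funext j
    by_cases hj : j = m
    · subst hj
      simp [shift]
    · simp [shift, hj]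
  · have hci : Function.update c i₀ (Function.update (c i₀) m (c i₀ m + δ)) i = c i := by
      simp [Function.update_of_ne hi₀]
    rw [hci, sub_self, shift_zero]
    simp only [id]
    apply hfix
    rcases hsep i hi₀ with ⟨m', hm', hlt⟩ | hlt | hlt
    · have hxj := abs_lt.mp (hx m')
      have hlt' : ((H i m' : ℝ) + H i₀ m' + w) < |(c i m' : ℝ) - c i₀ m'| := by
        exact_mod_cast hlt
      refine ⟨m', ?_⟩
      rw [hloj m' hm', hhij m' hm']
      rcases lt_abs.mp hlt' with h1 | h1
      · right; linarith [hxj.1, hxj.2]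
      · left; linarith [hxj.1, hxj.2]
    · have hxj := abs_lt.mp (hx m)
      have hlt' : ((c i m : ℝ) + H i m + w) < min (c i₀ m : ℝ) (c i₀ m + δ) - H i₀ m := by
        exact_mod_cast hlt
      refine ⟨m, Or.inl ?_⟩
      rw [hlom]
      linarith [hxj.1, hxj.2]
    · have hxj := abs_lt.mp (hx m)
      have hlt' : max (c i₀ m : ℝ) (c i₀ m + δ) + H i₀ m + w < (c i m : ℝ) - H i m := by
        exact_mod_cast hlt
      refine ⟨m, Or.inr ?_⟩
      rw [hhim]
      linarith [hxj.1, hxj.2]

/-- Soundness of a chain of translation steps. -/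
theorem chain_sound {n : ℕ} (w : ℚ) (hw : 0 < w) (H : Fin n → Fin 3 → ℚ)
    (hH : ∀ i m, 0 < H i m) (c c' : Cfg n) (h : Relation.ReflTransGen (TStep w H) c c') :
    ∃ L : List Stage, (∀ s ∈ L, s.Valid) ∧
      ∀ i, Acts L (obox (c i) (H i)) (shift (c' i - c i)) := by
  induction h using Relation.ReflTransGen.head_induction_on with
  | refl =>
    refine ⟨[], by simp, fun i => ?_⟩
    rw [sub_self, shift_zero]
    exact acts_nil _
  | @head c₀ c₁ hstep _ ih =>
    obtain ⟨s, hs, hsA⟩ := tstep_sound w hw H hH c₀ c₁ hstep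
    obtain ⟨L, hL, hLA⟩ := ih
    refine ⟨[s] ++ L, ?_, fun i => ?_⟩
    · intro t ht
      rcases List.mem_append.mp ht with ht | ht
      · rw [List.mem_singleton.mp ht]; exact hs
      · exact hL t ht
    · have h2 : Acts L (shift (c₁ i - c₀ i) '' obox (c₀ i) (H i)) (shift (c' i - c₁ i)) := by
        refine acts_mono (hLA i) ?_
        have := shift_image_obox_subset (c₀ i) (H i) (c₁ i - c₀ i)
        simpa using this
      have h3 := acts_append (hsA i) h2
      rw [shift_comp] at h3
      have : c' i - c₁ i + (c₁ i - c₀ i) = c' i - c₀ i := by abel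
      rwa [this] at h3

/-- Reversed chain: if the configuration `b` reaches `P`, then there is a valid list of stages
bringing the boxes at `P` back to `b`. -/
theorem chain_sound_symm {n : ℕ} (w : ℚ) (hw : 0 < w) (H : Fin n → Fin 3 → ℚ)
    (hH : ∀ i m, 0 < H i m) (b P : Cfg n) (h : Relation.ReflTransGen (TStep w H) b P) :
    ∃ L : List Stage, (∀ s ∈ L, s.Valid) ∧
      ∀ i, Acts L (obox (P i) (H i)) (shift (b i - P i)) := by
  refine chain_sound w hw H hH P b ?_
  induction h with
  | refl => exact Relation.ReflTransGen.refl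
  | tail _ hstep ih => exact Relation.ReflTransGen.head (TStep.symm hstep) ih

end Crest.Agent.Lib_S0170_GTSound
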