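import Mathlib
import Crest.Prelude.Def_BoxFlow

/-!
Disjointness of closed axis-parallel rational boxes is separation in one coordinate
(helper lemmas for S0170, part [G]).
-/

set_option autoImplicit false

namespace Crest.Agent.Lib_helper19_BoxSep

open Crest.AnalysisR.BoxFlow

/-- Two closed intervals `[c - h, c + h]`, `[c' - h', c' + h']` with `|c - c'| ≤ h + h'` have a
common point. -/
theorem exists_common (c h c' h' : ℝ) (hh : 0 ≤ h) (hh' : 0 ≤ h') (hd : |c - c'| ≤ h + h') :
    ∃ x : ℝ, |x - c| ≤ h ∧ |x - c'| ≤ h' := by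
  rw [abs_le] at hd
  refine ⟨max (c - h) (c' - h'), ?_, ?_⟩
  · rw [abs_le]
    constructor
    · have := le_max_left (c - h) (c' - h')
      linarith
    · have : max (c - h) (c' - h') ≤ c + h := max_le (by linarith) (by linarith)
      linarith
  · rw [abs_le]
    constructor
    · have := le_max_right (c - h) (c' - h')
      linarith
    · have : max (c - h) (c' - h') ≤ c' + h' := max_le (by linarith) (by linarith)
      linarith

/-- Disjoint closed rational boxes are separated in some coordinate. -/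
theorem exists_sep_of_disjoint (a h a' h' : Fin 3 → ℚ) (hh : ∀ j, 0 ≤ h j) (hh' : ∀ j, 0 ≤ h' j)
    (hd : Disjoint (box a h) (box a' h')) : ∃ m : Fin 3, h m + h' m < |a m - a' m| := by
  by_contra hcon
  have hcon : ∀ m : Fin 3, |a m - a' m| ≤ h m + h' m := by
    intro m
    by_contra hm
    exact hcon ⟨m, not_le.mp hm⟩
  have hx : ∀ j : Fin 3, ∃ x : ℝ, |x - (a j : ℝ)| ≤ (h j : ℝ) ∧ |x - (a' j : ℝ)| ≤ (h' j : ℝ) := by
    intro j
    refine exists_common _ _ _ _ (by exact_mod_cast hh j) (by exact_mod_cast hh' j) ?_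
    have := hcon j
    exact_mod_cast this
  choose x hx1 hx2 using hx
  have h1 : x ∈ box a h := fun j => hx1 j
  have h2 : x ∈ box a' h' := fun j => hx2 j
  exact Set.disjoint_left.mp hd h1 h2

/-- Boxes separated in some coordinate are disjoint. -/
theorem disjoint_of_sep (a h a' h' : Fin 3 → ℚ) (m : Fin 3) (hm : h m + h' m < |a m - a' m|) :
    Disjoint (box a h) (box a' h') := by
  rw [Set.disjoint_left]
  intro x hx hx'
  have h1 : |x m - (a m : ℝ)| ≤ (h m : ℝ) := hx m
  have h2 : |x m - (a' m : ℝ)| ≤ (h' m : ℝ) := hx' m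
  have h3 : ((h m + h' m : ℚ) : ℝ) < ((|a m - a' m| : ℚ) : ℝ) := by exact_mod_cast hm
  push_cast at h3
  have h4 : |(a m : ℝ) - (a' m : ℝ)| ≤ |x m - (a m : ℝ)| + |x m - (a' m : ℝ)| := by
    have : (a m : ℝ) - (a' m : ℝ) = (x m - (a' m : ℝ)) - (x m - (a m : ℝ)) := by ring
    rw [this]
    have := abs_sub (x m - (a' m : ℝ)) (x m - (a m : ℝ))
    linarith
  linarith

end Crest.Agent.Lib_helper19_BoxSep
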