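import Mathlib
import Crest.Prelude.Def_BoxFlow
import Crest.Agent.Lib_S0170_Defs
import Crest.Agent.Lib_S0170_GSem
import Crest.Agent.Lib_helper19_BoxSep
import Crest.Agent.Lib_S0170_GPark
import Crest.Agent.Lib_S0170_GTSound
import Crest.Agent.Lib_S0170_GRsound

/-!
# S0170, part [G]: the plan (`exists_plan`)

Assembly of the planning part: enlarge the boxes by a small factor `1 + θ` (keeping them
`θ`-separated), park the (enlarged) source boxes, reshape them in place, and un-park them to the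
target configuration.  The two analytic inputs (soundness of chains of translation steps,
`Lib_S0170_GTSound.chain_sound`, and in-place reshaping of well-separated boxes,
`Lib_S0170_GRsound.exists_reshape_all`) enter `exists_plan_core` as hypotheses; `exists_plan` is
the statement of `Lib_S0170_Plan.exists_plan`, verbatim.
-/

set_option autoImplicit false

namespace Crest.Agent.Lib_S0170_G

open Crest.AnalysisR.BoxFlow Crest.Agent.Lib_S0170_Defs Crest.Agent.Lib_S0170_GSem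
  Crest.Agent.Lib_S0170_GPark Crest.Agent.Lib_helper19_BoxSep

/-- A finite family of positive rationals has a positive lower bound. -/
theorem exists_pos_le {ι : Type*} [Finite ι] (f : ι → ℚ) (hf : ∀ i, 0 < f i) :
    ∃ θ : ℚ, 0 < θ ∧ ∀ i, θ ≤ f i := by
  rcases isEmpty_or_nonempty ι with hι | hι
  · exact ⟨1, one_pos, fun i => (hι.false i).elim⟩
  · obtain ⟨i₀, hi₀⟩ := Finite.exists_min f
    exact ⟨f i₀, hf i₀, hi₀⟩

/-- Pairwise disjoint closed boxes stay separated, with a margin, after a small enlargement. -/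
theorem exists_margin (n : ℕ) (a h : Fin n → Fin 3 → ℚ) (hh : ∀ i j, 0 < h i j)
    (ha : Pairwise fun i i' => Disjoint (box (a i) (h i)) (box (a i') (h i'))) :
    ∃ θ : ℚ, 0 < θ ∧ ∀ θ' : ℚ, 0 < θ' → θ' ≤ θ → ∀ i i', i ≠ i' →
      ∃ m, (1 + θ') * h i m + (1 + θ') * h i' m + θ' < |a i m - a i' m| := by
  have hpair : ∀ p : Fin n × Fin n, ∃ t : ℚ, 0 < t ∧ (p.1 ≠ p.2 → ∀ θ' : ℚ, 0 < θ' → θ' ≤ t →
      ∃ m, (1 + θ') * h p.1 m + (1 + θ') * h p.2 m + θ' < |a p.1 m - a p.2 m|) := by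
    rintro ⟨i, i'⟩
    by_cases hii : i = i'
    · exact ⟨1, one_pos, fun hne => (hne hii).elim⟩
    · obtain ⟨m, hm⟩ := exists_sep_of_disjoint (a i) (h i) (a i') (h i')
        (fun j => (hh i j).le) (fun j => (hh i' j).le) (ha hii)
      have h1 := hh i m
      have h2 := hh i' m
      have hpos : 0 < 2 * (h i m + h i' m + 1) := by linarith
      refine ⟨(|a i m - a i' m| - (h i m + h i' m)) / (2 * (h i m + h i' m + 1)),
        div_pos (by linarith) hpos, fun _ θ' hθ' hle => ⟨m, ?_⟩⟩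
      have h3 : θ' * (2 * (h i m + h i' m + 1)) ≤ |a i m - a i' m| - (h i m + h i' m) := by
        rwa [le_div_iff₀ hpos] at hle
      show (1 + θ') * h i m + (1 + θ') * h i' m + θ' < |a i m - a i' m|
      nlinarith
  choose t ht0 ht using hpair
  obtain ⟨θ, hθ, hle⟩ := exists_pos_le t ht0
  exact ⟨θ, hθ, fun θ' hθ' hθ'le i i' hii => ht (i, i') hii θ' hθ' (hθ'le.trans (hle _))⟩

/-- The image of an open box under the diagonal scaling about its centre. -/
theorem scale_mem_obox (P H K : Fin 3 → ℚ) (hH : ∀ m, 0 < H m) (hK : ∀ m, 0 < K m) (x : Sp)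
    (hx : x ∈ obox P H) :
    (fun m => (P m : ℝ) + ((K m / H m : ℚ) : ℝ) * (x m - (P m : ℝ))) ∈ obox P K := by
  intro m
  have hx' : |x m - (P m : ℝ)| < (H m : ℝ) := hx m
  have hHm : (0 : ℝ) < (H m : ℝ) := by exact_mod_cast hH m
  have hKm : (0 : ℝ) < (K m : ℝ) := by exact_mod_cast hK m
  show |(P m : ℝ) + ((K m / H m : ℚ) : ℝ) * (x m - (P m : ℝ)) - (P m : ℝ)| < (K m : ℝ)
  rw [add_sub_cancel_left, abs_mul, Rat.cast_div, abs_of_pos (div_pos hKm hHm)]
  calc (K m : ℝ) / (H m : ℝ) * |x m - (P m : ℝ)| < (K m : ℝ) / (H m : ℝ) * (H m : ℝ) :=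
        mul_lt_mul_of_pos_left hx' (div_pos hKm hHm)
    _ = (K m : ℝ) := div_mul_cancel₀ _ hHm.ne'

/-- The image of an open box under a translation. -/
theorem shift_mem_obox (c c' H : Fin 3 → ℚ) (x : Sp) (hx : x ∈ obox c H) :
    (fun j => x j + ((c' - c) j : ℝ)) ∈ obox c' H := by
  intro m
  have hx' : |x m - (c m : ℝ)| < (H m : ℝ) := hx m
  show |x m + ((c' - c) m : ℝ) - (c' m : ℝ)| < (H m : ℝ)
  have e : x m + ((c' - c) m : ℝ) - (c' m : ℝ) = x m - (c m : ℝ) := by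
    rw [Pi.sub_apply, Rat.cast_sub]
    ring
  rw [e]
  exact hx'

/-- **The plan**, from soundness of chains of translation steps and in-place reshaping. -/
theorem exists_plan_core (n : ℕ) (a b h k : Fin n → Fin 3 → ℚ)
    (hh : ∀ i j, 0 < h i j) (hk : ∀ i j, 0 < k i j)
    (ha : Pairwise fun i i' => Disjoint (box (a i) (h i)) (box (a i') (h i')))
    (hb : Pairwise fun i i' => Disjoint (box (b i) (k i)) (box (b i') (k i')))
    (hvol : ∀ i, ∏ j : Fin 3, k i j / h i j = 1)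
    (hchain : ∀ w : ℚ, 0 < w → ∀ H : Fin n → Fin 3 → ℚ, (∀ i m, 0 < H i m) →
      ∀ c c' : Cfg n, Relation.ReflTransGen (TStep w H) c c' →
        ∃ L : List Stage, (∀ s ∈ L, s.Valid) ∧
          ∀ i, Acts L (obox (c i) (H i)) (fun x j => x j + ((c' i - c i) j : ℝ)))
    (hresh : ∀ H K : Fin n → Fin 3 → ℚ, (∀ i m, 0 < H i m) → (∀ i m, 0 < K i m) →
      (∀ i, ∏ m : Fin 3, K i m / H i m = 1) →
        ∃ S : ℚ, 0 < S ∧ ∀ P : Fin n → Fin 3 → ℚ, (∀ i j, i ≠ j → ∃ m, S < |P i m - P j m|) →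
          ∃ L : List Stage, (∀ s ∈ L, s.Valid) ∧
            ∀ i, Acts L (obox (P i) (H i))
              (fun x m => (P i m : ℝ) + ((K i m / H i m : ℚ) : ℝ) * (x m - (P i m : ℝ)))) :
    ∃ L : List Stage, (∀ s ∈ L, s.Valid) ∧
      ∀ F : Fin L.length → Sp → Sp, (∀ r, (L.get r).Realizes (F r)) →
        ∀ i : Fin n, ∃ O : Set Sp, IsOpen O ∧ box (a i) (h i) ⊆ O ∧
          ∀ x ∈ O, runMaps F x =
            fun j => (b i j : ℝ) + ((k i j / h i j : ℚ) : ℝ) * (x j - (a i j : ℝ)) := by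
  obtain ⟨θa, hθa, hma⟩ := exists_margin n a h hh ha
  obtain ⟨θb, hθb, hmb⟩ := exists_margin n b k hk hb
  obtain ⟨θ, hθ, hθle_a, hθle_b⟩ : ∃ θ : ℚ, 0 < θ ∧ θ ≤ θa ∧ θ ≤ θb :=
    ⟨min θa θb, lt_min hθa hθb, min_le_left _ _, min_le_right _ _⟩
  have h1θ : 0 < 1 + θ := by linarith
  obtain ⟨H, hHdef⟩ : ∃ H : Fin n → Fin 3 → ℚ, ∀ i m, H i m = (1 + θ) * h i m := ⟨_, fun _ _ => rfl⟩
  obtain ⟨K, hKdef⟩ : ∃ K : Fin n → Fin 3 → ℚ, ∀ i m, K i m = (1 + θ) * k i m := ⟨_, fun _ _ => rfl⟩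
  have hH : ∀ i m, 0 < H i m := fun i m => by rw [hHdef]; exact mul_pos h1θ (hh i m)
  have hK : ∀ i m, 0 < K i m := fun i m => by rw [hKdef]; exact mul_pos h1θ (hk i m)
  have hKH : ∀ i m, K i m / H i m = k i m / h i m := fun i m => by
    rw [hKdef, hHdef]; exact mul_div_mul_left _ _ h1θ.ne'
  have hvol' : ∀ i, ∏ m : Fin 3, K i m / H i m = 1 := fun i => by
    rw [← hvol i]; exact Finset.prod_congr rfl (fun m _ => hKH i m)
  have hsepa : ∀ i j, i ≠ j → ∃ m, H i m + H j m + θ < |a i m - a j m| := fun i j hij => by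
    obtain ⟨m, hm⟩ := hma θ hθ hθle_a i j hij
    exact ⟨m, by rw [hHdef, hHdef]; exact hm⟩
  have hsepb : ∀ i j, i ≠ j → ∃ m, K i m + K j m + θ < |b i m - b j m| := fun i j hij => by
    obtain ⟨m, hm⟩ := hmb θ hθ hθle_b i j hij
    exact ⟨m, by rw [hKdef, hKdef]; exact hm⟩
  -- a common bound `ρ`
  have hta : ∀ i m, 0 ≤ |a i m| + H i m := fun i m => add_nonneg (abs_nonneg _) (hH i m).le
  have htb : ∀ i m, 0 ≤ |b i m| + K i m := fun i m => add_nonneg (abs_nonneg _) (hK i m).le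
  have hsa : ∀ i m, |a i m| + H i m ≤ ∑ i, ∑ m, (|a i m| + H i m) := fun i m =>
    (Finset.single_le_sum (f := fun m => |a i m| + H i m) (fun m _ => hta i m)
      (Finset.mem_univ m)).trans
      (Finset.single_le_sum (f := fun i => ∑ m, (|a i m| + H i m))
        (fun i _ => Finset.sum_nonneg (fun m _ => hta i m)) (Finset.mem_univ i))
  have hsb : ∀ i m, |b i m| + K i m ≤ ∑ i, ∑ m, (|b i m| + K i m) := fun i m =>
    (Finset.single_le_sum (f := fun m => |b i m| + K i m) (fun m _ => htb i m)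
      (Finset.mem_univ m)).trans
      (Finset.single_le_sum (f := fun i => ∑ m, (|b i m| + K i m))
        (fun i _ => Finset.sum_nonneg (fun m _ => htb i m)) (Finset.mem_univ i))
  have hsa0 : 0 ≤ ∑ i, ∑ m, (|a i m| + H i m) :=
    Finset.sum_nonneg (fun i _ => Finset.sum_nonneg (fun m _ => hta i m))
  have hsb0 : 0 ≤ ∑ i, ∑ m, (|b i m| + K i m) :=
    Finset.sum_nonneg (fun i _ => Finset.sum_nonneg (fun m _ => htb i m))
  obtain ⟨ρ, hρ0, hρa, hρb⟩ : ∃ ρ : ℚ, 0 ≤ ρ ∧ (∀ i m, |a i m| + H i m ≤ ρ) ∧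
      ∀ i m, |b i m| + K i m ≤ ρ :=
    ⟨(∑ i, ∑ m, (|a i m| + H i m)) + ∑ i, ∑ m, (|b i m| + K i m), add_nonneg hsa0 hsb0,
      fun i m => (hsa i m).trans (le_add_of_nonneg_right hsb0),
      fun i m => (hsb i m).trans (le_add_of_nonneg_left hsa0)⟩
  obtain ⟨S, hS, hreshape⟩ := hresh H K hH hK hvol'
  have hM : 2 * ρ + θ < 2 * ρ + θ + S + 1 := by linarith
  have hL : 2 * ρ + θ < 2 * ρ + θ + 1 := by linarith
  have hZ : 2 * ρ + θ ≤ 2 * ρ + θ := le_rfl
  have hPsep : ∀ i j : Fin n, i ≠ j → ∃ m,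
      S < |(parked (2 * ρ + θ + S + 1) (2 * ρ + θ + 1) (2 * ρ + θ) : Cfg n) i m -
        (parked (2 * ρ + θ + S + 1) (2 * ρ + θ + 1) (2 * ρ + θ) : Cfg n) j m| :=
    fun i j hij => ⟨0, lt_of_lt_of_le (by linarith)
      (parked_dist₀ (2 * ρ + θ + S + 1) (2 * ρ + θ + 1) (2 * ρ + θ) (by linarith) hij)⟩
  obtain ⟨P, hPdef⟩ : ∃ P : Cfg n, P = parked (2 * ρ + θ + S + 1) (2 * ρ + θ + 1) (2 * ρ + θ) :=
    ⟨_, rfl⟩
  rw [← hPdef] at hPsep
  have hpark_a : Relation.ReflTransGen (TStep θ H) a P := by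
    rw [hPdef]
    exact park θ ρ _ _ _ H a hθ hH hρa hsepa hM hL hZ
  have hpark_b : Relation.ReflTransGen (TStep θ K) P b := by
    rw [hPdef]
    exact unpark θ ρ _ _ _ K b hθ hK hρb hsepb hM hL hZ
  obtain ⟨L₁, hL₁, hA₁⟩ := hchain θ hθ H hH a P hpark_a
  obtain ⟨L₂, hL₂, hA₂⟩ := hreshape P hPsep
  obtain ⟨L₃, hL₃, hA₃⟩ := hchain θ hθ K hK P b hpark_b
  have hacts : ∀ i, Acts (L₁ ++ (L₂ ++ L₃)) (obox (a i) (H i))
      (fun x j => (b i j : ℝ) + ((k i j / h i j : ℚ) : ℝ) * (x j - (a i j : ℝ))) := by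
    intro i
    have h23 : Acts (L₂ ++ L₃) (obox (P i) (H i))
        (fun x j => (b i j : ℝ) + ((k i j / h i j : ℚ) : ℝ) * (x j - (P i j : ℝ))) := by
      refine acts_append' (hA₂ i) (hA₃ i)
        (fun x hx => scale_mem_obox (P i) (H i) (K i) (hH i) (hK i) x hx) ?_
      intro x _
      funext j
      show (P i j : ℝ) + ((K i j / H i j : ℚ) : ℝ) * (x j - (P i j : ℝ)) + ((b i - P i) j : ℝ) =
        (b i j : ℝ) + ((k i j / h i j : ℚ) : ℝ) * (x j - (P i j : ℝ))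
      rw [hKH i j, Pi.sub_apply, Rat.cast_sub]
      ring
    refine acts_append' (hA₁ i) h23 (fun x hx => shift_mem_obox (a i) (P i) (H i) x hx) ?_
    intro x _
    funext j
    show (b i j : ℝ) + ((k i j / h i j : ℚ) : ℝ) * (x j + ((P i - a i) j : ℝ) - (P i j : ℝ)) =
      (b i j : ℝ) + ((k i j / h i j : ℚ) : ℝ) * (x j - (a i j : ℝ))
    rw [Pi.sub_apply, Rat.cast_sub]
    ring
  refine ⟨L₁ ++ (L₂ ++ L₃), ?_, ?_⟩
  · intro s hs
    rcases List.mem_append.mp hs with h1 | h23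
    · exact hL₁ s h1
    · rcases List.mem_append.mp h23 with h2 | h3
      · exact hL₂ s h2
      · exact hL₃ s h3
  · intro F hF i
    refine ⟨obox (a i) (H i), isOpen_obox _ _, box_subset_obox _ _ _ (fun j => ?_),
      fun x hx => hacts i F hF x hx⟩
    rw [hHdef]
    have := hh i j
    nlinarith

/-- **Part [G]** (`Lib_S0170_Plan.exists_plan`, verbatim): the plan. -/
theorem exists_plan (n : ℕ) (a b h k : Fin n → Fin 3 → ℚ)
    (hh : ∀ i j, 0 < h i j) (hk : ∀ i j, 0 < k i j)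
    (ha : Pairwise fun i i' => Disjoint (box (a i) (h i)) (box (a i') (h i')))
    (hb : Pairwise fun i i' => Disjoint (box (b i) (k i)) (box (b i') (k i')))
    (hvol : ∀ i, ∏ j : Fin 3, k i j / h i j = 1) :
    ∃ L : List Stage, (∀ s ∈ L, s.Valid) ∧
      ∀ F : Fin L.length → Sp → Sp, (∀ r, (L.get r).Realizes (F r)) →
        ∀ i : Fin n, ∃ O : Set Sp, IsOpen O ∧ box (a i) (h i) ⊆ O ∧
          ∀ x ∈ O, runMaps F x =
            fun j => (b i j : ℝ) + ((k i j / h i j : ℚ) : ℝ) * (x j - (a i j : ℝ)) :=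
  exists_plan_core n a b h k hh hk ha hb hvol
    (fun w hw H hH c c' hc => Lib_S0170_GTSound.chain_sound w hw H hH c c' hc)
    (fun H K hH hK hv => Lib_S0170_GRsound.exists_reshape_all n H K hH hK hv)

end Crest.Agent.Lib_S0170_G
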