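import Mathlib
import Crest.Prelude.Def_BoxFlow
import Crest.Agent.Lib_helper19_BoxSep

/-!
S0170, part [G]: the enlargement margin.  Finitely many pairwise disjoint closed rational boxes
(source family `(a, h)` and target family `(b, k)`) stay pairwise separated, with a uniform
positive margin `w`, after all half-widths are multiplied by `1 + θ` for a suitable rational
`θ > 0`.  Plus the small arithmetic facts about enlarged half-widths used by the assembly.
-/

set_option autoImplicit false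

namespace Crest.Agent.Lib_S0170_GMargin

open Crest.AnalysisR.BoxFlow

/-- A finite family of positive rationals has a positive lower bound. -/
theorem exists_pos_le {ι : Type*} [Fintype ι] (f : ι → ℚ) (hf : ∀ i, 0 < f i) :
    ∃ g : ℚ, 0 < g ∧ ∀ i, g ≤ f i := by
  classical
  by_cases hne : Nonempty ι
  · obtain ⟨i0, -, h0⟩ := Finset.exists_min_image Finset.univ f Finset.univ_nonempty
    exact ⟨f i0, hf i0, fun i => h0 i (Finset.mem_univ i)⟩
  · exact ⟨1, one_pos, fun i => (hne ⟨i⟩).elim⟩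

/-- Uniform gap for one family of pairwise disjoint boxes. -/
theorem exists_gap (n : ℕ) (a h : Fin n → Fin 3 → ℚ) (hh : ∀ i j, 0 < h i j)
    (ha : Pairwise fun i i' => Disjoint (box (a i) (h i)) (box (a i') (h i'))) :
    ∃ g : ℚ, 0 < g ∧ ∀ i j, i ≠ j → ∃ m, h i m + h j m + g ≤ |a i m - a j m| := by
  classical
  have key : ∀ p : {p : Fin n × Fin n // p.1 ≠ p.2},
      ∃ m, h p.1.1 m + h p.1.2 m < |a p.1.1 m - a p.1.2 m| := fun p =>
    Lib_helper19_BoxSep.exists_sep_of_disjoint (a p.1.1) (h p.1.1) (a p.1.2) (h p.1.2)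
      (fun j => (hh _ j).le) (fun j => (hh _ j).le) (ha p.2)
  choose mm hmm using key
  obtain ⟨g, hg, hg'⟩ := exists_pos_le
    (fun p : {p : Fin n × Fin n // p.1 ≠ p.2} =>
      |a p.1.1 (mm p) - a p.1.2 (mm p)| - (h p.1.1 (mm p) + h p.1.2 (mm p)))
    (fun p => by have := hmm p; linarith)
  refine ⟨g, hg, fun i j hij => ⟨mm ⟨(i, j), hij⟩, ?_⟩⟩
  have := hg' ⟨(i, j), hij⟩
  simp only at this
  linarith

/-- A single entry is bounded by the total sum. -/
theorem le_total (n : ℕ) (h : Fin n → Fin 3 → ℚ) (hh : ∀ i j, 0 ≤ h i j) (i : Fin n) (m : Fin 3) :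
    h i m ≤ ∑ i, ∑ m, h i m := by
  have h1 : h i m ≤ ∑ m, h i m :=
    Finset.single_le_sum (f := fun m => h i m) (fun m _ => hh i m) (Finset.mem_univ m)
  have h2 : ∑ m, h i m ≤ ∑ i, ∑ m, h i m :=
    Finset.single_le_sum (f := fun i => ∑ m, h i m)
      (fun i _ => Finset.sum_nonneg fun m _ => hh i m) (Finset.mem_univ i)
  exact h1.trans h2

/-- The enlargement margin: one `θ` and one `w` for the source and the target family. -/
theorem exists_margin (n : ℕ) (a b h k : Fin n → Fin 3 → ℚ)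
    (hh : ∀ i j, 0 < h i j) (hk : ∀ i j, 0 < k i j)
    (ha : Pairwise fun i i' => Disjoint (box (a i) (h i)) (box (a i') (h i')))
    (hb : Pairwise fun i i' => Disjoint (box (b i) (k i)) (box (b i') (k i'))) :
    ∃ θ w : ℚ, 0 < θ ∧ 0 < w ∧
      (∀ i j, i ≠ j → ∃ m, (1 + θ) * h i m + (1 + θ) * h j m + w < |a i m - a j m|) ∧
      (∀ i j, i ≠ j → ∃ m, (1 + θ) * k i m + (1 + θ) * k j m + w < |b i m - b j m|) := by
  obtain ⟨ga, hga, hga'⟩ := exists_gap n a h hh ha
  obtain ⟨gb, hgb, hgb'⟩ := exists_gap n b k hk hb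
  set g : ℚ := min ga gb with hg
  have hgpos : 0 < g := lt_min hga hgb
  have hgle_a : g ≤ ga := min_le_left _ _
  have hgle_b : g ≤ gb := min_le_right _ _
  set T : ℚ := 1 + (∑ i, ∑ m, h i m) + ∑ i, ∑ m, k i m with hT
  have hSh : 0 ≤ ∑ i, ∑ m, h i m :=
    Finset.sum_nonneg fun i _ => Finset.sum_nonneg fun m _ => (hh i m).le
  have hSk : 0 ≤ ∑ i, ∑ m, k i m :=
    Finset.sum_nonneg fun i _ => Finset.sum_nonneg fun m _ => (hk i m).le
  have hTpos : 0 < T := by rw [hT]; linarith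
  have hhT : ∀ i m, h i m ≤ T := fun i m => by
    have := le_total n h (fun i j => (hh i j).le) i m
    rw [hT]; linarith
  have hkT : ∀ i m, k i m ≤ T := fun i m => by
    have := le_total n k (fun i j => (hk i j).le) i m
    rw [hT]; linarith
  set θ : ℚ := g / (6 * T) with hθ
  have hθpos : 0 < θ := by rw [hθ]; positivity
  have hθT : θ * T = g / 6 := by
    rw [hθ]; field_simp
  -- the common estimate
  have est : ∀ u v : ℚ, 0 ≤ u → 0 ≤ v → u ≤ T → v ≤ T → θ * u + θ * v ≤ g / 3 := by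
    intro u v hu hv huT hvT
    have h1 : θ * u ≤ θ * T := mul_le_mul_of_nonneg_left huT hθpos.le
    have h2 : θ * v ≤ θ * T := mul_le_mul_of_nonneg_left hvT hθpos.le
    linarith
  refine ⟨θ, g / 3, hθpos, by positivity, fun i j hij => ?_, fun i j hij => ?_⟩
  · obtain ⟨m, hm⟩ := hga' i j hij
    refine ⟨m, ?_⟩
    have := est (h i m) (h j m) (hh i m).le (hh j m).le (hhT i m) (hhT j m)
    linarith
  · obtain ⟨m, hm⟩ := hgb' i j hij
    refine ⟨m, ?_⟩
    have := est (k i m) (k j m) (hk i m).le (hk j m).le (hkT i m) (hkT j m)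
    linarith

/-! ### arithmetic of enlarged half-widths -/

theorem enl_pos {θ h : ℚ} (hθ : 0 < θ) (hh : 0 < h) : 0 < (1 + θ) * h := by positivity

theorem enl_lt {θ h : ℚ} (hθ : 0 < θ) (hh : 0 < h) : h < (1 + θ) * h := by nlinarith

theorem enl_div {θ : ℚ} (hθ : 0 < θ) (h k : ℚ) : ((1 + θ) * k) / ((1 + θ) * h) = k / h := by
  have : (1 + θ) ≠ 0 := by positivity
  rw [mul_div_mul_left _ _ this]

theorem enl_prod {θ : ℚ} (hθ : 0 < θ) (h k : Fin 3 → ℚ) (hvol : ∏ j : Fin 3, k j / h j = 1) :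
    ∏ m : Fin 3, ((1 + θ) * k m) / ((1 + θ) * h m) = 1 := by
  have e : ∏ m : Fin 3, ((1 + θ) * k m) / ((1 + θ) * h m) = ∏ j : Fin 3, k j / h j :=
    Finset.prod_congr rfl fun m _ => enl_div hθ (h m) (k m)
  rw [e, hvol]

/-- A common bound `ρ` for the two families. -/
theorem exists_rho (n : ℕ) (a b H K : Fin n → Fin 3 → ℚ) (hH : ∀ i m, 0 ≤ H i m)
    (hK : ∀ i m, 0 ≤ K i m) :
    ∃ ρ : ℚ, 0 ≤ ρ ∧ (∀ i m, |a i m| + H i m ≤ ρ) ∧ (∀ i m, |b i m| + K i m ≤ ρ) := by
  have h1 : ∀ i m, 0 ≤ |a i m| + H i m := fun i m => add_nonneg (abs_nonneg _) (hH i m)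
  have h2 : ∀ i m, 0 ≤ |b i m| + K i m := fun i m => add_nonneg (abs_nonneg _) (hK i m)
  have s1 : 0 ≤ ∑ i, ∑ m, (|a i m| + H i m) :=
    Finset.sum_nonneg fun i _ => Finset.sum_nonneg fun m _ => h1 i m
  have s2 : 0 ≤ ∑ i, ∑ m, (|b i m| + K i m) :=
    Finset.sum_nonneg fun i _ => Finset.sum_nonneg fun m _ => h2 i m
  refine ⟨(∑ i, ∑ m, (|a i m| + H i m)) + ∑ i, ∑ m, (|b i m| + K i m), add_nonneg s1 s2,
    fun i m => ?_, fun i m => ?_⟩
  · have := le_total n (fun i m => |a i m| + H i m) h1 i m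
    linarith
  · have := le_total n (fun i m => |b i m| + K i m) h2 i m
    linarith

end Crest.Agent.Lib_S0170_GMargin
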