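import Mathlib
import Crest.Prelude.Def_BoxFlow
import Crest.Agent.Lib_S0170_Defs
import Crest.Agent.Lib_S0170_GSem
import Crest.Agent.Lib_S0170_GPark
import Crest.Agent.Lib_S0170_GTSound
import Crest.Agent.Lib_S0170_GMargin

/-!
S0170, part [G]: the glue.  From the three stage lists (park the source, reshape in place,
un-park to the target) to one plan, and from there to the statement `exists_plan`, with the
reshape-all lemma as a hypothesis.
-/

set_option autoImplicit false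

namespace Crest.Agent.Lib_S0170_GGlue

open Crest.AnalysisR.BoxFlow Crest.Agent.Lib_S0170_Defs
open Crest.Agent.Lib_S0170_GSem Crest.Agent.Lib_S0170_GPark Crest.Agent.Lib_S0170_GTSound

/-- Diagonal scaling about the centre `c` with ratios `K m / H m`. -/
def scale (c H K : Fin 3 → ℚ) : Sp → Sp :=
  fun x m => (c m : ℝ) + ((K m / H m : ℚ) : ℝ) * (x m - (c m : ℝ))

theorem scale_mem_obox {c H K : Fin 3 → ℚ} (hH : ∀ m, 0 < H m) (hK : ∀ m, 0 < K m) {x : Sp}
    (hx : x ∈ obox c H) : scale c H K x ∈ obox c K := by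
  intro m
  have h1 : |x m - (c m : ℝ)| < (H m : ℝ) := hx m
  have hHm : (0 : ℝ) < H m := by exact_mod_cast hH m
  have hKm : (0 : ℝ) < K m := by exact_mod_cast hK m
  have e : scale c H K x m - (c m : ℝ) = (K m : ℝ) / (H m : ℝ) * (x m - (c m : ℝ)) := by
    simp only [scale]
    push_cast
    ring
  rw [e, abs_mul, abs_of_pos (div_pos hKm hHm)]
  calc (K m : ℝ) / (H m : ℝ) * |x m - (c m : ℝ)| < (K m : ℝ) / (H m : ℝ) * (H m : ℝ) :=
        mul_lt_mul_of_pos_left h1 (div_pos hKm hHm)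
    _ = (K m : ℝ) := by field_simp

/-- **Glue of the three phases.** -/
theorem plan_of_three (n : ℕ) (a b H K : Fin n → Fin 3 → ℚ) (P : Cfg n)
    (hH : ∀ i m, 0 < H i m) (hK : ∀ i m, 0 < K i m) (L₁ L₂ L₃ : List Stage)
    (hv₁ : ∀ s ∈ L₁, s.Valid) (hv₂ : ∀ s ∈ L₂, s.Valid) (hv₃ : ∀ s ∈ L₃, s.Valid)
    (h₁ : ∀ i, Acts L₁ (obox (a i) (H i)) (shift (P i - a i)))
    (h₂ : ∀ i, Acts L₂ (obox (P i) (H i))
      (fun x m => (P i m : ℝ) + ((K i m / H i m : ℚ) : ℝ) * (x m - (P i m : ℝ))))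
    (h₃ : ∀ i, Acts L₃ (obox (P i) (K i)) (shift (b i - P i))) :
    ∃ L : List Stage, (∀ s ∈ L, s.Valid) ∧ ∀ i, Acts L (obox (a i) (H i))
      (fun x m => (b i m : ℝ) + ((K i m / H i m : ℚ) : ℝ) * (x m - (a i m : ℝ))) := by
  refine ⟨L₁ ++ (L₂ ++ L₃), ?_, fun i => ?_⟩
  · intro s hs
    rcases List.mem_append.mp hs with hs | hs
    · exact hv₁ s hs
    · rcases List.mem_append.mp hs with hs | hs
      · exact hv₂ s hs
      · exact hv₃ s hs
  · have h23 : Acts (L₂ ++ L₃) (obox (P i) (H i))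
        (fun x m => (b i m : ℝ) + ((K i m / H i m : ℚ) : ℝ) * (x m - (P i m : ℝ))) := by
      refine acts_append' (h₂ i) (h₃ i) (fun x hx => ?_) (fun x hx => ?_)
      · exact scale_mem_obox (hH i) (hK i) hx
      · funext m
        simp only [shift, Pi.sub_apply, Rat.cast_sub]
        ring
    refine acts_append' (h₁ i) h23 (fun x hx => ?_) (fun x hx => ?_)
    · have := shift_mem_obox (v := P i - a i) hx
      simpa using this
    · funext m
      simp only [shift, Pi.sub_apply, Rat.cast_sub]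
      ring

/-- The statement of the reshape-all lemma (`exists_reshape_all`), as a proposition. -/
def ReshapeAll : Prop :=
  ∀ (n : ℕ) (H K : Fin n → Fin 3 → ℚ), (∀ i m, 0 < H i m) → (∀ i m, 0 < K i m) →
    (∀ i, ∏ m : Fin 3, K i m / H i m = 1) →
    ∃ S : ℚ, 0 < S ∧ ∀ P : Fin n → Fin 3 → ℚ, (∀ i j, i ≠ j → ∃ m, S < |P i m - P j m|) →
      ∃ L : List Stage, (∀ s ∈ L, s.Valid) ∧ ∀ i, Acts L (obox (P i) (H i))
        (fun x m => (P i m : ℝ) + ((K i m / H i m : ℚ) : ℝ) * (x m - (P i m : ℝ)))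

/-- `exists_plan` of `Lib_S0170_Plan`, from the reshape-all lemma. -/
theorem exists_plan_of_reshapeAll (hRA : ReshapeAll) (n : ℕ) (a b h k : Fin n → Fin 3 → ℚ)
    (hh : ∀ i j, 0 < h i j) (hk : ∀ i j, 0 < k i j)
    (ha : Pairwise fun i i' => Disjoint (box (a i) (h i)) (box (a i') (h i')))
    (hb : Pairwise fun i i' => Disjoint (box (b i) (k i)) (box (b i') (k i')))
    (hvol : ∀ i, ∏ j : Fin 3, k i j / h i j = 1) :
    ∃ L : List Stage, (∀ s ∈ L, s.Valid) ∧
      ∀ F : Fin L.length → Sp → Sp, (∀ r, (L.get r).Realizes (F r)) →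
        ∀ i : Fin n, ∃ O : Set Sp, IsOpen O ∧ box (a i) (h i) ⊆ O ∧
          ∀ x ∈ O, runMaps F x =
            fun j => (b i j : ℝ) + ((k i j / h i j : ℚ) : ℝ) * (x j - (a i j : ℝ)) := by
  obtain ⟨θ, w, hθ, hw, hsa, hsb⟩ := Lib_S0170_GMargin.exists_margin n a b h k hh hk ha hb
  set H : Fin n → Fin 3 → ℚ := fun i m => (1 + θ) * h i m with hHdef
  set K : Fin n → Fin 3 → ℚ := fun i m => (1 + θ) * k i m with hKdef
  have hH : ∀ i m, 0 < H i m := fun i m => Lib_S0170_GMargin.enl_pos hθ (hh i m)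
  have hK : ∀ i m, 0 < K i m := fun i m => Lib_S0170_GMargin.enl_pos hθ (hk i m)
  obtain ⟨ρ, hρ0, hρa, hρb⟩ := Lib_S0170_GMargin.exists_rho n a b H K
    (fun i m => (hH i m).le) (fun i m => (hK i m).le)
  have hvol' : ∀ i, ∏ m : Fin 3, K i m / H i m = 1 := fun i =>
    Lib_S0170_GMargin.enl_prod hθ (h i) (k i) (hvol i)
  obtain ⟨S, hS, hres⟩ := hRA n H K hH hK hvol'
  set M : ℚ := 2 * ρ + w + S + 1 with hM
  set Lp : ℚ := 2 * ρ + w + 1 with hLp
  set Z : ℚ := 2 * ρ + w with hZ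
  set P : Cfg n := parked M Lp Z with hP
  have hpa : Relation.ReflTransGen (TStep w H) a P :=
    park w ρ M Lp Z H a hw hH hρa hsa (by rw [hM]; linarith) (by rw [hLp]; linarith)
      (by rw [hZ])
  have hpb : Relation.ReflTransGen (TStep w K) b P :=
    park w ρ M Lp Z K b hw hK hρb hsb (by rw [hM]; linarith) (by rw [hLp]; linarith)
      (by rw [hZ])
  obtain ⟨L₁, hv₁, h₁⟩ := chain_sound w hw H hH a P hpa
  obtain ⟨L₃, hv₃, h₃⟩ := chain_sound_symm w hw K hK b P hpb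
  have hM0 : 0 ≤ M := by rw [hM]; linarith
  obtain ⟨L₂, hv₂, h₂⟩ := hres P (fun i j hij => ⟨0, by
    have := parked_dist₀ M Lp Z hM0 hij
    have hSM : S < M := by rw [hM]; linarith
    exact lt_of_lt_of_le hSM this⟩)
  obtain ⟨L, hv, hL⟩ := plan_of_three n a b H K P hH hK L₁ L₂ L₃ hv₁ hv₂ hv₃ h₁ h₂ h₃
  refine ⟨L, hv, fun F hF i => ⟨obox (a i) (H i), isOpen_obox _ _, ?_, fun x hx => ?_⟩⟩
  · exact box_subset_obox (a i) (h i) (H i) (fun j => Lib_S0170_GMargin.enl_lt hθ (hh i j))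
  · rw [hL i F hF x hx]
    funext j
    have e : K i j / H i j = k i j / h i j := Lib_S0170_GMargin.enl_div hθ (h i j) (k i j)
    show (b i j : ℝ) + ((K i j / H i j : ℚ) : ℝ) * (x j - (a i j : ℝ)) = _
    rw [e]

end Crest.Agent.Lib_S0170_GGlue
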