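import Mathlib
import Crest.Prelude.Def_BoxFlow
import Crest.Agent.Lib_S0170_Defs
import Crest.Agent.Lib_S0170_GSem
import Crest.Agent.Lib_S0170_GRsound

/-!
S0170, part [G]: `exists_reshape_all` under the file name fixed by the [G] coordinator.
The proofs are in `Lib_S0170_GRsound`; this file only restates them.
-/

set_option autoImplicit false

namespace Crest.Agent.Lib_S0170_GReshapeAll

open Crest.AnalysisR.BoxFlow Crest.Agent.Lib_S0170_Defs Crest.Agent.Lib_S0170_GSem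

/-- The in-place scaling of a box with centre `c` from half-widths `H` to half-widths `K`. -/
def scale (c H K : Fin 3 → ℚ) (x : Sp) : Sp :=
  fun m => (c m : ℝ) + ((K m / H m : ℚ) : ℝ) * (x m - (c m : ℝ))

theorem scale_eq (c H K : Fin 3 → ℚ) : scale c H K = Lib_S0170_GRsound.scale c H K := rfl

theorem scale_apply (c H K : Fin 3 → ℚ) (x : Sp) (m : Fin 3) :
    scale c H K x m = (c m : ℝ) + ((K m / H m : ℚ) : ℝ) * (x m - (c m : ℝ)) := rfl

theorem scale_mem_obox (c H K : Fin 3 → ℚ) (hH : ∀ m, 0 < H m) (hK : ∀ m, 0 < K m) (x : Sp)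
    (hx : x ∈ obox c H) : scale c H K x ∈ obox c K :=
  Lib_S0170_GRsound.scale_mem_obox c H K hH hK x hx

theorem scale_scale (c H K : Fin 3 → ℚ) (hH : ∀ m, 0 < H m) (hK : ∀ m, 0 < K m) (x : Sp) :
    scale c H K (scale c K H x) = x :=
  Lib_S0170_GRsound.scale_scale c H K hH hK x

theorem scale_image_obox (c H K : Fin 3 → ℚ) (hH : ∀ m, 0 < H m) (hK : ∀ m, 0 < K m) :
    scale c H K '' obox c H = obox c K :=
  Lib_S0170_GRsound.scale_image_obox c H K hH hK

/-- **In-place reshape of all boxes** (see `Lib_S0170_GRsound.exists_reshape_all`). -/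
theorem exists_reshape_all (n : ℕ) (H K : Fin n → Fin 3 → ℚ) (hH : ∀ i m, 0 < H i m)
    (hK : ∀ i m, 0 < K i m) (hvol : ∀ i, ∏ m : Fin 3, K i m / H i m = 1) :
    ∃ S : ℚ, 0 < S ∧ ∀ P : Fin n → Fin 3 → ℚ, (∀ i j, i ≠ j → ∃ m, S < |P i m - P j m|) →
      ∃ L : List Stage, (∀ s ∈ L, s.Valid) ∧
        ∀ i, Acts L (obox (P i) (H i))
          (fun x m => (P i m : ℝ) + ((K i m / H i m : ℚ) : ℝ) * (x m - (P i m : ℝ))) :=
  Lib_S0170_GRsound.exists_reshape_all n H K hH hK hvol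

end Crest.Agent.Lib_S0170_GReshapeAll
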