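import Mathlib
import Crest.Prelude.Def_BoxFlow
import Crest.Agent.Lib_S0170_Defs

/-!
S0170, part [G], package G0: the pointwise SEMANTICS of a list of stages.

`Run L x y` says: following the stages of `L` one after the other, the point `x` provably ends
at `y` for EVERY family of maps realizing the stages (each stage either moves the current point by
its model velocity, both endpoints being in the core box, or leaves it fixed because the point is
outside the support box).

Main results: `run_sound` (the Fin-indexed shape used in `Lib_S0170_Plan.exists_plan`),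
`run_sound_list` (list shape), `run_append`, `run_fix_all`, `run_reverse` (reversed list of
negated stages undoes a run), `valid_neg`, and `plan_of_run` (the conclusion of `exists_plan`
from pointwise runs on open sets).
-/

set_option autoImplicit false

namespace Crest.Agent.Lib_S0170_GRun

open Crest.AnalysisR.BoxFlow Crest.Agent.Lib_S0170_Defs

/-- The reversed stage: same boxes, opposite velocity. -/
def _root_.Crest.Agent.Lib_S0170_Defs.Stage.neg (s : Stage) : Stage :=
  { s with q1 := -s.q1, q2 := -s.q2 }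

/-- `Run L x y`: the stages of `L`, applied in order, provably carry `x` to `y`. -/
inductive Run : List Stage → Sp → Sp → Prop
  | nil (x : Sp) : Run [] x x
  | move (s : Stage) (L : List Stage) (x y : Sp) :
      x ∈ s.core → x + s.vel x ∈ s.core → Run L (x + s.vel x) y → Run (s :: L) x y
  | fix (s : Stage) (L : List Stage) (x y : Sp) :
      x ∉ s.supp → Run L x y → Run (s :: L) x y

/-! ### basic facts about a single stage -/

@[simp] theorem neg_i (s : Stage) : s.neg.i = s.i := rfl
@[simp] theorem neg_j (s : Stage) : s.neg.j = s.j := rfl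
@[simp] theorem neg_q1 (s : Stage) : s.neg.q1 = -s.q1 := rfl
@[simp] theorem neg_q2 (s : Stage) : s.neg.q2 = -s.q2 := rfl
@[simp] theorem neg_c (s : Stage) : s.neg.c = s.c := rfl
@[simp] theorem neg_lo (s : Stage) : s.neg.lo = s.lo := rfl
@[simp] theorem neg_hi (s : Stage) : s.neg.hi = s.hi := rfl
@[simp] theorem neg_w (s : Stage) : s.neg.w = s.w := rfl
@[simp] theorem neg_core (s : Stage) : s.neg.core = s.core := rfl
@[simp] theorem neg_supp (s : Stage) : s.neg.supp = s.supp := rfl

@[simp] theorem neg_neg (s : Stage) : s.neg.neg = s := by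
  cases s
  simp [Stage.neg]

theorem valid_neg {s : Stage} (hs : s.Valid) : s.neg.Valid := hs

theorem valid_neg_iff {s : Stage} : s.neg.Valid ↔ s.Valid := Iff.rfl

/-- Reversing a valid list of stages gives a valid list. -/
theorem valid_reverse_neg {L : List Stage} (hL : ∀ s ∈ L, s.Valid) :
    ∀ s ∈ L.reverse.map Stage.neg, s.Valid := by
  intro s hs
  rw [List.mem_map] at hs
  obtain ⟨t, ht, rfl⟩ := hs
  exact valid_neg (hL t (List.mem_reverse.mp ht))

theorem vel_apply (s : Stage) (x : Sp) (m : Fin 3) :
    s.vel x m = if m = s.i then (s.q1 : ℝ) + s.q2 * (x s.j - s.c) else 0 := rfl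

theorem vel_apply_self (s : Stage) (x : Sp) :
    s.vel x s.i = (s.q1 : ℝ) + s.q2 * (x s.j - s.c) := by
  simp [vel_apply]

theorem vel_apply_of_ne (s : Stage) (x : Sp) {m : Fin 3} (hm : m ≠ s.i) : s.vel x m = 0 := by
  simp [vel_apply, hm]

/-- The velocity of the reversed stage. -/
theorem neg_vel (s : Stage) (x : Sp) : s.neg.vel x = -s.vel x := by
  funext m
  simp only [vel_apply, neg_i, neg_j, neg_q1, neg_q2, neg_c, Pi.neg_apply]
  split_ifs
  · push_cast; ring
  · simp

/-- The velocity only depends on the coordinate `j`, which a move does not change. -/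
theorem vel_congr (s : Stage) {x y : Sp} (h : x s.j = y s.j) : s.vel x = s.vel y := by
  funext m
  simp only [vel_apply, h]

theorem vel_add_vel (s : Stage) (hs : s.Valid) (x : Sp) : s.vel (x + s.vel x) = s.vel x := by
  apply vel_congr
  have : s.vel x s.j = 0 := vel_apply_of_ne s x (Ne.symm hs.1)
  simp [this]

theorem mem_core_iff (s : Stage) (x : Sp) :
    x ∈ s.core ↔ ∀ m, (s.lo m : ℝ) ≤ x m ∧ x m ≤ (s.hi m : ℝ) := Iff.rfl

theorem mem_supp_iff (s : Stage) (x : Sp) :
    x ∈ s.supp ↔ ∀ m, (s.lo m : ℝ) - s.w ≤ x m ∧ x m ≤ (s.hi m : ℝ) + s.w := Iff.rfl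

/-- A point with one coordinate outside `[lo - w, hi + w]` is outside the support box. -/
theorem not_mem_supp_of {s : Stage} {x : Sp} (m : Fin 3)
    (h : x m < (s.lo m : ℝ) - s.w ∨ (s.hi m : ℝ) + s.w < x m) : x ∉ s.supp := by
  intro hx
  have := hx m
  rcases h with h | h <;> linarith

theorem core_subset_supp {s : Stage} (hs : s.Valid) : s.core ⊆ s.supp := by
  intro x hx m
  have hw : (0 : ℝ) < s.w := by exact_mod_cast hs.2.1
  have := hx m
  constructor <;> linarith

/-- Both endpoints in the core: the whole model segment is in the core. -/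
theorem segment_mem_core {s : Stage} {x : Sp} (h0 : x ∈ s.core) (h1 : x + s.vel x ∈ s.core)
    {τ : ℝ} (hτ : τ ∈ Set.Icc (0 : ℝ) 1) : x + τ • s.vel x ∈ s.core := by
  intro m
  have a0 := h0 m
  have a1 := h1 m
  simp only [Pi.add_apply, Pi.smul_apply, smul_eq_mul] at a1 ⊢
  obtain ⟨hτ0, hτ1⟩ := hτ
  have e : x m + τ * s.vel x m = (1 - τ) * x m + τ * (x m + s.vel x m) := by ring
  have h1τ : 0 ≤ 1 - τ := by linarith
  constructor
  · rw [e]
    have := mul_le_mul_of_nonneg_left a0.1 h1τ
    have := mul_le_mul_of_nonneg_left a1.1 hτ0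
    nlinarith
  · rw [e]
    have := mul_le_mul_of_nonneg_left a0.2 h1τ
    have := mul_le_mul_of_nonneg_left a1.2 hτ0
    nlinarith

/-- A realizing map moves a point whose two endpoints are in the core. -/
theorem realizes_move {s : Stage} {F : Sp → Sp} (hF : s.Realizes F) {x : Sp}
    (h0 : x ∈ s.core) (h1 : x + s.vel x ∈ s.core) : F x = x + s.vel x :=
  hF.1 x fun _ hτ => segment_mem_core h0 h1 hτ

/-- A realizing map fixes every point outside the support box. -/
theorem realizes_fix {s : Stage} {F : Sp → Sp} (hF : s.Realizes F) {x : Sp}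
    (h : x ∉ s.supp) : F x = x := hF.2 x h

/-! ### soundness -/

/-- Soundness, list form. -/
theorem run_sound_list {L : List Stage} {x y : Sp} (h : Run L x y) :
    ∀ Fs : List (Sp → Sp), List.Forall₂ (fun s F => Stage.Realizes s F) L Fs →
      Fs.foldl (fun z F => F z) x = y := by
  induction h with
  | nil x =>
    intro Fs hFs
    rw [List.forall₂_nil_left_iff] at hFs
    subst hFs
    rfl
  | move s L x y h0 h1 _ ih =>
    intro Fs hFs
    rw [List.forall₂_cons_left_iff] at hFs
    obtain ⟨F, Fs', hF, hFs', rfl⟩ := hFs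
    rw [List.foldl_cons, realizes_move hF h0 h1]
    exact ih Fs' hFs'
  | fix s L x y h0 _ ih =>
    intro Fs hFs
    rw [List.forall₂_cons_left_iff] at hFs
    obtain ⟨F, Fs', hF, hFs', rfl⟩ := hFs
    rw [List.foldl_cons, realizes_fix hF h0]
    exact ih Fs' hFs'

/-- A Fin-indexed realizing family gives a realizing list. -/
theorem forall₂_ofFn (L : List Stage) (F : Fin L.length → Sp → Sp)
    (hF : ∀ r, (L.get r).Realizes (F r)) :
    List.Forall₂ (fun s F => Stage.Realizes s F) L (List.ofFn F) := by
  rw [List.forall₂_iff_get]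
  refine ⟨by simp, fun i h₁ h₂ => ?_⟩
  simpa using hF ⟨i, h₁⟩

/-- Soundness, in the shape of `Lib_S0170_Plan.exists_plan`. -/
theorem run_sound {L : List Stage} {x y : Sp} (h : Run L x y)
    (F : Fin L.length → Sp → Sp) (hF : ∀ r, (L.get r).Realizes (F r)) : runMaps F x = y :=
  run_sound_list h (List.ofFn F) (forall₂_ofFn L F hF)

/-! ### combinators -/

theorem run_append {L₁ L₂ : List Stage} {x y z : Sp} (h₁ : Run L₁ x y) (h₂ : Run L₂ y z) :
    Run (L₁ ++ L₂) x z := by
  induction h₁ with
  | nil x => simpa using h₂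
  | move s L x y h0 h1 _ ih => exact Run.move s _ x z h0 h1 (ih h₂)
  | fix s L x y h0 _ ih => exact Run.fix s _ x z h0 (ih h₂)

/-- A point outside all support boxes stays fixed. -/
theorem run_fix_all {L : List Stage} {x : Sp} (h : ∀ s ∈ L, x ∉ s.supp) : Run L x x := by
  induction L with
  | nil => exact Run.nil x
  | cons s L ih =>
    exact Run.fix s L x x (h s (by simp)) (ih fun t ht => h t (by simp [ht]))

/-- One stage, moving. -/
theorem run_single_move {s : Stage} {x : Sp} (h0 : x ∈ s.core) (h1 : x + s.vel x ∈ s.core) :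
    Run [s] x (x + s.vel x) :=
  Run.move s [] x _ h0 h1 (Run.nil _)

/-- One stage, moving, with the endpoint given by an equation. -/
theorem run_single_move' {s : Stage} {x y : Sp} (h0 : x ∈ s.core) (h1 : y ∈ s.core)
    (hy : y = x + s.vel x) : Run [s] x y := by
  subst hy
  exact run_single_move h0 h1

/-- One stage, fixing. -/
theorem run_single_fix {s : Stage} {x : Sp} (h : x ∉ s.supp) : Run [s] x x :=
  Run.fix s [] x x h (Run.nil x)

theorem run_cons_move {s : Stage} {L : List Stage} {x y : Sp} (h0 : x ∈ s.core)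
    (h1 : x + s.vel x ∈ s.core) (h : Run L (x + s.vel x) y) : Run (s :: L) x y :=
  Run.move s L x y h0 h1 h

theorem run_cons_fix {s : Stage} {L : List Stage} {x y : Sp} (h0 : x ∉ s.supp)
    (h : Run L x y) : Run (s :: L) x y :=
  Run.fix s L x y h0 h

/-- Transport of a run along equalities of the endpoints. -/
theorem Run.congr {L : List Stage} {x y x' y' : Sp} (h : Run L x y) (hx : x = x') (hy : y = y') :
    Run L x' y' := by
  subst hx hy
  exact h

/-- Reversal: the reversed list of negated stages undoes a run. -/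
theorem run_reverse {L : List Stage} (hL : ∀ s ∈ L, s.Valid) {x y : Sp} (h : Run L x y) :
    Run (L.reverse.map Stage.neg) y x := by
  induction h with
  | nil x => exact Run.nil x
  | move s L x y h0 h1 _ ih =>
    have hs : s.Valid := hL s (by simp)
    have ih' := ih fun t ht => hL t (by simp [ht])
    rw [List.reverse_cons, List.map_append]
    refine run_append ih' ?_
    refine run_single_move' (s := s.neg) h1 h0 ?_
    rw [neg_vel, vel_add_vel s hs]
    simp
  | fix s L x y h0 _ ih =>
    have ih' := ih fun t ht => hL t (by simp [ht])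
    rw [List.reverse_cons, List.map_append]
    exact run_append ih' (run_single_fix (s := s.neg) h0)

/-- The conclusion of `Lib_S0170_Plan.exists_plan` from pointwise runs on open sets. -/
theorem plan_of_run {n : ℕ} (a h : Fin n → Fin 3 → ℚ) (T : Fin n → Sp → Sp)
    (L : List Stage) (O : Fin n → Set Sp) (hO : ∀ i, IsOpen (O i))
    (hsub : ∀ i, box (a i) (h i) ⊆ O i) (hrun : ∀ i, ∀ x ∈ O i, Run L x (T i x)) :
    ∀ F : Fin L.length → Sp → Sp, (∀ r, (L.get r).Realizes (F r)) →
      ∀ i : Fin n, ∃ O : Set Sp, IsOpen O ∧ box (a i) (h i) ⊆ O ∧ ∀ x ∈ O, runMaps F x = T i x :=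
  fun F hF i => ⟨O i, hO i, hsub i, fun x hx => run_sound (hrun i x hx) F hF⟩

/-- Open rational box with margin `δ`: an open neighbourhood of `box a h` when `0 < δ`. -/
def obox (a h : Fin 3 → ℚ) (δ : ℚ) : Set Sp := {x | ∀ m, |x m - (a m : ℝ)| < (h m : ℝ) + δ}

theorem mem_obox {a h : Fin 3 → ℚ} {δ : ℚ} {x : Sp} :
    x ∈ obox a h δ ↔ ∀ m, |x m - (a m : ℝ)| < (h m : ℝ) + δ := Iff.rfl

theorem isOpen_obox (a h : Fin 3 → ℚ) (δ : ℚ) : IsOpen (obox a h δ) := by
  have : obox a h δ = ⋂ m : Fin 3, {x : Sp | |x m - (a m : ℝ)| < (h m : ℝ) + δ} := by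
    ext x
    simp [obox]
  rw [this]
  refine isOpen_iInter_of_finite fun m => ?_
  exact isOpen_lt (by fun_prop) continuous_const

theorem box_subset_obox (a h : Fin 3 → ℚ) {δ : ℚ} (hδ : 0 < δ) : box a h ⊆ obox a h δ := by
  intro x hx m
  have hδ' : (0 : ℝ) < δ := by exact_mod_cast hδ
  have := hx m
  linarith

end Crest.Agent.Lib_S0170_GRun
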