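import Mathlib
import Crest.Prelude.Def_BoxFlow
import Crest.Agent.Lib_S0170_Defs

/-!
PLAN / INTERFACE for S0170 (never imported by a result; every statement below is to be proved,
VERBATIM, in the file named in its comment, inside `namespace Crest.Agent.<that file>`).
The last declaration shows that the four main lemmas [A], [F], [G], [E] give the statement.
-/

set_option autoImplicit false

namespace Crest.Agent.Lib_S0170_Plan

open Crest.AnalysisR.BoxFlow Crest.Agent.Lib_S0170_Defs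
open scoped ContDiff

/-! ### [A]  file `Lib_S0170_A.lean` : the field of a list of stages is admissible -/

theorem contDiff_fieldOf (L : List Stage) (hL : ∀ s ∈ L, s.Valid) : ContDiff ℝ ∞ (fieldOf L) := by
  sorry

theorem hasCompactSupport_fieldOf (L : List Stage) (hL : ∀ s ∈ L, s.Valid) :
    HasCompactSupport (fieldOf L) := by
  sorry

theorem fieldOf_eq_zero_of_time (L : List Stage) (p : ℝ × Sp)
    (hp : p.1 ∉ Set.Icc (1 / 4 : ℝ) (3 / 4)) : fieldOf L p = 0 := by
  sorry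

theorem spaceDiv_fieldOf (L : List Stage) (hL : ∀ s ∈ L, s.Valid) (p : ℝ × Sp) :
    spaceDiv (fieldOf L) p = 0 := by
  sorry

/-! ### [F]  file `Lib_S0170_F.lean` : flows -/

/-- The field of a valid list of stages has a flow whose time-one map is the composition of maps
realizing the stages. -/
theorem exists_flow (L : List Stage) (hL : ∀ s ∈ L, s.Valid) :
    ∃ (Φ : ℝ → Sp → Sp) (F : Fin L.length → Sp → Sp), IsFlow (fieldOf L) Φ ∧
      (∀ r, (L.get r).Realizes (F r)) ∧ ∀ x, Φ 1 x = runMaps F x := by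
  sorry

/-! ### [G]  file `Lib_S0170_G.lean` : planning (pure affine geometry of boxes, no analysis) -/

theorem exists_plan (n : ℕ) (a b h k : Fin n → Fin 3 → ℚ)
    (hh : ∀ i j, 0 < h i j) (hk : ∀ i j, 0 < k i j)
    (ha : Pairwise fun i i' => Disjoint (box (a i) (h i)) (box (a i') (h i')))
    (hb : Pairwise fun i i' => Disjoint (box (b i) (k i)) (box (b i') (k i')))
    (hvol : ∀ i, ∏ j : Fin 3, k i j / h i j = 1) :
    ∃ L : List Stage, (∀ s ∈ L, s.Valid) ∧
      ∀ F : Fin L.length → Sp → Sp, (∀ r, (L.get r).Realizes (F r)) →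
        ∀ i : Fin n, ∃ O : Set Sp, IsOpen O ∧ box (a i) (h i) ⊆ O ∧
          ∀ x ∈ O, runMaps F x =
            fun j => (b i j : ℝ) + ((k i j / h i j : ℚ) : ℝ) * (x j - (a i j : ℝ)) := by
  sorry

/-! ### [E]  file `Lib_S0170_E.lean` : effectivity -/

theorem effective_fieldOf (L : List Stage) (hL : ∀ s ∈ L, s.Valid) : Effective (fieldOf L) := by
  sorry

/-! ### the statement follows -/

theorem result_of_plan
    (n : ℕ) (a b h k : Fin n → Fin 3 → ℚ)
    (hh : ∀ i j, 0 < h i j) (hk : ∀ i j, 0 < k i j)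
    (ha : Pairwise fun i i' => Disjoint (box (a i) (h i)) (box (a i') (h i')))
    (hb : Pairwise fun i i' => Disjoint (box (b i) (k i)) (box (b i') (k i')))
    (hvol : ∀ i, ∏ j : Fin 3, k i j / h i j = 1) :
    ∃ (U : Field) (Φ : ℝ → (Fin 3 → ℝ) → (Fin 3 → ℝ)),
      ContDiff ℝ ∞ U ∧ HasCompactSupport U ∧ Effective U ∧
      (∀ p : ℝ × (Fin 3 → ℝ), p.1 ∉ Set.Icc (1 / 4 : ℝ) (3 / 4) → U p = 0) ∧
      (∀ p : ℝ × (Fin 3 → ℝ), spaceDiv U p = 0) ∧ IsFlow U Φ ∧
      ∀ i : Fin n, ∃ O : Set (Fin 3 → ℝ), IsOpen O ∧ box (a i) (h i) ⊆ O ∧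
        ∀ x ∈ O, Φ 1 x = fun j => (b i j : ℝ) + ((k i j / h i j : ℚ) : ℝ) * (x j - (a i j : ℝ)) := by
  obtain ⟨L, hL, hplan⟩ := exists_plan n a b h k hh hk ha hb hvol
  obtain ⟨Φ, F, hflow, hF, h1⟩ := exists_flow L hL
  refine ⟨fieldOf L, Φ, contDiff_fieldOf L hL, hasCompactSupport_fieldOf L hL,
    effective_fieldOf L hL, fun p hp => fieldOf_eq_zero_of_time L p hp,
    fun p => spaceDiv_fieldOf L hL p, hflow, fun i => ?_⟩
  obtain ⟨O, hO, hsub, hmap⟩ := hplan F hF i
  exact ⟨O, hO, hsub, fun x hx => by rw [h1 x]; exact hmap x hx⟩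

end Crest.Agent.Lib_S0170_Plan
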