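import Mathlib

/-!
Explicit bounds for all iterated derivatives of the smooth step `sg = Real.smoothTransition`.
(Written for an earlier design of the proof of S0170; the final proof uses another step
function, so nothing imports this file. It is kept as a standalone sorry-free library.)
-/

set_option autoImplicit false

namespace Crest.Agent.Lib_S0170_SgBound

open scoped ContDiff

/-- the smooth step -/
noncomputable def sg (u : ℝ) : ℝ := Real.smoothTransition u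

/-- its derivative -/
noncomputable def sg' (u : ℝ) : ℝ := deriv Real.smoothTransition u

theorem contDiff_sg : ContDiff ℝ ∞ sg := by
  have : sg = Real.smoothTransition := rfl
  rw [this]
  exact Real.smoothTransition.contDiff

theorem sg_eq (u : ℝ) (h0 : 0 < u) (h1 : u < 1) :
    sg u = Real.exp (-u⁻¹) / (Real.exp (-u⁻¹) + Real.exp (-(1 - u)⁻¹)) := by
  unfold sg Real.smoothTransition expNegInvGlue
  rw [if_neg (not_le.2 h0), if_neg (not_le.2 (by linarith))]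

theorem sg_nonneg (u : ℝ) : 0 ≤ sg u := Real.smoothTransition.nonneg u

theorem sg_le_one (u : ℝ) : sg u ≤ 1 := Real.smoothTransition.le_one u

/-- the logistic differential equation of the step on `(0,1)` -/
theorem hasDerivAt_sg (u : ℝ) (h0 : 0 < u) (h1 : u < 1) :
    HasDerivAt sg (sg u * ((1 - sg u) * ((u⁻¹) ^ 2 + ((1 - u)⁻¹) ^ 2))) u := by
  have hu : u ≠ 0 := h0.ne'
  have hu1 : (1 - u) ≠ 0 := by linarith
  have hf : HasDerivAt (fun x : ℝ => Real.exp (-x⁻¹)) (Real.exp (-u⁻¹) * (u⁻¹) ^ 2) u := by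
    have h : HasDerivAt (fun x : ℝ => -x⁻¹) (-(-(u ^ 2)⁻¹)) u := (hasDerivAt_inv hu).neg
    have h2 : HasDerivAt (fun x : ℝ => Real.exp (-x⁻¹)) (Real.exp (-u⁻¹) * (-(-(u ^ 2)⁻¹))) u :=
      h.exp
    refine h2.congr_deriv ?_
    rw [neg_neg, inv_pow]
  have hg : HasDerivAt (fun x : ℝ => Real.exp (-(1 - x)⁻¹))
      (-(Real.exp (-(1 - u)⁻¹) * ((1 - u)⁻¹) ^ 2)) u := by
    have hsub : HasDerivAt (fun x : ℝ => 1 - x) (-1) u := by
      simpa using (hasDerivAt_id u).const_sub 1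
    have h : HasDerivAt (fun x : ℝ => -(1 - x)⁻¹) (-(-((1 - u) ^ 2)⁻¹ * -1)) u :=
      ((hasDerivAt_inv hu1).comp u hsub).neg
    have h2 : HasDerivAt (fun x : ℝ => Real.exp (-(1 - x)⁻¹))
        (Real.exp (-(1 - u)⁻¹) * (-(-((1 - u) ^ 2)⁻¹ * -1))) u := h.exp
    refine h2.congr_deriv ?_
    rw [inv_pow]
    ring
  have hden : Real.exp (-u⁻¹) + Real.exp (-(1 - u)⁻¹) ≠ 0 := by positivity
  have hq : HasDerivAt (fun x : ℝ => Real.exp (-x⁻¹) / (Real.exp (-x⁻¹) + Real.exp (-(1 - x)⁻¹)))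
      ((Real.exp (-u⁻¹) * (u⁻¹) ^ 2 * (Real.exp (-u⁻¹) + Real.exp (-(1 - u)⁻¹)) -
        Real.exp (-u⁻¹) * (Real.exp (-u⁻¹) * (u⁻¹) ^ 2 +
          -(Real.exp (-(1 - u)⁻¹) * ((1 - u)⁻¹) ^ 2))) /
        (Real.exp (-u⁻¹) + Real.exp (-(1 - u)⁻¹)) ^ 2) u :=
    hf.div (hf.add hg) hden
  have hev : sg =ᶠ[nhds u]
      fun x => Real.exp (-x⁻¹) / (Real.exp (-x⁻¹) + Real.exp (-(1 - x)⁻¹)) := by
    filter_upwards [Ioo_mem_nhds h0 h1] with x hx
    exact sg_eq x hx.1 hx.2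
  refine (hq.congr_of_eventuallyEq hev).congr_deriv ?_
  rw [sg_eq u h0 h1]
  field_simp
  ring

/-- power rule in logarithmic form -/
theorem hasDerivAt_pow_log (f : ℝ → ℝ) (g x : ℝ) (n : ℕ) (hf : HasDerivAt f (f x * g) x) :
    HasDerivAt (fun y => f y ^ n) ((n : ℝ) * f x ^ n * g) x := by
  refine (hf.pow n).congr_deriv ?_
  cases n with
  | zero => simp
  | succ n =>
    simp only [Nat.add_sub_cancel, pow_succ]
    ring

/-- a monomial `coef * s^a * r^b * v1^c * v2^e` -/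
structure Mono where
  coef : ℤ
  a : ℕ
  b : ℕ
  c : ℕ
  e : ℕ

/-- value of a monomial -/
def Mono.ev (m : Mono) (s r v1 v2 : ℝ) : ℝ :=
  (m.coef : ℝ) * s ^ m.a * r ^ m.b * v1 ^ m.c * v2 ^ m.e

/-- formal derivative of a monomial along the curve `(sg, 1 - sg, 1/u, 1/(1-u))` -/
def Mono.D (m : Mono) : List Mono :=
  [⟨m.coef * m.a, m.a, m.b + 1, m.c + 2, m.e⟩, ⟨m.coef * m.a, m.a, m.b + 1, m.c, m.e + 2⟩,
   ⟨-(m.coef * m.b), m.a + 1, m.b, m.c + 2, m.e⟩, ⟨-(m.coef * m.b), m.a + 1, m.b, m.c, m.e + 2⟩,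
   ⟨-(m.coef * m.c), m.a, m.b, m.c + 1, m.e⟩, ⟨m.coef * m.e, m.a, m.b, m.c, m.e + 1⟩]

/-- value of a list of monomials -/
def evL (L : List Mono) (s r v1 v2 : ℝ) : ℝ := (L.map fun m => m.ev s r v1 v2).sum

/-- the formal `k`-th derivative of the step -/
def Lk : ℕ → List Mono
  | 0 => [⟨1, 1, 0, 0, 0⟩]
  | k + 1 => (Lk k).flatMap Mono.D

theorem hasDerivAt_mono (m : Mono) (u : ℝ) (h0 : 0 < u) (h1 : u < 1) :
    HasDerivAt (fun x => m.ev (sg x) (1 - sg x) x⁻¹ (1 - x)⁻¹)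
      (evL m.D (sg u) (1 - sg u) u⁻¹ (1 - u)⁻¹) u := by
  have hs := hasDerivAt_sg u h0 h1
  have hr : HasDerivAt (fun x => 1 - sg x)
      ((1 - sg u) * (-(sg u * ((u⁻¹) ^ 2 + ((1 - u)⁻¹) ^ 2)))) u := by
    refine (hs.const_sub 1).congr_deriv ?_
    ring
  have hv1 : HasDerivAt (fun x : ℝ => x⁻¹) (u⁻¹ * (-u⁻¹)) u := by
    refine (hasDerivAt_inv h0.ne').congr_deriv ?_
    have : (u ^ 2)⁻¹ = u⁻¹ ^ 2 := (inv_pow u 2).symm
    rw [this]; ring
  have hv2 : HasDerivAt (fun x : ℝ => (1 - x)⁻¹) ((1 - u)⁻¹ * (1 - u)⁻¹) u := by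
    have hsub : HasDerivAt (fun x : ℝ => 1 - x) (-1) u := by
      simpa using (hasDerivAt_id u).const_sub 1
    have h : HasDerivAt (fun x : ℝ => (1 - x)⁻¹) (-((1 - u) ^ 2)⁻¹ * -1) u :=
      (hasDerivAt_inv (by linarith : (1 - u) ≠ 0)).comp u hsub
    refine h.congr_deriv ?_
    have : ((1 - u) ^ 2)⁻¹ = (1 - u)⁻¹ ^ 2 := (inv_pow (1 - u) 2).symm
    rw [this]; ring
  have h1' := hasDerivAt_pow_log sg _ u m.a hs
  have h2' := hasDerivAt_pow_log (fun x => 1 - sg x) _ u m.b hr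
  have h3' := hasDerivAt_pow_log (fun x : ℝ => x⁻¹) _ u m.c hv1
  have h4' := hasDerivAt_pow_log (fun x : ℝ => (1 - x)⁻¹) _ u m.e hv2
  have key : HasDerivAt
      (fun x => (m.coef : ℝ) * sg x ^ m.a * (1 - sg x) ^ m.b * x⁻¹ ^ m.c * (1 - x)⁻¹ ^ m.e)
      ((((m.coef : ℝ) * ((m.a : ℝ) * sg u ^ m.a * ((1 - sg u) * (u⁻¹ ^ 2 + (1 - u)⁻¹ ^ 2))) *
            (1 - sg u) ^ m.b +
          (m.coef : ℝ) * sg u ^ m.a *
            ((m.b : ℝ) * (1 - sg u) ^ m.b * -(sg u * (u⁻¹ ^ 2 + (1 - u)⁻¹ ^ 2)))) * u⁻¹ ^ m.c +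
        (m.coef : ℝ) * sg u ^ m.a * (1 - sg u) ^ m.b * ((m.c : ℝ) * u⁻¹ ^ m.c * -u⁻¹)) *
          (1 - u)⁻¹ ^ m.e +
        (m.coef : ℝ) * sg u ^ m.a * (1 - sg u) ^ m.b * u⁻¹ ^ m.c *
          ((m.e : ℝ) * (1 - u)⁻¹ ^ m.e * (1 - u)⁻¹)) u :=
    (((h1'.const_mul (m.coef : ℝ)).mul h2').mul h3').mul h4'
  refine key.congr_deriv ?_
  simp only [evL, Mono.D, Mono.ev, List.map_cons, List.map_nil, List.sum_cons, List.sum_nil]
  push_cast
  ring

theorem hasDerivAt_evL (L : List Mono) (u : ℝ) (h0 : 0 < u) (h1 : u < 1) :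
    HasDerivAt (fun x => evL L (sg x) (1 - sg x) x⁻¹ (1 - x)⁻¹)
      (evL (L.flatMap Mono.D) (sg u) (1 - sg u) u⁻¹ (1 - u)⁻¹) u := by
  induction L with
  | nil =>
    simp only [evL, List.map_nil, List.sum_nil, List.flatMap_nil]
    exact hasDerivAt_const _ _
  | cons m L ih =>
    have := (hasDerivAt_mono m u h0 h1).add ih
    simp only [evL, List.map_cons, List.sum_cons, List.flatMap_cons, List.map_append,
      List.sum_append] at this ⊢
    exact this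

/-- the iterated derivatives of the step on `(0,1)` -/
theorem iteratedDeriv_sg_eq (k : ℕ) (u : ℝ) (h0 : 0 < u) (h1 : u < 1) :
    iteratedDeriv k sg u = evL (Lk k) (sg u) (1 - sg u) u⁻¹ (1 - u)⁻¹ := by
  induction k generalizing u with
  | zero => simp [Lk, evL, Mono.ev]
  | succ k ih =>
    rw [iteratedDeriv_succ]
    have hev : iteratedDeriv k sg =ᶠ[nhds u]
        fun x => evL (Lk k) (sg x) (1 - sg x) x⁻¹ (1 - x)⁻¹ := by
      filter_upwards [Ioo_mem_nhds h0 h1] with x hx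
      exact ih x hx.1 hx.2
    rw [hev.deriv_eq]
    exact (hasDerivAt_evL (Lk k) u h0 h1).deriv

/-- outside `(0,1)` all derivatives of positive order vanish -/
theorem iteratedDeriv_sg_eq_zero (k : ℕ) (hk : 1 ≤ k) (u : ℝ) (hu : u ≤ 0 ∨ 1 ≤ u) :
    iteratedDeriv k sg u = 0 := by
  have hcont : Continuous (iteratedDeriv k sg) :=
    contDiff_sg.continuous_iteratedDeriv k (by exact_mod_cast le_top)
  have hclosed : IsClosed {x : ℝ | iteratedDeriv k sg x = 0} :=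
    isClosed_eq hcont continuous_const
  have hk0 : k ≠ 0 := by omega
  have hlt : Set.Iio (0 : ℝ) ⊆ {x : ℝ | iteratedDeriv k sg x = 0} := by
    intro x hx
    have hev : sg =ᶠ[nhds x] fun _ => (0 : ℝ) := by
      filter_upwards [Iio_mem_nhds hx] with y hy
      exact Real.smoothTransition.zero_of_nonpos (le_of_lt hy)
    show iteratedDeriv k sg x = 0
    rw [hev.iteratedDeriv_eq k, iteratedDeriv_const]
    simp [hk0]
  have hgt : Set.Ioi (1 : ℝ) ⊆ {x : ℝ | iteratedDeriv k sg x = 0} := by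
    intro x hx
    have hev : sg =ᶠ[nhds x] fun _ => (1 : ℝ) := by
      filter_upwards [Ioi_mem_nhds hx] with y hy
      exact Real.smoothTransition.one_of_one_le (le_of_lt hy)
    show iteratedDeriv k sg x = 0
    rw [hev.iteratedDeriv_eq k, iteratedDeriv_const]
    simp [hk0]
  rcases hu with hu | hu
  · have := closure_minimal hlt hclosed
    rw [closure_Iio] at this
    exact this hu
  · have := closure_minimal hgt hclosed
    rw [closure_Ioi] at this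
    exact this hu

/-! ### invariants of the formal derivatives -/

/-- invariant at level `0` -/
def Mono.J (k : ℕ) (m : Mono) : Prop :=
  m.a + m.b ≤ k + 1 ∧ m.c + m.e ≤ 2 * k ∧
    (m.coef ≠ 0 → 1 ≤ m.a ∧ (m.b = 0 → m.c = 0 ∧ m.e = 0))

/-- invariant at positive levels -/
def Mono.K (k : ℕ) (m : Mono) : Prop :=
  m.a + m.b ≤ k + 1 ∧ m.c + m.e ≤ 2 * k ∧ (m.coef ≠ 0 → 1 ≤ m.a ∧ 1 ≤ m.b)

theorem J_of_K (k : ℕ) (m : Mono) (h : m.K k) : m.J k :=
  ⟨h.1, h.2.1, fun hc => ⟨(h.2.2 hc).1, fun hb => absurd hb (by have := (h.2.2 hc).2; omega)⟩⟩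

theorem K_of_mem_D (k : ℕ) (m : Mono) (hm : m.J k) (m' : Mono) (hm' : m' ∈ m.D) :
    m'.K (k + 1) := by
  obtain ⟨h1, h2, h3⟩ := hm
  simp only [Mono.D, List.mem_cons, List.not_mem_nil, or_false] at hm'
  rcases hm' with rfl | rfl | rfl | rfl | rfl | rfl
  all_goals
    refine ⟨by simp only []; omega, by simp only []; omega, fun hc => ?_⟩
    simp only [ne_eq, mul_eq_zero, neg_eq_zero, Int.natCast_eq_zero, not_or] at hc
    obtain ⟨hc1, hc2⟩ := hc
    have h3' := h3 hc1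
    constructor <;> simp only [] <;> omega

/-- sum of the absolute values of the coefficients -/
def N1 (L : List Mono) : ℕ := (L.map fun m => m.coef.natAbs).sum

theorem N1_D_le (k : ℕ) (m : Mono) (h1 : m.a + m.b ≤ k + 1) (h2 : m.c + m.e ≤ 2 * k) :
    N1 m.D ≤ 4 * (k + 1) * m.coef.natAbs := by
  simp only [N1, Mono.D, List.map_cons, List.map_nil, List.sum_cons, List.sum_nil,
    Int.natAbs_mul, Int.natAbs_neg, Int.natAbs_natCast]
  calc m.coef.natAbs * m.a + (m.coef.natAbs * m.a + (m.coef.natAbs * m.b +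
        (m.coef.natAbs * m.b + (m.coef.natAbs * m.c + (m.coef.natAbs * m.e + 0)))))
      = m.coef.natAbs * (2 * m.a + 2 * m.b + m.c + m.e) := by ring
    _ ≤ m.coef.natAbs * (4 * (k + 1)) := Nat.mul_le_mul_left _ (by omega)
    _ = 4 * (k + 1) * m.coef.natAbs := by ring

theorem N1_flatMap_le (k : ℕ) (L : List Mono)
    (hL : ∀ m ∈ L, m.a + m.b ≤ k + 1 ∧ m.c + m.e ≤ 2 * k) :
    N1 (L.flatMap Mono.D) ≤ 4 * (k + 1) * N1 L := by
  induction L with
  | nil => simp [N1]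
  | cons m L ih =>
    have h1 := N1_D_le k m (hL m List.mem_cons_self).1 (hL m List.mem_cons_self).2
    have h2 := ih (fun m' hm' => hL m' (List.mem_cons_of_mem _ hm'))
    have e1 : N1 ((m :: L).flatMap Mono.D) = N1 m.D + N1 (L.flatMap Mono.D) := by
      simp only [N1, List.flatMap_cons, List.map_append, List.sum_append]
    have e2 : N1 (m :: L) = m.coef.natAbs + N1 L := by
      simp only [N1, List.map_cons, List.sum_cons]
    rw [e1, e2, mul_add]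
    exact Nat.add_le_add h1 h2

theorem Lk_succ (k : ℕ) : Lk (k + 1) = (Lk k).flatMap Mono.D := rfl

theorem Lk_J_zero : ∀ m ∈ Lk 0, m.J 0 := by
  intro m hm
  simp only [Lk, List.mem_cons, List.not_mem_nil, or_false] at hm
  subst hm
  simp [Mono.J]

theorem Lk_K (k : ℕ) : ∀ m ∈ Lk (k + 1), m.K (k + 1) := by
  induction k with
  | zero =>
    intro m hm
    rw [Lk_succ, List.mem_flatMap] at hm
    obtain ⟨m0, hm0, hm⟩ := hm
    exact K_of_mem_D 0 m0 (Lk_J_zero m0 hm0) m hm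
  | succ k ih =>
    intro m hm
    rw [Lk_succ, List.mem_flatMap] at hm
    obtain ⟨m0, hm0, hm⟩ := hm
    exact K_of_mem_D (k + 1) m0 (J_of_K _ _ (ih m0 hm0)) m hm

theorem Lk_deg (k : ℕ) : ∀ m ∈ Lk k, m.a + m.b ≤ k + 1 ∧ m.c + m.e ≤ 2 * k := by
  cases k with
  | zero => intro m hm; exact ⟨(Lk_J_zero m hm).1, (Lk_J_zero m hm).2.1⟩
  | succ k => intro m hm; exact ⟨(Lk_K k m hm).1, (Lk_K k m hm).2.1⟩

theorem N1_Lk_le (k : ℕ) : N1 (Lk k) ≤ 4 ^ k * k.factorial := by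
  induction k with
  | zero => simp [N1, Lk]
  | succ k ih =>
    rw [Lk_succ]
    calc N1 ((Lk k).flatMap Mono.D) ≤ 4 * (k + 1) * N1 (Lk k) := N1_flatMap_le k _ (Lk_deg k)
      _ ≤ 4 * (k + 1) * (4 ^ k * k.factorial) := Nat.mul_le_mul_left _ ih
      _ = 4 ^ (k + 1) * (k + 1).factorial := by rw [Nat.factorial_succ, pow_succ]; ring

/-! ### analytic bounds -/

theorem exp_two_le : Real.exp 2 ≤ 8 := by
  have h := Real.exp_one_lt_d9
  have e : Real.exp 2 = Real.exp 1 * Real.exp 1 := by rw [← Real.exp_add]; norm_num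
  rw [e]
  have h0 := Real.exp_pos 1
  nlinarith

theorem pow_mul_exp_neg_le (x : ℝ) (hx : 0 ≤ x) (c : ℕ) :
    x ^ c * Real.exp (-x) ≤ (c.factorial : ℝ) := by
  have h := Real.pow_div_factorial_le_exp x hx c
  have hf : (0 : ℝ) < c.factorial := by positivity
  rw [div_le_iff₀ hf] at h
  rw [Real.exp_neg, ← div_eq_mul_inv, div_le_iff₀ (Real.exp_pos x)]
  linarith

theorem mono_val_le (u : ℝ) (h0 : 0 < u) (h1 : u < 1) (a b c e : ℕ) (ha : 1 ≤ a) (hb : 1 ≤ b) :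
    sg u ^ a * (1 - sg u) ^ b * u⁻¹ ^ c * (1 - u)⁻¹ ^ e ≤
      8 * 2 ^ (c + e) * ((c + e).factorial : ℝ) := by
  have hs0 := sg_nonneg u
  have hs1 := sg_le_one u
  have hr0 : 0 ≤ 1 - sg u := by linarith
  have hr1 : 1 - sg u ≤ 1 := by linarith
  have hv1 : 0 < u⁻¹ := inv_pos.2 h0
  have hv2 : 0 < (1 - u)⁻¹ := inv_pos.2 (by linarith)
  have hsa : sg u ^ a ≤ sg u := pow_le_of_le_one hs0 hs1 (by omega)
  have hrb : (1 - sg u) ^ b ≤ 1 - sg u := pow_le_of_le_one hr0 hr1 (by omega)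
  have hsa1 : sg u ^ a ≤ 1 := hsa.trans hs1
  have hrb1 : (1 - sg u) ^ b ≤ 1 := hrb.trans hr1
  have hf : 0 < Real.exp (-u⁻¹) := Real.exp_pos _
  have hg : 0 < Real.exp (-(1 - u)⁻¹) := Real.exp_pos _
  have hseq := sg_eq u h0 h1
  have hreq : 1 - sg u =
      Real.exp (-(1 - u)⁻¹) / (Real.exp (-u⁻¹) + Real.exp (-(1 - u)⁻¹)) := by
    rw [hseq]; field_simp; ring
  have hfact : (c.factorial : ℝ) ≤ (c + e).factorial := by
    exact_mod_cast Nat.factorial_le (by omega)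
  have hfact' : (e.factorial : ℝ) ≤ (c + e).factorial := by
    exact_mod_cast Nat.factorial_le (by omega)
  have h2c : (2 : ℝ) ^ c ≤ 2 ^ (c + e) := pow_le_pow_right₀ (by norm_num) (by omega)
  have h2e : (2 : ℝ) ^ e ≤ 2 ^ (c + e) := pow_le_pow_right₀ (by norm_num) (by omega)
  have he2 : Real.exp 2 * Real.exp (-2) = 1 := by rw [← Real.exp_add]; simp
  rcases le_total u (1 / 2) with hu | hu
  · have hv2le : (1 - u)⁻¹ ≤ 2 := by
      rw [inv_le_comm₀ (by linarith) (by norm_num)]; linarith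
    have hv2e : (1 - u)⁻¹ ^ e ≤ 2 ^ e := pow_le_pow_left₀ hv2.le hv2le e
    have hs : sg u ≤ Real.exp 2 * Real.exp (-u⁻¹) := by
      rw [hseq, div_le_iff₀ (by positivity)]
      have hg2 : Real.exp (-2) ≤ Real.exp (-(1 - u)⁻¹) := Real.exp_le_exp.2 (by linarith)
      have h3 : 1 ≤ Real.exp 2 * Real.exp (-(1 - u)⁻¹) := by
        calc (1 : ℝ) = Real.exp 2 * Real.exp (-2) := he2.symm
          _ ≤ Real.exp 2 * Real.exp (-(1 - u)⁻¹) :=
              mul_le_mul_of_nonneg_left hg2 (Real.exp_pos 2).le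
      have h4 : Real.exp (-u⁻¹) ≤ Real.exp (-u⁻¹) * (Real.exp 2 * Real.exp (-(1 - u)⁻¹)) :=
        le_mul_of_one_le_right hf.le h3
      have h5 : 0 ≤ Real.exp 2 * Real.exp (-u⁻¹) * Real.exp (-u⁻¹) := by positivity
      nlinarith [h4, h5]
    have hsv : sg u * u⁻¹ ^ c ≤ 8 * (c.factorial : ℝ) := by
      calc sg u * u⁻¹ ^ c ≤ Real.exp 2 * Real.exp (-u⁻¹) * u⁻¹ ^ c :=
            mul_le_mul_of_nonneg_right hs (by positivity)
        _ = Real.exp 2 * (u⁻¹ ^ c * Real.exp (-u⁻¹)) := by ring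
        _ ≤ 8 * (c.factorial : ℝ) :=
            mul_le_mul exp_two_le (pow_mul_exp_neg_le _ hv1.le c) (by positivity) (by norm_num)
    have A : sg u ^ a * (1 - sg u) ^ b ≤ sg u * 1 := mul_le_mul hsa hrb1 (by positivity) hs0
    have B : sg u ^ a * (1 - sg u) ^ b * u⁻¹ ^ c ≤ sg u * 1 * u⁻¹ ^ c :=
      mul_le_mul_of_nonneg_right A (by positivity)
    have C : sg u ^ a * (1 - sg u) ^ b * u⁻¹ ^ c * (1 - u)⁻¹ ^ e ≤ sg u * 1 * u⁻¹ ^ c * 2 ^ e :=
      mul_le_mul B hv2e (by positivity) (by positivity)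
    calc sg u ^ a * (1 - sg u) ^ b * u⁻¹ ^ c * (1 - u)⁻¹ ^ e
        ≤ sg u * 1 * u⁻¹ ^ c * 2 ^ e := C
      _ = (sg u * u⁻¹ ^ c) * 2 ^ e := by ring
      _ ≤ (8 * (c.factorial : ℝ)) * 2 ^ (c + e) := mul_le_mul hsv h2e (by positivity) (by positivity)
      _ = 8 * 2 ^ (c + e) * (c.factorial : ℝ) := by ring
      _ ≤ 8 * 2 ^ (c + e) * ((c + e).factorial : ℝ) :=
          mul_le_mul_of_nonneg_left hfact (by positivity)
  · have hv1le : u⁻¹ ≤ 2 := by
      rw [inv_le_comm₀ h0 (by norm_num)]; linarith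
    have hv1c : u⁻¹ ^ c ≤ 2 ^ c := pow_le_pow_left₀ hv1.le hv1le c
    have hr : 1 - sg u ≤ Real.exp 2 * Real.exp (-(1 - u)⁻¹) := by
      rw [hreq, div_le_iff₀ (by positivity)]
      have hf2 : Real.exp (-2) ≤ Real.exp (-u⁻¹) := Real.exp_le_exp.2 (by linarith)
      have h3 : 1 ≤ Real.exp 2 * Real.exp (-u⁻¹) := by
        calc (1 : ℝ) = Real.exp 2 * Real.exp (-2) := he2.symm
          _ ≤ Real.exp 2 * Real.exp (-u⁻¹) :=
              mul_le_mul_of_nonneg_left hf2 (Real.exp_pos 2).le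
      have h4 : Real.exp (-(1 - u)⁻¹) ≤
          Real.exp (-(1 - u)⁻¹) * (Real.exp 2 * Real.exp (-u⁻¹)) :=
        le_mul_of_one_le_right hg.le h3
      have h5 : 0 ≤ Real.exp 2 * Real.exp (-(1 - u)⁻¹) * Real.exp (-(1 - u)⁻¹) := by positivity
      nlinarith [h4, h5]
    have hrv : (1 - sg u) * (1 - u)⁻¹ ^ e ≤ 8 * (e.factorial : ℝ) := by
      calc (1 - sg u) * (1 - u)⁻¹ ^ e
          ≤ Real.exp 2 * Real.exp (-(1 - u)⁻¹) * (1 - u)⁻¹ ^ e :=
            mul_le_mul_of_nonneg_right hr (by positivity)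
        _ = Real.exp 2 * ((1 - u)⁻¹ ^ e * Real.exp (-(1 - u)⁻¹)) := by ring
        _ ≤ 8 * (e.factorial : ℝ) :=
            mul_le_mul exp_two_le (pow_mul_exp_neg_le _ hv2.le e) (by positivity) (by norm_num)
    have A : sg u ^ a * (1 - sg u) ^ b ≤ 1 * (1 - sg u) := mul_le_mul hsa1 hrb (by positivity) (by norm_num)
    have B : sg u ^ a * (1 - sg u) ^ b * u⁻¹ ^ c ≤ 1 * (1 - sg u) * 2 ^ c :=
      mul_le_mul A hv1c (by positivity) (by positivity)
    have C : sg u ^ a * (1 - sg u) ^ b * u⁻¹ ^ c * (1 - u)⁻¹ ^ e ≤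
        1 * (1 - sg u) * 2 ^ c * (1 - u)⁻¹ ^ e :=
      mul_le_mul_of_nonneg_right B (by positivity)
    calc sg u ^ a * (1 - sg u) ^ b * u⁻¹ ^ c * (1 - u)⁻¹ ^ e
        ≤ 1 * (1 - sg u) * 2 ^ c * (1 - u)⁻¹ ^ e := C
      _ = ((1 - sg u) * (1 - u)⁻¹ ^ e) * 2 ^ c := by ring
      _ ≤ (8 * (e.factorial : ℝ)) * 2 ^ (c + e) := mul_le_mul hrv h2c (by positivity) (by positivity)
      _ = 8 * 2 ^ (c + e) * (e.factorial : ℝ) := by ring
      _ ≤ 8 * 2 ^ (c + e) * ((c + e).factorial : ℝ) :=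
          mul_le_mul_of_nonneg_left hfact' (by positivity)

theorem abs_mono_ev_le (k : ℕ) (m : Mono) (hm : m.K k) (u : ℝ) (h0 : 0 < u) (h1 : u < 1) :
    |m.ev (sg u) (1 - sg u) u⁻¹ (1 - u)⁻¹| ≤
      (m.coef.natAbs : ℝ) * (8 * 4 ^ k * ((2 * k).factorial : ℝ)) := by
  by_cases hc : m.coef = 0
  · simp [Mono.ev, hc]
  · obtain ⟨-, h2', h3'⟩ := hm
    obtain ⟨ha, hb⟩ := h3' hc
    unfold Mono.ev
    have hval := mono_val_le u h0 h1 m.a m.b m.c m.e ha hb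
    have hs0 := sg_nonneg u
    have hr0 : 0 ≤ 1 - sg u := by have := sg_le_one u; linarith
    have hv1 : 0 < u⁻¹ := inv_pos.2 h0
    have hv2 : 0 < (1 - u)⁻¹ := inv_pos.2 (by linarith)
    have hnn : 0 ≤ sg u ^ m.a * (1 - sg u) ^ m.b * u⁻¹ ^ m.c * (1 - u)⁻¹ ^ m.e := by positivity
    have e1 : (m.coef : ℝ) * sg u ^ m.a * (1 - sg u) ^ m.b * u⁻¹ ^ m.c * (1 - u)⁻¹ ^ m.e
        = (m.coef : ℝ) * (sg u ^ m.a * (1 - sg u) ^ m.b * u⁻¹ ^ m.c * (1 - u)⁻¹ ^ m.e) := by ring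
    have hcabs : |(m.coef : ℝ)| = (m.coef.natAbs : ℝ) := by
      rw [← Int.cast_abs, Int.abs_eq_natAbs]; simp
    rw [e1, abs_mul, abs_of_nonneg hnn, hcabs]
    apply mul_le_mul_of_nonneg_left _ (by positivity)
    have hp : (2 : ℝ) ^ (m.c + m.e) ≤ 4 ^ k := by
      calc (2 : ℝ) ^ (m.c + m.e) ≤ 2 ^ (2 * k) := pow_le_pow_right₀ (by norm_num) h2'
        _ = 4 ^ k := by rw [pow_mul]; norm_num
    have hf : ((m.c + m.e).factorial : ℝ) ≤ (2 * k).factorial := by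
      exact_mod_cast Nat.factorial_le h2'
    calc sg u ^ m.a * (1 - sg u) ^ m.b * u⁻¹ ^ m.c * (1 - u)⁻¹ ^ m.e
        ≤ 8 * 2 ^ (m.c + m.e) * ((m.c + m.e).factorial : ℝ) := hval
      _ ≤ 8 * 4 ^ k * ((2 * k).factorial : ℝ) :=
          mul_le_mul (mul_le_mul_of_nonneg_left hp (by norm_num)) hf (by positivity) (by positivity)

theorem abs_evL_le (k : ℕ) (L : List Mono) (hL : ∀ m ∈ L, m.K k) (u : ℝ) (h0 : 0 < u)
    (h1 : u < 1) :
    |evL L (sg u) (1 - sg u) u⁻¹ (1 - u)⁻¹| ≤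
      (N1 L : ℝ) * (8 * 4 ^ k * ((2 * k).factorial : ℝ)) := by
  induction L with
  | nil => simp [evL, N1]
  | cons m L ih =>
    have h1' := abs_mono_ev_le k m (hL m List.mem_cons_self) u h0 h1
    have h2' := ih (fun m' hm' => hL m' (List.mem_cons_of_mem _ hm'))
    have e1 : evL (m :: L) (sg u) (1 - sg u) u⁻¹ (1 - u)⁻¹ =
        m.ev (sg u) (1 - sg u) u⁻¹ (1 - u)⁻¹ + evL L (sg u) (1 - sg u) u⁻¹ (1 - u)⁻¹ := by
      simp only [evL, List.map_cons, List.sum_cons]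
    have e2 : (N1 (m :: L) : ℝ) = (m.coef.natAbs : ℝ) + (N1 L : ℝ) := by
      simp only [N1, List.map_cons, List.sum_cons]; push_cast; ring
    rw [e1, e2, add_mul]
    exact (abs_add_le _ _).trans (add_le_add h1' h2')

/-- the explicit bound for the derivatives of the step -/
def sgBound (k : ℕ) : ℕ := 8 * 16 ^ k * k.factorial * (2 * k).factorial

/-- all iterated derivatives of the step are bounded by `sgBound` -/
theorem abs_iteratedDeriv_sg_le (k : ℕ) (u : ℝ) : |iteratedDeriv k sg u| ≤ (sgBound k : ℝ) := by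
  rcases Nat.eq_zero_or_pos k with rfl | hk
  · simp only [iteratedDeriv_zero, sgBound]
    rw [abs_of_nonneg (sg_nonneg u)]
    have := sg_le_one u
    norm_num
    linarith
  · by_cases hu : 0 < u ∧ u < 1
    · obtain ⟨k', rfl⟩ : ∃ k', k = k' + 1 := ⟨k - 1, by omega⟩
      rw [iteratedDeriv_sg_eq (k' + 1) u hu.1 hu.2]
      have h1 := abs_evL_le (k' + 1) (Lk (k' + 1)) (Lk_K k') u hu.1 hu.2
      have h2 : (N1 (Lk (k' + 1)) : ℝ) ≤ (4 : ℝ) ^ (k' + 1) * ((k' + 1).factorial : ℝ) := by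
        exact_mod_cast N1_Lk_le (k' + 1)
      calc |evL (Lk (k' + 1)) (sg u) (1 - sg u) u⁻¹ (1 - u)⁻¹|
          ≤ (N1 (Lk (k' + 1)) : ℝ) * (8 * 4 ^ (k' + 1) * ((2 * (k' + 1)).factorial : ℝ)) := h1
        _ ≤ ((4 : ℝ) ^ (k' + 1) * ((k' + 1).factorial : ℝ)) *
              (8 * 4 ^ (k' + 1) * ((2 * (k' + 1)).factorial : ℝ)) :=
            mul_le_mul_of_nonneg_right h2 (by positivity)
        _ = (sgBound (k' + 1) : ℝ) := by
            unfold sgBound
            push_cast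
            rw [show (16 : ℝ) = 4 * 4 by norm_num, mul_pow]
            ring
    · have hu' : u ≤ 0 ∨ 1 ≤ u := by
        by_contra h
        push Not at h
        exact hu ⟨h.1, h.2⟩
      rw [iteratedDeriv_sg_eq_zero k hk u hu']
      simp

theorem iteratedDeriv_one_sg : iteratedDeriv 1 sg = sg' := by
  rw [iteratedDeriv_one]
  rfl

/-- affine chain rule for the step -/
theorem iteratedDeriv_sg_affine (k : ℕ) (α β x : ℝ) :
    iteratedDeriv k (fun y => sg (α * y + β)) x = α ^ k * iteratedDeriv k sg (α * x + β) := by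
  have h1 : ContDiff ℝ k (fun z => sg (z + β)) :=
    (contDiff_sg.of_le (by exact_mod_cast le_top)).comp (contDiff_id.add contDiff_const)
  have h2 := iteratedDeriv_comp_const_mul h1 α
  have h3 := iteratedDeriv_comp_add_const k sg β
  rw [h3] at h2
  exact congrFun h2 x

theorem abs_iteratedDeriv_sg_affine_le (k : ℕ) (α β x : ℝ) :
    |iteratedDeriv k (fun y => sg (α * y + β)) x| ≤ |α| ^ k * (sgBound k : ℝ) := by
  rw [iteratedDeriv_sg_affine, abs_mul, abs_pow]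
  exact mul_le_mul_of_nonneg_left (abs_iteratedDeriv_sg_le k _) (by positivity)

end Crest.Agent.Lib_S0170_SgBound
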