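import Mathlib
import Crest.Prelude.Def_AsymptoticConvexity

/-!
Abstract criterion: a real Banach space containing, for every height `n`, a bounded "good tree" of
height `n` whose increments are bounded below and asymptotically inside every closed
finite-codimensional subspace, has no equivalent asymptotically uniformly convex norm.
-/

namespace Crest.Agent.Lib_h16_NoAUC

open Crest.AnalysisR Filter Topology

section Generic

variable {X : Type} [NormedAddCommGroup X] [NormedSpace ℝ X]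

/-- closed finite-codimensional subspaces as sets (plain normed space version of `IsCof`). -/
def IsCofX (F : Set X) : Prop :=
  ∃ S : Submodule ℝ X, (S : Set X) = F ∧ IsClosed F ∧ FiniteDimensional ℝ (X ⧸ S)

/-- plain version of `RealBanach.IsEquivNorm`. -/
def IsEquivNormX (N : X → ℝ) : Prop :=
  (∀ x y : X, N (x + y) ≤ N x + N y) ∧ (∀ (a : ℝ) (x : X), N (a • x) = abs a * N x) ∧
    ∃ a b : ℝ, 0 < a ∧ ∀ x : X, a * ‖x‖ ≤ N x ∧ N x ≤ b * ‖x‖

/-- plain version of `RealBanach.IsAUC`. -/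
def IsAUCX (N : X → ℝ) : Prop :=
  ∀ t : ℝ, 0 < t → ∃ c : ℝ, 0 < c ∧ ∀ x : X, N x = 1 → ∃ F : Set X, IsCofX F ∧
    ∀ y ∈ F, N y = 1 → c ≤ N (x + t • y) - 1

/-- `GoodRoot m M δ n x`: `x` is the root of a good tree of height `n`: all nodes have norm in
`[m, M]`, and at every non-leaf node, for every closed finite-codimensional `F` and `ε > 0` there
is a child whose difference with the node has norm at least `δ` and is `ε`-close to `F`. -/
def GoodRoot (m M δ : ℝ) : ℕ → X → Prop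
  | 0, x => m ≤ ‖x‖ ∧ ‖x‖ ≤ M
  | n + 1, x => m ≤ ‖x‖ ∧ ‖x‖ ≤ M ∧ ∀ F : Set X, IsCofX F → ∀ ε : ℝ, 0 < ε →
      ∃ x' y : X, GoodRoot m M δ n x' ∧ y ∈ F ∧ δ ≤ ‖x' - x‖ ∧ ‖x' - x - y‖ < ε

theorem GoodRoot.norm_bounds {m M δ : ℝ} {n : ℕ} {x : X} (h : GoodRoot m M δ n x) :
    m ≤ ‖x‖ ∧ ‖x‖ ≤ M := by
  cases n with
  | zero => exact h
  | succ n => exact ⟨h.1, h.2.1⟩

/-- convexity along a line: the excess at `t₀` propagates to all `s ≥ t₀`. -/
theorem excess_mono {N : X → ℝ} (htri : ∀ x y : X, N (x + y) ≤ N x + N y)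
    (hhom : ∀ (a : ℝ) (x : X), N (a • x) = abs a * N x) {x y : X} {t₀ s c : ℝ}
    (hx : N x = 1) (ht₀ : 0 < t₀) (hs : t₀ ≤ s) (hc : 0 ≤ c)
    (h : c ≤ N (x + t₀ • y) - 1) : c ≤ N (x + s • y) - 1 := by
  have hs0 : 0 < s := lt_of_lt_of_le ht₀ hs
  set r : ℝ := t₀ / s with hr
  have hr0 : 0 ≤ r := div_nonneg ht₀.le hs0.le
  have hr1 : r ≤ 1 := by rw [hr, div_le_one hs0]; exact hs
  have hr_pos : 0 < r := div_pos ht₀ hs0
  have hdecomp : x + t₀ • y = (1 - r) • x + r • (x + s • y) := by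
    have : r * s = t₀ := by rw [hr]; field_simp
    rw [smul_add, smul_smul, this, sub_smul, one_smul]; abel
  have h1 : N (x + t₀ • y) ≤ (1 - r) * 1 + r * N (x + s • y) := by
    rw [hdecomp]
    calc N ((1 - r) • x + r • (x + s • y)) ≤ N ((1 - r) • x) + N (r • (x + s • y)) := htri _ _
      _ = (1 - r) * 1 + r * N (x + s • y) := by
          rw [hhom, hhom, hx, abs_of_nonneg (by linarith), abs_of_nonneg hr0]
  -- r * (N (x + s y) - 1) ≥ c, and r ≤ 1
  have h2 : c ≤ r * (N (x + s • y) - 1) := by linarith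
  have h3 : 0 ≤ N (x + s • y) - 1 := by
    by_contra hneg
    rw [not_le] at hneg
    have : r * (N (x + s • y) - 1) < 0 := mul_neg_of_pos_of_neg hr_pos hneg
    linarith
  calc c ≤ r * (N (x + s • y) - 1) := h2
    _ ≤ 1 * (N (x + s • y) - 1) := mul_le_mul_of_nonneg_right hr1 h3
    _ = N (x + s • y) - 1 := one_mul _

/-- one step: if `N` is AUC with constant `c` at `t₀`, then for every `x` with `N x > 0` there is a
closed finite-codimensional `F` with `N (x + y) ≥ (1 + c) N x` whenever `y ∈ F`, `N y ≥ t₀ N x`. -/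
theorem auc_step {N : X → ℝ} (htri : ∀ x y : X, N (x + y) ≤ N x + N y)
    (hhom : ∀ (a : ℝ) (x : X), N (a • x) = abs a * N x) {t₀ c : ℝ} (ht₀ : 0 < t₀) (hc : 0 < c)
    (hauc : ∀ x : X, N x = 1 → ∃ F : Set X, IsCofX F ∧
      ∀ y ∈ F, N y = 1 → c ≤ N (x + t₀ • y) - 1)
    (x : X) (hx : 0 < N x) :
    ∃ F : Set X, IsCofX F ∧ ∀ y ∈ F, t₀ * N x ≤ N y → (1 + c) * N x ≤ N (x + y) := by
  have hx1 : N ((N x)⁻¹ • x) = 1 := by
    rw [hhom, abs_of_pos (inv_pos.mpr hx), inv_mul_cancel₀ hx.ne']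
  obtain ⟨F, hF, hFy⟩ := hauc _ hx1
  refine ⟨F, hF, ?_⟩
  intro y hy hNy
  obtain ⟨S, hS, -, -⟩ := hF
  have hy0 : 0 < N y := lt_of_lt_of_le (mul_pos ht₀ hx) hNy
  have hyS : (N y)⁻¹ • y ∈ F := by
    rw [← hS] at hy ⊢
    exact S.smul_mem _ hy
  have hy1 : N ((N y)⁻¹ • y) = 1 := by
    rw [hhom, abs_of_pos (inv_pos.mpr hy0), inv_mul_cancel₀ hy0.ne']
  have hbase := hFy _ hyS hy1
  have hs : t₀ ≤ N y / N x := by rw [le_div_iff₀ hx]; exact hNy
  have hgrow := excess_mono htri hhom hx1 ht₀ hs hc.le hbase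
  have heq : (N x)⁻¹ • x + (N y / N x) • (N y)⁻¹ • y = (N x)⁻¹ • (x + y) := by
    rw [smul_smul, smul_add]
    congr 2
    field_simp
  rw [heq, hhom, abs_of_pos (inv_pos.mpr hx)] at hgrow
  have : (1 + c) ≤ (N x)⁻¹ * N (x + y) := by linarith
  calc (1 + c) * N x ≤ (N x)⁻¹ * N (x + y) * N x := mul_le_mul_of_nonneg_right this hx.le
    _ = N (x + y) := by field_simp

/-- the inductive growth statement. -/
theorem growth_of_goodRoot {N : X → ℝ} (htri : ∀ x y : X, N (x + y) ≤ N x + N y)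
    (hhom : ∀ (a : ℝ) (x : X), N (a • x) = abs a * N x) {a b : ℝ} (ha : 0 < a)
    (hab : ∀ x : X, a * ‖x‖ ≤ N x ∧ N x ≤ b * ‖x‖)
    {m M δ : ℝ} (hm : 0 < m) (hδ : 0 < δ) {c : ℝ} (hc : 0 < c)
    (hauc : ∀ x : X, N x = 1 → ∃ F : Set X, IsCofX F ∧
      ∀ y ∈ F, N y = 1 → c ≤ N (x + (a * δ / (2 * b * M)) • y) - 1) :
    ∀ (n : ℕ) (x : X), GoodRoot m M δ n x →
      ∃ z : X, ‖z‖ ≤ M ∧ (1 + c / 2) ^ n * N x ≤ N z := by
  intro n
  induction n with
  | zero =>
    intro x hx
    exact ⟨x, hx.2, by simp⟩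
  | succ n ih =>
    intro x hx
    obtain ⟨hxm, hxM, hchild⟩ := hx
    have hM : 0 < M := lt_of_lt_of_le hm (le_trans hxm hxM)
    have hNx : 0 < N x := lt_of_lt_of_le (mul_pos ha hm) (le_trans
      (mul_le_mul_of_nonneg_left hxm ha.le) (hab x).1)
    have hb : 0 < b := by
      have h1 := (hab x).2
      have h2 : 0 < ‖x‖ := lt_of_lt_of_le hm hxm
      by_contra hb
      rw [not_lt] at hb
      have : b * ‖x‖ ≤ 0 := mul_nonpos_of_nonpos_of_nonneg hb h2.le
      linarith
    have ht₀ : 0 < a * δ / (2 * b * M) := by positivity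
    obtain ⟨F, hF, hFy⟩ := auc_step htri hhom ht₀ hc hauc x hNx
    -- choose ε
    set ε : ℝ := min (a * δ / (2 * b)) (a * m * c / (2 * b)) with hε
    have hε0 : 0 < ε := by
      rw [hε]; exact lt_min (by positivity) (by positivity)
    have hε1 : b * ε ≤ a * δ / 2 := by
      have : ε ≤ a * δ / (2 * b) := min_le_left _ _
      calc b * ε ≤ b * (a * δ / (2 * b)) := mul_le_mul_of_nonneg_left this hb.le
        _ = a * δ / 2 := by field_simp
    have hε2 : b * ε ≤ a * m * c / 2 := by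
      have : ε ≤ a * m * c / (2 * b) := min_le_right _ _
      calc b * ε ≤ b * (a * m * c / (2 * b)) := mul_le_mul_of_nonneg_left this hb.le
        _ = a * m * c / 2 := by field_simp
    obtain ⟨x', y, hx', hyF, hδ', hclose⟩ := hchild F hF ε hε0
    -- N of the error
    have herr : N (x' - x - y) ≤ b * ε := by
      calc N (x' - x - y) ≤ b * ‖x' - x - y‖ := (hab _).2
        _ ≤ b * ε := mul_le_mul_of_nonneg_left hclose.le hb.le
    have herr' : N (y - (x' - x)) ≤ b * ε := by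
      have : y - (x' - x) = (-1 : ℝ) • (x' - x - y) := by
        rw [neg_one_smul]; abel
      rw [this, hhom]; simpa using herr
    -- N y is large
    have hNd : a * δ ≤ N (x' - x) := le_trans (mul_le_mul_of_nonneg_left hδ' ha.le) (hab _).1
    have hNy : a * δ / 2 ≤ N y := by
      have h1 : N (x' - x) ≤ N y + N (x' - x - y) := by
        have := htri y (x' - x - y)
        rwa [show y + (x' - x - y) = x' - x by abel] at this
      linarith
    have hNxM : N x ≤ b * M := le_trans (hab x).2 (mul_le_mul_of_nonneg_left hxM hb.le)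
    have hstep : a * δ / (2 * b * M) * N x ≤ N y := by
      calc a * δ / (2 * b * M) * N x ≤ a * δ / (2 * b * M) * (b * M) :=
            mul_le_mul_of_nonneg_left hNxM ht₀.le
        _ = a * δ / 2 := by field_simp
        _ ≤ N y := hNy
    have hgrow := hFy y hyF hstep
    -- N x' ≥ N (x + y) - b ε
    have hx'N : N (x + y) ≤ N x' + b * ε := by
      have := htri x' (y - (x' - x))
      rw [show x' + (y - (x' - x)) = x + y by abel] at this
      linarith
    have hamN : a * m ≤ N x := le_trans (mul_le_mul_of_nonneg_left hxm ha.le) (hab x).1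
    have hfinal : (1 + c / 2) * N x ≤ N x' := by
      have : a * m * c / 2 ≤ N x * c / 2 := by
        have := mul_le_mul_of_nonneg_right hamN hc.le
        linarith
      nlinarith
    obtain ⟨z, hz, hzN⟩ := ih x' hx'
    refine ⟨z, hz, ?_⟩
    calc (1 + c / 2) ^ (n + 1) * N x = (1 + c / 2) ^ n * ((1 + c / 2) * N x) := by ring
      _ ≤ (1 + c / 2) ^ n * N x' := by
          apply mul_le_mul_of_nonneg_left hfinal
          positivity
      _ ≤ N z := hzN

/-- **Abstract criterion (plain normed space).** If for every `n` there is a good tree of height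
`n` (with the same constants `0 < m`, `M`, `0 < δ`), then no equivalent norm is AUC. -/
theorem not_aucX_of_goodRoot {m M δ : ℝ} (hm : 0 < m) (hδ : 0 < δ)
    (h : ∀ n : ℕ, ∃ x : X, GoodRoot m M δ n x) (N : X → ℝ) (hN : IsEquivNormX N) :
    ¬ IsAUCX N := by
  intro hA
  obtain ⟨htri, hhom, a, b, ha, hab⟩ := hN
  obtain ⟨x₀, hx₀⟩ := h 0
  have hM : 0 < M := lt_of_lt_of_le hm (le_trans hx₀.1 hx₀.2)
  have hb : 0 < b := by
    have h1 := (hab x₀)
    have h2 : 0 < ‖x₀‖ := lt_of_lt_of_le hm hx₀.1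
    by_contra hb
    rw [not_lt] at hb
    have : b * ‖x₀‖ ≤ 0 := mul_nonpos_of_nonpos_of_nonneg hb h2.le
    have : 0 < a * ‖x₀‖ := mul_pos ha h2
    linarith [h1.1, h1.2]
  have ht₀ : 0 < a * δ / (2 * b * M) := by positivity
  obtain ⟨c, hc, hauc⟩ := hA _ ht₀
  have key := growth_of_goodRoot htri hhom ha hab hm hδ hc hauc
  -- (1 + c/2)^n * (a m) ≤ b M for all n: contradiction
  have hbound : ∀ n : ℕ, (1 + c / 2) ^ n * (a * m) ≤ b * M := by
    intro n
    obtain ⟨x, hx⟩ := h n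
    obtain ⟨z, hz, hzN⟩ := key n x hx
    have hxb := hx.norm_bounds
    have h1 : a * m ≤ N x := le_trans (mul_le_mul_of_nonneg_left hxb.1 ha.le) (hab x).1
    have h2 : N z ≤ b * M := le_trans (hab z).2 (mul_le_mul_of_nonneg_left hz hb.le)
    calc (1 + c / 2) ^ n * (a * m) ≤ (1 + c / 2) ^ n * N x := by
          apply mul_le_mul_of_nonneg_left h1; positivity
      _ ≤ N z := hzN
      _ ≤ b * M := h2
  have htend : Tendsto (fun n : ℕ => (1 + c / 2) ^ n) atTop atTop :=
    tendsto_pow_atTop_atTop_of_one_lt (by linarith)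
  have ham : 0 < a * m := mul_pos ha hm
  obtain ⟨n, hn⟩ := (htend.eventually (eventually_gt_atTop (b * M / (a * m)))).exists
  have := hbound n
  rw [div_lt_iff₀ ham] at hn
  linarith

end Generic

section Record

/-- **Abstract criterion (record version).** -/
theorem not_auc_of_goodRoot (E : RealBanach) {m M δ : ℝ} (hm : 0 < m) (hδ : 0 < δ)
    (h : letI := E.normed; letI := E.space
      ∀ n : ℕ, ∃ x : E.X, GoodRoot m M δ n x) :
    ∀ N : E.X → ℝ, E.IsEquivNorm N → ¬ E.IsAUC N := by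
  let _ := E.normed; let _ := E.space
  intro N hN hA
  exact not_aucX_of_goodRoot hm hδ h N hN hA

/-- a finite-dimensional space is AUC for its own norm, hence "no equivalent AUC norm" forces
infinite dimension. -/
theorem not_finiteDimensional_of_no_auc (E : RealBanach)
    (h : ∀ N : E.X → ℝ, E.IsEquivNorm N → ¬ E.IsAUC N) :
    letI := E.normed; letI := E.space
    ¬ FiniteDimensional ℝ E.X := by
  let _ := E.normed; let _ := E.space
  intro hfd
  refine h E.norm ?_ ?_
  · refine ⟨fun x y => norm_add_le x y, fun a x => ?_, 1, 1, one_pos, fun x => ?_⟩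
    · show ‖a • x‖ = |a| * ‖x‖
      rw [norm_smul, Real.norm_eq_abs]
    · show 1 * ‖x‖ ≤ ‖x‖ ∧ ‖x‖ ≤ 1 * ‖x‖
      simp
  · intro t ht
    refine ⟨1, one_pos, fun x _ => ⟨{0}, ⟨⊥, by simp, isClosed_singleton, ?_⟩, ?_⟩⟩
    · exact Module.Finite.of_surjective (Submodule.mkQ (⊥ : Submodule ℝ E.X))
        (Submodule.mkQ_surjective _)
    · intro y hy hy1
      have hy0 : y = 0 := hy
      subst hy0
      have : ‖(0 : E.X)‖ = 1 := hy1
      simp at this

end Record

end Crest.Agent.Lib_h16_NoAUC
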