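import Mathlib
import Crest.Agent.Lib_helper18_Area
import Crest.Agent.Lib_helper10_Ruled

set_option autoImplicit false
open MeasureTheory
open scoped ENNReal

/-!
Assembly of the core cover of the standard regular tetrahedron (row 211) from one ruled family:
coordinates on the tetrahedron, transport of a triangle-cylinder cover under the symmetry
`(x, y, z) ↦ (y, -x, √2 - z)`, and concatenation of two covers.
-/

namespace Crest.Agent.Lib_helper10_CoreAsm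

open Crest.Agent.Lib_helper10_Ruled (inner3 normsq3 ext3)

abbrev E3 := EuclideanSpace ℝ (Fin 3)

/-- `S` is covered by `m` cylinders with unit directions and triangular bases orthogonal to the
directions, of total base area at most `A`. -/
def TriCoverLe (S : Set E3) (m : ℕ) (A : ℝ) : Prop :=
  ∃ (u p q r : Fin m → E3),
    (∀ i, ‖u i‖ = 1) ∧
    (∀ i, inner ℝ (p i) (u i) = 0 ∧ inner ℝ (q i) (u i) = 0 ∧ inner ℝ (r i) (u i) = 0) ∧
    S ⊆ ⋃ i, {x : E3 | ∃ b ∈ convexHull ℝ {p i, q i, r i}, ∃ t : ℝ, x = b + t • u i} ∧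
    ∑ i, (μHE[2] (convexHull ℝ ({p i, q i, r i} : Set E3))).toReal ≤ A

theorem TriCoverLe.mono {S S' : Set E3} {m : ℕ} {A A' : ℝ} (h : TriCoverLe S m A)
    (hS : S' ⊆ S) (hA : A ≤ A') : TriCoverLe S' m A' := by
  obtain ⟨u, p, q, r, h1, h2, h3, h4⟩ := h
  exact ⟨u, p, q, r, h1, h2, hS.trans h3, h4.trans hA⟩

/-- Concatenation of two covers. -/
theorem TriCoverLe.append {S S' : Set E3} {m m' : ℕ} {A A' : ℝ} (h : TriCoverLe S m A)
    (h' : TriCoverLe S' m' A') : TriCoverLe (S ∪ S') (m + m') (A + A') := by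
  obtain ⟨u, p, q, r, h1, h2, h3, h4⟩ := h
  obtain ⟨u', p', q', r', h1', h2', h3', h4'⟩ := h'
  refine ⟨Fin.append u u', Fin.append p p', Fin.append q q', Fin.append r r', ?_, ?_, ?_, ?_⟩
  · intro i
    refine Fin.addCases (fun j => ?_) (fun j => ?_) i
    · simpa using h1 j
    · simpa using h1' j
  · intro i
    refine Fin.addCases (fun j => ?_) (fun j => ?_) i
    · simpa using h2 j
    · simpa using h2' j
  · rintro x (hx | hx)
    · obtain ⟨i, hi⟩ := Set.mem_iUnion.mp (h3 hx)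
      refine Set.mem_iUnion.mpr ⟨Fin.castAdd m' i, ?_⟩
      simpa using hi
    · obtain ⟨i, hi⟩ := Set.mem_iUnion.mp (h3' hx)
      refine Set.mem_iUnion.mpr ⟨Fin.natAdd m i, ?_⟩
      simpa using hi
  · rw [Fin.sum_univ_add]
    simp only [Fin.append_left, Fin.append_right]
    exact add_le_add h4 h4'

/-- The linear part of the symmetry `(x, y, z) ↦ (y, -x, √2 - z)` of the tetrahedron. -/
noncomputable def T0 (z : E3) : E3 := !₂[z 1, -z 0, -z 2]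

/-- The translation part of the symmetry. -/
noncomputable def c0 : E3 := !₂[0, 0, Real.sqrt 2]

theorem inner_T0 (x y : E3) : inner ℝ (T0 x) (T0 y) = inner ℝ x y := by
  rw [inner3, inner3]
  simp [T0]
  ring

theorem norm_T0 (x : E3) : ‖T0 x‖ = ‖x‖ := by
  rw [← Real.sqrt_sq (norm_nonneg (T0 x)), ← Real.sqrt_sq (norm_nonneg x),
    ← real_inner_self_eq_norm_sq, ← real_inner_self_eq_norm_sq, inner_T0]

theorem T0_sub (x y : E3) : T0 (x - y) = T0 x - T0 y := by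
  apply ext3 <;> simp [T0] <;> ring

theorem T0_comb (p a b : E3) (s t : ℝ) :
    T0 (p + s • a + t • b) = T0 p + s • T0 a + t • T0 b := by
  apply ext3 <;> simp [T0] <;> ring

theorem T0_add_smul (b u : E3) (t : ℝ) : T0 (b + t • u) = T0 b + t • T0 u := by
  apply ext3 <;> simp [T0] <;> ring

/-- Transport of a triangle-cylinder cover under the symmetry `z ↦ c0 + T0 z`. -/
theorem TriCoverLe.transport {S : Set E3} {m : ℕ} {A : ℝ} (h : TriCoverLe S m A) :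
    TriCoverLe ((fun z => c0 + T0 z) '' S) m A := by
  obtain ⟨u, p, q, r, h1, h2, h3, h4⟩ := h
  -- the shift that moves `c0` into the plane orthogonal to the new direction
  let v : Fin m → E3 := fun i => c0 - inner ℝ c0 (T0 (u i)) • T0 (u i)
  have hv : ∀ i, inner ℝ (v i) (T0 (u i)) = 0 := by
    intro i
    simp only [v]
    rw [inner_sub_left, inner_smul_left, real_inner_self_eq_norm_sq, norm_T0, h1 i]
    simp
  refine ⟨fun i => T0 (u i), fun i => T0 (p i) + v i, fun i => T0 (q i) + v i,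
    fun i => T0 (r i) + v i, fun i => by rw [norm_T0, h1 i], fun i => ?_, ?_, ?_⟩
  · refine ⟨?_, ?_, ?_⟩
    · rw [inner_add_left, inner_T0, (h2 i).1, hv i, add_zero]
    · rw [inner_add_left, inner_T0, (h2 i).2.1, hv i, add_zero]
    · rw [inner_add_left, inner_T0, (h2 i).2.2, hv i, add_zero]
  · rintro _ ⟨z, hz, rfl⟩
    obtain ⟨i, b, hb, t, rfl⟩ := Set.mem_iUnion.mp (h3 hz)
    refine Set.mem_iUnion.mpr ⟨i, T0 b + v i, ?_, t + inner ℝ c0 (T0 (u i)), ?_⟩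
    · rw [Crest.Agent.Lib_helper18_Area.convexHull_three] at hb ⊢
      obtain ⟨s, t', hs, ht', hst, rfl⟩ := hb
      refine ⟨s, t', hs, ht', hst, ?_⟩
      rw [T0_comb, T0_sub, T0_sub]
      module
    · simp only [v]
      rw [T0_add_smul]
      module
  · refine le_trans (le_of_eq ?_) h4
    refine Finset.sum_congr rfl (fun i _ => ?_)
    rw [Crest.Agent.Lib_helper18_Area.area_triangle, Crest.Agent.Lib_helper18_Area.area_triangle]
    have e1 : T0 (q i) + v i - (T0 (p i) + v i) = T0 (q i - p i) := by rw [T0_sub]; abel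
    have e2 : T0 (r i) + v i - (T0 (p i) + v i) = T0 (r i - p i) := by rw [T0_sub]; abel
    rw [e1, e2, norm_T0, norm_T0, inner_T0]


/-- The standard regular tetrahedron (literal vertex set of the row 211 statements). -/
noncomputable def K0 : Set E3 :=
  convexHull ℝ {!₂[1, 0, 0], !₂[-1, 0, 0], !₂[0, 1, Real.sqrt 2], !₂[0, -1, Real.sqrt 2]}

/-- The slab description of the tetrahedron. -/
def Cslab : Set E3 :=
  {z | 0 ≤ z 2 ∧ z 2 ≤ Real.sqrt 2 ∧ Real.sqrt 2 * z 0 ≤ Real.sqrt 2 - z 2 ∧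
    -(Real.sqrt 2 * z 0) ≤ Real.sqrt 2 - z 2 ∧ Real.sqrt 2 * z 1 ≤ z 2 ∧
    -(Real.sqrt 2 * z 1) ≤ z 2}

theorem convex_Cslab : Convex ℝ Cslab := by
  intro z hz z' hz' a b ha hb hab
  obtain ⟨h1, h2, h3, h4, h5, h6⟩ := hz
  obtain ⟨h1', h2', h3', h4', h5', h6'⟩ := hz'
  have hs : Real.sqrt 2 * a + Real.sqrt 2 * b = Real.sqrt 2 := by rw [← mul_add, hab, mul_one]
  simp only [Cslab, Set.mem_setOf_eq, PiLp.add_apply, PiLp.smul_apply, smul_eq_mul]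
  refine ⟨?_, ?_, ?_, ?_, ?_, ?_⟩
  · nlinarith [mul_nonneg ha h1, mul_nonneg hb h1']
  · nlinarith [mul_le_mul_of_nonneg_left h2 ha, mul_le_mul_of_nonneg_left h2' hb]
  · nlinarith [mul_le_mul_of_nonneg_left h3 ha, mul_le_mul_of_nonneg_left h3' hb]
  · nlinarith [mul_le_mul_of_nonneg_left h4 ha, mul_le_mul_of_nonneg_left h4' hb]
  · nlinarith [mul_le_mul_of_nonneg_left h5 ha, mul_le_mul_of_nonneg_left h5' hb]
  · nlinarith [mul_le_mul_of_nonneg_left h6 ha, mul_le_mul_of_nonneg_left h6' hb]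

theorem K0_subset_Cslab : K0 ⊆ Cslab := by
  have hs : 0 ≤ Real.sqrt 2 := Real.sqrt_nonneg 2
  apply convexHull_min _ convex_Cslab
  intro z hz
  simp only [Set.mem_insert_iff, Set.mem_singleton_iff] at hz
  rcases hz with rfl | rfl | rfl | rfl <;>
    simp only [Cslab, Set.mem_setOf_eq, Matrix.cons_val_zero, Matrix.cons_val_one,
      Matrix.cons_val] <;>
    refine ⟨?_, ?_, ?_, ?_, ?_, ?_⟩ <;> nlinarith

/-- Coordinates on the tetrahedron: every point is `(x, y, √2 τ)` with `0 ≤ τ ≤ 1`,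
`|x| ≤ 1 - τ`, `|y| ≤ τ`. -/
theorem K0_coords (z : E3) (hz : z ∈ K0) :
    ∃ x y τ : ℝ, 0 ≤ τ ∧ τ ≤ 1 ∧ |x| ≤ 1 - τ ∧ |y| ≤ τ ∧ z = !₂[x, y, Real.sqrt 2 * τ] := by
  obtain ⟨h1, h2, h3, h4, h5, h6⟩ := K0_subset_Cslab hz
  have hs : 0 < Real.sqrt 2 := Real.sqrt_pos.mpr (by norm_num)
  refine ⟨z 0, z 1, z 2 / Real.sqrt 2, div_nonneg h1 hs.le, (div_le_one hs).mpr h2, ?_, ?_, ?_⟩
  · rw [abs_le]
    constructor
    · rw [neg_le, le_sub_iff_add_le, ← le_sub_iff_add_le', div_le_iff₀ hs]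
      linarith
    · rw [le_sub_iff_add_le, ← le_sub_iff_add_le', div_le_iff₀ hs]
      linarith
  · rw [abs_le]
    constructor
    · rw [neg_le, le_div_iff₀ hs]
      linarith
    · rw [le_div_iff₀ hs]
      linarith
  · apply ext3 <;> simp
    field_simp

/-- The tetrahedron is covered by one ruled family and its mirror image. -/
theorem K0_subset_union (μ : ℝ) (Rf : ℝ → ℝ) (S1 : Set E3)
    (hcases : ∀ x y τ : ℝ, 0 ≤ τ → τ ≤ 1 → |x| ≤ 1 - τ → |y| ≤ τ →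
      (∃ t ∈ Set.Icc (-1 : ℝ) 1, ∃ ρ ∈ Set.Icc 0 (Rf t),
        y = ρ * t + x * μ * (1 + t ^ 2) / 2 ∧ τ = ρ + x * μ * t) ∨
      (∃ t ∈ Set.Icc (-1 : ℝ) 1, ∃ ρ ∈ Set.Icc 0 (Rf t),
        x = ρ * t - y * μ * (1 + t ^ 2) / 2 ∧ 1 - τ = ρ - y * μ * t))
    (hS1 : ∀ s t ρ : ℝ, t ∈ Set.Icc (-1 : ℝ) 1 → ρ ∈ Set.Icc 0 (Rf t) → |s| ≤ 1 →
      (!₂[s, ρ * t + s * μ * (1 + t ^ 2) / 2, Real.sqrt 2 * (ρ + s * μ * t)] : E3) ∈ S1) :
    K0 ⊆ S1 ∪ (fun z => c0 + T0 z) '' S1 := by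
  intro z hz
  obtain ⟨x, y, τ, h0, h1, hx, hy, rfl⟩ := K0_coords z hz
  rcases hcases x y τ h0 h1 hx hy with ⟨t, ht, ρ, hρ, e1, e2⟩ | ⟨t, ht, ρ, hρ, e1, e2⟩
  · left
    have := hS1 x t ρ ht hρ (hx.trans (by linarith))
    rw [← e1, ← e2] at this
    exact this
  · right
    have hmem := hS1 (-y) t ρ ht hρ (by rw [abs_neg]; exact hy.trans h1)
    refine ⟨_, hmem, ?_⟩
    apply ext3
    · simp only [c0, T0, PiLp.add_apply, Matrix.cons_val_zero,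
        Matrix.cons_val_one, Matrix.cons_val]
      rw [e1]
      ring
    · simp [c0, T0]
    · simp only [c0, T0, PiLp.add_apply, Matrix.cons_val_zero,
        Matrix.cons_val_one, Matrix.cons_val]
      have : ρ + -y * μ * t = 1 - τ := by linarith
      rw [this]
      ring

/-- **Core assembly**: a triangle-cylinder cover of one ruled family gives a cover of the
tetrahedron with twice as many cylinders and twice the area. -/
theorem core_of_family (μ : ℝ) (Rf : ℝ → ℝ) (S1 : Set E3) (m₁ : ℕ) (A₁ : ℝ)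
    (hcases : ∀ x y τ : ℝ, 0 ≤ τ → τ ≤ 1 → |x| ≤ 1 - τ → |y| ≤ τ →
      (∃ t ∈ Set.Icc (-1 : ℝ) 1, ∃ ρ ∈ Set.Icc 0 (Rf t),
        y = ρ * t + x * μ * (1 + t ^ 2) / 2 ∧ τ = ρ + x * μ * t) ∨
      (∃ t ∈ Set.Icc (-1 : ℝ) 1, ∃ ρ ∈ Set.Icc 0 (Rf t),
        x = ρ * t - y * μ * (1 + t ^ 2) / 2 ∧ 1 - τ = ρ - y * μ * t))
    (hS1 : ∀ s t ρ : ℝ, t ∈ Set.Icc (-1 : ℝ) 1 → ρ ∈ Set.Icc 0 (Rf t) → |s| ≤ 1 →
      (!₂[s, ρ * t + s * μ * (1 + t ^ 2) / 2, Real.sqrt 2 * (ρ + s * μ * t)] : E3) ∈ S1)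
    (hfam : TriCoverLe S1 m₁ A₁) : TriCoverLe K0 (m₁ + m₁) (A₁ + A₁) :=
  (hfam.append hfam.transport).mono (K0_subset_union μ Rf S1 hcases hS1) le_rfl

/-- The core cover in the shape consumed by the S0324/S0325 assembly. -/
theorem core_of_parts (μ : ℝ) (Rf : ℝ → ℝ) (S1 : Set E3) (m₁ : ℕ) (g : ℝ)
    (hcases : ∀ x y τ : ℝ, 0 ≤ τ → τ ≤ 1 → |x| ≤ 1 - τ → |y| ≤ τ →
      (∃ t ∈ Set.Icc (-1 : ℝ) 1, ∃ ρ ∈ Set.Icc 0 (Rf t),
        y = ρ * t + x * μ * (1 + t ^ 2) / 2 ∧ τ = ρ + x * μ * t) ∨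
      (∃ t ∈ Set.Icc (-1 : ℝ) 1, ∃ ρ ∈ Set.Icc 0 (Rf t),
        x = ρ * t - y * μ * (1 + t ^ 2) / 2 ∧ 1 - τ = ρ - y * μ * t))
    (hS1 : ∀ s t ρ : ℝ, t ∈ Set.Icc (-1 : ℝ) 1 → ρ ∈ Set.Icc 0 (Rf t) → |s| ≤ 1 →
      (!₂[s, ρ * t + s * μ * (1 + t ^ 2) / 2, Real.sqrt 2 * (ρ + s * μ * t)] : E3) ∈ S1)
    (hfam : TriCoverLe S1 m₁ (Real.sqrt 2 * (1 / 2 - g) / 2))
    (hm : m₁ + m₁ + 1 ≤ 16000000) :
    ∃ (m : ℕ) (u p q r : Fin m → EuclideanSpace ℝ (Fin 3)),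
      (∀ i, ‖u i‖ = 1) ∧
      (∀ i, inner ℝ (p i) (u i) = 0 ∧ inner ℝ (q i) (u i) = 0 ∧ inner ℝ (r i) (u i) = 0) ∧
      convexHull ℝ {!₂[1, 0, 0], !₂[-1, 0, 0], !₂[0, 1, Real.sqrt 2], !₂[0, -1, Real.sqrt 2]} ⊆
        ⋃ i, {x : EuclideanSpace ℝ (Fin 3) | ∃ b ∈ convexHull ℝ {p i, q i, r i}, ∃ t : ℝ,
          x = b + t • u i} ∧
      m + 1 ≤ 16000000 ∧
      ∑ i, (μHE[2] (convexHull ℝ ({p i, q i, r i} : Set (EuclideanSpace ℝ (Fin 3))))).toReal ≤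
        Real.sqrt 2 * (1 / 2 - g) := by
  obtain ⟨u, p, q, r, h1, h2, h3, h4⟩ := core_of_family μ Rf S1 m₁ _ hcases hS1 hfam
  refine ⟨m₁ + m₁, u, p, q, r, h1, h2, h3, hm, h4.trans (le_of_eq ?_)⟩
  ring

end Crest.Agent.Lib_helper10_CoreAsm
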