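import Mathlib

set_option autoImplicit false
open MeasureTheory
open scoped ENNReal

/-!
Reindexing of a finite family of squares (indexed by a `Fintype` or by a `Finset`) by `Fin k`,
in the exact shape of the conclusion of the planar square-tile covering statement S0326.
-/

namespace Crest.Agent.Lib_helper10_Reindex

/-- A family indexed by a finite type can be reindexed by `Fin k`. -/
theorem fin_of_fintype {ι : Type*} [Fintype ι] (D : Set (EuclideanSpace ℝ (Fin 2)))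
    (V : EuclideanSpace ℝ (Fin 2) → EuclideanSpace ℝ (Fin 2)) (L h X : ℝ)
    (c a b g : ι → EuclideanSpace ℝ (Fin 2))
    (h1 : ∀ i, a i ≠ 0 ∧ ‖b i‖ = ‖a i‖ ∧ inner ℝ (a i) (b i) = 0)
    (h2 : {z : ℝ × EuclideanSpace ℝ (Fin 2) | ∃ p ∈ D, abs z.1 ≤ L ∧ z.2 = p + z.1 • V p} ⊆
        ⋃ i, {z : ℝ × EuclideanSpace ℝ (Fin 2) | ∃ x ∈ Set.Icc (0 : ℝ) 1, ∃ y ∈ Set.Icc (0 : ℝ) 1,
          z.2 = c i + x • a i + y • b i + z.1 • g i})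
    (h3 : ∑ i, ‖a i‖ ^ 2 / Real.sqrt (1 + (g i 0) ^ 2 + h ^ 2 * (g i 1) ^ 2) ≤ X) :
    ∃ (k : ℕ) (c a b g : Fin k → EuclideanSpace ℝ (Fin 2)),
      (∀ i, a i ≠ 0 ∧ ‖b i‖ = ‖a i‖ ∧ inner ℝ (a i) (b i) = 0) ∧
      {z : ℝ × EuclideanSpace ℝ (Fin 2) | ∃ p ∈ D, abs z.1 ≤ L ∧ z.2 = p + z.1 • V p} ⊆
        ⋃ i, {z : ℝ × EuclideanSpace ℝ (Fin 2) | ∃ x ∈ Set.Icc (0 : ℝ) 1, ∃ y ∈ Set.Icc (0 : ℝ) 1,
          z.2 = c i + x • a i + y • b i + z.1 • g i} ∧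
      ∑ i, ‖a i‖ ^ 2 / Real.sqrt (1 + (g i 0) ^ 2 + h ^ 2 * (g i 1) ^ 2) ≤ X := by
  classical
  let e := Fintype.equivFin ι
  refine ⟨Fintype.card ι, c ∘ e.symm, a ∘ e.symm, b ∘ e.symm, g ∘ e.symm,
    fun i => h1 (e.symm i), ?_, ?_⟩
  · intro z hz
    obtain ⟨i, hi⟩ := Set.mem_iUnion.mp (h2 hz)
    refine Set.mem_iUnion.mpr ⟨e i, ?_⟩
    simpa using hi
  · have hs : ∑ i, ‖(a ∘ e.symm) i‖ ^ 2 /
          Real.sqrt (1 + ((g ∘ e.symm) i 0) ^ 2 + h ^ 2 * ((g ∘ e.symm) i 1) ^ 2) =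
        ∑ i, ‖a i‖ ^ 2 / Real.sqrt (1 + (g i 0) ^ 2 + h ^ 2 * (g i 1) ^ 2) :=
      Equiv.sum_comp e.symm
        (fun i => ‖a i‖ ^ 2 / Real.sqrt (1 + (g i 0) ^ 2 + h ^ 2 * (g i 1) ^ 2))
    rw [hs]
    exact h3

/-- A family indexed by a finset of an arbitrary type can be reindexed by `Fin k`. -/
theorem fin_of_finset {ι : Type*} (s : Finset ι) (D : Set (EuclideanSpace ℝ (Fin 2)))
    (V : EuclideanSpace ℝ (Fin 2) → EuclideanSpace ℝ (Fin 2)) (L h X : ℝ)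
    (c a b g : ι → EuclideanSpace ℝ (Fin 2))
    (h1 : ∀ i ∈ s, a i ≠ 0 ∧ ‖b i‖ = ‖a i‖ ∧ inner ℝ (a i) (b i) = 0)
    (h2 : {z : ℝ × EuclideanSpace ℝ (Fin 2) | ∃ p ∈ D, abs z.1 ≤ L ∧ z.2 = p + z.1 • V p} ⊆
        ⋃ i ∈ s, {z : ℝ × EuclideanSpace ℝ (Fin 2) | ∃ x ∈ Set.Icc (0 : ℝ) 1,
          ∃ y ∈ Set.Icc (0 : ℝ) 1, z.2 = c i + x • a i + y • b i + z.1 • g i})
    (h3 : ∑ i ∈ s, ‖a i‖ ^ 2 / Real.sqrt (1 + (g i 0) ^ 2 + h ^ 2 * (g i 1) ^ 2) ≤ X) :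
    ∃ (k : ℕ) (c a b g : Fin k → EuclideanSpace ℝ (Fin 2)),
      (∀ i, a i ≠ 0 ∧ ‖b i‖ = ‖a i‖ ∧ inner ℝ (a i) (b i) = 0) ∧
      {z : ℝ × EuclideanSpace ℝ (Fin 2) | ∃ p ∈ D, abs z.1 ≤ L ∧ z.2 = p + z.1 • V p} ⊆
        ⋃ i, {z : ℝ × EuclideanSpace ℝ (Fin 2) | ∃ x ∈ Set.Icc (0 : ℝ) 1, ∃ y ∈ Set.Icc (0 : ℝ) 1,
          z.2 = c i + x • a i + y • b i + z.1 • g i} ∧
      ∑ i, ‖a i‖ ^ 2 / Real.sqrt (1 + (g i 0) ^ 2 + h ^ 2 * (g i 1) ^ 2) ≤ X := by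
  classical
  refine fin_of_fintype (ι := s) D V L h X (fun i => c i) (fun i => a i) (fun i => b i)
    (fun i => g i) (fun i => h1 i i.2) ?_ ?_
  · intro z hz
    obtain ⟨i, hi⟩ := Set.mem_iUnion.mp (h2 hz)
    obtain ⟨his, hi⟩ := Set.mem_iUnion.mp hi
    exact Set.mem_iUnion.mpr ⟨⟨i, his⟩, hi⟩
  · rw [Finset.sum_coe_sort s
      (fun i => ‖a i‖ ^ 2 / Real.sqrt (1 + (g i 0) ^ 2 + h ^ 2 * (g i 1) ^ 2))]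
    exact h3

end Crest.Agent.Lib_helper10_Reindex
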