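import Mathlib
import Crest.Agent.Lib_helper18_Area

/-!
Assembly of the core cover of the standard regular tetrahedron (row 211, S0324/S0325):
from a continuum covering statement (two ruled families), a finite triangle-cylinder cover of
the first family and a numerical bound, produce a finite cover of the tetrahedron.
The second family is the image of the first under the isometry `T (x,y,z) = (y,-x,√2-z)`.
-/

set_option autoImplicit false
open MeasureTheory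
open scoped ENNReal

namespace Crest.Agent.Lib_helper17_CoreAsm

/-- Euclidean three-space. -/
abbrev E3 := EuclideanSpace ℝ (Fin 3)

lemma inner_coord (x y : E3) : inner ℝ x y = x 0 * y 0 + x 1 * y 1 + x 2 * y 2 := by
  simp [EuclideanSpace.inner_eq_star_dotProduct, dotProduct, Fin.sum_univ_three]
  ring

lemma normsq_coord (x : E3) : ‖x‖ ^ 2 = x 0 ^ 2 + x 1 ^ 2 + x 2 ^ 2 := by
  rw [← real_inner_self_eq_norm_sq, inner_coord]; ring

/-- The linear part of the symmetry `T`: `(x,y,z) ↦ (y,-x,-z)`. -/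
noncomputable def Mlin : E3 →ₗ[ℝ] E3 where
  toFun v := !₂[v 1, -v 0, -v 2]
  map_add' v w := by
    ext i; fin_cases i <;> simp <;> ring
  map_smul' c v := by
    ext i; fin_cases i <;> simp

lemma Mlin_apply (v : E3) : Mlin v = !₂[v 1, -v 0, -v 2] := rfl

lemma inner_Mlin (v w : E3) : inner ℝ (Mlin v) (Mlin w) = inner ℝ v w := by
  rw [inner_coord, inner_coord, Mlin_apply, Mlin_apply]
  simp
  ring

lemma norm_Mlin (v : E3) : ‖Mlin v‖ = ‖v‖ := by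
  have h : ‖Mlin v‖ ^ 2 = ‖v‖ ^ 2 := by
    rw [← real_inner_self_eq_norm_sq, ← real_inner_self_eq_norm_sq, inner_Mlin]
  have h1 : 0 ≤ ‖Mlin v‖ := norm_nonneg _
  have h2 : 0 ≤ ‖v‖ := norm_nonneg _
  nlinarith

/-- The translation part of `T`. -/
noncomputable def c0 : E3 := !₂[0, 0, Real.sqrt 2]

/-- Area of a triangle is invariant under `v ↦ Mlin v + z`. -/
lemma area_transport (z p q r : E3) :
    μHE[2] (convexHull ℝ ({Mlin p + z, Mlin q + z, Mlin r + z} : Set E3))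
      = μHE[2] (convexHull ℝ ({p, q, r} : Set E3)) := by
  rw [Crest.Agent.Lib_helper18_Area.area_triangle, Crest.Agent.Lib_helper18_Area.area_triangle]
  have e1 : Mlin q + z - (Mlin p + z) = Mlin (q - p) := by rw [map_sub]; abel
  have e2 : Mlin r + z - (Mlin p + z) = Mlin (r - p) := by rw [map_sub]; abel
  rw [e1, e2, norm_Mlin, norm_Mlin, inner_Mlin]

/-- Image of a triangle under `v ↦ Mlin v + z`. -/
lemma image_hull (z p q r : E3) :
    (fun v => Mlin v + z) '' convexHull ℝ ({p, q, r} : Set E3)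
      = convexHull ℝ ({Mlin p + z, Mlin q + z, Mlin r + z} : Set E3) := by
  have h : (fun v : E3 => Mlin v + z)
      = ⇑((AffineEquiv.constVAdd ℝ E3 z).toAffineMap.comp Mlin.toAffineMap) := by
    funext v
    simp [add_comm]
  rw [h, AffineMap.image_convexHull, ← h, Set.image_insert_eq, Set.image_pair]

/-- The set of triangle-cylinder covers of `K` by `m` cylinders with total base area `≤ A`. -/
def Cov (K : Set E3) (m : ℕ) (A : ℝ) : Prop :=
  ∃ (u p q r : Fin m → E3),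
    (∀ i, ‖u i‖ = 1) ∧
    (∀ i, inner ℝ (p i) (u i) = 0 ∧ inner ℝ (q i) (u i) = 0 ∧ inner ℝ (r i) (u i) = 0) ∧
    K ⊆ ⋃ i, {x : E3 | ∃ b ∈ convexHull ℝ {p i, q i, r i}, ∃ t : ℝ, x = b + t • u i} ∧
    ∑ i, (μHE[2] (convexHull ℝ ({p i, q i, r i} : Set E3))).toReal ≤ A

/-- Transport of a cover under `T v = Mlin v + c0`. -/
lemma Cov.transport {K : Set E3} {m : ℕ} {A : ℝ} (h : Cov K m A) :
    Cov ((fun v => Mlin v + c0) '' K) m A := by
  obtain ⟨u, p, q, r, hu, hperp, hcov, hsum⟩ := h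
  have hMu : ∀ i, ‖Mlin (u i)‖ = 1 := fun i => by rw [norm_Mlin, hu i]
  have hperp' : ∀ i (v : E3), inner ℝ v (u i) = 0 →
      inner ℝ (Mlin v + (c0 - inner ℝ c0 (Mlin (u i)) • Mlin (u i))) (Mlin (u i)) = 0 := by
    intro i v hv
    rw [inner_add_left, inner_sub_left, inner_smul_left, inner_Mlin, hv,
      real_inner_self_eq_norm_sq, hMu i]
    simp
  refine ⟨fun i => Mlin (u i),
    fun i => Mlin (p i) + (c0 - inner ℝ c0 (Mlin (u i)) • Mlin (u i)),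
    fun i => Mlin (q i) + (c0 - inner ℝ c0 (Mlin (u i)) • Mlin (u i)),
    fun i => Mlin (r i) + (c0 - inner ℝ c0 (Mlin (u i)) • Mlin (u i)),
    hMu, fun i => ⟨hperp' i _ (hperp i).1, hperp' i _ (hperp i).2.1, hperp' i _ (hperp i).2.2⟩,
    ?_, ?_⟩
  · rintro _ ⟨x, hx, rfl⟩
    obtain ⟨i, hi⟩ := Set.mem_iUnion.mp (hcov hx)
    obtain ⟨b, hb, t, rfl⟩ := hi
    refine Set.mem_iUnion.mpr ⟨i, Mlin b + (c0 - inner ℝ c0 (Mlin (u i)) • Mlin (u i)), ?_,
      t + inner ℝ c0 (Mlin (u i)), ?_⟩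
    · rw [← image_hull]
      exact Set.mem_image_of_mem _ hb
    · simp only [map_add, map_smul]
      module
  · simp only [area_transport]
    exact hsum

/-- Union of two covers. -/
lemma Cov.union {K₁ K₂ : Set E3} {m₁ m₂ : ℕ} {A₁ A₂ : ℝ} (h₁ : Cov K₁ m₁ A₁) (h₂ : Cov K₂ m₂ A₂) :
    Cov (K₁ ∪ K₂) (m₁ + m₂) (A₁ + A₂) := by
  obtain ⟨u₁, p₁, q₁, r₁, hu₁, hperp₁, hcov₁, hsum₁⟩ := h₁
  obtain ⟨u₂, p₂, q₂, r₂, hu₂, hperp₂, hcov₂, hsum₂⟩ := h₂
  refine ⟨Fin.append u₁ u₂, Fin.append p₁ p₂, Fin.append q₁ q₂, Fin.append r₁ r₂, ?_, ?_, ?_, ?_⟩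
  · intro i
    refine Fin.addCases (fun j => ?_) (fun j => ?_) i
    · rw [Fin.append_left]; exact hu₁ j
    · rw [Fin.append_right]; exact hu₂ j
  · intro i
    refine Fin.addCases (fun j => ?_) (fun j => ?_) i
    · simp only [Fin.append_left]; exact hperp₁ j
    · simp only [Fin.append_right]; exact hperp₂ j
  · rintro x (hx | hx)
    · obtain ⟨i, hi⟩ := Set.mem_iUnion.mp (hcov₁ hx)
      refine Set.mem_iUnion.mpr ⟨Fin.castAdd m₂ i, ?_⟩
      simp only [Fin.append_left]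
      exact hi
    · obtain ⟨i, hi⟩ := Set.mem_iUnion.mp (hcov₂ hx)
      refine Set.mem_iUnion.mpr ⟨Fin.natAdd m₁ i, ?_⟩
      simp only [Fin.append_right]
      exact hi
  · rw [Fin.sum_univ_add]
    simp only [Fin.append_left, Fin.append_right]
    exact add_le_add hsum₁ hsum₂

lemma Cov.mono {K K' : Set E3} {m : ℕ} {A A' : ℝ} (h : Cov K m A) (hK : K' ⊆ K) (hA : A ≤ A') :
    Cov K' m A' := by
  obtain ⟨u, p, q, r, hu, hperp, hcov, hsum⟩ := h
  exact ⟨u, p, q, r, hu, hperp, hK.trans hcov, hsum.trans hA⟩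

/-- Coordinates of the standard tetrahedron. -/
lemma tetra_coords (P : E3)
    (hP : P ∈ convexHull ℝ ({!₂[1, 0, 0], !₂[-1, 0, 0], !₂[0, 1, Real.sqrt 2],
      !₂[0, -1, Real.sqrt 2]} : Set E3)) :
    ∃ x y τ : ℝ, 0 ≤ τ ∧ τ ≤ 1 ∧ |x| ≤ 1 - τ ∧ |y| ≤ τ ∧ P = !₂[x, y, Real.sqrt 2 * τ] := by
  have hs2 : 0 < Real.sqrt 2 := Real.sqrt_pos.mpr (by norm_num)
  -- the convex set of points with such coordinates
  have hconv : Convex ℝ {P : E3 | ∃ x y τ : ℝ, 0 ≤ τ ∧ τ ≤ 1 ∧ |x| ≤ 1 - τ ∧ |y| ≤ τ ∧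
      P = !₂[x, y, Real.sqrt 2 * τ]} := by
    rintro _ ⟨x, y, τ, h0, h1, hx, hy, rfl⟩ _ ⟨x', y', τ', h0', h1', hx', hy', rfl⟩ a b ha hb hab
    refine ⟨a * x + b * x', a * y + b * y', a * τ + b * τ', by positivity, ?_, ?_, ?_, ?_⟩
    · nlinarith
    · calc |a * x + b * x'| ≤ |a * x| + |b * x'| := abs_add_le _ _
        _ = a * |x| + b * |x'| := by rw [abs_mul, abs_mul, abs_of_nonneg ha, abs_of_nonneg hb]
        _ ≤ a * (1 - τ) + b * (1 - τ') := by gcongr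
        _ = 1 - (a * τ + b * τ') := by linear_combination hab
    · calc |a * y + b * y'| ≤ |a * y| + |b * y'| := abs_add_le _ _
        _ = a * |y| + b * |y'| := by rw [abs_mul, abs_mul, abs_of_nonneg ha, abs_of_nonneg hb]
        _ ≤ a * τ + b * τ' := by gcongr
    · ext i; fin_cases i <;> simp <;> ring
  refine convexHull_min ?_ hconv hP
  intro Q hQ
  simp only [Set.mem_insert_iff, Set.mem_singleton_iff] at hQ
  rcases hQ with rfl | rfl | rfl | rfl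
  · exact ⟨1, 0, 0, le_refl _, by norm_num, by norm_num, by norm_num, by simp⟩
  · exact ⟨-1, 0, 0, le_refl _, by norm_num, by norm_num, by norm_num, by simp⟩
  · exact ⟨0, 1, 1, by norm_num, le_refl _, by norm_num, by norm_num, by simp⟩
  · exact ⟨0, -1, 1, by norm_num, le_refl _, by norm_num, by norm_num, by simp⟩

/-- **Core cover from its three parts**: continuum covering (`hcov`), a finite cover of the
first ruled family `S` (`hfam`) and the numerical bound (`hnum`). -/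
theorem core_of_parts (μ : ℝ) (R : ℝ → ℝ) (S : Set E3) (g X : ℝ) (m₁ : ℕ)
    (hS : ∀ x y τ t ρ : ℝ, t ∈ Set.Icc (-1 : ℝ) 1 → ρ ∈ Set.Icc 0 (R t) → |x| ≤ 1 →
      y = ρ * t + x * μ * (1 + t ^ 2) / 2 → τ = ρ + x * μ * t →
      (!₂[x, y, Real.sqrt 2 * τ] : E3) ∈ S)
    (hcov : ∀ x y τ : ℝ, 0 ≤ τ → τ ≤ 1 → |x| ≤ 1 - τ → |y| ≤ τ →
      (∃ t ∈ Set.Icc (-1 : ℝ) 1, ∃ ρ ∈ Set.Icc 0 (R t),
        y = ρ * t + x * μ * (1 + t ^ 2) / 2 ∧ τ = ρ + x * μ * t) ∨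
      (∃ t ∈ Set.Icc (-1 : ℝ) 1, ∃ ρ ∈ Set.Icc 0 (R t),
        x = ρ * t - y * μ * (1 + t ^ 2) / 2 ∧ 1 - τ = ρ - y * μ * t))
    (hfam : ∃ (u p q r : Fin m₁ → E3),
      (∀ i, ‖u i‖ = 1) ∧
      (∀ i, inner ℝ (p i) (u i) = 0 ∧ inner ℝ (q i) (u i) = 0 ∧ inner ℝ (r i) (u i) = 0) ∧
      S ⊆ ⋃ i, {x : E3 | ∃ b ∈ convexHull ℝ {p i, q i, r i}, ∃ t : ℝ, x = b + t • u i} ∧
      ∑ i, (μHE[2] (convexHull ℝ ({p i, q i, r i} : Set E3))).toReal ≤ Real.sqrt 2 * X)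
    (hnum : 2 * X ≤ 1 / 2 - g) (hm : m₁ + m₁ + 1 ≤ 16000000) :
    ∃ (m : ℕ) (u p q r : Fin m → EuclideanSpace ℝ (Fin 3)),
      (∀ i, ‖u i‖ = 1) ∧
      (∀ i, inner ℝ (p i) (u i) = 0 ∧ inner ℝ (q i) (u i) = 0 ∧ inner ℝ (r i) (u i) = 0) ∧
      convexHull ℝ {!₂[1, 0, 0], !₂[-1, 0, 0], !₂[0, 1, Real.sqrt 2], !₂[0, -1, Real.sqrt 2]} ⊆
        ⋃ i, {x : EuclideanSpace ℝ (Fin 3) | ∃ b ∈ convexHull ℝ {p i, q i, r i}, ∃ t : ℝ, x = b + t • u i} ∧
      m + 1 ≤ 16000000 ∧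
      ∑ i, (μHE[2] (convexHull ℝ ({p i, q i, r i} : Set (EuclideanSpace ℝ (Fin 3))))).toReal ≤
        Real.sqrt 2 * (1 / 2 - g) := by
  have h1 : Cov S m₁ (Real.sqrt 2 * X) := hfam
  have h2 := (h1.union h1.transport).mono (K' := convexHull ℝ ({!₂[1, 0, 0], !₂[-1, 0, 0],
    !₂[0, 1, Real.sqrt 2], !₂[0, -1, Real.sqrt 2]} : Set E3))
    (A' := Real.sqrt 2 * (1 / 2 - g)) ?_ ?_
  · obtain ⟨u, p, q, r, hu, hperp, hc, hsum⟩ := h2
    exact ⟨m₁ + m₁, u, p, q, r, hu, hperp, hc, hm, hsum⟩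
  · intro P hP
    obtain ⟨x, y, τ, h0, h1', hx, hy, rfl⟩ := tetra_coords P hP
    rcases hcov x y τ h0 h1' hx hy with ⟨t, ht, ρ, hρ, e1, e2⟩ | ⟨t, ht, ρ, hρ, e1, e2⟩
    · left
      exact hS x y τ t ρ ht hρ (hx.trans (by linarith)) e1 e2
    · right
      refine ⟨!₂[-y, x, Real.sqrt 2 * (1 - τ)], ?_, ?_⟩
      · refine hS (-y) x (1 - τ) t ρ ht hρ ?_ ?_ ?_
        · rw [abs_neg]; exact hy.trans h1'
        · rw [e1]; ring
        · rw [e2]; ring
      · show Mlin _ + c0 = _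
        rw [Mlin_apply, c0]
        ext i; fin_cases i <;> simp
        ring
  · have hs2 : 0 ≤ Real.sqrt 2 := Real.sqrt_nonneg _
    nlinarith

end Crest.Agent.Lib_helper17_CoreAsm
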