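import Mathlib
import Crest.Prelude.Def_BoxFlow
import Crest.Agent.Lib_helper19_BoxSep

/-!
S0170, part [G]: the enlargement margin.  Pairwise disjoint closed rational boxes stay separated,
with a rational gap `w`, in one coordinate, after enlarging all half-widths by a factor `1 + θ`.
-/

set_option autoImplicit false

namespace Crest.Agent.Lib_helper17_Margin

open Crest.AnalysisR.BoxFlow

/-- A positive lower bound of finitely many positive rationals. -/
theorem exists_pos_le {ι : Type*} [Finite ι] (f : ι → ℚ) (hf : ∀ i, 0 < f i) :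
    ∃ G : ℚ, 0 < G ∧ ∀ i, G ≤ f i := by
  classical
  have := Fintype.ofFinite ι
  by_cases hne : (Finset.univ : Finset ι).Nonempty
  · obtain ⟨i₀, -, hi₀⟩ := Finset.exists_min_image Finset.univ f hne
    exact ⟨f i₀, hf i₀, fun i => hi₀ i (Finset.mem_univ i)⟩
  · refine ⟨1, one_pos, fun i => ?_⟩
    exact absurd ⟨i, Finset.mem_univ i⟩ hne

/-- An upper bound of finitely many rationals. -/
theorem exists_ge {ι : Type*} [Finite ι] (f : ι → ℚ) : ∃ S : ℚ, 0 < S ∧ ∀ i, f i ≤ S := by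
  classical
  have := Fintype.ofFinite ι
  refine ⟨1 + ∑ i, |f i|, ?_, fun i => ?_⟩
  · have : 0 ≤ ∑ i, |f i| := Finset.sum_nonneg fun i _ => abs_nonneg _
    linarith
  · have h1 : |f i| ≤ ∑ i, |f i| :=
      Finset.single_le_sum (f := fun i => |f i|) (fun i _ => abs_nonneg _) (Finset.mem_univ i)
    have h2 := le_abs_self (f i)
    linarith

/-- **Enlargement margin.**  For pairwise disjoint boxes there are `θ₀, w₀ > 0` such that for all
`0 < θ ≤ θ₀`, `0 < w ≤ w₀` the boxes enlarged by the factor `1 + θ` are pairwise separated by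
more than `w` in some coordinate. -/
theorem exists_margin_one (n : ℕ) (a h : Fin n → Fin 3 → ℚ) (hh : ∀ i j, 0 < h i j)
    (ha : Pairwise fun i i' => Disjoint (box (a i) (h i)) (box (a i') (h i'))) :
    ∃ θ₀ w₀ : ℚ, 0 < θ₀ ∧ 0 < w₀ ∧ ∀ θ w : ℚ, 0 < θ → θ ≤ θ₀ → 0 < w → w ≤ w₀ →
      ∀ i i', i ≠ i' → ∃ m, (1 + θ) * h i m + (1 + θ) * h i' m + w < |a i m - a i' m| := by
  classical
  -- the separating coordinate of each pair
  have hsep : ∀ p : {p : Fin n × Fin n // p.1 ≠ p.2}, ∃ m : Fin 3,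
      h p.1.1 m + h p.1.2 m < |a p.1.1 m - a p.1.2 m| := fun p =>
    Lib_helper19_BoxSep.exists_sep_of_disjoint (a p.1.1) (h p.1.1) (a p.1.2) (h p.1.2)
      (fun j => (hh _ j).le) (fun j => (hh _ j).le) (ha p.2)
  choose mm hmm using hsep
  obtain ⟨G, hG, hGle⟩ := exists_pos_le
    (fun p : {p : Fin n × Fin n // p.1 ≠ p.2} =>
      |a p.1.1 (mm p) - a p.1.2 (mm p)| - (h p.1.1 (mm p) + h p.1.2 (mm p)))
    (fun p => sub_pos.mpr (hmm p))
  obtain ⟨S, hS, hSle⟩ := exists_ge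
    (fun p : {p : Fin n × Fin n // p.1 ≠ p.2} => h p.1.1 (mm p) + h p.1.2 (mm p))
  refine ⟨G / (4 * S), G / 4, by positivity, by positivity, ?_⟩
  intro θ w hθ hθ₀ hw hw₀ i i' hii'
  refine ⟨mm ⟨(i, i'), hii'⟩, ?_⟩
  have h1 := hGle ⟨(i, i'), hii'⟩
  have h2 := hSle ⟨(i, i'), hii'⟩
  simp only at h1 h2
  set s := h i (mm ⟨(i, i'), hii'⟩) + h i' (mm ⟨(i, i'), hii'⟩) with hs
  have hs0 : 0 < s := add_pos (hh _ _) (hh _ _)
  have h3 : θ * s ≤ G / (4 * S) * S := mul_le_mul hθ₀ h2 hs0.le (by positivity)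
  have h4 : G / (4 * S) * S = G / 4 := by field_simp
  have h5 : (1 + θ) * h i (mm ⟨(i, i'), hii'⟩) + (1 + θ) * h i' (mm ⟨(i, i'), hii'⟩)
      = s + θ * s := by rw [hs]; ring
  rw [h5]
  linarith

/-- The two-configuration form (source and target share `θ` and `w`). -/
theorem exists_margin (n : ℕ) (a b h k : Fin n → Fin 3 → ℚ) (hh : ∀ i j, 0 < h i j)
    (hk : ∀ i j, 0 < k i j)
    (ha : Pairwise fun i i' => Disjoint (box (a i) (h i)) (box (a i') (h i')))
    (hb : Pairwise fun i i' => Disjoint (box (b i) (k i)) (box (b i') (k i'))) :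
    ∃ θ w : ℚ, 0 < θ ∧ 0 < w ∧
      (∀ i j, i ≠ j → ∃ m, (1 + θ) * h i m + (1 + θ) * h j m + w < |a i m - a j m|) ∧
      (∀ i j, i ≠ j → ∃ m, (1 + θ) * k i m + (1 + θ) * k j m + w < |b i m - b j m|) := by
  obtain ⟨θ₁, w₁, hθ₁, hw₁, h1⟩ := exists_margin_one n a h hh ha
  obtain ⟨θ₂, w₂, hθ₂, hw₂, h2⟩ := exists_margin_one n b k hk hb
  refine ⟨min θ₁ θ₂, min w₁ w₂, lt_min hθ₁ hθ₂, lt_min hw₁ hw₂, ?_, ?_⟩
  · exact h1 _ _ (lt_min hθ₁ hθ₂) (min_le_left _ _) (lt_min hw₁ hw₂) (min_le_left _ _)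
  · exact h2 _ _ (lt_min hθ₁ hθ₂) (min_le_right _ _) (lt_min hw₁ hw₂) (min_le_right _ _)

end Crest.Agent.Lib_helper17_Margin
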