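import Mathlib

set_option autoImplicit false

namespace Crest.Agent.Lib_helper21_Continuum

/-- Root of the ruling equation with nonnegative radius, case `0 ≤ x`. -/
lemma exists_root_of_nonneg (s : ℝ) (hs : 0 < s) (x y τ : ℝ) (hx : 0 ≤ x) (hτ : 0 ≤ τ)
    (hy : |y| ≤ τ) :
    ∃ t ∈ Set.Icc (-1:ℝ) 1, y - t * τ + s * x * (t ^ 2 - 1) = 0 ∧ 0 ≤ τ - 2 * s * x * t := by
  obtain ⟨hy1, hy2⟩ := abs_le.mp hy
  have hcont : ∀ a b : ℝ, ContinuousOn (fun t : ℝ => y - t * τ + s * x * (t ^ 2 - 1))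
      (Set.Icc a b) := fun a b => by fun_prop
  have hsx : 0 ≤ s * x := mul_nonneg hs.le hx
  by_cases h : 2 * s * x ≤ τ
  · -- the radius stays nonnegative on all of `[-1, 1]`
    have hmem : (0:ℝ) ∈ Set.Icc ((fun t : ℝ => y - t * τ + s * x * (t ^ 2 - 1)) 1)
        ((fun t : ℝ => y - t * τ + s * x * (t ^ 2 - 1)) (-1)) := by
      constructor <;> norm_num <;> linarith
    obtain ⟨t, ht, hroot⟩ := intermediate_value_Icc' (by norm_num : (-1:ℝ) ≤ 1) (hcont (-1) 1) hmem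
    refine ⟨t, ht, hroot, ?_⟩
    nlinarith [ht.1, ht.2]
  · -- the radius vanishes at `t₀ = τ / (2 s x) < 1`
    push Not at h
    have hsx0 : 0 < s * x := by nlinarith
    set t₀ : ℝ := τ / (2 * s * x) with ht₀
    have hx0 : 0 < x := pos_of_mul_pos_right hsx0 hs.le
    have ht₀eq : 2 * s * x * t₀ = τ := by
      rw [ht₀]; field_simp
    have ht₀0 : 0 ≤ t₀ := by rw [ht₀]; positivity
    have ht₀1 : t₀ < 1 := by
      rw [ht₀, div_lt_one (by linarith)]; exact h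
    have hφ₀ : y - t₀ * τ + s * x * (t₀ ^ 2 - 1) ≤ 0 := by
      have h4 : (4 * (s * x)) * (y - t₀ * τ + s * x * (t₀ ^ 2 - 1)) ≤ 0 := by
        have e : (4 * (s * x)) * (y - t₀ * τ + s * x * (t₀ ^ 2 - 1))
            = 4 * (s * x) * y - 2 * (2 * s * x * t₀) * τ + (2 * s * x * t₀) ^ 2 - 4 * (s * x) ^ 2 := by
          ring
        rw [e, ht₀eq]
        nlinarith [sq_nonneg (τ - 2 * (s * x)), mul_le_mul_of_nonneg_left hy2 hsx0.le]
      by_contra hpos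
      push Not at hpos
      have : 0 < (4 * (s * x)) * (y - t₀ * τ + s * x * (t₀ ^ 2 - 1)) := by positivity
      linarith
    have hmem : (0:ℝ) ∈ Set.Icc ((fun t : ℝ => y - t * τ + s * x * (t ^ 2 - 1)) t₀)
        ((fun t : ℝ => y - t * τ + s * x * (t ^ 2 - 1)) (-1)) := by
      constructor
      · exact hφ₀
      · norm_num; linarith
    obtain ⟨t, ht, hroot⟩ := intermediate_value_Icc' (by linarith : (-1:ℝ) ≤ t₀) (hcont (-1) t₀) hmem
    refine ⟨t, ⟨ht.1, by linarith [ht.2]⟩, hroot, ?_⟩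
    have : 2 * s * x * t ≤ 2 * s * x * t₀ := by
      apply mul_le_mul_of_nonneg_left ht.2; linarith
    linarith

/-- Root of the ruling equation with nonnegative radius. -/
lemma exists_root (s : ℝ) (hs : 0 < s) (x y τ : ℝ) (hτ : 0 ≤ τ) (hy : |y| ≤ τ) :
    ∃ t ∈ Set.Icc (-1:ℝ) 1, y - t * τ + s * x * (t ^ 2 - 1) = 0 ∧ 0 ≤ τ - 2 * s * x * t := by
  rcases le_total 0 x with hx | hx
  · exact exists_root_of_nonneg s hs x y τ hx hτ hy
  · obtain ⟨t, ht, h1, h2⟩ := exists_root_of_nonneg s hs (-x) (-y) τ (by linarith) hτ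
      (by rwa [abs_neg])
    refine ⟨-t, ⟨by linarith [ht.2], by linarith [ht.1]⟩, ?_, ?_⟩
    · have : y - -t * τ + s * x * ((-t) ^ 2 - 1) = -(-y - t * τ + s * -x * (t ^ 2 - 1)) := by ring
      rw [this, h1, neg_zero]
    · have : τ - 2 * s * x * -t = τ - 2 * s * -x * t := by ring
      rw [this]; exact h2

lemma sq_le_one_of_bounds {a : ℝ} (h1 : -1 ≤ a) (h2 : a ≤ 1) : a ^ 2 ≤ 1 := by nlinarith

lemma neg_one_le_mul {a b : ℝ} (ha : a ^ 2 ≤ 1) (hb : b ^ 2 ≤ 1) : -1 ≤ a * b := by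
  nlinarith [sq_nonneg (a + b)]

lemma mul_le_one_of_sq {a b : ℝ} (ha : a ^ 2 ≤ 1) (hb : b ^ 2 ≤ 1) : a * b ≤ 1 := by
  nlinarith [sq_nonneg (a - b)]

lemma two_mul_mul_le {x t t' : ℝ} (hx : x ^ 2 ≤ 1) (hB : t' ^ 2 ≤ 1) :
    2 * ((x * t') * (t * t')) ≤ t ^ 2 + t' ^ 2 := by
  have a1 : (x * t') ^ 2 ≤ t' ^ 2 := by nlinarith [sq_nonneg t']
  have a2 : (t * t') ^ 2 ≤ t ^ 2 := by nlinarith [sq_nonneg t]
  nlinarith [sq_nonneg (x * t' - t * t')]

lemma neg_two_mul_mul_le {y t t' : ℝ} (hy : y ^ 2 ≤ 1) (hA : t ^ 2 ≤ 1) :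
    -(2 * ((y * t) * (t * t'))) ≤ t ^ 2 + t' ^ 2 := by
  have a1 : (y * t) ^ 2 ≤ t ^ 2 := by nlinarith [sq_nonneg t]
  have a2 : (t * t') ^ 2 ≤ t' ^ 2 := by nlinarith [sq_nonneg t']
  nlinarith [sq_nonneg (y * t + t * t')]

lemma scale_le {c q r : ℝ} (hc0 : 0 ≤ c) (hc1 : c ≤ 1) (hq : q ≤ r) (hr : 0 ≤ r) : c * q ≤ r := by
  have b1 : c * q ≤ c * r := mul_le_mul_of_nonneg_left hq hc0
  nlinarith

/-- Key algebraic fact: the two families cannot both overshoot. -/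
lemma no_double_overshoot (s m : ℝ) (hs : 0 < s) (hm : 1 + 16 * s ≤ m)
    (x y τ t t' : ℝ) (hτ0 : 0 ≤ τ) (hτ1 : τ ≤ 1) (hx : |x| ≤ 1 - τ) (hy : |y| ≤ τ)
    (ht : t ∈ Set.Icc (-1:ℝ) 1) (ht' : t' ∈ Set.Icc (-1:ℝ) 1)
    (E1 : y - t * τ + s * x * (t ^ 2 - 1) = 0)
    (E2 : x - t' * (1 - τ) + s * (-y) * (t' ^ 2 - 1) = 0)
    (I : 1/2 + m * s^2 * (t^2 + t^4) < τ - 2 * s * x * t)
    (II : 1/2 + m * s^2 * (t'^2 + t'^4) < (1 - τ) - 2 * s * (-y) * t') : False := by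
  obtain ⟨hx1, hx2⟩ := abs_le.mp hx
  obtain ⟨hy1, hy2⟩ := abs_le.mp hy
  have hxx : x^2 ≤ 1 := sq_le_one_of_bounds (by linarith) (by linarith)
  have hyy : y^2 ≤ 1 := sq_le_one_of_bounds (by linarith) (by linarith)
  have hA : t^2 ≤ 1 := sq_le_one_of_bounds ht.1 ht.2
  have hB : t'^2 ≤ 1 := sq_le_one_of_bounds ht'.1 ht'.2
  have hA0 : 0 ≤ t^2 := sq_nonneg t
  have hB0 : 0 ≤ t'^2 := sq_nonneg t'
  have hm1 : 1 ≤ m := by linarith
  have hS0 : 0 ≤ m * s^2 * (t^2 + t^4) := by positivity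
  have hS0' : 0 ≤ m * s^2 * (t'^2 + t'^4) := by positivity
  -- bounds on u = τ - 1/2
  have hxt : -1 ≤ x * t := neg_one_le_mul hxx hA
  have hyt' : y * t' ≤ 1 := mul_le_one_of_sq hyy hB
  have hu2 : -(2 * s) < τ - 1/2 := by
    have := mul_le_mul_of_nonneg_left hxt (by positivity : (0:ℝ) ≤ 2 * s)
    linarith
  have hu1 : τ - 1/2 < 2 * s := by
    have := mul_le_mul_of_nonneg_left hyt' (by positivity : (0:ℝ) ≤ 2 * s)
    linarith
  -- the sum inequality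
  have hS : m * s * (t^2 + t^4 + t'^2 + t'^4) < 2 * (y * t' - x * t) := by
    have h' : s * (m * s * (t^2 + t^4 + t'^2 + t'^4)) < s * (2 * (y * t' - x * t)) := by
      linarith
    exact lt_of_mul_lt_mul_left h' hs.le
  have hD0 : 0 < y * t' - x * t := by
    have : 0 ≤ m * s * (t^2 + t^4 + t'^2 + t'^4) := by positivity
    linarith
  -- exact identity
  have hkey : (y * t' - x * t) * (1 + s * (1 - t^2) * (s * (1 - t'^2))) =
      t * t' * (2 * τ - 1) + s * (1 - t^2) * t'^2 * (1 - τ) + s * (1 - t'^2) * t^2 * τ := by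
    linear_combination (t' + s * (1 - t'^2) * t) * E1 + (s * (1 - t^2) * t' - t) * E2
  have hαβ : 0 ≤ s * (1 - t^2) * (s * (1 - t'^2)) := by
    apply mul_nonneg <;> apply mul_nonneg <;> linarith
  have hstar : m * s * (t^2 + t^4 + t'^2 + t'^4) <
      2 * (t * t' * (2 * τ - 1) + s * (1 - t^2) * t'^2 * (1 - τ) + s * (1 - t'^2) * t^2 * τ) := by
    rw [← hkey]
    have := mul_nonneg hD0.le hαβ
    linarith
  have hAB1 : t^2 * t'^2 ≤ t^2 := by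
    have := mul_le_mul_of_nonneg_left hB hA0
    linarith
  have hAB2 : t^2 * t'^2 ≤ t'^2 := by
    have := mul_le_mul_of_nonneg_right hA hB0
    linarith
  have hquart : 2 * (t^2 * t'^2) ≤ t^4 + t'^4 := by
    have := sq_nonneg (t^2 - t'^2)
    nlinarith only [this]
  have hmSig : (1 + 16 * s) * (t^2 + t'^2) + 2 * (t^2 * t'^2) ≤ m * (t^2 + t^4 + t'^2 + t'^4) := by
    have h1 : (1 + 16 * s) * (t^2 + t'^2) ≤ m * (t^2 + t'^2) :=
      mul_le_mul_of_nonneg_right hm (by positivity)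
    have h2 : 1 * (t^4 + t'^4) ≤ m * (t^4 + t'^4) :=
      mul_le_mul_of_nonneg_right hm1 (by positivity)
    linarith
  have e4 : 16 * s * (t^2 * t'^2) ≤ 8 * s * (t^2 + t'^2) := by
    have : 2 * (t^2 * t'^2) ≤ t^2 + t'^2 := by linarith
    have := mul_le_mul_of_nonneg_left this (by positivity : (0:ℝ) ≤ 8 * s)
    linarith
  rcases le_or_gt 0 (t * t') with hp | hp
  · -- case `t t' ≥ 0`: use the second overshoot
    have h0 : 2 * τ - 1 ≤ 4 * s * (y * t') := by linarith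
    have h1 : (2 * τ - 1) * (t * t') ≤ 4 * s * (y * t') * (t * t') :=
      mul_le_mul_of_nonneg_right h0 hp
    have hyt : y * t = t^2 * τ + s * (1 - t^2) * (x * t) := by linear_combination t * E1
    have h2 : t * t' * (2 * τ - 1) ≤ 4 * s * t'^2 * (t^2 * τ + s * (1 - t^2) * (x * t)) := by
      calc t * t' * (2 * τ - 1) = (2 * τ - 1) * (t * t') := by ring
        _ ≤ 4 * s * (y * t') * (t * t') := h1
        _ = 4 * s * t'^2 * (y * t) := by ring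
        _ = _ := by rw [hyt]
    have h3 : m * (t^2 + t^4 + t'^2 + t'^4) <
        2 * (4 * t'^2 * (t^2 * τ + s * (1 - t^2) * (x * t)) + (1 - t^2) * t'^2 * (1 - τ)
          + (1 - t'^2) * t^2 * τ) := by
      have h' : s * (m * (t^2 + t^4 + t'^2 + t'^4)) <
          s * (2 * (4 * t'^2 * (t^2 * τ + s * (1 - t^2) * (x * t)) + (1 - t^2) * t'^2 * (1 - τ)
          + (1 - t'^2) * t^2 * τ)) := by linarith
      exact lt_of_mul_lt_mul_left h' hs.le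
    have e1 : (τ - 1/2) * (8 * (t^2 * t'^2) + 2 * t^2) ≤ 2 * s * (8 * (t^2 * t'^2) + 2 * t^2) :=
      mul_le_mul_of_nonneg_right hu1.le (by positivity)
    have e2 : -(τ - 1/2) * (2 * t'^2) ≤ 2 * s * (2 * t'^2) :=
      mul_le_mul_of_nonneg_right (by linarith) (by positivity)
    have e3 : (1 - t^2) * (2 * ((x * t') * (t * t'))) ≤ t^2 + t'^2 :=
      scale_le (by linarith) (by linarith) (two_mul_mul_le hxx hB) (by linarith)
    have e3' : 8 * s * ((1 - t^2) * (2 * ((x * t') * (t * t')))) ≤ 8 * s * (t^2 + t'^2) :=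
      mul_le_mul_of_nonneg_left e3 (by positivity)
    linarith
  · -- case `t t' < 0`: use the first overshoot
    have h0 : 4 * s * (x * t) ≤ 2 * τ - 1 := by linarith
    have h1 : (2 * τ - 1) * (t * t') ≤ 4 * s * (x * t) * (t * t') :=
      mul_le_mul_of_nonpos_right h0 hp.le
    have hxt' : x * t' = t'^2 * (1 - τ) - s * (1 - t'^2) * (y * t') := by
      linear_combination t' * E2
    have h2 : t * t' * (2 * τ - 1) ≤ 4 * s * t^2 * (t'^2 * (1 - τ) - s * (1 - t'^2) * (y * t')) := by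
      calc t * t' * (2 * τ - 1) = (2 * τ - 1) * (t * t') := by ring
        _ ≤ 4 * s * (x * t) * (t * t') := h1
        _ = 4 * s * t^2 * (x * t') := by ring
        _ = _ := by rw [hxt']
    have h3 : m * (t^2 + t^4 + t'^2 + t'^4) <
        2 * (4 * t^2 * (t'^2 * (1 - τ) - s * (1 - t'^2) * (y * t')) + (1 - t^2) * t'^2 * (1 - τ)
          + (1 - t'^2) * t^2 * τ) := by
      have h' : s * (m * (t^2 + t^4 + t'^2 + t'^4)) <
          s * (2 * (4 * t^2 * (t'^2 * (1 - τ) - s * (1 - t'^2) * (y * t'))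
          + (1 - t^2) * t'^2 * (1 - τ) + (1 - t'^2) * t^2 * τ)) := by linarith
      exact lt_of_mul_lt_mul_left h' hs.le
    have e1 : -(τ - 1/2) * (8 * (t^2 * t'^2) + 2 * t'^2) ≤ 2 * s * (8 * (t^2 * t'^2) + 2 * t'^2) :=
      mul_le_mul_of_nonneg_right (by linarith) (by positivity)
    have e2 : (τ - 1/2) * (2 * t^2) ≤ 2 * s * (2 * t^2) :=
      mul_le_mul_of_nonneg_right hu1.le (by positivity)
    have e3 : (1 - t'^2) * (-(2 * ((y * t) * (t * t')))) ≤ t^2 + t'^2 :=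
      scale_le (by linarith) (by linarith) (neg_two_mul_mul_le hyy hA) (by linarith)
    have e3' : 8 * s * ((1 - t'^2) * (-(2 * ((y * t) * (t * t'))))) ≤ 8 * s * (t^2 + t'^2) :=
      mul_le_mul_of_nonneg_left e3 (by positivity)
    linarith

/-- **Continuum covering lemma.** In the coordinates `(x, y, τ)` (`z = √2 τ`) the tetrahedron is
`|x| ≤ 1 - τ`, `|y| ≤ τ`, `0 ≤ τ ≤ 1`. Every such point lies on a ruling of the first family
(apex on the bottom edge, axis direction `(1, s (1 + t²), 2 s t)`, ray direction `(0, t, 1)`,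
radius at most `R t = 1/2 + m s² (t² + t⁴)`) or on a ruling of the mirror family. -/
theorem continuum_cover (s m : ℝ) (hs : 0 < s) (hm : 1 + 16 * s ≤ m)
    (x y τ : ℝ) (hτ0 : 0 ≤ τ) (hτ1 : τ ≤ 1) (hx : |x| ≤ 1 - τ) (hy : |y| ≤ τ) :
    (∃ t ∈ Set.Icc (-1:ℝ) 1, ∃ ρ : ℝ, 0 ≤ ρ ∧ ρ ≤ 1/2 + m * s^2 * (t^2 + t^4) ∧
        y = ρ * t + x * (s * (1 + t^2)) ∧ τ = ρ + x * (2 * s * t)) ∨
    (∃ t ∈ Set.Icc (-1:ℝ) 1, ∃ ρ : ℝ, 0 ≤ ρ ∧ ρ ≤ 1/2 + m * s^2 * (t^2 + t^4) ∧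
        x = ρ * t - y * (s * (1 + t^2)) ∧ 1 - τ = ρ - y * (2 * s * t)) := by
  obtain ⟨t, ht, E1, hρ⟩ := exists_root s hs x y τ hτ0 hy
  obtain ⟨t', ht', E2, hρ'⟩ := exists_root s hs (-y) x (1 - τ) (by linarith) hx
  by_cases h1 : τ - 2 * s * x * t ≤ 1/2 + m * s^2 * (t^2 + t^4)
  · left
    refine ⟨t, ht, τ - 2 * s * x * t, hρ, h1, ?_, ?_⟩
    · linear_combination E1
    · ring
  · by_cases h2 : (1 - τ) - 2 * s * (-y) * t' ≤ 1/2 + m * s^2 * (t'^2 + t'^4)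
    · right
      refine ⟨t', ht', (1 - τ) - 2 * s * (-y) * t', hρ', h2, ?_, ?_⟩
      · linear_combination E2
      · ring
    · exact absurd (no_double_overshoot s m hs hm x y τ t t' hτ0 hτ1 hx hy ht ht' E1 E2
        (not_le.mp h1) (not_le.mp h2)) id

/-- The continuum covering lemma in the `μ`-parametrisation (`μ = 2 s`), with the
multiplicative slack `m ≥ 1 + 8 μ` in the radius `1/2 + m μ² (t² + t⁴) / 4`. -/
theorem cover_cases_mult (μ m : ℝ) (hμ : 0 < μ) (hm : 1 + 8 * μ ≤ m)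
    (x y τ : ℝ) (h0 : 0 ≤ τ) (h1 : τ ≤ 1) (hx : |x| ≤ 1 - τ) (hy : |y| ≤ τ) :
    (∃ t ∈ Set.Icc (-1:ℝ) 1, ∃ ρ ∈ Set.Icc 0 (1/2 + m * μ^2 * (t^2 + t^4) / 4),
        y = ρ * t + x * μ * (1 + t^2) / 2 ∧ τ = ρ + x * μ * t) ∨
    (∃ t ∈ Set.Icc (-1:ℝ) 1, ∃ ρ ∈ Set.Icc 0 (1/2 + m * μ^2 * (t^2 + t^4) / 4),
        x = ρ * t - y * μ * (1 + t^2) / 2 ∧ 1 - τ = ρ - y * μ * t) := by
  rcases continuum_cover (μ / 2) m (by positivity) (by linarith) x y τ h0 h1 hx hy with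
    ⟨t, ht, ρ, hρ0, hρ1, e1, e2⟩ | ⟨t, ht, ρ, hρ0, hρ1, e1, e2⟩
  · left
    refine ⟨t, ht, ρ, ⟨hρ0, ?_⟩, ?_, ?_⟩
    · calc ρ ≤ 1/2 + m * (μ / 2)^2 * (t^2 + t^4) := hρ1
        _ = 1/2 + m * μ^2 * (t^2 + t^4) / 4 := by ring
    · rw [e1]; ring
    · rw [e2]; ring
  · right
    refine ⟨t, ht, ρ, ⟨hρ0, ?_⟩, ?_, ?_⟩
    · calc ρ ≤ 1/2 + m * (μ / 2)^2 * (t^2 + t^4) := hρ1
        _ = 1/2 + m * μ^2 * (t^2 + t^4) / 4 := by ring
    · rw [e1]; ring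
    · rw [e2]; ring

end Crest.Agent.Lib_helper21_Continuum
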