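import Mathlib

/-!
Row 211, core cover, item (C1): the continuum covering lemma (pure real algebra).

Coordinates `(x, y, τ)` on the tetrahedron `K = {|x| ≤ 1 - τ, |y| ≤ τ, 0 ≤ τ ≤ 1}`
(`z = √2 τ`).  Family 1 consists of the points `ρ (0, t, 1) + x (1, μ (1 + t²)/2, μ t)` with
`|t| ≤ 1`, `0 ≤ ρ ≤ Rf μ t`; family 2 is its image under `(x, y, τ) ↦ (y, -x, 1 - τ)`.
`cover_cases` says that every point of `K` lies in one of the two families.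
-/

set_option autoImplicit false

namespace Crest.Agent.Lib_helper25_CoreCov

/-- The radius function of the two ruled families. -/
noncomputable def Rf (μ t : ℝ) : ℝ := 1 / 2 + μ ^ 2 * (t ^ 2 + t ^ 4) / 4 + μ ^ 4

/-- The exact identity behind the covering: `t`, `t'` are the ruling parameters of the point in
the two families. -/
theorem key_identity (μ x y τ t t' : ℝ)
    (h1 : y = τ * t + x * μ / 2 * (1 - t ^ 2))
    (h2 : x = (1 - τ) * t' - y * μ / 2 * (1 - t' ^ 2)) :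
    (1 - μ * t * t' + μ ^ 2 / 4 * (1 - t ^ 2) * (1 + t' ^ 2)) * (τ - x * μ * t - 1 / 2)
      + (1 + μ * t * t' + μ ^ 2 / 4 * (1 + t ^ 2) * (1 - t' ^ 2)) * (1 / 2 - τ + y * μ * t')
      = μ ^ 2 / 4 * (t ^ 2 + t' ^ 2 + 2 * t ^ 2 * t' ^ 2) := by
  grind

/-- Both families cannot fail at the same point. -/
theorem both_fail_false (μ : ℝ) (hμ : |μ| ≤ 1 / 2) (x y τ t t' : ℝ)
    (ht : t ∈ Set.Icc (-1 : ℝ) 1) (ht' : t' ∈ Set.Icc (-1 : ℝ) 1)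
    (h1 : y = τ * t + x * μ / 2 * (1 - t ^ 2))
    (h2 : x = (1 - τ) * t' - y * μ / 2 * (1 - t' ^ 2))
    (hf1 : Rf μ t < τ - x * μ * t) (hf2 : Rf μ t' < 1 - τ + y * μ * t') : False := by
  have hid := key_identity μ x y τ t t' h1 h2
  obtain ⟨hμ1, hμ2⟩ := abs_le.mp hμ
  obtain ⟨ht1, ht2⟩ := ht
  obtain ⟨ht'1, ht'2⟩ := ht'
  have hts : t ^ 2 ≤ 1 := by nlinarith
  have ht's : t' ^ 2 ≤ 1 := by nlinarith
  have hts0 : 0 ≤ t ^ 2 := sq_nonneg t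
  have ht's0 : 0 ≤ t' ^ 2 := sq_nonneg t'
  have hμs : μ ^ 2 ≤ 1 / 4 := by nlinarith
  have hμs0 : 0 ≤ μ ^ 2 := sq_nonneg μ
  have htt : |t * t'| ≤ 1 := by
    rw [abs_mul]
    have h3 : |t| ≤ 1 := abs_le.mpr ⟨ht1, ht2⟩
    have h4 : |t'| ≤ 1 := abs_le.mpr ⟨ht'1, ht'2⟩
    calc |t| * |t'| ≤ 1 * 1 := mul_le_mul h3 h4 (abs_nonneg _) (by norm_num)
      _ = 1 := by norm_num
  have hμtt : |μ * t * t'| ≤ 1 / 2 := by
    rw [mul_assoc, abs_mul]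
    calc |μ| * |t * t'| ≤ 1 / 2 * 1 := mul_le_mul hμ htt (abs_nonneg _) (by norm_num)
      _ = 1 / 2 := by norm_num
  obtain ⟨hb1, hb2⟩ := abs_le.mp hμtt
  have hP1 : 0 ≤ μ ^ 2 / 4 * (1 - t ^ 2) * (1 + t' ^ 2) := by
    have : 0 ≤ (1 - t ^ 2) * (1 + t' ^ 2) := mul_nonneg (by linarith) (by linarith)
    nlinarith
  have hP2 : 0 ≤ μ ^ 2 / 4 * (1 + t ^ 2) * (1 - t' ^ 2) := by
    have : 0 ≤ (1 + t ^ 2) * (1 - t' ^ 2) := mul_nonneg (by linarith) (by linarith)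
    nlinarith
  have hα1 : 0 < 1 - μ * t * t' + μ ^ 2 / 4 * (1 - t ^ 2) * (1 + t' ^ 2) := by linarith
  have hα2 : 0 < 1 + μ * t * t' + μ ^ 2 / 4 * (1 + t ^ 2) * (1 - t' ^ 2) := by linarith
  have hr1 : 0 ≤ μ ^ 2 * (t ^ 2 + t ^ 4) / 4 + μ ^ 4 := by positivity
  have hr2 : 0 ≤ μ ^ 2 * (t' ^ 2 + t' ^ 4) / 4 + μ ^ 4 := by positivity
  have hD1 : μ ^ 2 * (t ^ 2 + t ^ 4) / 4 + μ ^ 4 < τ - x * μ * t - 1 / 2 := by
    unfold Rf at hf1; linarith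
  have hD2 : μ ^ 2 * (t' ^ 2 + t' ^ 4) / 4 + μ ^ 4 < 1 / 2 - τ + y * μ * t' := by
    unfold Rf at hf2; linarith
  have hlt : (1 - μ * t * t' + μ ^ 2 / 4 * (1 - t ^ 2) * (1 + t' ^ 2))
        * (μ ^ 2 * (t ^ 2 + t ^ 4) / 4 + μ ^ 4)
      + (1 + μ * t * t' + μ ^ 2 / 4 * (1 + t ^ 2) * (1 - t' ^ 2))
        * (μ ^ 2 * (t' ^ 2 + t' ^ 4) / 4 + μ ^ 4)
      < μ ^ 2 / 4 * (t ^ 2 + t' ^ 2 + 2 * t ^ 2 * t' ^ 2) := by
    rw [← hid]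
    exact add_lt_add (mul_lt_mul_of_pos_left hD1 hα1) (mul_lt_mul_of_pos_left hD2 hα2)
  -- the polynomial inequality in the other direction
  have e : (1 - μ * t * t' + μ ^ 2 / 4 * (1 - t ^ 2) * (1 + t' ^ 2))
        * (μ ^ 2 * (t ^ 2 + t ^ 4) / 4 + μ ^ 4)
      + (1 + μ * t * t' + μ ^ 2 / 4 * (1 + t ^ 2) * (1 - t' ^ 2))
        * (μ ^ 2 * (t' ^ 2 + t' ^ 4) / 4 + μ ^ 4)
      - μ ^ 2 / 4 * (t ^ 2 + t' ^ 2 + 2 * t ^ 2 * t' ^ 2)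
      = μ ^ 2 / 4 * ((t ^ 2 - t' ^ 2) - μ * t * t' * (1 + t ^ 2 + t' ^ 2) / 2) ^ 2
        + μ ^ 4 * (2 - t ^ 2 * t' ^ 2 * (1 + t ^ 2 + t' ^ 2) ^ 2 / 16)
        + μ ^ 2 / 4 * (1 - t ^ 2) * (1 + t' ^ 2) * (μ ^ 2 * (t ^ 2 + t ^ 4) / 4 + μ ^ 4)
        + μ ^ 2 / 4 * (1 + t ^ 2) * (1 - t' ^ 2) * (μ ^ 2 * (t' ^ 2 + t' ^ 4) / 4 + μ ^ 4) := by
    ring
  have hT1 : 0 ≤ μ ^ 2 / 4 * ((t ^ 2 - t' ^ 2) - μ * t * t' * (1 + t ^ 2 + t' ^ 2) / 2) ^ 2 := by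
    positivity
  have hT2 : 0 ≤ μ ^ 4 * (2 - t ^ 2 * t' ^ 2 * (1 + t ^ 2 + t' ^ 2) ^ 2 / 16) := by
    have h5 : t ^ 2 * t' ^ 2 ≤ 1 := by nlinarith
    have h6 : (1 + t ^ 2 + t' ^ 2) ^ 2 ≤ 9 := by nlinarith
    have h7 : t ^ 2 * t' ^ 2 * (1 + t ^ 2 + t' ^ 2) ^ 2 ≤ 9 := by
      calc t ^ 2 * t' ^ 2 * (1 + t ^ 2 + t' ^ 2) ^ 2 ≤ 1 * 9 :=
            mul_le_mul h5 h6 (sq_nonneg _) (by norm_num)
        _ = 9 := by norm_num
    have h8 : 0 ≤ μ ^ 4 := by positivity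
    nlinarith
  have hT3 : 0 ≤ μ ^ 2 / 4 * (1 - t ^ 2) * (1 + t' ^ 2)
      * (μ ^ 2 * (t ^ 2 + t ^ 4) / 4 + μ ^ 4) := mul_nonneg hP1 hr1
  have hT4 : 0 ≤ μ ^ 2 / 4 * (1 + t ^ 2) * (1 - t' ^ 2)
      * (μ ^ 2 * (t' ^ 2 + t' ^ 4) / 4 + μ ^ 4) := mul_nonneg hP2 hr2
  linarith

/-- Explicit ruling through a point: `t = (2y - k)/(τ + √D)`, `ρ = √D`,
`D = τ² - 2ky + k²`. -/
theorem root (τ y k : ℝ) (h0 : 0 ≤ τ) (hy : |y| ≤ τ) :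
    ∃ t ∈ Set.Icc (-1 : ℝ) 1, ∃ ρ : ℝ, 0 ≤ ρ ∧ τ = ρ + k * t ∧
      y = τ * t + k / 2 * (1 - t ^ 2) := by
  obtain ⟨hy1, hy2⟩ := abs_le.mp hy
  have hD0 : 0 ≤ τ ^ 2 - 2 * k * y + k ^ 2 := by
    rcases le_total 0 k with hk | hk
    · nlinarith [sq_nonneg (τ - k), mul_nonneg hk (sub_nonneg.mpr hy2)]
    · nlinarith [sq_nonneg (τ + k), mul_nonneg (neg_nonneg.mpr hk) (by linarith : (0:ℝ) ≤ y + τ)]
  set r : ℝ := Real.sqrt (τ ^ 2 - 2 * k * y + k ^ 2) with hr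
  have hr0 : 0 ≤ r := Real.sqrt_nonneg _
  have hrsq : r ^ 2 = τ ^ 2 - 2 * k * y + k ^ 2 := Real.sq_sqrt hD0
  rcases (add_nonneg h0 hr0).eq_or_lt with hs | hs
  · have hτ : τ = 0 := by linarith
    have hr' : r = 0 := by linarith
    have hy0 : y = 0 := by rw [hτ] at hy1 hy2; linarith
    have hk : k = 0 := by
      rw [hr', hτ, hy0] at hrsq
      have : k ^ 2 = 0 := by linarith
      exact pow_eq_zero_iff (by norm_num) |>.mp this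
    refine ⟨0, by simp, 0, le_refl _, ?_, ?_⟩
    · rw [hτ]; simp
    · rw [hτ, hy0, hk]; simp
  · have hs' : τ + r ≠ 0 := hs.ne'
    refine ⟨(2 * y - k) / (τ + r), ⟨?_, ?_⟩, r, hr0, ?_, ?_⟩
    · rw [le_div_iff₀ hs]
      have : k - 2 * y - τ ≤ r := by
        by_cases hneg : k - 2 * y - τ ≤ 0
        · exact hneg.trans hr0
        · rw [not_le] at hneg
          rw [hr]
          apply Real.le_sqrt_of_sq_le
          nlinarith [mul_nonneg (by linarith : (0:ℝ) ≤ y + τ) hneg.le]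
      linarith
    · rw [div_le_iff₀ hs]
      have : 2 * y - k - τ ≤ r := by
        by_cases hneg : 2 * y - k - τ ≤ 0
        · exact hneg.trans hr0
        · rw [not_le] at hneg
          rw [hr]
          apply Real.le_sqrt_of_sq_le
          nlinarith [mul_nonneg (by linarith : (0:ℝ) ≤ τ - y) hneg.le]
      linarith
    · field_simp
      linear_combination (-1 : ℝ) * hrsq
    · field_simp
      linear_combination (2 * y - k) * hrsq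

/-- **Continuum covering lemma (C1).**  Every point `(x, y, τ)` of the tetrahedron
`|x| ≤ 1 - τ`, `|y| ≤ τ`, `0 ≤ τ ≤ 1` lies on a ruling of family 1 or of family 2. -/
theorem cover_cases (μ : ℝ) (hμ : |μ| ≤ 1 / 2) (x y τ : ℝ) (h0 : 0 ≤ τ) (h1 : τ ≤ 1)
    (hx : |x| ≤ 1 - τ) (hy : |y| ≤ τ) :
    (∃ t ∈ Set.Icc (-1 : ℝ) 1, ∃ ρ ∈ Set.Icc 0 (Rf μ t),
        y = ρ * t + x * μ * (1 + t ^ 2) / 2 ∧ τ = ρ + x * μ * t) ∨
    (∃ t ∈ Set.Icc (-1 : ℝ) 1, ∃ ρ ∈ Set.Icc 0 (Rf μ t),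
        x = ρ * t - y * μ * (1 + t ^ 2) / 2 ∧ 1 - τ = ρ - y * μ * t) := by
  obtain ⟨t, ht, ρ, hρ0, hτρ, hyt⟩ := root τ y (x * μ) h0 hy
  obtain ⟨t', ht', ρ', hρ'0, hτρ', hxt'⟩ := root (1 - τ) x (-(y * μ)) (by linarith) hx
  by_cases hc1 : ρ ≤ Rf μ t
  · left
    refine ⟨t, ht, ρ, ⟨hρ0, hc1⟩, ?_, ?_⟩
    · linear_combination hyt + t * hτρ
    · linear_combination hτρ
  · by_cases hc2 : ρ' ≤ Rf μ t'
    · right
      refine ⟨t', ht', ρ', ⟨hρ'0, hc2⟩, ?_, ?_⟩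
      · linear_combination hxt' + t' * hτρ'
      · linear_combination hτρ'
    · exfalso
      rw [not_le] at hc1 hc2
      refine both_fail_false μ hμ x y τ t t' ht ht' ?_ ?_ ?_ ?_
      · linear_combination hyt
      · linear_combination hxt'
      · have : ρ = τ - x * μ * t := by linear_combination -hτρ
        rw [← this]; exact hc1
      · have : ρ' = 1 - τ + y * μ * t' := by linear_combination -hτρ'
        rw [← this]; exact hc2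

end Crest.Agent.Lib_helper25_CoreCov
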