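import Mathlib
import Crest.Prelude.Def_PolyominoGame

/-!
# Game-semantic core for S0047 (Snaky, Maker–Breaker)

`MW X Y d`: from the position with Maker cells `X`, Breaker cells `Y`, Maker to move, Maker can
complete a copy of Snaky within `d` more claims.  Main theorem `statement_of_MW`:
`MW ∅ ∅ 21` implies the frozen statement S0047.
-/

set_option autoImplicit false

namespace Crest.Agent.H26Snaky

open Crest.CombinatoricsR.PolyominoGame

/-- Maker wins within `d` more claims from Maker cells `X`, Breaker cells `Y` (Maker to move). -/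
inductive MW : Finset (ℤ × ℤ) → Finset (ℤ × ℤ) → ℕ → Prop
  | win {X Y : Finset (ℤ × ℤ)} {d : ℕ} : ContainsCopy (X : Set (ℤ × ℤ)) → MW X Y d
  | step {X Y : Finset (ℤ × ℤ)} {d : ℕ} (m : ℤ × ℤ) : m ∉ X → m ∉ Y →
      (∀ u : ℤ × ℤ, u ∉ insert m X → u ∉ Y → MW (insert m X) (insert u Y) d) → MW X Y (d + 1)

theorem containsCopy_mono {X X' : Set (ℤ × ℤ)} (h : ContainsCopy X) (hs : X ⊆ X') :
    ContainsCopy X' := by
  obtain ⟨t, e1, e2, h1, h2, h3⟩ := h
  refine ⟨t, e1, e2, h1, h2, ?_⟩
  rcases h3 with h3 | h3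
  · exact Or.inl fun p hp => hs (h3 p hp)
  · exact Or.inr fun p hp => hs (h3 p hp)

theorem exists_fresh (X Y : Finset (ℤ × ℤ)) : ∃ c : ℤ × ℤ, c ∉ X ∧ c ∉ Y := by
  obtain ⟨c, hc⟩ := Infinite.exists_notMem_finset (X ∪ Y)
  exact ⟨c, fun h => hc (Finset.mem_union_left _ h), fun h => hc (Finset.mem_union_right _ h)⟩

open Classical in
/-- Maker's move: a winning move if there is one, otherwise any unclaimed cell. -/
noncomputable def mkMove (X Y : Finset (ℤ × ℤ)) (d : ℕ) : ℤ × ℤ :=
  if h : ∃ m : ℤ × ℤ, (m ∉ X ∧ m ∉ Y) ∧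
      ∀ u : ℤ × ℤ, u ∉ insert m X → u ∉ Y → MW (insert m X) (insert u Y) d
  then h.choose else (exists_fresh X Y).choose

theorem mkMove_legal (X Y : Finset (ℤ × ℤ)) (d : ℕ) : mkMove X Y d ∉ X ∧ mkMove X Y d ∉ Y := by
  unfold mkMove
  split_ifs with h
  · exact h.choose_spec.1
  · exact (exists_fresh X Y).choose_spec

theorem mkMove_spec {X Y : Finset (ℤ × ℤ)} {d : ℕ} (h : MW X Y (d + 1)) :
    ContainsCopy (X : Set (ℤ × ℤ)) ∨
      ∀ u : ℤ × ℤ, u ∉ insert (mkMove X Y d) X → u ∉ Y →
        MW (insert (mkMove X Y d) X) (insert u Y) d := by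
  cases h with
  | win hc => exact Or.inl hc
  | step m hmX hmY hstep =>
    right
    have hex : ∃ m : ℤ × ℤ, (m ∉ X ∧ m ∉ Y) ∧
        ∀ u : ℤ × ℤ, u ∉ insert m X → u ∉ Y → MW (insert m X) (insert u Y) d :=
      ⟨m, ⟨hmX, hmY⟩, hstep⟩
    unfold mkMove
    rw [dif_pos hex]
    exact hex.choose_spec.2

/-- One round: Maker moves (with `20 - k` claims remaining after this one), Breaker replies `u`. -/
noncomputable def stStep (s : Finset (ℤ × ℤ) × Finset (ℤ × ℤ) × ℕ) (u : ℤ × ℤ) :
    Finset (ℤ × ℤ) × Finset (ℤ × ℤ) × ℕ :=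
  (insert (mkMove s.1 s.2.1 (20 - s.2.2)) s.1, insert u s.2.1, s.2.2 + 1)

/-- State after the given replies. -/
noncomputable def stOf (l : List (ℤ × ℤ)) : Finset (ℤ × ℤ) × Finset (ℤ × ℤ) × ℕ :=
  l.foldl stStep (∅, ∅, 0)

/-- The policy. -/
noncomputable def sigma (l : List (ℤ × ℤ)) : ℤ × ℤ :=
  mkMove (stOf l).1 (stOf l).2.1 (20 - (stOf l).2.2)

theorem stOf_range_succ (b : ℕ → ℤ × ℤ) (k : ℕ) :
    stOf ((List.range (k + 1)).map b) = stStep (stOf ((List.range k).map b)) (b k) := by
  simp [stOf, List.range_succ, List.foldl_append]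

theorem stOf_range_cnt (b : ℕ → ℤ × ℤ) (k : ℕ) : (stOf ((List.range k).map b)).2.2 = k := by
  induction k with
  | zero => simp [stOf]
  | succ k ih => rw [stOf_range_succ]; simp [stStep, ih]

theorem stOf_range_X_succ (b : ℕ → ℤ × ℤ) (k : ℕ) :
    (stOf ((List.range (k + 1)).map b)).1 =
      insert (makerClaim sigma b k) (stOf ((List.range k).map b)).1 := by
  rw [stOf_range_succ]; rfl

theorem stOf_range_Y_succ (b : ℕ → ℤ × ℤ) (k : ℕ) :
    (stOf ((List.range (k + 1)).map b)).2.1 =
      insert (b k) (stOf ((List.range k).map b)).2.1 := by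
  rw [stOf_range_succ]; rfl

theorem mem_X_iff (b : ℕ → ℤ × ℤ) (k : ℕ) (c : ℤ × ℤ) :
    c ∈ (stOf ((List.range k).map b)).1 ↔ ∃ j, j < k ∧ c = makerClaim sigma b j := by
  induction k with
  | zero => simp [stOf]
  | succ k ih =>
    rw [stOf_range_X_succ, Finset.mem_insert, ih]
    constructor
    · rintro (h | ⟨j, hj, h⟩)
      · exact ⟨k, Nat.lt_succ_self k, h⟩
      · exact ⟨j, Nat.lt_succ_of_lt hj, h⟩
    · rintro ⟨j, hj, h⟩
      rcases Nat.lt_succ_iff_lt_or_eq.mp hj with hj' | rfl
      · exact Or.inr ⟨j, hj', h⟩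
      · exact Or.inl h

theorem mem_Y_iff (b : ℕ → ℤ × ℤ) (k : ℕ) (c : ℤ × ℤ) :
    c ∈ (stOf ((List.range k).map b)).2.1 ↔ ∃ j, j < k ∧ c = b j := by
  induction k with
  | zero => simp [stOf]
  | succ k ih =>
    rw [stOf_range_Y_succ, Finset.mem_insert, ih]
    constructor
    · rintro (h | ⟨j, hj, h⟩)
      · exact ⟨k, Nat.lt_succ_self k, h⟩
      · exact ⟨j, Nat.lt_succ_of_lt hj, h⟩
    · rintro ⟨j, hj, h⟩
      rcases Nat.lt_succ_iff_lt_or_eq.mp hj with hj' | rfl
      · exact Or.inr ⟨j, hj', h⟩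
      · exact Or.inl h

theorem makerClaim_legal (b : ℕ → ℤ × ℤ) (k : ℕ) :
    makerClaim sigma b k ∉ (stOf ((List.range k).map b)).1 ∧
      makerClaim sigma b k ∉ (stOf ((List.range k).map b)).2.1 :=
  mkMove_legal (stOf ((List.range k).map b)).1 (stOf ((List.range k).map b)).2.1
    (20 - (stOf ((List.range k).map b)).2.2)

/-- **Theorem A.** A Maker win within 21 claims from the empty board gives the frozen statement. -/
theorem statement_of_MW (h : MW ∅ ∅ 21) :
    ∃ σ : List (ℤ × ℤ) → ℤ × ℤ, ∀ b : ℕ → ℤ × ℤ,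
      (∀ k : ℕ, k < 20 →
        (∀ j : ℕ, j ≤ k → b k ≠ Crest.CombinatoricsR.PolyominoGame.makerClaim σ b j) ∧
        (∀ j : ℕ, j < k → b k ≠ b j)) →
      (∀ k : ℕ, k ≤ 20 →
        (∀ j : ℕ, j < k → Crest.CombinatoricsR.PolyominoGame.makerClaim σ b k ≠
          Crest.CombinatoricsR.PolyominoGame.makerClaim σ b j) ∧
        (∀ j : ℕ, j < k → Crest.CombinatoricsR.PolyominoGame.makerClaim σ b k ≠ b j)) ∧
      Crest.CombinatoricsR.PolyominoGame.ContainsCopy
        {c | ∃ j : ℕ, j ≤ 20 ∧ c = Crest.CombinatoricsR.PolyominoGame.makerClaim σ b j} := by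
  refine ⟨sigma, fun b hb => ⟨?_, ?_⟩⟩
  · intro k _
    have hl := makerClaim_legal b k
    refine ⟨fun j hj heq => hl.1 ((mem_X_iff b k _).2 ⟨j, hj, heq⟩),
      fun j hj heq => hl.2 ((mem_Y_iff b k _).2 ⟨j, hj, heq⟩)⟩
  · -- invariant
    have inv : ∀ k : ℕ, k ≤ 20 →
        ContainsCopy ((stOf ((List.range k).map b)).1 : Set (ℤ × ℤ)) ∨
          MW (stOf ((List.range k).map b)).1 (stOf ((List.range k).map b)).2.1 (21 - k) := by
      intro k
      induction k with
      | zero => intro _; right; simpa [stOf] using h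
      | succ k ih =>
        intro hk
        have hk' : k < 20 := hk
        rcases ih (Nat.le_of_lt hk') with hc | hmw
        · left
          refine containsCopy_mono hc ?_
          rw [stOf_range_X_succ]
          intro c hc'
          exact Finset.mem_insert_of_mem hc'
        · have h21 : 21 - k = (20 - k) + 1 := by omega
          rw [h21] at hmw
          rcases mkMove_spec hmw with hc | hstep
          · left
            refine containsCopy_mono hc ?_
            rw [stOf_range_X_succ]
            intro c hc'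
            exact Finset.mem_insert_of_mem hc'
          · right
            have hcl : makerClaim sigma b k =
                mkMove (stOf ((List.range k).map b)).1 (stOf ((List.range k).map b)).2.1
                  (20 - k) := by
              show sigma _ = _
              unfold sigma
              rw [stOf_range_cnt]
            rw [stOf_range_X_succ, stOf_range_Y_succ, hcl]
            have h20 : 21 - (k + 1) = 20 - k := by omega
            rw [h20]
            apply hstep
            · rw [← hcl, ← stOf_range_X_succ]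
              intro hmem
              obtain ⟨j, hj, heq⟩ := (mem_X_iff b (k + 1) _).1 hmem
              exact (hb k hk').1 j (Nat.lt_succ_iff.mp hj) heq
            · intro hmem
              obtain ⟨j, hj, heq⟩ := (mem_Y_iff b k _).1 hmem
              exact (hb k hk').2 j hj heq
    have hset : {c | ∃ j : ℕ, j ≤ 20 ∧ c = makerClaim sigma b j} =
        ((stOf ((List.range 21).map b)).1 : Set (ℤ × ℤ)) := by
      ext c
      simp only [Set.mem_ofPred_eq, Finset.mem_coe]
      rw [mem_X_iff]
      constructor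
      · rintro ⟨j, hj, h⟩; exact ⟨j, Nat.lt_succ_of_le hj, h⟩
      · rintro ⟨j, hj, h⟩; exact ⟨j, Nat.lt_succ_iff.mp hj, h⟩
    rw [hset]
    have hsub : ((stOf ((List.range 20).map b)).1 : Set (ℤ × ℤ)) ⊆
        ((stOf ((List.range 21).map b)).1 : Set (ℤ × ℤ)) := by
      rw [stOf_range_X_succ]
      intro c hc'
      exact Finset.mem_insert_of_mem hc'
    rcases inv 20 le_rfl with hc | hmw
    · exact containsCopy_mono hc hsub
    · have h1 : 21 - 20 = 0 + 1 := by norm_num
      rw [h1] at hmw
      rcases mkMove_spec hmw with hc | hstep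
      · exact containsCopy_mono hc hsub
      · have hcl : makerClaim sigma b 20 =
            mkMove (stOf ((List.range 20).map b)).1 (stOf ((List.range 20).map b)).2.1 0 := by
          show sigma _ = _
          unfold sigma
          rw [stOf_range_cnt]
        rw [stOf_range_X_succ, hcl]
        obtain ⟨u, hu1, hu2⟩ := exists_fresh
          (insert (mkMove (stOf ((List.range 20).map b)).1 (stOf ((List.range 20).map b)).2.1 0)
            (stOf ((List.range 20).map b)).1) (stOf ((List.range 20).map b)).2.1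
        have := hstep u hu1 hu2
        cases this with
        | win hc => exact hc

end Crest.Agent.H26Snaky
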