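import Crest.Agent.Lib_helper26_SnakyZone

/-!
# Lemma tables for the S0047 zone checker

`Tb` is a binary trie of zone lemmas `(P, Z, e)` (each meaning `WZ P Z e`), indexed by the bits of
the key, least significant bit first.  `Tb.look tb` is an oracle for `chk` (constructor `Tr.ext`).

* static use: write the trie as a literal and prove `Tb.Good` with `good_node / good_leaf /
  good_nil` from earlier theorems;
* dynamic use: `runB D b (tb, k)` checks the lemma trees of the batch `b` one after the other,
  inserting the result of the `i`-th item under key `k + i` (depth `D` trie), so later items may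
  refer to earlier ones; `runB_good` : the resulting table is good, unconditionally.
-/

set_option autoImplicit false

namespace Crest.Agent.H26Snaky

/-- binary tries of zone lemmas -/
inductive Tb : Type
  | nil : Tb
  | leaf (P Z e : ℕ) : Tb
  | node (l r : Tb) : Tb

/-- lookup, least significant bit first -/
noncomputable def Tb.look (tb : Tb) : ℕ → Option (ℕ × ℕ × ℕ) :=
  Tb.rec (motive := fun _ => ℕ → Option (ℕ × ℕ × ℕ))
    (fun _ => none)
    (fun P Z e _ => some (P, Z, e))
    (fun _ _ ihl ihr k =>
      cond (Nat.beq (Nat.land k 1) 0) (ihl (Nat.shiftRight k 1)) (ihr (Nat.shiftRight k 1)))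
    tb

/-- every entry of the table is a valid zone lemma -/
def Tb.Good (tb : Tb) : Prop := ∀ k P Z e, tb.look k = some (P, Z, e) → WZ P Z e

theorem good_nil : Tb.nil.Good := by
  intro k P Z e h
  cases h

theorem good_leaf {P Z e : ℕ} (h : WZ P Z e) : (Tb.leaf P Z e).Good := by
  intro k P' Z' e' hk
  have hk' : some (P, Z, e) = some (P', Z', e') := hk
  have h3 : (P, Z, e) = (P', Z', e') := Option.some.inj hk'
  have h1 : P = P' := congrArg Prod.fst h3
  have h2 : Z = Z' := congrArg (fun p : ℕ × ℕ × ℕ => p.2.1) h3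
  have h4 : e = e' := congrArg (fun p : ℕ × ℕ × ℕ => p.2.2) h3
  subst h1; subst h2; subst h4
  exact h

theorem look_node (l r : Tb) (k : ℕ) :
    (Tb.node l r).look k =
      cond (Nat.beq (Nat.land k 1) 0) (l.look (Nat.shiftRight k 1)) (r.look (Nat.shiftRight k 1)) :=
  rfl

theorem good_node {l r : Tb} (hl : l.Good) (hr : r.Good) : (Tb.node l r).Good := by
  intro k P Z e hk
  rw [look_node] at hk
  cases hb : Nat.beq (Nat.land k 1) 0 with
  | true => rw [hb] at hk; exact hl _ P Z e hk
  | false => rw [hb] at hk; exact hr _ P Z e hk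

theorem good_left {l r : Tb} (h : (Tb.node l r).Good) : l.Good := by
  intro k P Z e hk
  apply h (2 * k) P Z e
  rw [look_node]
  have h1 : Nat.beq (Nat.land (2 * k) 1) 0 = true := by
    have : (2 * k) &&& 1 = 0 := by rw [Nat.and_one_is_mod]; omega
    show Nat.beq ((2 * k) &&& 1) 0 = true
    rw [this]; rfl
  have h2 : Nat.shiftRight (2 * k) 1 = k := by
    show (2 * k) >>> 1 = k
    rw [Nat.shiftRight_eq_div_pow]; omega
  rw [h1, h2]
  exact hk

theorem good_right {l r : Tb} (h : (Tb.node l r).Good) : r.Good := by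
  intro k P Z e hk
  apply h (2 * k + 1) P Z e
  rw [look_node]
  have h1 : Nat.beq (Nat.land (2 * k + 1) 1) 0 = false := by
    have : (2 * k + 1) &&& 1 = 1 := by rw [Nat.and_one_is_mod]; omega
    show Nat.beq ((2 * k + 1) &&& 1) 0 = false
    rw [this]; rfl
  have h2 : Nat.shiftRight (2 * k + 1) 1 = k := by
    show (2 * k + 1) >>> 1 = k
    rw [Nat.shiftRight_eq_div_pow]; omega
  rw [h1, h2]
  exact hk

/-- insertion of the entry `v` under key `k` in a trie of depth `D` -/
noncomputable def Tb.ins (D : ℕ) : Tb → ℕ → ℕ × ℕ × ℕ → Tb :=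
  Nat.rec (motive := fun _ => Tb → ℕ → ℕ × ℕ × ℕ → Tb)
    (fun _ _ v => Tb.leaf v.1 v.2.1 v.2.2)
    (fun _ ih tb k v =>
      Tb.rec (motive := fun _ => Tb)
        (cond (Nat.beq (Nat.land k 1) 0)
          (Tb.node (ih Tb.nil (Nat.shiftRight k 1) v) Tb.nil)
          (Tb.node Tb.nil (ih Tb.nil (Nat.shiftRight k 1) v)))
        (fun _ _ _ =>
          cond (Nat.beq (Nat.land k 1) 0)
            (Tb.node (ih Tb.nil (Nat.shiftRight k 1) v) Tb.nil)
            (Tb.node Tb.nil (ih Tb.nil (Nat.shiftRight k 1) v)))
        (fun l r _ _ =>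
          cond (Nat.beq (Nat.land k 1) 0)
            (Tb.node (ih l (Nat.shiftRight k 1) v) r)
            (Tb.node l (ih r (Nat.shiftRight k 1) v)))
        tb)
    D

theorem good_ins (D : ℕ) : ∀ (tb : Tb) (k : ℕ) (v : ℕ × ℕ × ℕ), tb.Good → WZ v.1 v.2.1 v.2.2 →
    (Tb.ins D tb k v).Good := by
  induction D with
  | zero =>
    intro tb k v _ hv
    exact good_leaf hv
  | succ D ih =>
    intro tb k v htb hv
    cases tb with
    | nil =>
      show (cond (Nat.beq (Nat.land k 1) 0)
          (Tb.node (Tb.ins D Tb.nil (Nat.shiftRight k 1) v) Tb.nil)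
          (Tb.node Tb.nil (Tb.ins D Tb.nil (Nat.shiftRight k 1) v))).Good
      cases Nat.beq (Nat.land k 1) 0 with
      | true => exact good_node (ih _ _ _ good_nil hv) good_nil
      | false => exact good_node good_nil (ih _ _ _ good_nil hv)
    | leaf P Z e =>
      show (cond (Nat.beq (Nat.land k 1) 0)
          (Tb.node (Tb.ins D Tb.nil (Nat.shiftRight k 1) v) Tb.nil)
          (Tb.node Tb.nil (Tb.ins D Tb.nil (Nat.shiftRight k 1) v))).Good
      cases Nat.beq (Nat.land k 1) 0 with
      | true => exact good_node (ih _ _ _ good_nil hv) good_nil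
      | false => exact good_node good_nil (ih _ _ _ good_nil hv)
    | node l r =>
      show (cond (Nat.beq (Nat.land k 1) 0)
          (Tb.node (Tb.ins D l (Nat.shiftRight k 1) v) r)
          (Tb.node l (Tb.ins D r (Nat.shiftRight k 1) v))).Good
      cases Nat.beq (Nat.land k 1) 0 with
      | true => exact good_node (ih _ _ _ (good_left htb) hv) (good_right htb)
      | false => exact good_node (good_left htb) (ih _ _ _ (good_right htb) hv)

/-- check one lemma tree at pattern `P` against the table and insert the result under key `k`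
(the table is returned unchanged if the check fails) -/
noncomputable def stepB (D : ℕ) (tb : Tb) (k : ℕ) (P : ℕ) (T : Tr) : Tb :=
  Option.rec tb (fun r => Tb.ins D tb k (P, r.1, r.2)) (chk tb.look T false P 0 false 0)

theorem good_stepB (D : ℕ) (tb : Tb) (k P : ℕ) (T : Tr) (h : tb.Good) :
    (stepB D tb k P T).Good := by
  unfold stepB
  cases hr : chk tb.look T false P 0 false 0 with
  | none => exact h
  | some r =>
    obtain ⟨Z, e⟩ := r
    exact good_ins D tb k (P, Z, e) h (WZ_of_chk h hr)

/-- batches of lemma trees: `one P T` = the tree `T` rooted at the pattern mask `P`;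
`seq a b` = first `a`, then `b` (write big batches as balanced `seq` trees) -/
inductive Bt : Type
  | nil : Bt
  | one (P : ℕ) (T : Tr) : Bt
  | seq (a b : Bt) : Bt

/-- check a batch of lemma trees against the growing table `s.1`; the item reached with counter
`s.2 = k` is inserted under key `k` -/
noncomputable def runB (D : ℕ) (b : Bt) : Tb × ℕ → Tb × ℕ :=
  Bt.rec (motive := fun _ => Tb × ℕ → Tb × ℕ)
    (fun s => s)
    (fun P T s => (stepB D s.1 s.2 P T, Nat.succ s.2))
    (fun _ _ iha ihb s => ihb (iha s))
    b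

theorem runB_good (D : ℕ) (b : Bt) : ∀ s : Tb × ℕ, s.1.Good → (runB D b s).1.Good := by
  induction b with
  | nil => intro s h; exact h
  | one P T => intro s h; exact good_stepB D s.1 s.2 P T h
  | seq a b iha ihb => intro s h; exact ihb _ (iha s h)

theorem runB_good_nil (D : ℕ) (b : Bt) : (runB D b (Tb.nil, 0)).1.Good :=
  runB_good D b (Tb.nil, 0) good_nil

/-- the mask with the given bits -/
noncomputable def msk (l : List ℕ) : ℕ :=
  List.rec (motive := fun _ => ℕ) 0 (fun c _ ih => Nat.lor ih (Nat.shiftLeft 1 c)) l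

/-- the root test: entry `k` of the table is a lemma at the empty pattern needing `≤ 21` claims -/
noncomputable def rootOK (tb : Tb) (k : ℕ) : Bool :=
  Option.rec false (fun p => Bool.and (Nat.beq p.1 0) (Nat.ble p.2.2 21)) (tb.look k)

theorem MW_of_rootOK {tb : Tb} {k : ℕ} (hg : tb.Good) (h : rootOK tb k = true) : MW ∅ ∅ 21 := by
  unfold rootOK at h
  cases hk : tb.look k with
  | none => rw [hk] at h; cases h
  | some p =>
    obtain ⟨P, Z, e⟩ := p
    rw [hk] at h
    have h' : Bool.and (Nat.beq P 0) (Nat.ble e 21) = true := h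
    obtain ⟨h1, h2⟩ := Bool.and_eq_true_iff.mp h'
    have hP : P = 0 := Nat.eq_of_beq_eq_true h1
    subst hP
    exact MW_of_WZ (hg k 0 Z e hk) (Nat.le_of_ble_eq_true h2)

end Crest.Agent.H26Snaky
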