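import Crest.Agent.Lib_helper26_SnakyGame

/-!
# Kernel-evaluable certificate checker for S0047 (Snaky, Maker–Breaker), zone semantics

Cells of the window `[0,64) × ℕ` are coded by naturals: code `n` is the cell `(n % 64, n / 64)`.
Sets of cells are bitmasks (`Nat`): the kernel's GMP-accelerated `Nat.lor`, `Nat.land`,
`Nat.shiftLeft`, `Nat.shiftRight`, `Nat.beq`, `Nat.ble` do all the work.

Semantics of a checked Maker node at pattern mask `M` with result `(Z, e)`:
`WZ M Z e` : from EVERY position in which Maker owns at least the cells of `M` and Breaker owns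
no cell of the zone `Z`, Maker wins within `e` more claims.  (So a checked subtree is a reusable
lemma: extra stones of either colour outside the zone do not matter.)

Certificate trees `Tr`.  Maker nodes:
* `win h`        : Maker already owns a copy; `h = 8 * t + o` names the placement (orientation
                   `o < 8`, anchor code `t` = lower-left corner of the bounding box);
* `mv m ch`      : Maker claims code `m` (if he owns it already he claims any fresh cell);
                   `ch` is the chain of Breaker replies;
* `thr m c h t`  : Maker claims `m`, threatening to complete the placement `h` at `c`;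
                   if Breaker does not reply at `c` Maker claims `c` and wins, otherwise `t`;
* `ext k`        : lemma number `k` of the oracle `O` (a triple `(P, Z, e)` with `WZ P Z e`),
                   usable when `P ⊆ M`.
Chain nodes (Breaker to reply, reply `u` not yet handled):
* `alt c sub rest`: if `u` is the cell `c` continue with `sub` (whose zone must not contain `c`),
                   otherwise with `rest`;
* `dflt sub rest`: if `u` is outside the zone of `sub` continue with `sub`, otherwise with `rest`
                   (which now only has to handle the replies inside that zone);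
* `done`         : no reply is left (all remaining candidates were handled by `alt`s or are
                   Maker's own cells);
* `win h`        : Maker already owns a copy.
The checker returns `(Z, e)`: zone = mask of all cells Maker may claim below, `e` = number of
Maker claims needed.
-/

set_option autoImplicit false

namespace Crest.Agent.H26Snaky

open Crest.CombinatoricsR.PolyominoGame

/-- The cell with code `n`. -/
def cellOf (n : ℕ) : ℤ × ℤ := (((n % 64 : ℕ) : ℤ), ((n / 64 : ℕ) : ℤ))

theorem cellOf_inj {i j : ℕ} (h : cellOf i = cellOf j) : i = j := by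
  unfold cellOf at h
  have h1 : ((i % 64 : ℕ) : ℤ) = ((j % 64 : ℕ) : ℤ) := congrArg Prod.fst h
  have h2 : ((i / 64 : ℕ) : ℤ) = ((j / 64 : ℕ) : ℤ) := congrArg Prod.snd h
  have h1' : i % 64 = j % 64 := by exact_mod_cast h1
  have h2' : i / 64 = j / 64 := by exact_mod_cast h2
  omega

/-- Certificate trees. -/
inductive Tr : Type
  | win (h : ℕ) : Tr
  | mv (m : ℕ) (ch : Tr) : Tr
  | thr (m c h : ℕ) (t : Tr) : Tr
  | ext (k : ℕ) : Tr
  | alt (c : ℕ) (sub rest : Tr) : Tr
  | dflt (sub rest : Tr) : Tr
  | done : Tr

/-- Pattern masks of the eight placements, anchored at the lower-left corner of the bounding box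
(bit `dx + 64 * dy`). -/
def pat (o : ℕ) : ℕ :=
  match o with
  | 0 => 0x1 + 0x2 + 0x4 + 0x8 + 0x8 * 2 ^ 64 + 0x10 * 2 ^ 64
  | 1 => 0x10 + 0x8 + 0x4 + 0x2 + 0x2 * 2 ^ 64 + 0x1 * 2 ^ 64
  | 2 => 0x1 * 2 ^ 64 + 0x2 * 2 ^ 64 + 0x4 * 2 ^ 64 + 0x8 * 2 ^ 64 + 0x8 + 0x10
  | 3 => 0x10 * 2 ^ 64 + 0x8 * 2 ^ 64 + 0x4 * 2 ^ 64 + 0x2 * 2 ^ 64 + 0x2 + 0x1
  | 4 => 0x1 + 0x1 * 2 ^ 64 + 0x1 * 2 ^ 128 + 0x1 * 2 ^ 192 + 0x2 * 2 ^ 192 + 0x2 * 2 ^ 256
  | 5 => 0x2 + 0x2 * 2 ^ 64 + 0x2 * 2 ^ 128 + 0x2 * 2 ^ 192 + 0x1 * 2 ^ 192 + 0x1 * 2 ^ 256
  | 6 => 0x1 * 2 ^ 256 + 0x1 * 2 ^ 192 + 0x1 * 2 ^ 128 + 0x1 * 2 ^ 64 + 0x2 * 2 ^ 64 + 0x2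
  | _ => 0x2 * 2 ^ 256 + 0x2 * 2 ^ 192 + 0x2 * 2 ^ 128 + 0x2 * 2 ^ 64 + 0x1 * 2 ^ 64 + 0x1

/-- Largest admissible `x`-coordinate of the anchor. -/
def xmax (o : ℕ) : ℕ := Nat.rec 62 (fun _ _ => 59) (Nat.sub 4 o)

/-- Offsets of the six cells of placement `o`. -/
def offs (o : ℕ) : List (ℕ × ℕ) :=
  match o with
  | 0 => [(0, 0), (1, 0), (2, 0), (3, 0), (3, 1), (4, 1)]
  | 1 => [(4, 0), (3, 0), (2, 0), (1, 0), (1, 1), (0, 1)]
  | 2 => [(0, 1), (1, 1), (2, 1), (3, 1), (3, 0), (4, 0)]
  | 3 => [(4, 1), (3, 1), (2, 1), (1, 1), (1, 0), (0, 0)]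
  | 4 => [(0, 0), (0, 1), (0, 2), (0, 3), (1, 3), (1, 4)]
  | 5 => [(1, 0), (1, 1), (1, 2), (1, 3), (0, 3), (0, 4)]
  | 6 => [(0, 4), (0, 3), (0, 2), (0, 1), (1, 1), (1, 0)]
  | _ => [(1, 4), (1, 3), (1, 2), (1, 1), (0, 1), (0, 0)]

/-- The leaf test: the placement `h = 8 * t + o` lies inside the mask `M`. -/
def winOK (h M : ℕ) : Bool :=
  Bool.and (Nat.ble (Nat.mod (Nat.div h 8) 64) (xmax (Nat.mod h 8)))
    (Nat.beq (Nat.land M (Nat.shiftLeft (pat (Nat.mod h 8)) (Nat.div h 8)))
      (Nat.shiftLeft (pat (Nat.mod h 8)) (Nat.div h 8)))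

/-- `true` iff bit `m` of `S` is NOT set. -/
def tst (S m : ℕ) : Bool := Nat.beq (Nat.land (Nat.shiftRight S m) 1) 0

/-- `true` iff `Z ⊆ A` as bit sets. -/
def sbs (Z A : ℕ) : Bool := Nat.beq (Nat.lor Z A) A

/-- maximum -/
def mx (a b : ℕ) : ℕ := cond (Nat.ble a b) b a

/-- The checker.  `md = false`: Maker node at pattern mask `M`.  `md = true`: chain node; `A` =
mask of replies already excluded, and if `bd` the reply is known to lie in `R`.
Returns (zone, number of Maker claims needed). -/
noncomputable def chk (O : ℕ → Option (ℕ × ℕ × ℕ)) (T : Tr) :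
    Bool → ℕ → ℕ → Bool → ℕ → Option (ℕ × ℕ) :=
  Tr.rec (motive := fun _ => Bool → ℕ → ℕ → Bool → ℕ → Option (ℕ × ℕ))
    -- win h
    (fun h _ M _ _ _ => cond (winOK h M) (some (0, 0)) none)
    -- mv m ch
    (fun m _ ih md M _ _ _ =>
      cond md none
        (Option.rec none (fun r => some (Nat.lor r.1 (Nat.shiftLeft 1 m), Nat.succ r.2))
          (ih true (Nat.lor M (Nat.shiftLeft 1 m)) (Nat.lor M (Nat.shiftLeft 1 m)) false 0)))
    -- thr m c h t
    (fun m c h _ ih md M _ _ _ =>
      cond md none
        (cond (winOK h (Nat.lor (Nat.lor M (Nat.shiftLeft 1 m)) (Nat.shiftLeft 1 c)))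
          (Option.rec none
            (fun r => cond (tst r.1 c)
              (some (Nat.lor (Nat.lor r.1 (Nat.shiftLeft 1 m)) (Nat.shiftLeft 1 c),
                Nat.succ (mx r.2 1)))
              none)
            (ih false (Nat.lor M (Nat.shiftLeft 1 m)) 0 false 0))
          none))
    -- ext k
    (fun k md M _ _ _ =>
      cond md none
        (Option.rec none (fun p => cond (sbs p.1 M) (some p.2) none) (O k)))
    -- alt c sub rest
    (fun c _ _ ihs ihr md M A bd R =>
      cond md
        (Option.rec none
          (fun r1 => cond (tst r1.1 c)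
            (Option.rec none (fun r2 => some (Nat.lor r1.1 r2.1, mx r1.2 r2.2))
              (ihr true M (Nat.lor A (Nat.shiftLeft 1 c)) bd R))
            none)
          (ihs false M 0 false 0))
        none)
    -- dflt sub rest
    (fun _ _ ihs ihr md M A bd R =>
      cond md
        (Option.rec none
          (fun r1 =>
            Option.rec none (fun r2 => some (Nat.lor r1.1 r2.1, mx r1.2 r2.2))
              (ihr true M A true (cond bd (Nat.land R r1.1) r1.1)))
          (ihs false M 0 false 0))
        none)
    -- done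
    (fun md _ A bd R => cond md (cond bd (cond (sbs R A) (some (0, 0)) none) none) none)
    T

/-- Zone lemma: Maker owning (at least) `M`, Breaker owning nothing in `Z` ⟹ win within `e`. -/
def WZ (M Z e : ℕ) : Prop :=
  ∀ X Y : Finset (ℤ × ℤ), (∀ i : ℕ, M.testBit i = true → cellOf i ∈ X) →
    (∀ i : ℕ, Z.testBit i = true → cellOf i ∉ Y) → MW X Y e

/-- Chain semantics: every reply `u` not excluded by `A` (and inside `R` if `bd`) loses. -/
def CZ (M A : ℕ) (bd : Bool) (R Z e : ℕ) : Prop :=
  ∀ (X Y : Finset (ℤ × ℤ)) (u : ℤ × ℤ), (∀ i : ℕ, M.testBit i = true → cellOf i ∈ X) →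
    (∀ i : ℕ, Z.testBit i = true → cellOf i ∉ Y) → u ∉ X → u ∉ Y →
    (∀ i : ℕ, A.testBit i = true → cellOf i ≠ u) →
    (bd = true → ∃ i : ℕ, R.testBit i = true ∧ cellOf i = u) → MW X (insert u Y) e

/-! ### basic lemmas -/

theorem MW_mono {X Y : Finset (ℤ × ℤ)} {d d' : ℕ} (h : MW X Y d) (hd : d ≤ d') : MW X Y d' := by
  induction h generalizing d' with
  | win hc => exact MW.win hc
  | step m hmX hmY _ ih =>
    obtain ⟨d'', rfl⟩ : ∃ d'', d' = d'' + 1 := ⟨d' - 1, by omega⟩
    exact MW.step m hmX hmY (fun u hu1 hu2 => ih u hu1 hu2 (by omega))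

theorem testBit_bit (m i : ℕ) : (Nat.shiftLeft 1 m).testBit i = decide (m = i) := by
  show (1 <<< m).testBit i = _
  rw [Nat.one_shiftLeft, Nat.testBit_two_pow]

theorem testBit_bit_self (m : ℕ) : (Nat.shiftLeft 1 m).testBit m = true := by
  rw [testBit_bit]; simp

theorem testBit_lor (a b i : ℕ) : (Nat.lor a b).testBit i = (a.testBit i || b.testBit i) :=
  Nat.testBit_or a b i

theorem testBit_lor_left {a b i : ℕ} (h : a.testBit i = true) : (Nat.lor a b).testBit i = true := by
  rw [testBit_lor, h]; rfl

theorem testBit_lor_right {a b i : ℕ} (h : b.testBit i = true) : (Nat.lor a b).testBit i = true := by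
  rw [testBit_lor, h, Bool.or_true]

theorem testBit_lor_cases {a b i : ℕ} (h : (Nat.lor a b).testBit i = true) :
    a.testBit i = true ∨ b.testBit i = true := by
  rw [testBit_lor] at h
  exact Bool.or_eq_true_iff.mp h

theorem eq_of_testBit_bit {m i : ℕ} (h : (Nat.shiftLeft 1 m).testBit i = true) : m = i := by
  rw [testBit_bit] at h
  exact of_decide_eq_true h

theorem tst_spec {S m : ℕ} (h : tst S m = true) : S.testBit m = false := by
  have h' : (S >>> m) &&& 1 = 0 := Nat.eq_of_beq_eq_true h
  have : (1 &&& S >>> m) = 0 := by rw [Nat.and_comm]; exact h'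
  simp [Nat.testBit, this]

theorem sbs_spec {Z A : ℕ} (h : sbs Z A = true) (i : ℕ) (hi : Z.testBit i = true) :
    A.testBit i = true := by
  have h' : Nat.lor Z A = A := Nat.eq_of_beq_eq_true h
  rw [← h']
  exact testBit_lor_left hi

theorem le_mx_left (a b : ℕ) : a ≤ mx a b := by
  unfold mx
  cases h : Nat.ble a b with
  | false => exact le_rfl
  | true => exact Nat.le_of_ble_eq_true h

theorem le_mx_right (a b : ℕ) : b ≤ mx a b := by
  unfold mx
  cases h : Nat.ble a b with
  | false =>
    have : ¬ a ≤ b := fun hle => by rw [Nat.ble_eq_true_of_le hle] at h; cases h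
    exact Nat.le_of_lt (Nat.lt_of_not_le this)
  | true => exact le_rfl

/-! ### leaves -/

theorem pat_offs (o : ℕ) (ho : o < 8) :
    ∀ p ∈ offs o, (pat o).testBit (p.1 + 64 * p.2) = true ∧ p.1 + xmax o ≤ 63 := by
  interval_cases o <;> decide

theorem copy_of_offs (o : ℕ) (ho : o < 8) (tx ty : ℤ) (X : Set (ℤ × ℤ))
    (h : ∀ p ∈ offs o, (tx + (p.1 : ℤ), ty + (p.2 : ℤ)) ∈ X) : ContainsCopy X := by
  have key : ∀ (a b : ℤ), (∃ p ∈ offs o, tx + (p.1 : ℤ) = a ∧ ty + (p.2 : ℤ) = b) → (a, b) ∈ X := by
    rintro a b ⟨p, hp, rfl, rfl⟩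
    exact h p hp
  interval_cases o
  · refine ⟨(tx, ty), 1, 1, Or.inl rfl, Or.inl rfl, Or.inl ?_⟩
    intro p hp
    apply key
    simp only [snaky, Finset.mem_insert, Finset.mem_singleton] at hp
    rcases hp with rfl | rfl | rfl | rfl | rfl | rfl <;> simp [offs]
  · refine ⟨(tx + 4, ty), -1, 1, Or.inr rfl, Or.inl rfl, Or.inl ?_⟩
    intro p hp
    apply key
    simp only [snaky, Finset.mem_insert, Finset.mem_singleton] at hp
    rcases hp with rfl | rfl | rfl | rfl | rfl | rfl <;> simp [offs] <;> omega
  · refine ⟨(tx, ty + 1), 1, -1, Or.inl rfl, Or.inr rfl, Or.inl ?_⟩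
    intro p hp
    apply key
    simp only [snaky, Finset.mem_insert, Finset.mem_singleton] at hp
    rcases hp with rfl | rfl | rfl | rfl | rfl | rfl <;> simp [offs]
  · refine ⟨(tx + 4, ty + 1), -1, -1, Or.inr rfl, Or.inr rfl, Or.inl ?_⟩
    intro p hp
    apply key
    simp only [snaky, Finset.mem_insert, Finset.mem_singleton] at hp
    rcases hp with rfl | rfl | rfl | rfl | rfl | rfl <;> simp [offs] <;> omega
  · refine ⟨(tx, ty), 1, 1, Or.inl rfl, Or.inl rfl, Or.inr ?_⟩
    intro p hp
    apply key
    simp only [snaky, Finset.mem_insert, Finset.mem_singleton] at hp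
    rcases hp with rfl | rfl | rfl | rfl | rfl | rfl <;> simp [offs]
  · refine ⟨(tx + 1, ty), -1, 1, Or.inr rfl, Or.inl rfl, Or.inr ?_⟩
    intro p hp
    apply key
    simp only [snaky, Finset.mem_insert, Finset.mem_singleton] at hp
    rcases hp with rfl | rfl | rfl | rfl | rfl | rfl <;> simp [offs]
  · refine ⟨(tx, ty + 4), 1, -1, Or.inl rfl, Or.inr rfl, Or.inr ?_⟩
    intro p hp
    apply key
    simp only [snaky, Finset.mem_insert, Finset.mem_singleton] at hp
    rcases hp with rfl | rfl | rfl | rfl | rfl | rfl <;> simp [offs] <;> omega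
  · refine ⟨(tx + 1, ty + 4), -1, -1, Or.inr rfl, Or.inr rfl, Or.inr ?_⟩
    intro p hp
    apply key
    simp only [snaky, Finset.mem_insert, Finset.mem_singleton] at hp
    rcases hp with rfl | rfl | rfl | rfl | rfl | rfl <;> simp [offs] <;> omega

theorem copy_of_winOK {h M : ℕ} {X : Finset (ℤ × ℤ)} (hw : winOK h M = true)
    (hX : ∀ i : ℕ, M.testBit i = true → cellOf i ∈ X) : ContainsCopy (X : Set (ℤ × ℤ)) := by
  unfold winOK at hw
  obtain ⟨hw1, hw2⟩ := Bool.and_eq_true_iff.mp hw
  have ho : h % 8 < 8 := Nat.mod_lt _ (by norm_num)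
  have hx : (h / 8) % 64 ≤ xmax (h % 8) := Nat.le_of_ble_eq_true hw1
  have hM : M &&& (pat (h % 8) <<< (h / 8)) = pat (h % 8) <<< (h / 8) := Nat.eq_of_beq_eq_true hw2
  apply copy_of_offs (h % 8) ho (((h / 8) % 64 : ℕ) : ℤ) (((h / 8) / 64 : ℕ) : ℤ)
  intro p hp
  obtain ⟨hp1, hp2⟩ := pat_offs (h % 8) ho p hp
  rw [Finset.mem_coe]
  have hbit : M.testBit (h / 8 + (p.1 + 64 * p.2)) = true := by
    have : (pat (h % 8) <<< (h / 8)).testBit (h / 8 + (p.1 + 64 * p.2)) = true := by
      rw [Nat.testBit_shiftLeft]
      simp [hp1]
    rw [← hM, Nat.testBit_and] at this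
    exact (Bool.and_eq_true_iff.mp this).1
  have hc := hX _ hbit
  have e1 : (h / 8 + (p.1 + 64 * p.2)) % 64 = (h / 8) % 64 + p.1 := by omega
  have e2 : (h / 8 + (p.1 + 64 * p.2)) / 64 = (h / 8) / 64 + p.2 := by omega
  unfold cellOf at hc
  rw [e1, e2] at hc
  push_cast at hc
  exact hc

/-! ### soundness -/

theorem chk_sound (O : ℕ → Option (ℕ × ℕ × ℕ))
    (hO : ∀ k P Z e, O k = some (P, Z, e) → WZ P Z e) (T : Tr) :
    ∀ (md : Bool) (M A : ℕ) (bd : Bool) (R Z e : ℕ), chk O T md M A bd R = some (Z, e) →
      (md = false → WZ M Z e) ∧ (md = true → CZ M A bd R Z e) := by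
  induction T with
  | win h =>
    intro md M A bd R Z e hc
    have hc' : cond (winOK h M) (some (0, 0)) none = some (Z, e) := hc
    cases hw : winOK h M with
    | false => rw [hw] at hc'; cases hc'
    | true =>
      exact ⟨fun _ X Y hX _ => MW.win (copy_of_winOK hw hX),
        fun _ X Y u hX _ _ _ _ _ => MW.win (copy_of_winOK hw hX)⟩
  | mv m ch ih =>
    intro md M A bd R Z e hc
    cases md with
    | true => cases hc
    | false =>
      refine ⟨fun _ => ?_, fun hh => (by cases hh)⟩
      have hc' : Option.rec none
          (fun r : ℕ × ℕ => some (Nat.lor r.1 (Nat.shiftLeft 1 m), Nat.succ r.2))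
          (chk O ch true (Nat.lor M (Nat.shiftLeft 1 m)) (Nat.lor M (Nat.shiftLeft 1 m)) false 0)
            = some (Z, e) := hc
      cases hr : chk O ch true (Nat.lor M (Nat.shiftLeft 1 m)) (Nat.lor M (Nat.shiftLeft 1 m))
          false 0 with
      | none => rw [hr] at hc'; cases hc'
      | some r =>
        obtain ⟨Zc, ec⟩ := r
        rw [hr] at hc'
        have hpair : (Nat.lor Zc (Nat.shiftLeft 1 m), Nat.succ ec) = (Z, e) := Option.some.inj hc'
        have hZ : Nat.lor Zc (Nat.shiftLeft 1 m) = Z := congrArg Prod.fst hpair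
        have he : Nat.succ ec = e := congrArg Prod.snd hpair
        subst hZ; subst he
        have hcz := (ih true _ _ false 0 Zc ec hr).2 rfl
        intro X Y hX hY
        have hmY : cellOf m ∉ Y := hY m (testBit_lor_right (testBit_bit_self m))
        have hYc : ∀ i : ℕ, Zc.testBit i = true → cellOf i ∉ Y :=
          fun i hi => hY i (testBit_lor_left hi)
        by_cases hmX : cellOf m ∈ X
        · obtain ⟨f, hf1, hf2⟩ := exists_fresh X Y
          refine MW.step f hf1 hf2 (fun u hu1 hu2 => ?_)
          have hX' : ∀ i : ℕ, (Nat.lor M (Nat.shiftLeft 1 m)).testBit i = true →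
              cellOf i ∈ insert f X := by
            intro i hi
            rcases testBit_lor_cases hi with h1 | h1
            · exact Finset.mem_insert_of_mem (hX i h1)
            · rw [← eq_of_testBit_bit h1]; exact Finset.mem_insert_of_mem hmX
          exact hcz (insert f X) Y u hX' hYc hu1 hu2
            (fun i hi heq => hu1 (heq ▸ hX' i hi)) (fun hh => by cases hh)
        · refine MW.step (cellOf m) hmX hmY (fun u hu1 hu2 => ?_)
          have hX' : ∀ i : ℕ, (Nat.lor M (Nat.shiftLeft 1 m)).testBit i = true →
              cellOf i ∈ insert (cellOf m) X := by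
            intro i hi
            rcases testBit_lor_cases hi with h1 | h1
            · exact Finset.mem_insert_of_mem (hX i h1)
            · rw [← eq_of_testBit_bit h1]; exact Finset.mem_insert_self _ _
          exact hcz (insert (cellOf m) X) Y u hX' hYc hu1 hu2
            (fun i hi heq => hu1 (heq ▸ hX' i hi)) (fun hh => by cases hh)
  | thr m c h t ih =>
    intro md M A bd R Z e hc
    cases md with
    | true => cases hc
    | false =>
      refine ⟨fun _ => ?_, fun hh => (by cases hh)⟩
      have hc' : cond (winOK h (Nat.lor (Nat.lor M (Nat.shiftLeft 1 m)) (Nat.shiftLeft 1 c)))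
          (Option.rec none
            (fun r : ℕ × ℕ => cond (tst r.1 c)
              (some (Nat.lor (Nat.lor r.1 (Nat.shiftLeft 1 m)) (Nat.shiftLeft 1 c),
                Nat.succ (mx r.2 1)))
              none)
            (chk O t false (Nat.lor M (Nat.shiftLeft 1 m)) 0 false 0))
          none = some (Z, e) := hc
      cases hw : winOK h (Nat.lor (Nat.lor M (Nat.shiftLeft 1 m)) (Nat.shiftLeft 1 c)) with
      | false => rw [hw] at hc'; cases hc'
      | true =>
        rw [hw] at hc'
        cases hr : chk O t false (Nat.lor M (Nat.shiftLeft 1 m)) 0 false 0 with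
        | none => rw [hr] at hc'; cases hc'
        | some r =>
          obtain ⟨Z1, e1⟩ := r
          rw [hr] at hc'
          have hc'' : cond (tst Z1 c)
              (some (Nat.lor (Nat.lor Z1 (Nat.shiftLeft 1 m)) (Nat.shiftLeft 1 c),
                Nat.succ (mx e1 1))) none = some (Z, e) := hc'
          cases ht : tst Z1 c with
          | false => rw [ht] at hc''; cases hc''
          | true =>
            rw [ht] at hc''
            have hpair : (Nat.lor (Nat.lor Z1 (Nat.shiftLeft 1 m)) (Nat.shiftLeft 1 c),
                Nat.succ (mx e1 1)) = (Z, e) := Option.some.inj hc''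
            have hZ : Nat.lor (Nat.lor Z1 (Nat.shiftLeft 1 m)) (Nat.shiftLeft 1 c) = Z :=
              congrArg Prod.fst hpair
            have he : Nat.succ (mx e1 1) = e := congrArg Prod.snd hpair
            subst hZ; subst he
            have hwz := (ih false _ 0 false 0 Z1 e1 hr).1 rfl
            have hcZ1 : Z1.testBit c = false := tst_spec ht
            intro X Y hX hY
            have hmY : cellOf m ∉ Y :=
              hY m (testBit_lor_left (testBit_lor_right (testBit_bit_self m)))
            have hcY : cellOf c ∉ Y := hY c (testBit_lor_right (testBit_bit_self c))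
            have hY1 : ∀ i : ℕ, Z1.testBit i = true → cellOf i ∉ Y :=
              fun i hi => hY i (testBit_lor_left (testBit_lor_left hi))
            -- the generic continuation after Maker owns `m` (set `X'`)
            have cont : ∀ X' : Finset (ℤ × ℤ),
                (∀ i : ℕ, (Nat.lor M (Nat.shiftLeft 1 m)).testBit i = true → cellOf i ∈ X') →
                ∀ u : ℤ × ℤ, u ∉ X' → u ∉ Y → MW X' (insert u Y) (mx e1 1) := by
              intro X' hX' u hu1 hu2
              by_cases huc : u = cellOf c
              · refine MW_mono (hwz X' (insert u Y) hX' ?_) (le_mx_left e1 1)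
                intro i hi hmem
                rcases Finset.mem_insert.1 hmem with h1 | h1
                · have : i = c := cellOf_inj (h1.trans huc)
                  rw [this, hcZ1] at hi
                  cases hi
                · exact hY1 i hi h1
              · have hcY' : cellOf c ∉ insert u Y := by
                  intro hmem
                  rcases Finset.mem_insert.1 hmem with h1 | h1
                  · exact huc h1.symm
                  · exact hcY h1
                by_cases hcX : cellOf c ∈ X'
                · refine MW.win (copy_of_winOK hw ?_)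
                  intro i hi
                  rcases testBit_lor_cases hi with h1 | h1
                  · exact hX' i h1
                  · rw [← eq_of_testBit_bit h1]; exact hcX
                · refine MW_mono (d := 0 + 1) (MW.step (cellOf c) hcX hcY' (fun u' _ _ => ?_))
                    (le_mx_right e1 1)
                  refine MW.win (copy_of_winOK hw ?_)
                  intro i hi
                  rcases testBit_lor_cases hi with h1 | h1
                  · exact Finset.mem_insert_of_mem (hX' i h1)
                  · rw [← eq_of_testBit_bit h1]; exact Finset.mem_insert_self _ _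
            by_cases hmX : cellOf m ∈ X
            · obtain ⟨f, hf1, hf2⟩ := exists_fresh X Y
              refine MW.step f hf1 hf2 (fun u hu1 hu2 => cont (insert f X) ?_ u hu1 hu2)
              intro i hi
              rcases testBit_lor_cases hi with h1 | h1
              · exact Finset.mem_insert_of_mem (hX i h1)
              · rw [← eq_of_testBit_bit h1]; exact Finset.mem_insert_of_mem hmX
            · refine MW.step (cellOf m) hmX hmY
                (fun u hu1 hu2 => cont (insert (cellOf m) X) ?_ u hu1 hu2)
              intro i hi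
              rcases testBit_lor_cases hi with h1 | h1
              · exact Finset.mem_insert_of_mem (hX i h1)
              · rw [← eq_of_testBit_bit h1]; exact Finset.mem_insert_self _ _
  | ext k =>
    intro md M A bd R Z e hc
    cases md with
    | true => cases hc
    | false =>
      refine ⟨fun _ => ?_, fun hh => (by cases hh)⟩
      have hc' : Option.rec none
          (fun p : ℕ × ℕ × ℕ => cond (sbs p.1 M) (some p.2) none) (O k) = some (Z, e) := hc
      cases hk : O k with
      | none => rw [hk] at hc'; cases hc'
      | some p =>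
        obtain ⟨P, Z', e'⟩ := p
        rw [hk] at hc'
        have hc'' : cond (sbs P M) (some (Z', e')) none = some (Z, e) := hc'
        cases hs : sbs P M with
        | false => rw [hs] at hc''; cases hc''
        | true =>
          rw [hs] at hc''
          have hpair : (Z', e') = (Z, e) := Option.some.inj hc''
          have hZ : Z' = Z := congrArg Prod.fst hpair
          have he : e' = e := congrArg Prod.snd hpair
          subst hZ; subst he
          intro X Y hX hY
          exact hO k P Z' e' hk X Y (fun i hi => hX i (sbs_spec hs i hi)) hY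
  | alt c sub rest ihs ihr =>
    intro md M A bd R Z e hc
    cases md with
    | false => cases hc
    | true =>
      refine ⟨fun hh => (by cases hh), fun _ => ?_⟩
      have hc' : Option.rec none
          (fun r1 : ℕ × ℕ => cond (tst r1.1 c)
            (Option.rec none (fun r2 : ℕ × ℕ => some (Nat.lor r1.1 r2.1, mx r1.2 r2.2))
              (chk O rest true M (Nat.lor A (Nat.shiftLeft 1 c)) bd R))
            none)
          (chk O sub false M 0 false 0) = some (Z, e) := hc
      cases h1 : chk O sub false M 0 false 0 with
      | none => rw [h1] at hc'; cases hc'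
      | some r1 =>
        obtain ⟨Z1, e1⟩ := r1
        rw [h1] at hc'
        have hc'' : cond (tst Z1 c)
            (Option.rec none (fun r2 : ℕ × ℕ => some (Nat.lor Z1 r2.1, mx e1 r2.2))
              (chk O rest true M (Nat.lor A (Nat.shiftLeft 1 c)) bd R))
            none = some (Z, e) := hc'
        cases ht : tst Z1 c with
        | false => rw [ht] at hc''; cases hc''
        | true =>
          rw [ht] at hc''
          cases h2 : chk O rest true M (Nat.lor A (Nat.shiftLeft 1 c)) bd R with
          | none => rw [h2] at hc''; cases hc''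
          | some r2 =>
            obtain ⟨Z2, e2⟩ := r2
            rw [h2] at hc''
            have hpair : (Nat.lor Z1 Z2, mx e1 e2) = (Z, e) := Option.some.inj hc''
            have hZ : Nat.lor Z1 Z2 = Z := congrArg Prod.fst hpair
            have he : mx e1 e2 = e := congrArg Prod.snd hpair
            subst hZ; subst he
            have hg1 := (ihs false M 0 false 0 Z1 e1 h1).1 rfl
            have hg2 := (ihr true M _ bd R Z2 e2 h2).2 rfl
            have hcZ1 : Z1.testBit c = false := tst_spec ht
            intro X Y u hX hY hu1 hu2 hA hR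
            by_cases hu : u = cellOf c
            · refine MW_mono (hg1 X (insert u Y) hX ?_) (le_mx_left e1 e2)
              intro i hi hmem
              rcases Finset.mem_insert.1 hmem with h3 | h3
              · have : i = c := cellOf_inj (h3.trans hu)
                rw [this, hcZ1] at hi
                cases hi
              · exact hY i (testBit_lor_left hi) h3
            · refine MW_mono (hg2 X Y u hX (fun i hi => hY i (testBit_lor_right hi)) hu1 hu2 ?_ hR)
                (le_mx_right e1 e2)
              intro i hi
              rcases testBit_lor_cases hi with h3 | h3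
              · exact hA i h3
              · rw [← eq_of_testBit_bit h3]
                exact fun h => hu h.symm
  | dflt sub rest ihs ihr =>
    intro md M A bd R Z e hc
    cases md with
    | false => cases hc
    | true =>
      refine ⟨fun hh => (by cases hh), fun _ => ?_⟩
      have hc' : Option.rec none
          (fun r1 : ℕ × ℕ =>
            Option.rec none (fun r2 : ℕ × ℕ => some (Nat.lor r1.1 r2.1, mx r1.2 r2.2))
              (chk O rest true M A true (cond bd (Nat.land R r1.1) r1.1)))
          (chk O sub false M 0 false 0) = some (Z, e) := hc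
      cases h1 : chk O sub false M 0 false 0 with
      | none => rw [h1] at hc'; cases hc'
      | some r1 =>
        obtain ⟨Z1, e1⟩ := r1
        rw [h1] at hc'
        have hc'' : Option.rec none (fun r2 : ℕ × ℕ => some (Nat.lor Z1 r2.1, mx e1 r2.2))
              (chk O rest true M A true (cond bd (Nat.land R Z1) Z1)) = some (Z, e) := hc'
        cases h2 : chk O rest true M A true (cond bd (Nat.land R Z1) Z1) with
        | none => rw [h2] at hc''; cases hc''
        | some r2 =>
          obtain ⟨Z2, e2⟩ := r2
          rw [h2] at hc''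
          have hpair : (Nat.lor Z1 Z2, mx e1 e2) = (Z, e) := Option.some.inj hc''
          have hZ : Nat.lor Z1 Z2 = Z := congrArg Prod.fst hpair
          have he : mx e1 e2 = e := congrArg Prod.snd hpair
          subst hZ; subst he
          have hg1 := (ihs false M 0 false 0 Z1 e1 h1).1 rfl
          have hg2 := (ihr true M A true _ Z2 e2 h2).2 rfl
          intro X Y u hX hY hu1 hu2 hA hR
          by_cases hu : ∃ i : ℕ, Z1.testBit i = true ∧ cellOf i = u
          · refine MW_mono (hg2 X Y u hX (fun i hi => hY i (testBit_lor_right hi)) hu1 hu2 hA ?_)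
              (le_mx_right e1 e2)
            intro _
            obtain ⟨i, hi, hiu⟩ := hu
            refine ⟨i, ?_, hiu⟩
            cases bd with
            | false => exact hi
            | true =>
              obtain ⟨j, hj, hju⟩ := hR rfl
              have hij : j = i := cellOf_inj (hju.trans hiu.symm)
              subst hij
              show (R &&& Z1).testBit j = true
              rw [Nat.testBit_and, hj, hi]; rfl
          · refine MW_mono (hg1 X (insert u Y) hX ?_) (le_mx_left e1 e2)
            intro i hi hmem
            rcases Finset.mem_insert.1 hmem with h3 | h3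
            · exact hu ⟨i, hi, h3⟩
            · exact hY i (testBit_lor_left hi) h3
  | done =>
    intro md M A bd R Z e hc
    cases md with
    | false => cases hc
    | true =>
      refine ⟨fun hh => (by cases hh), fun _ => ?_⟩
      cases bd with
      | false => cases hc
      | true =>
        have hc' : cond (sbs R A) (some (0, 0)) none = some (Z, e) := hc
        cases hs : sbs R A with
        | false => rw [hs] at hc'; cases hc'
        | true =>
          intro X Y u _ _ _ _ hA hR
          obtain ⟨i, hi, hiu⟩ := hR rfl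
          exact absurd hiu (hA i (sbs_spec hs i hi))

/-- The oracle that knows nothing. -/
def noO : ℕ → Option (ℕ × ℕ × ℕ) := fun _ => none

theorem WZ_of_chk {O : ℕ → Option (ℕ × ℕ × ℕ)}
    (hO : ∀ k P Z e, O k = some (P, Z, e) → WZ P Z e) {T : Tr} {M A : ℕ} {bd : Bool}
    {R Z e : ℕ} (h : chk O T false M A bd R = some (Z, e)) : WZ M Z e :=
  (chk_sound O hO T false M A bd R Z e h).1 rfl

theorem WZ_of_chk_noO {T : Tr} {M A : ℕ} {bd : Bool} {R Z e : ℕ}
    (h : chk noO T false M A bd R = some (Z, e)) : WZ M Z e :=
  WZ_of_chk (fun _ _ _ _ h => by cases h) h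

theorem WZ_mono {P M Z e e' : ℕ} (h : WZ P Z e) (hs : sbs P M = true) (he : e ≤ e') :
    WZ M Z e' :=
  fun X Y hX hY => MW_mono (h X Y (fun i hi => hX i (sbs_spec hs i hi)) hY) he

/-- **Theorem B.** A zone lemma at the empty pattern with at most 21 claims gives a Maker win. -/
theorem MW_of_WZ {Z e : ℕ} (h : WZ 0 Z e) (he : e ≤ 21) : MW ∅ ∅ 21 :=
  MW_mono (h ∅ ∅ (fun i hi => by simp at hi) (fun _ _ hmem => by simp at hmem)) he

end Crest.Agent.H26Snaky
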