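import Mathlib

/-!
# Numerics of the core cover (row 211, S0324/S0325)

Explicit upper bound for the total base area of the discretised radial sweep families:
with `R t = 1/2 + μ²(t²+t⁴)/4 + μ⁴`, `q t = μ²(1+t²)²/4 + 2μ²t²` (`= ‖w t‖²`), tags `±k/n`
(`k = 1, …, n`) and apex shift `ν`,

  `∑_{k=1}^{n} (R(k/n) + ν)² / (n √(1 + q(k/n))) ≤ 1/4 - μ²/120 + (11/5) μ⁴ + 7μ²/(32 n) + 2ν`.
-/

set_option autoImplicit false

namespace Crest.Agent.Lib_helper29_CoreNum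

/-- The radius function of the sweep. -/
noncomputable def Rr (μ t : ℝ) : ℝ := 1 / 2 + μ ^ 2 * (t ^ 2 + t ^ 4) / 4 + μ ^ 4

/-- The squared norm of the tilt `w t`. -/
noncomputable def qq (μ t : ℝ) : ℝ := μ ^ 2 * (1 + t ^ 2) ^ 2 / 4 + 2 * μ ^ 2 * t ^ 2

lemma qq_nonneg (μ t : ℝ) : 0 ≤ qq μ t := by
  unfold qq; positivity

lemma Rr_pos (μ t : ℝ) : 0 < Rr μ t := by
  unfold Rr; positivity

lemma Rr_neg (μ t : ℝ) : Rr μ (-t) = Rr μ t := by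
  unfold Rr; ring

lemma qq_neg (μ t : ℝ) : qq μ (-t) = qq μ t := by
  unfold qq; ring

/-- `1/√(1+q) ≤ 1 - q/2 + 3q²/8` for `q ≥ 0`. -/
lemma inv_sqrt_le (q : ℝ) (hq : 0 ≤ q) :
    1 / Real.sqrt (1 + q) ≤ 1 - q / 2 + 3 * q ^ 2 / 8 := by
  set r := Real.sqrt (1 + q) with hr
  have hr2 : r ^ 2 = 1 + q := Real.sq_sqrt (by linarith)
  have hr0 : 0 ≤ r := Real.sqrt_nonneg _
  have hr1 : 1 ≤ r := by nlinarith
  have hrpos : 0 < r := by linarith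
  have hq' : q = r ^ 2 - 1 := by linarith
  rw [div_le_iff₀ hrpos, hq']
  have key : (1 - (r ^ 2 - 1) / 2 + 3 * (r ^ 2 - 1) ^ 2 / 8) * r - 1 =
      (r - 1) ^ 3 * (3 * r ^ 2 + 9 * r + 8) / 8 := by ring
  have hnn : 0 ≤ (r - 1) ^ 3 * (3 * r ^ 2 + 9 * r + 8) / 8 := by
    have : 0 ≤ r - 1 := by linarith
    positivity
  linarith

/-- Pointwise polynomial majorant of the integrand. -/
theorem pointwise (μ ν t : ℝ) (hμ : 0 ≤ μ) (hμ' : μ ≤ 1 / 20) (hν : 0 ≤ ν) (hν' : ν ≤ 1 / 100)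
    (ht : |t| ≤ 1) :
    (Rr μ t + ν) ^ 2 / Real.sqrt (1 + qq μ t) ≤
      1 / 4 + μ ^ 2 * (-1 / 32 - t ^ 2 / 16 + 7 * t ^ 4 / 32) + 11 / 5 * μ ^ 4 + 2 * ν := by
  set x := μ ^ 2 with hx
  set s := t ^ 2 with hs
  have hx0 : 0 ≤ x := sq_nonneg μ
  have hx1 : x ≤ 1 / 400 := by
    have : μ ^ 2 ≤ (1 / 20) ^ 2 := pow_le_pow_left₀ hμ hμ' 2
    rw [hx]; linarith
  have hs0 : 0 ≤ s := sq_nonneg t
  have hs1 : s ≤ 1 := by
    have : t ^ 2 ≤ 1 ^ 2 := sq_le_sq' (by linarith [abs_le.1 ht]) (abs_le.1 ht).2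
    rw [hs]; linarith
  set B := x * (s + s ^ 2) / 4 + x ^ 2 with hB
  set q := x * (1 + s) ^ 2 / 4 + 2 * x * s with hqdef
  have hRr : Rr μ t = 1 / 2 + B := by
    simp only [Rr, hB, hx, hs]; ring
  have hqq : qq μ t = q := by
    simp only [qq, hqdef, hx, hs]
  have hq0 : 0 ≤ q := by rw [← hqq]; exact qq_nonneg μ t
  have hq3 : q ≤ 3 * x := by
    have h1 : (1 + s) ^ 2 ≤ 4 := by nlinarith
    have h2 : x * (1 + s) ^ 2 ≤ x * 4 := mul_le_mul_of_nonneg_left h1 hx0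
    have h3 : x * s ≤ x * 1 := mul_le_mul_of_nonneg_left hs1 hx0
    rw [hqdef]; linarith
  have hB0 : 0 ≤ B := by rw [hB]; positivity
  have hBle : B ≤ 201 / 400 * x := by
    have h1 : s + s ^ 2 ≤ 2 := by nlinarith
    have h2 : x * (s + s ^ 2) ≤ x * 2 := mul_le_mul_of_nonneg_left h1 hx0
    have h3 : x ^ 2 ≤ 1 / 400 * x := by nlinarith
    rw [hB]; linarith
  set A := B + ν with hA
  have hA0 : 0 ≤ A := by rw [hA]; linarith
  have hAle : A ≤ 113 / 10000 := by rw [hA]; linarith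
  -- the square of `A`
  have hA2 : A ^ 2 ≤ 51 / 200 * x ^ 2 + 1 / 50 * ν := by
    have h1 : B ^ 2 ≤ (201 / 400 * x) ^ 2 := pow_le_pow_left₀ hB0 hBle 2
    have h2 : 2 * B + ν ≤ 1 / 50 := by linarith
    have h3 : ν * (2 * B + ν) ≤ ν * (1 / 50) := mul_le_mul_of_nonneg_left h2 hν
    have h4 : A ^ 2 = B ^ 2 + ν * (2 * B + ν) := by rw [hA]; ring
    have h5 : (201 / 400 * x) ^ 2 ≤ 51 / 200 * x ^ 2 := by nlinarith [sq_nonneg x]
    linarith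
  have hA2' : A ^ 2 ≤ 1 / 1000 := by nlinarith
  have hq2 : q ^ 2 ≤ 9 * x ^ 2 := by
    have : q ^ 2 ≤ (3 * x) ^ 2 := pow_le_pow_left₀ hq0 hq3 2
    linarith [this, show (3 * x) ^ 2 = 9 * x ^ 2 by ring]
  have hq2nn : 0 ≤ q ^ 2 := sq_nonneg q
  have hterm : (1 / 4 + A + A ^ 2) * (3 * q ^ 2 / 8) ≤ 9 / 10 * x ^ 2 := by
    have h1 : 1 / 4 + A + A ^ 2 ≤ 263 / 1000 := by linarith
    have h0 : 0 ≤ 1 / 4 + A + A ^ 2 := by positivity
    have h2 : 3 * q ^ 2 / 8 ≤ 27 / 8 * x ^ 2 := by linarith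
    have h3 : 0 ≤ 3 * q ^ 2 / 8 := by positivity
    calc (1 / 4 + A + A ^ 2) * (3 * q ^ 2 / 8) ≤ 263 / 1000 * (27 / 8 * x ^ 2) :=
          mul_le_mul h1 h2 h3 (by norm_num)
      _ ≤ 9 / 10 * x ^ 2 := by nlinarith [sq_nonneg x]
  -- main estimate
  have hsq : 0 < Real.sqrt (1 + q) := Real.sqrt_pos.2 (by linarith)
  have hinv := inv_sqrt_le q hq0
  have hnum0 : 0 ≤ (1 / 2 + A) ^ 2 := sq_nonneg _
  rw [hRr, hqq]
  have e1 : (1 / 2 + B + ν) ^ 2 / Real.sqrt (1 + q) = (1 / 2 + A) ^ 2 * (1 / Real.sqrt (1 + q)) := by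
    rw [hA]; ring
  rw [e1]
  calc (1 / 2 + A) ^ 2 * (1 / Real.sqrt (1 + q))
      ≤ (1 / 2 + A) ^ 2 * (1 - q / 2 + 3 * q ^ 2 / 8) := mul_le_mul_of_nonneg_left hinv hnum0
    _ = 1 / 4 + A - q / 8 + (A ^ 2 + (1 / 4 + A + A ^ 2) * (3 * q ^ 2 / 8))
          - (A * q / 2 + A ^ 2 * q / 2) := by ring
    _ ≤ 1 / 4 + A - q / 8 + (A ^ 2 + (1 / 4 + A + A ^ 2) * (3 * q ^ 2 / 8)) := by
          have : 0 ≤ A * q / 2 + A ^ 2 * q / 2 := by positivity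
          linarith
    _ ≤ 1 / 4 + A - q / 8 + (51 / 200 * x ^ 2 + 1 / 50 * ν + 9 / 10 * x ^ 2) := by linarith
    _ ≤ 1 / 4 + x * (-1 / 32 - s / 16 + 7 * s ^ 2 / 32) + 11 / 5 * x ^ 2 + 2 * ν := by
          have e2 : A - q / 8 = x * (-1 / 32 - s / 16 + 7 * s ^ 2 / 32) + x ^ 2 + ν := by
            rw [hA, hB, hqdef]; ring
          linarith [e2, sq_nonneg x]
    _ = 1 / 4 + μ ^ 2 * (-1 / 32 - t ^ 2 / 16 + 7 * t ^ 4 / 32) + 11 / 5 * μ ^ 4 + 2 * ν := by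
          rw [hx, hs]; ring

/-- `∑_{k=1}^{n} k² ≥ n³/3`. -/
lemma sum_sq_ge (n : ℕ) : (n : ℝ) ^ 3 / 3 ≤ ∑ k ∈ Finset.range n, ((k : ℝ) + 1) ^ 2 := by
  induction n with
  | zero => simp
  | succ m ih =>
    rw [Finset.sum_range_succ]
    push_cast
    have : (0 : ℝ) ≤ m := Nat.cast_nonneg m
    nlinarith

/-- `∑_{k=1}^{n} k⁴ ≤ n⁵/5 + n⁴`. -/
lemma sum_pow4_le (n : ℕ) :
    ∑ k ∈ Finset.range n, ((k : ℝ) + 1) ^ 4 ≤ (n : ℝ) ^ 5 / 5 + (n : ℝ) ^ 4 := by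
  induction n with
  | zero => simp
  | succ m ih =>
    rw [Finset.sum_range_succ]
    push_cast
    have : (0 : ℝ) ≤ m := Nat.cast_nonneg m
    nlinarith [pow_nonneg this 2, pow_nonneg this 3, pow_nonneg this 4]

/-- **Riemann-sum bound** for one half family (tags `k/n`, `k = 1, …, n`). -/
theorem half_sum_le (μ ν : ℝ) (n : ℕ) (hn : 0 < n) (hμ : 0 ≤ μ) (hμ' : μ ≤ 1 / 20) (hν : 0 ≤ ν)
    (hν' : ν ≤ 1 / 100) :
    ∑ k ∈ Finset.range n,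
        (Rr μ (((k : ℝ) + 1) / n) + ν) ^ 2 / (n * Real.sqrt (1 + qq μ (((k : ℝ) + 1) / n))) ≤
      1 / 4 - μ ^ 2 / 120 + 11 / 5 * μ ^ 4 + 7 * μ ^ 2 / (32 * n) + 2 * ν := by
  have hn' : (0 : ℝ) < n := by exact_mod_cast hn
  have hpt : ∀ k ∈ Finset.range n,
      (Rr μ (((k : ℝ) + 1) / n) + ν) ^ 2 / (n * Real.sqrt (1 + qq μ (((k : ℝ) + 1) / n))) ≤
        (1 / 4 - μ ^ 2 / 32 + 11 / 5 * μ ^ 4 + 2 * ν) / n
          - μ ^ 2 / (16 * (n : ℝ) ^ 3) * ((k : ℝ) + 1) ^ 2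
          + 7 * μ ^ 2 / (32 * (n : ℝ) ^ 5) * ((k : ℝ) + 1) ^ 4 := by
    intro k hk
    have hk' : ((k : ℝ) + 1) ≤ n := by
      have := Finset.mem_range.1 hk
      exact_mod_cast this
    have hk0 : (0 : ℝ) ≤ (k : ℝ) + 1 := by positivity
    have ht : |((k : ℝ) + 1) / n| ≤ 1 := by
      rw [abs_of_nonneg (by positivity), div_le_one hn']
      exact hk'
    have h := pointwise μ ν (((k : ℝ) + 1) / n) hμ hμ' hν hν' ht
    have e : (Rr μ (((k : ℝ) + 1) / n) + ν) ^ 2 / (n * Real.sqrt (1 + qq μ (((k : ℝ) + 1) / n))) =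
        (Rr μ (((k : ℝ) + 1) / n) + ν) ^ 2 / Real.sqrt (1 + qq μ (((k : ℝ) + 1) / n)) / n := by
      rw [div_div, mul_comm]
    rw [e]
    have h2 : (Rr μ (((k : ℝ) + 1) / n) + ν) ^ 2 / Real.sqrt (1 + qq μ (((k : ℝ) + 1) / n)) / n ≤
        (1 / 4 + μ ^ 2 * (-1 / 32 - (((k : ℝ) + 1) / n) ^ 2 / 16 +
          7 * (((k : ℝ) + 1) / n) ^ 4 / 32) + 11 / 5 * μ ^ 4 + 2 * ν) / n :=
      div_le_div_of_nonneg_right h hn'.le
    refine h2.trans (le_of_eq ?_)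
    field_simp
    ring
  refine (Finset.sum_le_sum hpt).trans ?_
  rw [Finset.sum_add_distrib, Finset.sum_sub_distrib, ← Finset.mul_sum, ← Finset.mul_sum]
  simp only [Finset.sum_const, Finset.card_range, nsmul_eq_mul]
  have h2 := sum_sq_ge n
  have h4 := sum_pow4_le n
  have c2 : 0 ≤ μ ^ 2 / (16 * (n : ℝ) ^ 3) := by positivity
  have c4 : 0 ≤ 7 * μ ^ 2 / (32 * (n : ℝ) ^ 5) := by positivity
  have b2 : μ ^ 2 / (16 * (n : ℝ) ^ 3) * ((n : ℝ) ^ 3 / 3) ≤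
      μ ^ 2 / (16 * (n : ℝ) ^ 3) * ∑ k ∈ Finset.range n, ((k : ℝ) + 1) ^ 2 :=
    mul_le_mul_of_nonneg_left h2 c2
  have b4 : 7 * μ ^ 2 / (32 * (n : ℝ) ^ 5) * ∑ k ∈ Finset.range n, ((k : ℝ) + 1) ^ 4 ≤
      7 * μ ^ 2 / (32 * (n : ℝ) ^ 5) * ((n : ℝ) ^ 5 / 5 + (n : ℝ) ^ 4) :=
    mul_le_mul_of_nonneg_left h4 c4
  have e2 : μ ^ 2 / (16 * (n : ℝ) ^ 3) * ((n : ℝ) ^ 3 / 3) = μ ^ 2 / 48 := by
    field_simp
    ring
  have e4 : 7 * μ ^ 2 / (32 * (n : ℝ) ^ 5) * ((n : ℝ) ^ 5 / 5 + (n : ℝ) ^ 4) =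
      7 * μ ^ 2 / 160 + 7 * μ ^ 2 / (32 * n) := by
    field_simp
    ring
  have e0 : (n : ℝ) * ((1 / 4 - μ ^ 2 / 32 + 11 / 5 * μ ^ 4 + 2 * ν) / n) =
      1 / 4 - μ ^ 2 / 32 + 11 / 5 * μ ^ 4 + 2 * ν := by
    field_simp
  rw [e0]
  linarith

/-! ### The full family: tags at the piece endpoints farther from `0` -/

/-- Base-area integrand of one piece (area of the `i`-th triangle divided by `√2`). -/
noncomputable def Gf (μ : ℝ) (n : ℕ) (t : ℝ) : ℝ :=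
  (Rr μ t + 4 * μ / n) ^ 2 / (2 * n * Real.sqrt (1 + qq μ t))

/-- Tag of the `i`-th piece `[-1 + i/n, -1 + (i+1)/n]` of the uniform partition of `[-1, 1]`
into `2n` pieces: the endpoint farther from `0`. -/
noncomputable def tag (n : ℕ) (i : ℕ) : ℝ :=
  if i < n then -1 + (i : ℝ) / n else -1 + ((i : ℝ) + 1) / n

lemma Gf_neg (μ : ℝ) (n : ℕ) (t : ℝ) : Gf μ n (-t) = Gf μ n t := by
  unfold Gf; rw [Rr_neg, qq_neg]

/-- Sum over the tags of an even function. -/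
theorem sum_tag_eq (n : ℕ) (hn : 0 < n) (f : ℝ → ℝ) (hf : ∀ t, f (-t) = f t) :
    ∑ i : Fin (2 * n), f (tag n i) = 2 * ∑ k ∈ Finset.range n, f (((k : ℝ) + 1) / n) := by
  have hn' : (n : ℝ) ≠ 0 := by exact_mod_cast hn.ne'
  rw [Fin.sum_univ_eq_sum_range (fun i => f (tag n i)) (2 * n), two_mul, Finset.sum_range_add]
  have h1 : ∑ x ∈ Finset.range n, f (tag n x) = ∑ k ∈ Finset.range n, f (((k : ℝ) + 1) / n) := by
    rw [← Finset.sum_range_reflect (fun k => f (((k : ℝ) + 1) / n)) n]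
    refine Finset.sum_congr rfl fun j hj => ?_
    have hj' : j < n := Finset.mem_range.1 hj
    have hcast : ((n - 1 - j : ℕ) : ℝ) = (n : ℝ) - 1 - j := by
      have : n - 1 - j + 1 + j = n := by omega
      have h2 : ((n - 1 - j : ℕ) : ℝ) + 1 + j = n := by exact_mod_cast this
      linarith
    simp only [tag, hj', if_true]
    rw [hcast, ← hf]
    congr 1
    field_simp
    ring
  have h2 : ∑ x ∈ Finset.range n, f (tag n (n + x)) =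
      ∑ k ∈ Finset.range n, f (((k : ℝ) + 1) / n) := by
    refine Finset.sum_congr rfl fun j _ => ?_
    have hj' : ¬ (n + j < n) := by omega
    simp only [tag, hj', if_false]
    congr 1
    push_cast
    field_simp
    ring
  rw [h1, h2, two_mul]

/-- **Area bound for one family**, general parameters. -/
theorem family_sum_le (μ : ℝ) (n : ℕ) (hn : 20 ≤ n) (hμ : 0 ≤ μ) (hμ' : μ ≤ 1 / 20) :
    ∑ i : Fin (2 * n), Gf μ n (tag n i) ≤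
      1 / 4 - μ ^ 2 / 120 + 11 / 5 * μ ^ 4 + 7 * μ ^ 2 / (32 * n) + 8 * μ / n := by
  have hn0 : 0 < n := by omega
  have hn' : (0 : ℝ) < n := by exact_mod_cast hn0
  have hn20 : (20 : ℝ) ≤ n := by exact_mod_cast hn
  have hν : 0 ≤ 4 * μ / n := by positivity
  have hν' : 4 * μ / n ≤ 1 / 100 := by
    rw [div_le_iff₀ hn']
    nlinarith
  rw [sum_tag_eq n hn0 (Gf μ n) (Gf_neg μ n), Finset.mul_sum]
  have h := half_sum_le μ (4 * μ / n) n hn0 hμ hμ' hν hν'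
  have e : ∀ k ∈ Finset.range n, 2 * Gf μ n (((k : ℝ) + 1) / n) =
      (Rr μ (((k : ℝ) + 1) / n) + 4 * μ / n) ^ 2 /
        (n * Real.sqrt (1 + qq μ (((k : ℝ) + 1) / n))) := by
    intro k _
    unfold Gf
    have hs : 0 < Real.sqrt (1 + qq μ (((k : ℝ) + 1) / n)) :=
      Real.sqrt_pos.2 (by linarith [qq_nonneg μ (((k : ℝ) + 1) / n)])
    field_simp
  rw [Finset.sum_congr rfl e]
  refine h.trans (le_of_eq ?_)
  ring

/-- **Area bound for one family**, `μ = 1/20`, `n = 10⁶` (so `2n = 2·10⁶` cylinders per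
family): the total base area of one family is at most `√2 · (1/2 - 10⁻⁵)/2`. -/
theorem num_full :
    ∑ i : Fin (2 * 1000000), Gf (1 / 20) 1000000 (tag 1000000 i) ≤ (1 / 2 - 1 / 100000) / 2 := by
  have h := family_sum_le (1 / 20) 1000000 (by norm_num) (by norm_num) (by norm_num)
  refine h.trans ?_
  norm_num

/-- Two families: `2 * X ≤ 1/2 - g` with `g = 10⁻⁵`. -/
theorem num_total :
    2 * ∑ i : Fin (2 * 1000000), Gf (1 / 20) 1000000 (tag 1000000 i) ≤ 1 / 2 - 1 / 100000 := by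
  have := num_full
  linarith

/-- The gain `10⁻⁵` exceeds the threshold `13/24000000000` needed for S0325. -/
theorem gain_ok : (13 : ℝ) / 24000000000 ≤ 1 / 100000 := by norm_num

/-- `qq μ t` is the squared norm of `w t = (0, μ/2·(1+t²), √2·μ·t)`. -/
theorem norm_w_sq (μ t : ℝ) :
    ‖(!₂[0, μ / 2 * (1 + t ^ 2), Real.sqrt 2 * μ * t] : EuclideanSpace ℝ (Fin 3))‖ ^ 2 = qq μ t := by
  rw [EuclideanSpace.norm_sq_eq]
  simp only [Fin.sum_univ_three, Real.norm_eq_abs, sq_abs]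
  simp only [qq]
  have h2 : Real.sqrt 2 ^ 2 = 2 := Real.sq_sqrt (by norm_num)
  simp
  nlinarith [h2]

end Crest.Agent.Lib_helper29_CoreNum
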