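import Mathlib

set_option autoImplicit false

namespace Crest.Agent.Lib_helper6_Num

/-- radius function of the ruled family -/
noncomputable def Rf (μ t : ℝ) : ℝ := 1 / 2 + μ ^ 2 * (t ^ 2 + t ^ 4) / 4 + μ ^ 4

/-- squared norm of the tilt -/
noncomputable def qf (μ t : ℝ) : ℝ := μ ^ 2 * (1 + t ^ 2) ^ 2 / 4 + 2 * μ ^ 2 * t ^ 2

/-- area contribution of one thin piece -/
noncomputable def Gf (μ : ℝ) (n : ℕ) (t : ℝ) : ℝ :=
  (Rf μ t + 4 * μ / n) ^ 2 / (2 * n * Real.sqrt (1 + qf μ t))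

theorem qf_nonneg (μ t : ℝ) : 0 ≤ qf μ t := by
  unfold qf; positivity

theorem Gf_neg (μ : ℝ) (n : ℕ) (t : ℝ) : Gf μ n (-t) = Gf μ n t := by
  unfold Gf Rf qf
  simp only [even_two, Even.neg_pow, Even.neg_pow (n := 4) (by decide)]

theorem inv_sqrt_le (q : ℝ) (hq : 0 ≤ q) :
    1 / Real.sqrt (1 + q) ≤ 1 - q / 2 + 3 * q ^ 2 / 8 := by
  obtain ⟨s, hs⟩ : ∃ s, s = Real.sqrt (1 + q) := ⟨_, rfl⟩
  have hs1 : 1 ≤ s := by
    rw [hs]; exact Real.one_le_sqrt.2 (by linarith)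
  have hsq : s ^ 2 = 1 + q := by
    rw [hs]; exact Real.sq_sqrt (by linarith)
  have hq' : q = s ^ 2 - 1 := by linarith
  rw [← hs, hq', div_le_iff₀ (by linarith)]
  have e : (1 - (s ^ 2 - 1) / 2 + 3 * (s ^ 2 - 1) ^ 2 / 8) * s - 1
      = (s - 1) ^ 3 * (3 * s ^ 2 + 9 * s + 8) / 8 := by ring
  have h1 : 0 ≤ (s - 1) ^ 3 := pow_nonneg (by linarith) 3
  have h2 : 0 ≤ 3 * s ^ 2 + 9 * s + 8 := by nlinarith
  have h3 : 0 ≤ (s - 1) ^ 3 * (3 * s ^ 2 + 9 * s + 8) / 8 :=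
    div_nonneg (mul_nonneg h1 h2) (by norm_num)
  linarith

theorem pow_succ_sub_le (j : ℕ) (x : ℝ) (hx : 0 ≤ x) :
    (x + 1) ^ (j + 1) - x ^ (j + 1) ≤ ((j : ℝ) + 1) * (x + 1) ^ j := by
  induction j with
  | zero => simp
  | succ j ih =>
    have h1 : (x + 1) ^ (j + 1 + 1) - x ^ (j + 1 + 1)
        = (x + 1) * ((x + 1) ^ (j + 1) - x ^ (j + 1)) + x ^ (j + 1) := by ring
    have h2 : x ^ (j + 1) ≤ (x + 1) ^ (j + 1) := pow_le_pow_left₀ hx (by linarith) _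
    have h3 : (x + 1) * ((x + 1) ^ (j + 1) - x ^ (j + 1)) ≤ (x + 1) * (((j : ℝ) + 1) * (x + 1) ^ j) :=
      mul_le_mul_of_nonneg_left ih (by linarith)
    have h4 : (x + 1) * (((j : ℝ) + 1) * (x + 1) ^ j) = ((j : ℝ) + 1) * (x + 1) ^ (j + 1) := by ring
    push_cast
    rw [h1]
    linarith

theorem le_pow_succ_sub (j : ℕ) (x : ℝ) (hx : 0 ≤ x) :
    ((j : ℝ) + 1) * x ^ j ≤ (x + 1) ^ (j + 1) - x ^ (j + 1) := by
  induction j with
  | zero => simp
  | succ j ih =>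
    have h1 : (x + 1) ^ (j + 1 + 1) - x ^ (j + 1 + 1)
        = (x + 1) * ((x + 1) ^ (j + 1) - x ^ (j + 1)) + x ^ (j + 1) := by ring
    have h3 : (x + 1) * (((j : ℝ) + 1) * x ^ j) ≤ (x + 1) * ((x + 1) ^ (j + 1) - x ^ (j + 1)) :=
      mul_le_mul_of_nonneg_left ih (by linarith)
    have h4 : (x + 1) * (((j : ℝ) + 1) * x ^ j) = ((j : ℝ) + 1) * x ^ (j + 1) + ((j : ℝ) + 1) * x ^ j := by
      ring
    have h5 : 0 ≤ ((j : ℝ) + 1) * x ^ j := by positivity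
    push_cast
    rw [h1]
    linarith

theorem sum_pow_lower (j n : ℕ) :
    (n : ℝ) ^ (j + 1) ≤ ((j : ℝ) + 1) * ∑ k ∈ Finset.Icc 1 n, (k : ℝ) ^ j := by
  induction n with
  | zero => simp
  | succ n ih =>
    rw [Finset.sum_Icc_succ_top (by omega)]
    have h := pow_succ_sub_le j (n : ℝ) (Nat.cast_nonneg n)
    push_cast
    rw [mul_add]
    linarith

theorem sum_pow_upper (j n : ℕ) :
    ((j : ℝ) + 1) * ∑ k ∈ Finset.Icc 1 n, (k : ℝ) ^ j ≤ (n : ℝ) ^ (j + 1) + ((j : ℝ) + 1) * (n : ℝ) ^ j := by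
  induction n with
  | zero =>
    simp only [Finset.Icc_eq_empty_of_lt Nat.zero_lt_one, Finset.sum_empty, mul_zero,
      Nat.cast_zero]
    positivity
  | succ n ih =>
    rw [Finset.sum_Icc_succ_top (by omega)]
    have h := le_pow_succ_sub j (n : ℝ) (Nat.cast_nonneg n)
    push_cast
    rw [mul_add]
    linarith

/-- normalised monomial Riemann sum -/
noncomputable def Sm (j n : ℕ) : ℝ := ∑ k ∈ Finset.Icc 1 n, ((k : ℝ) / n) ^ j / n

theorem Sm_eq (j n : ℕ) (hn : 0 < n) :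
    Sm j n = (∑ k ∈ Finset.Icc 1 n, (k : ℝ) ^ j) / (n : ℝ) ^ (j + 1) := by
  unfold Sm
  rw [Finset.sum_div]
  apply Finset.sum_congr rfl
  intro k _
  have hn' : (n : ℝ) ≠ 0 := by positivity
  rw [div_pow, div_div, pow_succ]

theorem le_Sm (j n : ℕ) (hn : 0 < n) : 1 / ((j : ℝ) + 1) ≤ Sm j n := by
  rw [Sm_eq j n hn]
  have hn' : (0 : ℝ) < (n : ℝ) ^ (j + 1) := by positivity
  have hj : (0 : ℝ) < (j : ℝ) + 1 := by positivity
  rw [div_le_div_iff₀ hj hn']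
  have := sum_pow_lower j n
  linarith

theorem Sm_le (j n : ℕ) (hn : 0 < n) : Sm j n ≤ 1 / ((j : ℝ) + 1) + 1 / n := by
  rw [Sm_eq j n hn]
  have hn1 : (0 : ℝ) < (n : ℝ) := by positivity
  have hn' : (0 : ℝ) < (n : ℝ) ^ (j + 1) := by positivity
  have hj : (0 : ℝ) < (j : ℝ) + 1 := by positivity
  have e : 1 / ((j : ℝ) + 1) + 1 / (n : ℝ)
      = ((n : ℝ) ^ (j + 1) + ((j : ℝ) + 1) * (n : ℝ) ^ j) / (((j : ℝ) + 1) * (n : ℝ) ^ (j + 1)) := by
    field_simp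
    ring
  rw [e, div_le_div_iff₀ hn' (by positivity)]
  have := sum_pow_upper j n
  have h2 : (∑ k ∈ Finset.Icc 1 n, (k : ℝ) ^ j) * (((j : ℝ) + 1) * (n : ℝ) ^ (j + 1))
      = (((j : ℝ) + 1) * ∑ k ∈ Finset.Icc 1 n, (k : ℝ) ^ j) * (n : ℝ) ^ (j + 1) := by ring
  rw [h2]
  exact mul_le_mul_of_nonneg_right this hn'.le

/-- the pointwise polynomial bound -/
theorem Gf_le_poly (n : ℕ) (hn : n = 1000000) (t : ℝ) :
    Gf (1 / 20) n t ≤ ((2047413122236441227523 / 16384000000000000000000 : ℝ) * t ^ 0 + (-63784909444717527 / 819200000000000000000 : ℝ) * t ^ 2 + (2248132424505257373 / 8192000000000000000000 : ℝ) * t ^ 4 + (-256028037307577 / 819200000000000000000 : ℝ) * t ^ 6 + (1969555311649923 / 16384000000000000000000 : ℝ) * t ^ 8 + (154583127 / 655360000000000000 : ℝ) * t ^ 10 + (-7318363 / 655360000000000000 : ℝ) * t ^ 12 + (33 / 52428800000000 : ℝ) * t ^ 14 + (3 / 104857600000000 : ℝ) * t ^ 16) / n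 := by
  have hq := qf_nonneg (1 / 20) t
  have h1 := inv_sqrt_le (qf (1 / 20) t) hq
  have hs : 0 < Real.sqrt (1 + qf (1 / 20) t) := Real.sqrt_pos.2 (by linarith)
  have hn0 : (0 : ℝ) < (n : ℝ) := by rw [hn]; norm_num
  have e1 : Gf (1 / 20) n t = (Rf (1 / 20) t + 4 * (1 / 20) / n) ^ 2 / (2 * n)
      * (1 / Real.sqrt (1 + qf (1 / 20) t)) := by
    unfold Gf
    field_simp
  have h2 : Gf (1 / 20) n t ≤ (Rf (1 / 20) t + 4 * (1 / 20) / n) ^ 2 / (2 * n)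
      * (1 - qf (1 / 20) t / 2 + 3 * qf (1 / 20) t ^ 2 / 8) := by
    rw [e1]
    exact mul_le_mul_of_nonneg_left h1 (by positivity)
  have e2 : (Rf (1 / 20) t + 4 * (1 / 20) / n) ^ 2 / (2 * n)
      * (1 - qf (1 / 20) t / 2 + 3 * qf (1 / 20) t ^ 2 / 8) = ((2047413122236441227523 / 16384000000000000000000 : ℝ) * t ^ 0 + (-63784909444717527 / 819200000000000000000 : ℝ) * t ^ 2 + (2248132424505257373 / 8192000000000000000000 : ℝ) * t ^ 4 + (-256028037307577 / 819200000000000000000 : ℝ) * t ^ 6 + (1969555311649923 / 16384000000000000000000 : ℝ) * t ^ 8 + (154583127 / 655360000000000000 : ℝ) * t ^ 10 + (-7318363 / 655360000000000000 : ℝ) * t ^ 12 + (33 / 52428800000000 : ℝ) * t ^ 14 + (3 / 104857600000000 : ℝ) * t ^ 16) / n := by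
    subst hn
    unfold Rf qf
    push_cast
    ring
  rw [← e2]
  exact h2

/-- (N1) the half sum -/
theorem num_half (n : ℕ) (hn : n = 1000000) :
    ∑ k ∈ Finset.Icc 1 n, Gf (1 / 20) n ((k : ℝ) / n) ≤ (1 / 2 - 1 / 100000) / 4 := by
  have hn0 : 0 < n := by rw [hn]; norm_num
  have hstep : ∑ k ∈ Finset.Icc 1 n, Gf (1 / 20) n ((k : ℝ) / n) ≤
      ∑ k ∈ Finset.Icc 1 n, ((2047413122236441227523 / 16384000000000000000000 : ℝ) * ((k : ℝ) / n) ^ 0 + (-63784909444717527 / 819200000000000000000 : ℝ) * ((k : ℝ) / n) ^ 2 + (2248132424505257373 / 8192000000000000000000 : ℝ) * ((k : ℝ) / n) ^ 4 + (-256028037307577 / 819200000000000000000 : ℝ) * ((k : ℝ) / n) ^ 6 + (1969555311649923 / 16384000000000000000000 : ℝ) * ((k : ℝ) / n) ^ 8 + (154583127 / 655360000000000000 : ℝ) * ((k : ℝ) / n) ^ 10 + (-7318363 / 655360000000000000 : ℝ) * ((k : ℝ) / n) ^ 12 + (33 / 52428800000000 : ℝ) * ((k : ℝ) / n) ^ 14 + (3 /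 104857600000000 : ℝ) * ((k : ℝ) / n) ^ 16) / n :=
    Finset.sum_le_sum (fun k _ => Gf_le_poly n hn _)
  have hcomb : (2047413122236441227523 / 16384000000000000000000 : ℝ) * Sm 0 n + (-63784909444717527 / 819200000000000000000 : ℝ) * Sm 2 n + (2248132424505257373 / 8192000000000000000000 : ℝ) * Sm 4 n + (-256028037307577 / 819200000000000000000 : ℝ) * Sm 6 n + (1969555311649923 / 16384000000000000000000 : ℝ) * Sm 8 n + (154583127 / 655360000000000000 : ℝ) * Sm 10 n + (-7318363 / 655360000000000000 : ℝ) * Sm 12 n + (33 / 52428800000000 : ℝ) * Sm 14 n + (3 / 104857600000000 : ℝ) * Sm 16 n = ∑ k ∈ Finset.Icc 1 n, ((2047413122236441227523 / 16384000000000000000000 : ℝ) * ((k : ℝ) / n) ^ 0 + (-63784909444717527 / 819200000000000000000 : ℝ) * ((k : ℝ) / n) ^ 2 + (2248132424505257373 / 8192000000000000000000 : ℝ) * ((k : ℝ) / n) ^ 4 + (-256028037307577 / 819200000000000000000 : ℝ) * ((k : ℝ) / n) ^ 6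 + (1969555311649923 / 16384000000000000000000 : ℝ) * ((k : ℝ) / n) ^ 8 + (154583127 / 655360000000000000 : ℝ) * ((k : ℝ) / n) ^ 10 + (-7318363 / 655360000000000000 : ℝ) * ((k : ℝ) / n) ^ 12 + (33 / 52428800000000 : ℝ) * ((k : ℝ) / n) ^ 14 + (3 / 104857600000000 : ℝ) * ((k : ℝ) / n) ^ 16) / n := by
    unfold Sm
    simp only [Finset.mul_sum, ← Finset.sum_add_distrib]
    apply Finset.sum_congr rfl
    intro k _
    ring
  have hb0 : (2047413122236441227523 / 16384000000000000000000 : ℝ) * Sm 0 n ≤ (2047413122236441227523 / 16384000000000000000000 : ℝ) * (1 / ((0 : ℕ) + 1 : ℝ) + 1 / n) :=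
    mul_le_mul_of_nonneg_left (Sm_le 0 n hn0) (by norm_num)
  have hb1 : (-63784909444717527 / 819200000000000000000 : ℝ) * Sm 2 n ≤ (-63784909444717527 / 819200000000000000000 : ℝ) * (1 / ((2 : ℕ) + 1 : ℝ)) :=
    mul_le_mul_of_nonpos_left (le_Sm 2 n hn0) (by norm_num)
  have hb2 : (2248132424505257373 / 8192000000000000000000 : ℝ) * Sm 4 n ≤ (2248132424505257373 / 8192000000000000000000 : ℝ) * (1 / ((4 : ℕ) + 1 : ℝ) + 1 / n) :=
    mul_le_mul_of_nonneg_left (Sm_le 4 n hn0) (by norm_num)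
  have hb3 : (-256028037307577 / 819200000000000000000 : ℝ) * Sm 6 n ≤ (-256028037307577 / 819200000000000000000 : ℝ) * (1 / ((6 : ℕ) + 1 : ℝ)) :=
    mul_le_mul_of_nonpos_left (le_Sm 6 n hn0) (by norm_num)
  have hb4 : (1969555311649923 / 16384000000000000000000 : ℝ) * Sm 8 n ≤ (1969555311649923 / 16384000000000000000000 : ℝ) * (1 / ((8 : ℕ) + 1 : ℝ) + 1 / n) :=
    mul_le_mul_of_nonneg_left (Sm_le 8 n hn0) (by norm_num)
  have hb5 : (154583127 / 655360000000000000 : ℝ) * Sm 10 n ≤ (154583127 / 655360000000000000 : ℝ) * (1 / ((10 : ℕ) + 1 : ℝ) + 1 / n) :=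
    mul_le_mul_of_nonneg_left (Sm_le 10 n hn0) (by norm_num)
  have hb6 : (-7318363 / 655360000000000000 : ℝ) * Sm 12 n ≤ (-7318363 / 655360000000000000 : ℝ) * (1 / ((12 : ℕ) + 1 : ℝ)) :=
    mul_le_mul_of_nonpos_left (le_Sm 12 n hn0) (by norm_num)
  have hb7 : (33 / 52428800000000 : ℝ) * Sm 14 n ≤ (33 / 52428800000000 : ℝ) * (1 / ((14 : ℕ) + 1 : ℝ) + 1 / n) :=
    mul_le_mul_of_nonneg_left (Sm_le 14 n hn0) (by norm_num)
  have hb8 : (3 / 104857600000000 : ℝ) * Sm 16 n ≤ (3 / 104857600000000 : ℝ) * (1 / ((16 : ℕ) + 1 : ℝ) + 1 / n) :=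
    mul_le_mul_of_nonneg_left (Sm_le 16 n hn0) (by norm_num)
  have hnr : (1 : ℝ) / n = 1 / 1000000 := by rw [hn]; norm_num
  rw [hnr] at hb0 hb2 hb4 hb5 hb7 hb8
  rw [← hcomb] at hstep
  norm_num at hb0 hb1 hb2 hb3 hb4 hb5 hb6 hb7 hb8
  linarith

theorem sum_Icc_eq_range (F : ℕ → ℝ) (n : ℕ) :
    ∑ k ∈ Finset.Icc 1 n, F k = ∑ j ∈ Finset.range n, F (j + 1) := by
  induction n with
  | zero => simp
  | succ n ih => rw [Finset.sum_Icc_succ_top (by omega), Finset.sum_range_succ, ih]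

/-- tag of the `i`-th piece `[-1 + i/n, -1 + (i+1)/n]`: the endpoint farther from `0` -/
noncomputable def tag (n : ℕ) (i : Fin (2 * n)) : ℝ :=
  if (i : ℕ) < n then -1 + (i : ℝ) / n else -1 + ((i : ℝ) + 1) / n

/-- the full tagged sum is twice the half sum -/
theorem sum_tag (μ : ℝ) (n : ℕ) (hn : 0 < n) :
    ∑ i : Fin (2 * n), Gf μ n (tag n i) = 2 * ∑ k ∈ Finset.Icc 1 n, Gf μ n ((k : ℝ) / n) := by
  have hn' : (n : ℝ) ≠ 0 := by positivity
  have e0 : ∑ i : Fin (2 * n), Gf μ n (tag n i)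
      = ∑ i ∈ Finset.range (2 * n),
          Gf μ n (if i < n then -1 + (i : ℝ) / n else -1 + ((i : ℝ) + 1) / n) :=
    Fin.sum_univ_eq_sum_range
      (fun i : ℕ => Gf μ n (if i < n then -1 + (i : ℝ) / n else -1 + ((i : ℝ) + 1) / n)) (2 * n)
  rw [e0, two_mul n, Finset.sum_range_add, sum_Icc_eq_range, two_mul]
  congr 1
  · rw [← Finset.sum_range_reflect]
    apply Finset.sum_congr rfl
    intro j hj
    have hj' : j < n := Finset.mem_range.1 hj
    have h1 : n - 1 - j < n := by omega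
    rw [if_pos h1, ← Gf_neg]
    congr 1
    have h2 : ((n - 1 - j : ℕ) : ℝ) = (n : ℝ) - 1 - j := by
      rw [Nat.cast_sub (by omega), Nat.cast_sub (by omega)]
      simp
    rw [h2]
    push_cast
    field_simp
    ring
  · apply Finset.sum_congr rfl
    intro j _
    have h1 : ¬ (n + j < n) := by omega
    rw [if_neg h1]
    congr 1
    push_cast
    field_simp
    ring

/-- (N2) the full sum over one family -/
theorem num_full (n : ℕ) (hn : n = 1000000) :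
    ∑ i : Fin (2 * n), Gf (1 / 20) n (tag n i) ≤ (1 / 2 - 1 / 100000) / 2 := by
  rw [sum_tag (1 / 20) n (by rw [hn]; norm_num)]
  have := num_half n hn
  linarith

end Crest.Agent.Lib_helper6_Num
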