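import Mathlib
import Crest.Agent.Lib_helper9_Defs

/-!
PLAN for row 125 (S0166, S0167, S0168, S0169): the interface lemmas, with `sorry`.
Each lemma is to be proved VERBATIM (same name, same statement) in the package file named in its
comment, inside `namespace Crest.Agent.<that file>`.  This file is never imported by a result.
-/

set_option autoImplicit false

namespace Crest.Agent.Lib_helper9_Plan

open Crest.AnalysisR Crest.AnalysisR.TreePotential Crest.Agent.Lib_helper9_Defs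
open MeasureTheory

/-! ### P0 : abstract Banach lemmas  (file `Lib_helper9_AUC`, owner helper9) -/

/-- A sequence with an upper `ℓ²` estimate is weakly null. -/
theorem weaklyNull_of_upper_l2 {X : Type*} [NormedAddCommGroup X] [NormedSpace ℝ X] (y : ℕ → X)
    (K : ℝ)
    (h : ∀ (A : Finset ℕ) (c : ℕ → ℝ), ‖∑ n ∈ A, c n • y n‖ ≤ K * Real.sqrt (∑ n ∈ A, c n ^ 2)) :
    WeaklyNull y := by
  sorry

/-- A weakly null sequence bounded away from zero exists only in infinite dimension. -/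
theorem not_finiteDimensional_of_weaklyNull {X : Type*} [NormedAddCommGroup X] [NormedSpace ℝ X]
    (y : ℕ → X) (c : ℝ) (hc : 0 < c) (hy : WeaklyNull y) (hlow : ∀ n, c ≤ ‖y n‖) :
    ¬ FiniteDimensional ℝ X := by
  sorry

/-- The kernel of a continuous linear map into a finite-dimensional space is `Cof`. -/
theorem cof_ker {X : Type*} [NormedAddCommGroup X] [NormedSpace ℝ X]
    {G : Type*} [NormedAddCommGroup G] [NormedSpace ℝ G] [FiniteDimensional ℝ G]
    (T : X →L[ℝ] G) :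
    IsClosed ((LinearMap.ker T.toLinearMap : Submodule ℝ X) : Set X) ∧
      FiniteDimensional ℝ (X ⧸ (LinearMap.ker T.toLinearMap : Submodule ℝ X)) := by
  sorry

/-- Weakly null sequences are eventually close to any closed finite-codimensional subspace. -/
theorem exists_mem_near_of_weaklyNull {X : Type*} [NormedAddCommGroup X] [NormedSpace ℝ X]
    (S : Submodule ℝ X) (hS : IsClosed (S : Set X)) (hfin : FiniteDimensional ℝ (X ⧸ S))
    (y : ℕ → X) (hy : WeaklyNull y) (ε : ℝ) (hε : 0 < ε) :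
    ∃ n₀ : ℕ, ∀ n, n₀ ≤ n → ∃ z ∈ S, ‖y n - z‖ < ε := by
  sorry

/-- No equivalent AUC norm, from uniformly bounded weakly null trees of every finite height.
`T j` = admissible roots of trees of height `j`. -/
theorem no_AUC_of_trees {X : Type} [i1 : NormedAddCommGroup X] [i2 : NormedSpace ℝ X]
    [i3 : CompleteSpace X] (c C : ℝ) (hc : 0 < c) (T : ℕ → Set X)
    (hne : ∀ j, (T j).Nonempty)
    (hbd : ∀ j, ∀ x ∈ T j, c ≤ ‖x‖ ∧ ‖x‖ ≤ C)
    (hstep : ∀ j, ∀ x ∈ T (j + 1), ∃ y : ℕ → X,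
      (∀ n, x + y n ∈ T j) ∧ (∀ n, c ≤ ‖y n‖) ∧ WeaklyNull y)
    (N : X → ℝ) (hN : (RealBanach.mk X i1 i2 i3).IsEquivNorm N) :
    ¬ (RealBanach.mk X i1 i2 i3).IsAUC N := by
  sorry

/-- No equivalent AUC norm, if the one-sided modulus of the given norm vanishes at some `t > 0`. -/
theorem no_AUC_of_oneSided {X : Type} [i1 : NormedAddCommGroup X] [i2 : NormedSpace ℝ X]
    [i3 : CompleteSpace X] [Nontrivial X] (t : ℝ) (ht : 0 < t)
    (h : ∀ x : X, ‖x‖ = 1 → ∀ S : Submodule ℝ X, IsClosed (S : Set X) →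
      FiniteDimensional ℝ (X ⧸ S) → ∀ η : ℝ, 0 < η → ∃ y ∈ S, ‖y‖ = 1 ∧ ‖x + t • y‖ ≤ 1 + η)
    (N : X → ℝ) (hN : (RealBanach.mk X i1 i2 i3).IsEquivNorm N) :
    ¬ (RealBanach.mk X i1 i2 i3).IsAUC N := by
  sorry

/-! ### P2 : combinatorics of tests on the tree  (file `Lib_helper9_TreeTests`) -/

theorem isTest_single (m : PotentialModel) (s : List ℕ) (hs : s ≠ []) :
    IsTest m (fun u => if u = s then (1 : ℝ) else 0) := by
  sorry

theorem isTest_neg (m : PotentialModel) (f : List ℕ → ℝ) (hf : IsTest m f) :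
    IsTest m (fun u => - f u) := by
  sorry

theorem isTest_restrict (m : PotentialModel) (S : Finset (List ℕ)) (hS : AncClosed S)
    (f : List ℕ → ℝ) (hf : IsTest m f) : IsTest m (fun u => if u ∈ S then f u else 0) := by
  sorry

/-- The key construction (see the board, topic row125, for the proof). -/
theorem exists_split (m : PotentialModel) (S : Finset (List ℕ)) (hS : AncClosed S)
    (hroot : [] ∈ S) (f g : List ℕ → ℝ) (hf : IsTest m f) (hg : IsTest m g) (α β : ℝ)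
    (hα : 0 ≤ α) (hβ : 0 ≤ β) (hαβ : α ^ 2 + β ^ 2 ≤ 1) (hβ2 : β ≤ 1 / 2) :
    ∃ g1 g2 : List ℕ → ℝ,
      IsTest m g1 ∧ IsTest m g2 ∧
      IsTest m (fun u => if u ∈ S then 0 else g u / 2) ∧
      (∀ u, g1 u + g2 u = if u ∈ S then 0 else g u / 2) ∧
      (∀ u ∈ S, g1 u = 0) ∧ (∀ u ∈ S, g2 u = 0) ∧
      IsTest m (fun u => α * (if u ∈ S then f u else 0) + 2 * β * g1 u) ∧
      IsTest m (fun u => α * (if u ∈ S then f u else 0) - 2 * β * g2 u) := by
  sorry

/-! ### P3 : the model spaces  (file `Lib_helper9_Model`) -/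

/-- Strong midpoint lemma, in the ambient sup-norm space. -/
theorem strong_midpoint (m : PotentialModel) (x : Amb m) (hx : x ∈ modelSpace m) (η : ℝ)
    (hη : 0 < η) :
    ∃ S : Submodule ℝ (Amb m), IsClosed (S : Set (Amb m)) ∧ FiniteDimensional ℝ (Amb m ⧸ S) ∧
      ∀ y ∈ modelSpace m, y ∈ S → ∀ α β : ℝ, 0 ≤ α → 0 ≤ β → α ^ 2 + β ^ 2 ≤ 1 → β ≤ 1 / 2 →
        2 * α * ‖x‖ + β * ‖y‖ - η ≤ ‖x + y‖ + ‖x - y‖ := by
  sorry

/-- Path sums are bounded by one: `∑_{u suffix of s} coordVector u`. -/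
theorem norm_pathSum_le (m : PotentialModel) (s : List ℕ) :
    ‖∑ u ∈ s.tails.toFinset, coordVector m u‖ ≤ 1 := by
  sorry

theorem norm_pathSum_ge (m : PotentialModel) (s : List ℕ) (hs : s ≠ []) :
    1 ≤ ‖∑ u ∈ s.tails.toFinset, coordVector m u‖ := by
  sorry

theorem norm_coordVector_ge (m : PotentialModel) (s : List ℕ) (hs : s ≠ []) :
    1 ≤ ‖coordVector m s‖ := by
  sorry

/-- Upper `ℓ²` estimate for the children of a vertex. -/
theorem norm_children_le (m : PotentialModel) (r : List ℕ) (A : Finset ℕ) (c : ℕ → ℝ) :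
    ‖∑ n ∈ A, c n • coordVector m (n :: r)‖ ≤ Real.sqrt (∑ n ∈ A, c n ^ 2) := by
  sorry

/-! ### P4 : lower bound in subspaces of `L¹` with measure-compact ball (file `Lib_helper9_L1`) -/

theorem l1_midpoint_lower {Ω : Type} [MeasurableSpace Ω] (P : Measure Ω) [IsProbabilityMeasure P]
    (E : Submodule ℝ (Lp ℝ 1 P)) (htb : L1Subspace.UnitBallTotallyBoundedInMeasure P E)
    (x : E) (hx : ‖x‖ = 1) (η : ℝ) (hη : 0 < η) (t : ℝ) (ht : 0 < t) :
    ∃ S : Submodule ℝ E, IsClosed (S : Set E) ∧ FiniteDimensional ℝ (E ⧸ S) ∧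
      ∀ y ∈ S, ‖y‖ = 1 → 2 + t - η ≤ ‖x + t • y‖ + ‖x - t • y‖ := by
  sorry

/-! ### P5 : Daugavet property and finite-codimensional subspaces (file `Lib_helper9_Daugavet`) -/

theorem daugavet_cof {V : Type*} [NormedAddCommGroup V] [NormedSpace ℝ V]
    (hD : L1Subspace.HasDaugavetProperty V) (x : V) (hx : ‖x‖ = 1) (S : Submodule ℝ V)
    (hS : IsClosed (S : Set V)) (hfin : FiniteDimensional ℝ (V ⧸ S)) (η : ℝ) (hη : 0 < η) :
    ∃ y ∈ S, ‖y‖ = 1 ∧ ‖x + (2 : ℝ) • y‖ ≤ 1 + η := by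
  sorry

/-! ### P6 : the reflexive example `E` (file `Lib_helper9_EBasic`) -/

theorem E_separable : TopologicalSpace.SeparableSpace EX := by
  sorry

theorem E_not_finiteDimensional : ¬ FiniteDimensional ℝ EX := by
  sorry

theorem E_reflexive : Function.Surjective (NormedSpace.inclusionInDoubleDual ℝ EX) := by
  sorry

/-! ### P7 : midpoint inequality in `E` (file `Lib_helper9_EMid`) -/

theorem E_midpoint (x : EX) (η : ℝ) (hη : 0 < η) :
    ∃ S : Submodule ℝ EX, IsClosed (S : Set EX) ∧ FiniteDimensional ℝ (EX ⧸ S) ∧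
      ∀ y ∈ S, 2 * Real.sqrt (‖x‖ ^ 2 + ‖y‖ ^ 2 / 4) - η ≤ ‖x + y‖ + ‖x - y‖ := by
  sorry

/-! ### P8 : no AUC renorming of `E` (file `Lib_helper9_ETree`) -/

theorem E_no_AUC (N : EX → ℝ) (hN : E.IsEquivNorm N) : ¬ E.IsAUC N := by
  sorry

/-! ### P9 : diamond graphs (file `Lib_helper9_Diamond`) -/

theorem diamond_bound {X : Type} [NormedAddCommGroup X] [NormedSpace ℝ X]
    (hX : ∀ (x : X) (η : ℝ), 0 < η → ∃ S : Submodule ℝ X, IsClosed (S : Set X) ∧
      FiniteDimensional ℝ (X ⧸ S) ∧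
      ∀ z ∈ S, Real.sqrt (‖x‖ ^ 2 + ‖z‖ ^ 2 / 4) - η ≤ max ‖x + z‖ ‖x - z‖)
    (k : ℕ) (f : DiamondVertex k → X) (D s : ℝ) (hs : 0 < s)
    (hf : ∀ u v : DiamondVertex k, s * (diamondDist k u v : ℝ) ≤ ‖f u - f v‖ ∧
      ‖f u - f v‖ ≤ D * s * (diamondDist k u v : ℝ)) :
    1 + (k : ℝ) / 4 ≤ D ^ 2 := by
  sorry

end Crest.Agent.Lib_helper9_Plan
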